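import Vale.Agent.P291Z.T3

set_option linter.all false

/-!
# Classes in cohomology with compact supports, the standard linear maps between these groups,
the exact sequence of an open subset and its closed complement
-/

namespace Vale.Agent.P291Z

open Topology Set Filter TopologicalSpace

variable {X Y Z U : Type} [TopologicalSpace X] [TopologicalSpace Y] [TopologicalSpace Z]
  [TopologicalSpace U]

open Classical in
/-- the class of a compactly supported cocycle (zero for other cochains) -/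
noncomputable def cls (a : Coch X) : Hc X :=
  if h : a ∈ Zc X then Submodule.Quotient.mk ⟨a, h⟩ else 0

theorem cls_of_mem {a : Coch X} (h : a ∈ Zc X) : cls a = Submodule.Quotient.mk ⟨a, h⟩ := dif_pos h

theorem cls_of_notMem {a : Coch X} (h : a ∉ Zc X) : cls a = 0 := dif_neg h

theorem ev_eq (β : BM X) (a : Coch X) : ev β a = β (cls a) := by
  unfold ev cls
  split_ifs
  · rfl
  · rw [map_zero]

theorem cls_surj (c : Hc X) : ∃ a ∈ Zc X, cls a = c := by
  obtain ⟨⟨a, ha⟩, rfl⟩ := Submodule.Quotient.mk_surjective _ c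
  exact ⟨a, ha, cls_of_mem ha⟩

theorem cls_zero : cls (0 : Coch X) = 0 := by rw [cls_of_mem (Zc X).zero_mem]; rfl

theorem cls_add {a b : Coch X} (ha : a ∈ Zc X) (hb : b ∈ Zc X) : cls (a + b) = cls a + cls b := by
  rw [cls_of_mem ha, cls_of_mem hb, cls_of_mem ((Zc X).add_mem ha hb)]; rfl

theorem cls_sub {a b : Coch X} (ha : a ∈ Zc X) (hb : b ∈ Zc X) : cls (a - b) = cls a - cls b := by
  rw [cls_of_mem ha, cls_of_mem hb, cls_of_mem ((Zc X).sub_mem ha hb)]; rfl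

theorem cls_smul (c : ℂ) {a : Coch X} (ha : a ∈ Zc X) : cls (c • a) = c • cls a := by
  rw [cls_of_mem ha, cls_of_mem ((Zc X).smul_mem c ha)]; rfl

theorem cls_neg {a : Coch X} (ha : a ∈ Zc X) : cls (-a) = -cls a := by
  rw [cls_of_mem ha, cls_of_mem ((Zc X).neg_mem ha)]; rfl

theorem cls_sum {ι : Type*} (s : Finset ι) {a : ι → Coch X} (ha : ∀ i ∈ s, a i ∈ Zc X) :
    cls (∑ i ∈ s, a i) = ∑ i ∈ s, cls (a i) := by
  classical
  induction s using Finset.induction_on with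
  | empty => exact cls_zero
  | insert i s hi ih =>
    rw [Finset.sum_insert hi, Finset.sum_insert hi, cls_add (ha i (Finset.mem_insert_self i s))
      ((Zc X).sum_mem fun j hj => ha j (Finset.mem_insert_of_mem hj)),
      ih fun j hj => ha j (Finset.mem_insert_of_mem hj)]

theorem cls_eq_zero {a : Coch X} (ha : a ∈ Zc X) : cls a = 0 ↔ a ∈ Bc X := by
  rw [cls_of_mem ha, Submodule.Quotient.mk_eq_zero]; rfl

theorem cls_of_mem_Bc {a : Coch X} (ha : a ∈ Bc X) : cls a = 0 := (cls_eq_zero (Bc_le_Zc ha)).2 ha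

theorem cls_eq_iff {a b : Coch X} (ha : a ∈ Zc X) (hb : b ∈ Zc X) :
    cls a = cls b ↔ a - b ∈ Bc X := by
  rw [← sub_eq_zero, ← cls_sub ha hb, cls_eq_zero ((Zc X).sub_mem ha hb)]

theorem Zc.of_sub_Bc {a b : Coch X} (hb : b ∈ Zc X) (h : a - b ∈ Bc X) : a ∈ Zc X := by
  have := (Zc X).add_mem (Bc_le_Zc h) hb
  rwa [sub_add_cancel] at this

theorem cls_eq_of_Bc {a b : Coch X} (h : a - b ∈ Bc X) : cls a = cls b := by
  by_cases hb : b ∈ Zc X
  · exact (cls_eq_iff (Zc.of_sub_Bc hb h) hb).2 h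
  · rw [cls_of_notMem hb, cls_of_notMem fun ha => hb (Zc.of_sub_Bc ha (by
      rw [← neg_sub]; exact (Bc X).neg_mem h))]

theorem cls_eq_of_null {a b : Coch X} (h : ∀ x, a - b ∈ Van x) : cls a = cls b :=
  cls_eq_of_Bc (mem_Bc_of_null h)

theorem BM.ext_ev {β β' : BM X} (h : ∀ a ∈ Zc X, ev β a = ev β' a) : β = β' :=
  LinearMap.ext fun c => by
    obtain ⟨a, ha, rfl⟩ := cls_surj c
    rw [← ev_eq, ← ev_eq, h a ha]

theorem Hc.hom_ext {M : Type*} [AddCommGroup M] [Module ℂ M] {f g : Hc X →ₗ[ℂ] M}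
    (h : ∀ a ∈ Zc X, f (cls a) = g (cls a)) : f = g :=
  LinearMap.ext fun c => by
    obtain ⟨a, ha, rfl⟩ := cls_surj c
    exact h a ha

/-- the class map on a submodule of a space of parameters -/
noncomputable def clsL {V : Type*} [AddCommGroup V] [Module ℂ V] (W : Submodule ℂ V)
    (α : V →ₗ[ℂ] Coch X) (hα : ∀ w ∈ W, α w ∈ Zc X) : W →ₗ[ℂ] Hc X where
  toFun w := cls (α w)
  map_add' w w' := by
    rw [Submodule.coe_add, map_add, cls_add (hα _ w.2) (hα _ w'.2)]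
  map_smul' c w := by
    rw [Submodule.coe_smul, map_smul, cls_smul c (hα _ w.2)]; rfl

/-- linear maps on `Hc X` defined by a correspondence -/
theorem Hc.exists_lift {V M : Type*} [AddCommGroup V] [Module ℂ V] [AddCommGroup M] [Module ℂ M]
    (W : Submodule ℂ V) (α : V →ₗ[ℂ] Coch X) (β : W →ₗ[ℂ] M) (hα : ∀ w ∈ W, α w ∈ Zc X)
    (hs : ∀ a ∈ Zc X, ∃ w ∈ W, a - α w ∈ Bc X) (hw : ∀ w : W, α w ∈ Bc X → β w = 0) :
    ∃ f : Hc X →ₗ[ℂ] M, ∀ w : W, f (cls (α w)) = β w := by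
  have hs' : Function.Surjective (clsL W α hα) := fun c => by
    obtain ⟨a, ha, rfl⟩ := cls_surj c
    obtain ⟨w, hw, h⟩ := hs a ha
    exact ⟨⟨w, hw⟩, (cls_eq_of_Bc h).symm⟩
  have hk : LinearMap.ker (clsL W α hα) ≤ LinearMap.ker β := fun w h => hw w
    ((cls_eq_zero (hα _ w.2)).1 h)
  refine ⟨(LinearMap.ker (clsL W α hα)).liftQ β hk ∘ₗ
      ((clsL W α hα).quotKerEquivOfSurjective hs').symm.toLinearMap, fun w => ?_⟩
  have : ((clsL W α hα).quotKerEquivOfSurjective hs').symm (cls (α w)) =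
      Submodule.Quotient.mk w := by
    rw [LinearEquiv.symm_apply_eq]
    rfl
  rw [LinearMap.comp_apply, LinearEquiv.coe_toLinearMap, this, Submodule.liftQ_apply]

theorem Hc.exists_map {V : Type*} [AddCommGroup V] [Module ℂ V]
    (W : Submodule ℂ V) (α : V →ₗ[ℂ] Coch X) (β : V →ₗ[ℂ] Coch Y) (hα : ∀ w ∈ W, α w ∈ Zc X)
    (hβ : ∀ w ∈ W, β w ∈ Zc Y) (hs : ∀ a ∈ Zc X, ∃ w ∈ W, a - α w ∈ Bc X)
    (hw : ∀ w ∈ W, α w ∈ Bc X → β w ∈ Bc Y) :
    ∃ f : Hc X →ₗ[ℂ] Hc Y, ∀ w ∈ W, f (cls (α w)) = cls (β w) := by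
  obtain ⟨f, hf⟩ := Hc.exists_lift W α (clsL W β hβ) hα hs fun w h => cls_of_mem_Bc (hw w w.2 h)
  exact ⟨f, fun w hw => hf ⟨w, hw⟩⟩

/-- the map induced by a linear map of cochains which preserves cocycles and coboundaries -/
noncomputable def Hc.map (φ : Coch X →ₗ[ℂ] Coch Y) (hZ : ∀ a ∈ Zc X, φ a ∈ Zc Y)
    (hB : ∀ a ∈ Bc X, φ a ∈ Bc Y) : Hc X →ₗ[ℂ] Hc Y :=
  Submodule.mapQ _ _ (φ.restrict hZ) fun a ha => hB a ha

theorem Hc.map_cls (φ : Coch X →ₗ[ℂ] Coch Y) (hZ : ∀ a ∈ Zc X, φ a ∈ Zc Y)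
    (hB : ∀ a ∈ Bc X, φ a ∈ Bc Y) {a : Coch X} (ha : a ∈ Zc X) :
    Hc.map φ hZ hB (cls a) = cls (φ a) := by
  rw [cls_of_mem ha, cls_of_mem (hZ a ha)]; rfl

/-! ### degrees -/

/-- the classes of degree `k` -/
def Hc.deg (X : Type) [TopologicalSpace X] (k : ℤ) : Submodule ℂ (Hc X) where
  carrier := {c | ∃ a ∈ Zc X, IsDeg k a ∧ cls a = c}
  zero_mem' := ⟨0, (Zc X).zero_mem, isDeg_zero k, cls_zero⟩
  add_mem' := by
    rintro _ _ ⟨a, ha, h, rfl⟩ ⟨b, hb, h', rfl⟩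
    exact ⟨a + b, (Zc X).add_mem ha hb, h.add h', cls_add ha hb⟩
  smul_mem' := by
    rintro c _ ⟨a, ha, h, rfl⟩
    exact ⟨c • a, (Zc X).smul_mem c ha, h.smul c, cls_smul c ha⟩

theorem cls_mem_deg {k : ℤ} {a : Coch X} (h : IsDeg k a) : cls a ∈ Hc.deg X k := by
  by_cases ha : a ∈ Zc X
  · exact ⟨a, ha, h, rfl⟩
  · rw [cls_of_notMem ha]; exact Submodule.zero_mem _

/-- the component of degree `k` -/
noncomputable def Hc.comp (k : ℤ) : Hc X →ₗ[ℂ] Hc X :=
  Hc.map (P291Z.comp k) (fun _ h => Zc.comp h k) fun _ h => Bc.comp h k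

theorem Hc.comp_cls (k : ℤ) {a : Coch X} (ha : a ∈ Zc X) :
    Hc.comp k (cls a) = cls (P291Z.comp k a) := Hc.map_cls _ _ _ ha

theorem Hc.comp_mem (k : ℤ) (c : Hc X) : Hc.comp k c ∈ Hc.deg X k := by
  obtain ⟨a, ha, rfl⟩ := cls_surj c
  rw [Hc.comp_cls k ha]
  exact cls_mem_deg (isDeg_comp k a)

theorem Hc.comp_of_mem {k : ℤ} {c : Hc X} (h : c ∈ Hc.deg X k) : Hc.comp k c = c := by
  obtain ⟨a, ha, h, rfl⟩ := h
  rw [Hc.comp_cls k ha, h.comp_eq]

theorem Hc.comp_of_ne {k j : ℤ} {c : Hc X} (h : c ∈ Hc.deg X k) (hj : j ≠ k) :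
    Hc.comp j c = 0 := by
  obtain ⟨a, ha, h, rfl⟩ := h
  rw [Hc.comp_cls j ha, h.comp_ne hj, cls_zero]

theorem Hc.mem_deg_iff {k : ℤ} {c : Hc X} : c ∈ Hc.deg X k ↔ Hc.comp k c = c :=
  ⟨Hc.comp_of_mem, fun h => h ▸ Hc.comp_mem k c⟩

theorem Hc.eq_zero_of_neg {k : ℤ} {c : Hc X} (h : c ∈ Hc.deg X k) (hk : k < 0) : c = 0 := by
  obtain ⟨a, -, h, rfl⟩ := h
  rw [h.eq_zero hk, cls_zero]

theorem Hc.exists_sum_comp (c : Hc X) :
    ∃ N : ℕ, ∀ M, N ≤ M → ∑ k ∈ Finset.range M, Hc.comp (k : ℤ) c = c := by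
  obtain ⟨a, ha, rfl⟩ := cls_surj c
  obtain ⟨N, hN⟩ := P291Z.exists_sum_comp a
  refine ⟨N, fun M hM => ?_⟩
  conv_rhs => rw [← hN M hM, cls_sum _ fun k _ => Zc.comp ha _]
  exact Finset.sum_congr rfl fun k _ => Hc.comp_cls _ ha

theorem Hc.induction_deg {P : Hc X → Prop} (c : Hc X) (h0 : P 0)
    (hadd : ∀ b c, P b → P c → P (b + c)) (h : ∀ k : ℤ, P (Hc.comp k c)) : P c := by
  obtain ⟨N, hN⟩ := Hc.exists_sum_comp c
  rw [← hN N le_rfl]
  exact Finset.sum_induction _ P hadd h0 fun k _ => h k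

theorem Hc.ext_comp {c c' : Hc X} (h : ∀ k, Hc.comp k c = Hc.comp k c') : c = c' := by
  rw [← sub_eq_zero]
  exact Hc.induction_deg (P := fun b => b = 0) _ rfl (fun b c hb hc => by rw [hb, hc, add_zero])
    fun k => by rw [map_sub, h k, sub_self]

/-- linear maps which shift the degree commute with taking components -/
theorem Hc.comp_map {f : Hc X →ₗ[ℂ] Hc Y} {r : ℤ}
    (hf : ∀ k, ∀ c ∈ Hc.deg X k, f c ∈ Hc.deg Y (k + r)) (k : ℤ) (c : Hc X) :
    Hc.comp (k + r) (f c) = f (Hc.comp k c) := by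
  refine Hc.induction_deg (P := fun c => Hc.comp (k + r) (f c) = f (Hc.comp k c)) c (by simp)
    (fun b c hb hc => by simp only [map_add, hb, hc]) fun j => ?_
  by_cases h : j = k
  · subst h
    rw [Hc.comp_of_mem (hf j _ (Hc.comp_mem j c)), Hc.comp_of_mem (Hc.comp_mem j c)]
  · rw [Hc.comp_of_ne (hf j _ (Hc.comp_mem j c)) (by omega),
      Hc.comp_of_ne (Hc.comp_mem j c) (Ne.symm h), map_zero]

theorem BM.isDeg_iff {k : ℤ} {β : BM X} :
    BM.IsDeg k β ↔ ∀ j, j ≠ k → ∀ c ∈ Hc.deg X j, β c = 0 :=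
  ⟨fun h j hj _ ⟨a, _, ha, e⟩ => by rw [← e, ← ev_eq]; exact h j a hj ha,
    fun h j a hj ha => by rw [ev_eq]; exact h j hj _ (cls_mem_deg ha)⟩

/-! ### pull-back along proper maps -/

/-- continuous, and preimages of compact sets are compact -/
structure IsPr (f : X → Y) : Prop where
  cont : Continuous f
  pre : ∀ K, IsCompact K → IsCompact (f ⁻¹' K)

theorem IsPr.of_isProperMap {f : X → Y} (h : IsProperMap f) : IsPr f :=
  ⟨h.continuous, fun _ hK => h.isCompact_preimage hK⟩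

theorem IsPr.of_isClosedEmbedding {f : X → Y} (h : IsClosedEmbedding f) : IsPr f :=
  ⟨h.continuous, fun _ hK => h.isCompact_preimage hK⟩

theorem IsPr.of_homeomorph (f : X ≃ₜ Y) : IsPr f := IsPr.of_isClosedEmbedding f.isClosedEmbedding

theorem IsPr.id : IsPr (id : X → X) := ⟨continuous_id, fun _ h => h⟩

theorem IsPr.comp {f : X → Y} {g : Y → Z} (hg : IsPr g) (hf : IsPr f) : IsPr (g ∘ f) :=
  ⟨hg.cont.comp hf.cont, fun K hK => hf.pre _ (hg.pre K hK)⟩

theorem IsPr.isCompact_pull {f : X → Y} (h : IsPr f) {a : Coch Y} (ha : IsCompact (supp a)) :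
    IsCompact (supp (pull f a)) := isCompact_supp_of_subset (h.pre _ ha) (supp_pull h.cont a)

theorem IsPr.pull_Zc {f : X → Y} (h : IsPr f) {a : Coch Y} (ha : a ∈ Zc Y) : pull f a ∈ Zc X :=
  ⟨h.isCompact_pull ha.1, by rw [δ_pull]; exact supp_pull_eq_empty h.cont ha.2⟩

theorem IsPr.pull_Bc {f : X → Y} (h : IsPr f) {a : Coch Y} (ha : a ∈ Bc Y) : pull f a ∈ Bc X := by
  obtain ⟨c, hc, e⟩ := ha
  exact ⟨pull f c, h.isCompact_pull hc, by
    rw [δ_pull, ← map_sub]; exact supp_pull_eq_empty h.cont e⟩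

/-- pull-back along a proper map -/
noncomputable def Hc.pull {f : X → Y} (h : IsPr f) : Hc Y →ₗ[ℂ] Hc X :=
  Hc.map (P291Z.pull f).toLinearMap (fun _ => h.pull_Zc) fun _ => h.pull_Bc

theorem Hc.pull_cls {f : X → Y} (h : IsPr f) {a : Coch Y} (ha : a ∈ Zc Y) :
    Hc.pull h (cls a) = cls (P291Z.pull f a) := Hc.map_cls _ _ _ ha

theorem Hc.pull_deg {f : X → Y} (h : IsPr f) {k : ℤ} {c : Hc Y} (hc : c ∈ Hc.deg Y k) :
    Hc.pull h c ∈ Hc.deg X k := by
  obtain ⟨a, ha, hk, rfl⟩ := hc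
  rw [Hc.pull_cls h ha]
  exact cls_mem_deg (hk.pull f)

theorem Hc.pull_pull {f : X → Y} {g : Y → Z} (hg : IsPr g) (hf : IsPr f) (c : Hc Z) :
    Hc.pull hf (Hc.pull hg c) = Hc.pull (hg.comp hf) c := by
  obtain ⟨a, ha, rfl⟩ := cls_surj c
  rw [Hc.pull_cls hg ha, Hc.pull_cls hf (hg.pull_Zc ha), Hc.pull_cls _ ha, P291Z.pull_pull]

theorem Hc.pull_id {f : X → X} (hf : IsPr f) (h : ∀ x, f x = x) (c : Hc X) :
    Hc.pull hf c = c := by
  obtain ⟨a, ha, rfl⟩ := cls_surj c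
  rw [Hc.pull_cls _ ha, show f = id from funext h, P291Z.pull_id]

theorem Hc.pull_congr {f g : X → Y} (hf : IsPr f) (hg : IsPr g) (h : ∀ x, f x = g x) :
    Hc.pull hf = Hc.pull hg := by
  obtain rfl : f = g := funext h
  rfl

/-- invariance under homeomorphisms -/
noncomputable def Hc.equiv (e : X ≃ₜ Y) : Hc Y ≃ₗ[ℂ] Hc X :=
  LinearEquiv.ofLinear (Hc.pull (IsPr.of_homeomorph e)) (Hc.pull (IsPr.of_homeomorph e.symm))
    (LinearMap.ext fun c => by
      rw [LinearMap.comp_apply, Hc.pull_pull]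
      exact Hc.pull_id _ e.symm_apply_apply c)
    (LinearMap.ext fun c => by
      rw [LinearMap.comp_apply, Hc.pull_pull]
      exact Hc.pull_id _ e.apply_symm_apply c)

theorem Hc.equiv_apply (e : X ≃ₜ Y) (c : Hc Y) :
    Hc.equiv e c = Hc.pull (IsPr.of_homeomorph e) c := rfl

theorem push_iff {f : X → Y} (h : IsPr f) {β : BM X} {β' : BM Y} :
    Push f β β' ↔ β' = (Hc.pull h).dualMap β :=
  ⟨fun H => BM.ext_ev fun a ha => by
    rw [H a ha, ev_eq, ev_eq, LinearMap.dualMap_apply, Hc.pull_cls h ha], fun H a ha => by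
    rw [H, ev_eq, ev_eq, LinearMap.dualMap_apply, Hc.pull_cls h ha]⟩

/-! ### pull-back followed by the product with a cocycle which is proper over the base -/

section pm

variable {p : X → Y} (hp : Continuous p) {t : Coch X} (ht : supp (δ t) = ∅)
  (htp : (Fam.prop p).mem (supp t))
include hp htp

theorem isCompact_pull_mul {a : Coch Y} (ha : IsCompact (supp a)) :
    IsCompact (supp (pull p a * t)) :=
  isCompact_supp_of_subset (htp _ ha) fun x hx =>
    ⟨(supp_mul _ _ hx).2, supp_pull hp a (supp_mul _ _ hx).1⟩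

include ht

theorem pull_mul_Zc {a : Coch Y} (ha : a ∈ Zc Y) : pull p a * t ∈ Zc X :=
  ⟨isCompact_pull_mul hp htp ha.1,
    cocycle_mul (by rw [δ_pull]; exact supp_pull_eq_empty hp ha.2) ht⟩

theorem pull_mul_Bc {a : Coch Y} (ha : a ∈ Bc Y) : pull p a * t ∈ Bc X := by
  obtain ⟨c, hc, e⟩ := ha
  refine ⟨pull p c * t, isCompact_pull_mul hp htp hc, ?_⟩
  have := cobound_mul_right (a := pull p a) (b := 0) (c := pull p c) (by
    rw [sub_zero, δ_pull, ← map_sub]; exact supp_pull_eq_empty hp e) ht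
  rwa [zero_mul, sub_zero] at this

/-- `a ↦ p^* a * t` -/
noncomputable def Hc.pullMul : Hc Y →ₗ[ℂ] Hc X :=
  Hc.map (LinearMap.mulRight ℂ t ∘ₗ (P291Z.pull p).toLinearMap) (fun _ => pull_mul_Zc hp ht htp)
    fun _ => pull_mul_Bc hp ht htp

theorem Hc.pullMul_cls {a : Coch Y} (ha : a ∈ Zc Y) :
    Hc.pullMul hp ht htp (cls a) = cls (P291Z.pull p a * t) := Hc.map_cls _ _ _ ha

theorem Hc.pullMul_deg {d : ℤ} (hd : IsDeg d t) {k : ℤ} {c : Hc Y} (hc : c ∈ Hc.deg Y k) :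
    Hc.pullMul hp ht htp c ∈ Hc.deg X (k + d) := by
  obtain ⟨a, ha, hk, rfl⟩ := hc
  rw [Hc.pullMul_cls hp ht htp ha]
  exact cls_mem_deg ((hk.pull p).mul hd)

end pm

/-! ### products with cocycles -/

theorem mul_Zc {a t : Coch X} (ha : a ∈ Zc X) (ht : supp (δ t) = ∅) : a * t ∈ Zc X :=
  ⟨isCompact_supp_of_subset ha.1 ((supp_mul _ _).trans inter_subset_left), cocycle_mul ha.2 ht⟩

theorem mul_Zc' {a t : Coch X} (ht : supp (δ t) = ∅) (ha : a ∈ Zc X) : t * a ∈ Zc X :=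
  ⟨isCompact_supp_of_subset ha.1 ((supp_mul _ _).trans inter_subset_right), cocycle_mul ht ha.2⟩

theorem mul_Bc {a t : Coch X} (ha : a ∈ Bc X) (ht : supp (δ t) = ∅) : a * t ∈ Bc X := by
  obtain ⟨c, hc, e⟩ := ha
  refine ⟨c * t, isCompact_supp_of_subset hc ((supp_mul _ _).trans inter_subset_left), ?_⟩
  have := cobound_mul_right (a := a) (b := 0) (c := c) (by rwa [sub_zero]) ht
  rwa [zero_mul, sub_zero] at this

theorem mul_Bc' {a t : Coch X} (ht : supp (δ t) = ∅) (ha : a ∈ Bc X) : t * a ∈ Bc X := by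
  obtain ⟨c, hc, e⟩ := ha
  refine ⟨par t * c, isCompact_supp_of_subset hc ((supp_mul _ _).trans inter_subset_right), ?_⟩
  have := cobound_mul_left (a := a) (b := 0) (c := c) (by rwa [sub_zero]) ht
  rwa [mul_zero, sub_zero] at this

/-- the product of a compactly supported cocycle with a coboundary -/
theorem Zc.mul_cobound {a t c : Coch X} (ha : a ∈ Zc X) (ht : ∀ x ∈ supp a, t - δ c ∈ Van x) :
    a * t ∈ Bc X := by
  refine ⟨par a * c, isCompact_supp_of_subset ha.1 ((supp_mul _ _).trans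
    (inter_subset_left.trans (supp_par a))), supp_eq_empty.2 fun x => ?_⟩
  have e : a * t - δ (par a * c) = a * (t - δ c) + par (δ a) * c := by
    rw [δ_mul, par_par, δ_par]; noncomm_ring
  rw [e]
  refine (Van x).add_mem ?_ (Van.mul_right (Van.par (supp_eq_empty.1 ha.2 x)) c)
  by_cases hx : x ∈ supp a
  · exact Van.mul_left (ht x hx) a
  · exact Van.mul_right hx _

theorem Zc.cobound_mul {a t c : Coch X} (ha : a ∈ Zc X) (ht : ∀ x ∈ supp a, t - δ c ∈ Van x) :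
    t * a ∈ Bc X := by
  refine ⟨c * a, isCompact_supp_of_subset ha.1 ((supp_mul _ _).trans inter_subset_right),
    supp_eq_empty.2 fun x => ?_⟩
  have e : t * a - δ (c * a) = (t - δ c) * a - par c * δ a := by
    rw [δ_mul]; noncomm_ring
  rw [e]
  refine (Van x).sub_mem ?_ (Van.mul_left (supp_eq_empty.1 ha.2 x) _)
  by_cases hx : x ∈ supp a
  · exact Van.mul_right (ht x hx) a
  · exact Van.mul_left hx _

/-- right multiplication by a cocycle -/
noncomputable def Hc.mulR {t : Coch X} (ht : supp (δ t) = ∅) : Hc X →ₗ[ℂ] Hc X :=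
  Hc.map (LinearMap.mulRight ℂ t) (fun _ h => mul_Zc h ht) fun _ h => mul_Bc h ht

theorem Hc.mulR_cls {t : Coch X} (ht : supp (δ t) = ∅) {a : Coch X} (ha : a ∈ Zc X) :
    Hc.mulR ht (cls a) = cls (a * t) := Hc.map_cls _ _ _ ha

/-- graded commutativity for a compactly supported cocycle and a cocycle -/
theorem cls_comm {p q : ℤ} {a t : Coch X} (ha : a ∈ Zc X) (hp : IsDeg p a) (ht : supp (δ t) = ∅)
    (hq : IsDeg q t) : cls (a * t) = ((-1 : ℂ) ^ (p * q)) • cls (t * a) := by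
  obtain ⟨c, -, h1, h2⟩ := exists_comm hp hq
  rw [← cls_smul _ (mul_Zc' ht ha)]
  refine cls_eq_of_Bc ⟨c, isCompact_supp_of_subset ha.1 (h1.trans inter_subset_left), ?_⟩
  rwa [ha.2, ht, empty_inter, inter_empty, union_empty, subset_empty_iff] at h2

/-! ### extension by zero -/

section push

variable [T2Space X] {j : U → X} (hj : IsOpenEmbedding j)
include hj

omit [T2Space X] in
theorem isCompact_pull_open {b : Coch X} (hb : IsCompact (supp b)) (hs : supp b ⊆ range j) :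
    IsCompact (supp (pull j b)) :=
  isCompact_supp_of_subset (hj.isInducing.isCompact_preimage' hb hs) (supp_pull hj.continuous b)

omit [T2Space X] in
theorem pull_open_Zc {b : Coch X} (hb : b ∈ Zc X) (hs : supp b ⊆ range j) : pull j b ∈ Zc U :=
  ⟨isCompact_pull_open hj hb.1 hs, by rw [δ_pull]; exact supp_pull_eq_empty hj.continuous hb.2⟩

variable [LocallyCompactSpace X]

theorem exists_ext_open {k : ℤ} {a : Coch U} (ha : a ∈ Zc U) (hk : IsDeg k a) :
    ∃ b ∈ Zc X, IsDeg k b ∧ supp b ⊆ j '' supp a ∧ ∀ u, pull j b - a ∈ Van u := by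
  obtain ⟨b, h1, h2, h3, h4, h5, h6⟩ := (Taut.of_isOpenEmbedding hj).surj_c hk ha.1
    hj.isOpen_range (image_subset_range _ _)
  refine ⟨b, ⟨h2, supp_eq_empty.2 fun x => ?_⟩, h1, fun x hx => ?_, h4⟩
  · by_cases hx : x ∈ range j
    · obtain ⟨u, rfl⟩ := hx
      exact h6 u (supp_eq_empty.1 ha.2 u)
    · exact Van.δ fun h => hx (h3 h)
  · obtain ⟨u, rfl⟩ := h3 hx
    exact ⟨u, by_contra fun h => h5 u h hx, rfl⟩

theorem exists_ext_open' {a : Coch U} (ha : a ∈ Zc U) :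
    ∃ b ∈ Zc X, supp b ⊆ j '' supp a ∧ ∀ u, pull j b - a ∈ Van u := by
  refine a.induction_comp (P := fun c => ∃ b ∈ Zc X, supp b ⊆ j '' supp a ∧
    ∀ u, pull j b - c ∈ Van u) ⟨0, (Zc X).zero_mem, by rw [supp_zero]; exact empty_subset _,
      fun u => by simp⟩ ?_ fun k => ?_
  · rintro c c' ⟨b, h1, h2, h3⟩ ⟨b', h1', h2', h3'⟩
    refine ⟨b + b', (Zc X).add_mem h1 h1', (supp_add _ _).trans (union_subset h2 h2'), fun u => ?_⟩
    rw [map_add, add_sub_add_comm]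
    exact (Van u).add_mem (h3 u) (h3' u)
  · obtain ⟨b, h1, -, h2, h3⟩ := exists_ext_open hj (Zc.comp ha k) (isDeg_comp k a)
    exact ⟨b, h1, h2.trans (image_mono (supp_comp k a)), h3⟩

/-- a primitive on the open subset extends, with compact support inside the open subset -/
theorem exists_prim_open {b : Coch X} (hb : b ∈ Zc X) (hs : supp b ⊆ range j)
    (h : pull j b ∈ Bc U) : ∃ c, IsCompact (supp c) ∧ supp c ⊆ range j ∧ ∀ x, b - δ c ∈ Van x := by
  refine b.induction_comp (P := fun b => ∃ c, IsCompact (supp c) ∧ supp c ⊆ range j ∧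
    ∀ x, b - δ c ∈ Van x) ⟨0, by rw [supp_zero]; exact isCompact_empty,
      by rw [supp_zero]; exact empty_subset _, fun u => by simp⟩ ?_ fun k => ?_
  · rintro b b' ⟨c, h1, h2, h3⟩ ⟨c', h1', h2', h3'⟩
    refine ⟨c + c', isCompact_supp_add h1 h1', (supp_add _ _).trans (union_subset h2 h2'),
      fun u => ?_⟩
    rw [map_add, add_sub_add_comm]
    exact (Van u).add_mem (h3 u) (h3' u)
  · have hs' := (supp_comp k b).trans hs
    obtain ⟨c, h1, h2, h3⟩ := Bc.exists_deg (Bc.comp h k) (isDeg_comp k _)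
    rw [comp_pull] at h3
    obtain ⟨c', -, h4, h5, -, h6⟩ := (Taut.of_isOpenEmbedding hj).inj_c (isDeg_comp k b) h1
      ((hj.isInducing.isCompact_preimage' (Zc.comp hb k).1 hs').union h2) subset_union_left
      subset_union_right hj.isOpen_range (image_subset_range _ _)
    refine ⟨c', h4, h5, fun x => ?_⟩
    by_cases hx : x ∈ range j
    · obtain ⟨u, rfl⟩ := hx
      exact h6 u (supp_eq_empty.1 (Zc.comp hb k).2 _) (h3 u)
    · exact (Van x).sub_mem (fun h => hx (hs' h)) (Van.δ fun h => hx (h5 h))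

theorem Hc.exists_push : ∃ f : Hc U →ₗ[ℂ] Hc X, ∀ b ∈ Zc X, supp b ⊆ range j →
    f (cls (P291Z.pull j b)) = cls b := by
  obtain ⟨f, hf⟩ := Hc.exists_map (Zc X ⊓ (Fam.sub (range j)).coch) (P291Z.pull j).toLinearMap
    LinearMap.id (fun b hb => pull_open_Zc hj hb.1 hb.2) (fun b hb => hb.1) (fun a ha => by
      obtain ⟨b, h1, h2, h3⟩ := exists_ext_open' hj ha
      exact ⟨b, ⟨h1, h2.trans (image_subset_range _ _)⟩, mem_Bc_of_null fun u => by
        rw [← neg_sub]; exact (Van u).neg_mem (h3 u)⟩) fun b hb h => by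
      obtain ⟨c, h1, -, h2⟩ := exists_prim_open hj hb.1 hb.2 h
      exact ⟨c, h1, supp_eq_empty.2 h2⟩
  exact ⟨f, fun b h1 h2 => hf b ⟨h1, h2⟩⟩

/-- **extension by zero** along an open embedding -/
noncomputable def Hc.push : Hc U →ₗ[ℂ] Hc X := (Hc.exists_push hj).choose

theorem Hc.push_cls {b : Coch X} (hb : b ∈ Zc X) (hs : supp b ⊆ range j) :
    Hc.push hj (cls (P291Z.pull j b)) = cls b := (Hc.exists_push hj).choose_spec b hb hs

/-- every class on the open subset is a restriction -/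
theorem cls_surj_open {k : ℤ} {c : Hc U} (hc : c ∈ Hc.deg U k) :
    ∃ b ∈ Zc X, IsDeg k b ∧ supp b ⊆ range j ∧ cls (pull j b) = c := by
  obtain ⟨a, ha, hk, rfl⟩ := hc
  obtain ⟨b, h1, h2, h3, h4⟩ := exists_ext_open hj ha hk
  exact ⟨b, h1, h2, h3.trans (image_subset_range _ _), cls_eq_of_null h4⟩

theorem cls_surj_open' (c : Hc U) : ∃ b ∈ Zc X, supp b ⊆ range j ∧ cls (pull j b) = c := by
  obtain ⟨a, ha, rfl⟩ := cls_surj c
  obtain ⟨b, h1, h3, h4⟩ := exists_ext_open' hj ha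
  exact ⟨b, h1, h3.trans (image_subset_range _ _), cls_eq_of_null h4⟩

theorem Hc.push_deg {k : ℤ} {c : Hc U} (hc : c ∈ Hc.deg U k) : Hc.push hj c ∈ Hc.deg X k := by
  obtain ⟨b, h1, h2, h3, rfl⟩ := cls_surj_open hj hc
  rw [Hc.push_cls hj h1 h3]
  exact cls_mem_deg h2

theorem res_iff {β : BM X} {β' : BM U} : Res j β β' ↔ β' = (Hc.push hj).dualMap β :=
  ⟨fun H => LinearMap.ext fun c => by
    obtain ⟨b, h1, h2, rfl⟩ := cls_surj_open' hj c
    rw [LinearMap.dualMap_apply, Hc.push_cls hj h1 h2, ← ev_eq, ← ev_eq, H b h1 h2],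
    fun H a h1 h2 => by rw [H, ev_eq, ev_eq, LinearMap.dualMap_apply, Hc.push_cls hj h1 h2]⟩

end push

end Vale.Agent.P291Z
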