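import Vale.Agent.P291Z.AS2

/-!
# Borel constructions, equivariant cohomology, Thom and Euler cocycles,
equivariant Borel-Moore classes
-/

namespace Vale.Agent.P291Z

open Set Function

section general

/-- The orbit space `(Z × P) / H`. -/
abbrev Bor (H Z P : Type) [Group H] [MulAction H Z] [MulAction H P] : Type :=
  MulAction.orbitRel.Quotient H (Z × P)

variable {H H' Z Z' P P' : Type} [Group H] [Group H'] [MulAction H Z] [MulAction H P]
  [MulAction H' Z'] [MulAction H' P']

/-- The orbit of a point. -/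
def Bor.mk (H : Type) [Group H] [MulAction H Z] [MulAction H P] (x : Z × P) : Bor H Z P :=
  Quotient.mk'' x

/-- The map of orbit spaces induced by a map that is equivariant along `φ`. -/
def Bor.map (φ : H →* H') (f : Z × P → Z' × P') (hf : ∀ h x, f (h • x) = φ h • f x) :
    Bor H Z P → Bor H' Z' P' :=
  Quotient.map' f (by rintro _ y ⟨h, rfl⟩; exact ⟨φ h, (hf h y).symm⟩)

/-- The same, as a continuous map. -/
def Bor.mapC [TopologicalSpace Z] [TopologicalSpace P] [TopologicalSpace Z'] [TopologicalSpace P']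
    (φ : H →* H') (f : C(Z × P, Z' × P')) (hf : ∀ h x, f (h • x) = φ h • f x) :
    C(Bor H Z P, Bor H' Z' P') :=
  ⟨Bor.map φ f hf, f.2.quotient_map' _⟩

variable {W : Type} [AddCommGroup W] [Module ℂ W] [DistribMulAction H W]

/-- Linear parametrizations of the fibres of the vector bundle `(V × P) / H → (Z × P) / H`, for an
invariant family `V ⊆ Z × W` of subspaces of the representation `W`. -/
def fib (V : SubMulAction H (Z × W)) (P : Type) [MulAction H P] (r : ℕ)
    (φ : (Fin r → ℂ) → Bor H V P) : Prop :=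
  ∃ (z : Z) (u : P) (ℓ : (Fin r → ℂ) →ₗ[ℂ] W), Injective ℓ ∧ (∀ w, (z, w) ∈ V ↔ w ∈ range ℓ) ∧
    ∀ a, ∃ h, φ a = Bor.mk H (⟨(z, ℓ a), h⟩, u)

/-- The zero section. -/
def zsec (V : SubMulAction H (Z × W)) (h0 : ∀ z, (z, 0) ∈ V) (P : Type) [MulAction H P] :
    Bor H Z P → Bor H V P :=
  Bor.map (MonoidHom.id H) (fun x => (⟨(x.1, 0), h0 _⟩, x.2))
    fun h _ => Prod.ext (Subtype.ext (Prod.ext rfl (smul_zero h).symm)) rfl

variable [TopologicalSpace Z] [TopologicalSpace P] [TopologicalSpace W]

/-- A Thom cocycle of that vector bundle. -/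
noncomputable def thom (V : SubMulAction H (Z × W)) (P : Type) [MulAction H P]
    [TopologicalSpace P] : Coch (Bor H V P) :=
  Classical.epsilon (IsThom {x | ∃ y : V × P, y.1.1.2 = 0 ∧ x = Bor.mk H y} (fib V P))

/-- The Euler cocycle of the section of `(Z × W × P) / H → (Z × P) / H` given by an equivariant map
`σ`; its support lies in the zero set of the section. -/
noncomputable def euler (σ : Z × P → W) (hσ : ∀ (h : H) x, σ (h • x) = h • σ x) :
    Coch (Bor H Z P) :=
  pull (Bor.map (MonoidHom.id H) (fun x => (⟨(x.1, σ x), trivial⟩, x.2))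
    fun h x => Prod.ext (Subtype.ext (Prod.ext rfl (hσ h x))) rfl)
    (thom (⊤ : SubMulAction H (Z × W)) P)

end general

variable {J : Type}

/-- The group `∏ GL(n j, ℂ)`. -/
abbrev GG (n : J → ℕ) : Type := ∀ j, GL (Fin (n j)) ℂ

/-- Tuples of `n j × m j` matrices. -/
def Mat (n m : J → ℕ) : Type := ∀ j, Matrix (Fin (n j)) (Fin (m j)) ℂ

variable {n m : J → ℕ}

noncomputable instance : AddCommGroup (Mat n m) := Pi.addCommGroup

noncomputable instance : Module ℂ (Mat n m) := Pi.module _ _ _

noncomputable instance : TopologicalSpace (Mat n m) := Pi.topologicalSpace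

noncomputable instance : DistribMulAction (GG n) (Mat n m) where
  smul g u j := (g j : Matrix _ _ ℂ) * u j
  one_smul u := funext fun j => Matrix.one_mul (u j)
  mul_smul _ _ u := funext fun j => Matrix.mul_assoc _ _ (u j)
  smul_zero _ := funext fun _ => Matrix.mul_zero _
  smul_add _ u u' := funext fun j => Matrix.mul_add _ (u j) (u' j)

/-- Tuples of surjections `ℂ^M → ℂ^(n j)`: approximations of the universal bundle. -/
noncomputable def EE (n : J → ℕ) (M : ℕ) : SubMulAction (GG n) (Mat n fun _ => M) where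
  carrier := {u | ∀ j, Surjective (u j).mulVec}
  smul_mem' g u hu j y := by
    obtain ⟨x, hx⟩ := hu j (((g j)⁻¹ : GL _ ℂ).1.mulVec y)
    refine ⟨x, ?_⟩
    change ((g j).1 * u j).mulVec x = y
    rw [← Matrix.mulVec_mulVec, hx, Matrix.mulVec_mulVec, Units.mul_inv, Matrix.one_mulVec]

/-- Add a zero column. -/
noncomputable def addCol (M : ℕ) (u : EE n M) : EE n (M + 1) :=
  ⟨fun j => Matrix.of fun a => Fin.snoc (u.1 j a) 0, fun j y => by
    obtain ⟨x, hx⟩ := u.2 j y
    refine ⟨Fin.snoc x 0, ?_⟩
    rw [← hx]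
    funext a
    simp [Matrix.mulVec, dotProduct, Fin.sum_univ_castSucc]⟩

theorem continuous_addCol (M : ℕ) : Continuous (addCol (n := n) M) := by
  refine Continuous.subtype_mk (continuous_pi fun j => continuous_matrix fun a b => ?_) _
  have h : Continuous fun u : EE n M => u.1 j := (continuous_apply j).comp continuous_subtype_val
  refine Fin.lastCases ?_ (fun b => ?_) b
  · simpa using continuous_const
  · simpa using h.matrix_elem a b

theorem addCol_smul (M : ℕ) (g : GG n) (u : EE n M) : addCol M (g • u) = g • addCol M u :=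
  Subtype.ext (funext fun j => Matrix.ext fun a b => by
    change (Fin.snoc (((g j).1 * u.1 j) a) 0 : Fin (M + 1) → ℂ) b =
      ((g j).1 * Matrix.of fun a => (Fin.snoc (u.1 j a) 0 : Fin (M + 1) → ℂ)) a b
    refine Fin.lastCases ?_ (fun b => ?_) b <;> simp [Matrix.mul_apply])

/-- The last column. -/
noncomputable def lastCol (M : ℕ) (u : EE n (M + 1)) : Mat n fun _ => 1 :=
  fun j => Matrix.of fun a _ => u.1 j a (Fin.last M)

variable (n) (Z : Type) [TopologicalSpace Z] [MulAction (GG n) Z]

/-- The `M`-th approximation of the Borel construction. -/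
abbrev Bo (M : ℕ) : Type := Bor (GG n) Z (EE n M)

/-- The inclusion of consecutive approximations. -/
noncomputable def inc (M : ℕ) : C(Bo n Z M, Bo n Z (M + 1)) :=
  Bor.mapC (MonoidHom.id _)
    ⟨fun x => (x.1, addCol M x.2), continuous_fst.prodMk ((continuous_addCol M).comp continuous_snd)⟩
    fun g x => Prod.ext rfl (addCol_smul M g x.2)

/-- Compatible families of cohomology classes of degree `k`: the group `H^k_G(Z)`. -/
def HGdeg (k : ℤ) : Set (∀ M, H (Bo n Z M)) :=
  {c | ∀ M, H.map (inc n Z M) (c (M + 1)) = c M ∧ H.IsDeg k (c M)}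

/-- The equivariant cohomology ring `H^*_G(Z; ℂ)`, `G = ∏ GL(n j, ℂ)`. -/
noncomputable def HG : Subring (∀ M, H (Bo n Z M)) := Subring.closure (⋃ k, HGdeg n Z k)

/-- The complex dimension of the `M`-th approximation of the classifying space. -/
def dimB [Fintype J] (M : ℕ) : ℤ := ∑ j, (n j : ℤ) * (M - n j)

variable {n Z}

/-- Families of Borel-Moore classes on the approximations, compatible with the Gysin maps, of
degree `k`: the group `H^G_k(Z)`. -/
def IsFam [Fintype J] (k : ℤ) (β : ∀ M, BM (Bo n Z M)) : Prop :=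
  ∀ M, Gys (inc n Z M) (euler (fun x : Z × EE n (M + 1) => lastCol M x.2) fun _ _ => rfl)
    (β (M + 1)) (β M) ∧ BM.IsDeg (k + 2 * dimB n M) (β M)

/-- The fundamental classes of the approximations of the classifying space: the equivariant
fundamental class of a point. -/
noncomputable def fund [Fintype J] (n : J → ℕ) : ∀ M, BM (Bo n Unit M) :=
  Classical.epsilon fun β => IsFam 0 β ∧ ∀ M, (∀ j, n j ≤ M) →
    ev (β M) (euler (fun _ => (0 : Mat n fun j => M - n j)) fun g _ => (smul_zero g).symm) = 1

end Vale.Agent.P291Z
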