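import Vale.Agent.P291Z.Quiv0Lem

/-!
# The Nakajima quiver variety, its equivariant cohomology and the Kirwan map
-/

namespace Vale.Agent.P291Z.Flav

open Set Function

variable {I E Φ : Type} {Q : Quiv I E} [Fintype Φ] [Fintype I] [Fintype E] (A : Flav Q Φ)
  (ν : I → ℤ)

/-- The stable locus of `μ⁻¹(0)`. -/
noncomputable def Zst : SubMulAction (GG (Q.nn Φ)) (A.NN × A.ND) where
  carrier := {z | (∀ ξ, mu z ξ = 0) ∧ St ν z}
  smul_mem' g _ h := ⟨mu_smul g h.1, St_smul ν g h.2⟩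

/-- The quiver variety `X = μ⁻¹(0)^st / G`. -/
def XX : Type := MulAction.orbitRel.Quotient (sndG Q.v fun _ : Φ => 1).ker (A.Zst ν)

noncomputable instance : TopologicalSpace (A.XX ν) :=
  inferInstanceAs (TopologicalSpace (MulAction.orbitRel.Quotient _ (A.Zst ν)))

/-- The orbit of a stable point. -/
noncomputable def toX (z : A.Zst ν) : A.XX ν := Quotient.mk'' z

/-- The action of `F` on `X`. -/
noncomputable instance : MulAction (GG fun _ : Φ => 1) (A.XX ν) where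
  smul f := Quotient.map' (fun z => inrG Q.v _ f • z) (by
    rintro _ z ⟨g, rfl⟩
    refine ⟨⟨inrG Q.v _ f * g * (inrG Q.v _ f)⁻¹, MonoidHom.normal_ker _ |>.conj_mem _ g.2 _⟩, ?_⟩
    change (inrG Q.v _ f * g.1 * (inrG Q.v _ f)⁻¹) • inrG Q.v _ f • z = inrG Q.v _ f • g.1 • z
    rw [smul_smul, inv_mul_cancel_right, mul_smul])
  one_smul x := Quotient.inductionOn' x fun z => congrArg (A.toX ν) (by
    change inrG Q.v _ 1 • z = z
    rw [map_one, one_smul])
  mul_smul f f' x := Quotient.inductionOn' x fun z => congrArg (A.toX ν) (by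
    change inrG Q.v _ (f * f') • z = inrG Q.v _ f • inrG Q.v _ f' • z
    rw [map_mul, mul_smul])

/-- The ring `R = H^*_{G × F}(pt)`. -/
abbrev RR (Q : Quiv I E) (Φ : Type) : Type := HG (Q.nn Φ) Unit

/-- The ring `H^*_F(X)`. -/
abbrev HX : Type := HG (fun _ : Φ => 1) (A.XX ν)

/-- The map `(μ⁻¹(0)^st × E(G × F)) / (G × F) → (X × EF) / F`. -/
noncomputable def toXF (M : ℕ) : C(Bo (Q.nn Φ) (A.Zst ν) M, Bo (fun _ : Φ => 1) (A.XX ν) M) :=
  Bor.mapC (sndG _ _) ⟨fun x => (A.toX ν x.1, sndE x.2),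
    (continuous_quotient_mk'.comp continuous_fst).prodMk (continuous_sndE.comp continuous_snd)⟩
    fun g x => Prod.ext (Quotient.sound' ⟨⟨g * (inrG Q.v _ (sndG _ _ g))⁻¹, by
      rw [MonoidHom.mem_ker, map_mul, map_inv]; exact mul_inv_cancel _⟩, by
      change (g * (inrG Q.v _ (sndG _ _ g))⁻¹) • inrG Q.v _ (sndG _ _ g) • x.1 = g • x.1
      rw [smul_smul, inv_mul_cancel_right]⟩) rfl

/-- The map to the classifying space. -/
noncomputable def toPt {J : Type} (n : J → ℕ) (Z : Type) [TopologicalSpace Z] [MulAction (GG n) Z]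
    (M : ℕ) : C(Bo n Z M, Bo n Unit M) :=
  Bor.mapC (MonoidHom.id _) ⟨fun x => ((), x.2), by fun_prop⟩ fun _ _ => rfl

/-- `c` is the characteristic class `r` of the principal `G`-bundle `μ⁻¹(0)^st → X`. -/
def IsKirwan (r : RR Q Φ) (c : A.HX ν) : Prop :=
  ∀ M, H.map (A.toXF ν M) (c.1 M) = H.map (toPt _ (A.Zst ν) M) (r.1 M)

/-- The Kirwan map `φ_H : R → H^*_F(X)`. -/
noncomputable def phiH (r : RR Q Φ) : A.HX ν := @Classical.epsilon _ ⟨0⟩ (A.IsKirwan ν r)

end Vale.Agent.P291Z.Flav
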