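import Vale.Agent.P291Z.Coul0Lem
import Vale.Agent.P291Z.Higgs

/-!
# The space of triples, its equivariant Borel-Moore homology and the convolution product
-/

set_option linter.unusedSectionVars false

namespace Vale.Agent.P291Z

open Set Function Quiv

/-- The map of Borel constructions induced by an equivariant map. -/
noncomputable def bmap {J : Type} {n : J → ℕ} {Z Z' : Type} [MulAction (GG n) Z] [MulAction (GG n) Z']
    (f : Z → Z') (hf : ∀ (g : GG n) z, f (g • z) = g • f z) (M : ℕ) : Bo n Z M → Bo n Z' M :=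
  Bor.map (MonoidHom.id _) (fun x => (f x.1, x.2)) fun g x => Prod.ext (hf g x.1) rfl

/-- `β` is the cross product of equivariant classes `β₁` and `β₂`. -/
def CrossG {J J' : Type} {n : J → ℕ} {n' : J' → ℕ} {Z Z' : Type} [TopologicalSpace Z]
    [TopologicalSpace Z'] [MulAction (GG n) Z] [MulAction (GG n') Z'] {M : ℕ} (β₁ : BM (Bo n Z M))
    (β₂ : BM (Bo n' Z' M)) (β : BM (Bo (Sum.elim n n') (Pr n n' Z Z') M)) : Prop :=
  Cross (Bor.map (fstG n n') (fun x => (x.1.1, fstE x.2)) fun _ _ => rfl)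
    (Bor.map (sndG n n') (fun x => (x.1.2, sndE x.2)) fun _ _ => rfl) β₁ β₂ β

/-- `β'` is the cap product of `β` with the cohomology class `c`. -/
def Cap {X : Type} [TopologicalSpace X] (c : H X) (β β' : BM X) : Prop :=
  ∀ t, H.mk t = c → Gys id t.1 β β'

namespace Flav

variable {I E Φ : Type} {Q : Quiv I E} [Fintype Φ] [Fintype I] [Fintype E] (A : Flav Q Φ)

/-- The part of the space of triples `{(g V(O), s) | s ∈ N(O) ∩ g N(O)}` of charge `χ` with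
`t^n V(O) ⊆ g V(O) ⊆ t^(-n) V(O)`, modulo `t^d N(O)`. -/
def RS (n : ℕ) (χ : I → ℤ) (d : ℕ) : Type :=
  {x : Q.Lat × (ℕ → A.NN) // Rel n χ (lat 1) x.1 ∧ (∀ k, d ≤ k → x.2 k = 0) ∧
    Pres x.1 (poly d x.2)}

variable {n n' d d' : ℕ} {χ χ' : I → ℤ} {k k' : ℤ}

noncomputable instance : TopologicalSpace (A.RS n χ d) := instTopologicalSpaceSubtype

noncomputable instance : MulAction (GG (Q.nn Φ)) (A.RS n χ d) where
  smul g x := ⟨g • x.1, Rel_smul_one g x.2.1,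
    fun k hk => (congrArg (g • ·) (x.2.2.1 k hk)).trans (smul_zero g),
    A.Pres_smul g x.2.1 x.2.2.2⟩
  one_smul _ := Subtype.ext (one_smul _ _)
  mul_smul _ _ _ := Subtype.ext (mul_smul _ _ _)

/-- The convolution space `{(g₁ V(O), s, g₁ g₂ V(O)) | s ∈ N(O) ∩ g₁ N(O) ∩ g₁ g₂ N(O)}`. -/
def R2 (n : ℕ) (χ : I → ℤ) (n' : ℕ) (χ' : I → ℤ) (d : ℕ) : Type :=
  {x : A.RS n χ d × Q.Lat // Rel n' χ' x.1.1.1 x.2 ∧ Pres x.2 (poly d x.1.1.2)}

noncomputable instance : TopologicalSpace (A.R2 n χ n' χ' d) := instTopologicalSpaceSubtype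

noncomputable instance : MulAction (GG (Q.nn Φ)) (A.R2 n χ n' χ' d) where
  smul g x := ⟨g • x.1, Rel_smul g x.2.1, A.Pres_smul g x.2.1 x.2.2⟩
  one_smul _ := Subtype.ext (one_smul _ _)
  mul_smul _ _ _ := Subtype.ext (mul_smul _ _ _)

/-- The multiplication map `m`. -/
noncomputable def mm (M : ℕ) :
    Bo (Q.nn Φ) (A.R2 n χ n' χ' d) M → Bo (Q.nn Φ) (A.RS (n + n') (χ + χ') d) M :=
  bmap (fun x => ⟨(x.1.2, x.1.1.1.2), Rel_trans x.1.1.2.1 x.2.1, x.1.1.2.2.1, x.2.2⟩)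
    (fun _ _ => rfl) M

/-- The closed embeddings of the bounded parts. -/
noncomputable def incN (M : ℕ) : Bo (Q.nn Φ) (A.RS n χ d) M → Bo (Q.nn Φ) (A.RS (n + 1) χ d) M :=
  bmap (fun x => ⟨x.1, Rel_succ x.2.1, x.2.2⟩) (fun _ _ => rfl) M

/-- The zero section of the vector bundle `R / t^(d+1) N(O) → R / t^d N(O)`. -/
noncomputable def incD (M : ℕ) : Bo (Q.nn Φ) (A.RS n χ d) M → Bo (Q.nn Φ) (A.RS n χ (d + 1)) M :=
  bmap (fun x => ⟨x.1, x.2.1, fun k hk => x.2.2.1 k (Nat.le_of_succ_le hk),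
    (poly_succ (x.2.2.1 d le_rfl)).symm ▸ x.2.2.2⟩) (fun _ _ => rfl) M

/-- The equivariant Borel-Moore homology of degree `k` (relative to `dim N(O)`) of the part of the
space of triples with charge `χ` and bound `n`. -/
noncomputable def An (n : ℕ) (χ : I → ℤ) (k : ℤ) :
    Submodule ℂ (∀ d M, BM (Bo (Q.nn Φ) (A.RS n χ d) M)) where
  carrier := {β | ∀ d, (d < 2 * n → β d = 0) ∧ (2 * n ≤ d →
    IsFam (k + 2 * Q.idx χ + 2 * d * Q.dimN) (β d) ∧ ∀ M, Gys (A.incD M)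
      (euler (fun x : A.RS n χ (d + 1) × EE _ M => x.1.1.2 d) fun _ _ => rfl)
      (β (d + 1) M) (β d M))}
  zero_mem' _ := ⟨fun _ => rfl, fun _ => ⟨IsFam.zero _, fun _ => Gys.zero _ _⟩⟩
  add_mem' h h' d := ⟨fun hd => by rw [Pi.add_apply, (h d).1 hd, (h' d).1 hd, add_zero],
    fun hd => ⟨((h d).2 hd).1.add ((h' d).2 hd).1,
      fun M => (((h d).2 hd).2 M).add (((h' d).2 hd).2 M)⟩⟩
  smul_mem' c _ h d := ⟨fun hd => by rw [Pi.smul_apply, (h d).1 hd, smul_zero],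
    fun hd => ⟨((h d).2 hd).1.smul c, fun M => (((h d).2 hd).2 M).smul c⟩⟩

/-- The direct sum over all bounds, charges and degrees. -/
def AS : Type := Π₀ x : ℕ × (I → ℤ) × ℤ, A.An x.1 x.2.1 x.2.2

noncomputable instance : AddCommGroup A.AS := DFinsupp.addCommGroup

noncomputable instance : Module ℂ A.AS := DFinsupp.module

open Classical in
/-- The inclusion of a summand. -/
noncomputable def ofA {A : Flav Q Φ} (β : A.An n χ k) : A.AS := DFinsupp.single (n, χ, k) β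

/-- `A_F`: the direct limit over the bounded parts, summed over all charges and degrees. -/
def AA : Type :=
  A.AS ⧸ Submodule.span ℂ {z | ∃ (n : ℕ) (χ : I → ℤ) (k : ℤ) (β : A.An n χ k)
    (β' : A.An (n + 1) χ k), (∀ d M, 2 * (n + 1) ≤ d → Push (A.incN M) (β.1 d M) (β'.1 d M)) ∧
      z = ofA β - ofA β'}

noncomputable instance : AddCommGroup A.AA := Submodule.Quotient.addCommGroup _

noncomputable instance : Module ℂ A.AA := Submodule.Quotient.module _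

variable {A}

/-- The class in `A_F` of a homology class of a bounded part. -/
noncomputable def cls (β : A.An n χ k) : A.AA := Submodule.Quotient.mk (ofA β)

section bundles

variable {Z : Type} [MulAction (GG (Q.nn Φ)) Z] (ℓ : Z → Q.Lat)
  (hℓ : ∀ (g : GG (Q.nn Φ)) z, ℓ (g • z) = g • ℓ z) (Z' : Type) [MulAction (GG (Q.nn Φ)) Z'] (m : ℕ)

/-- The vector bundle of pairs `(g, f)` with the columns of `g` in the lattice. -/
noncomputable def VV : SubMulAction (GG (Sum.elim (Q.nn Φ) (Q.nn Φ)))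
    (Pr (Q.nn Φ) (Q.nn Φ) Z Z' × WW Q Φ m) where
  carrier := {x | lat (laur x.2.1) ≤ ℓ x.1.1}
  smul_mem' h x hx := (lat_laur_smul h x.2).trans_le ((smul_le_smul _ hx).trans_eq (hℓ _ _).symm)

/-- Its open part of pairs `(g, f) ∈ G(K) × F` such that the lattice is `g V(O)`. -/
def VO : Type := {x : VV ℓ hℓ Z' m // lat (laur x.1.2.1) = ℓ x.1.1.1 ∧ ∀ a, x.1.2.2 a ≠ 0}

noncomputable instance : MulAction (GG (Sum.elim (Q.nn Φ) (Q.nn Φ))) (VO ℓ hℓ Z' m) where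
  smul h x := ⟨h • x.1, (lat_laur_smul h x.1.1.2).trans ((congrArg _ x.2.1).trans (hℓ _ _).symm),
    ne_zero_smul h x.2.2⟩
  one_smul _ := Subtype.ext (one_smul _ _)
  mul_smul _ _ _ := Subtype.ext (mul_smul _ _ _)

variable {Z' m} [TopologicalSpace Z] [TopologicalSpace Z']

noncomputable instance : TopologicalSpace (VO ℓ hℓ Z' m) := instTopologicalSpaceSubtype

/-- `γ` is the pull-back of `β` along the smooth map `VO → Z × Z'`. -/
def PullV {M : ℕ} (β : BM (Bo (Sum.elim (Q.nn Φ) (Q.nn Φ)) (Pr (Q.nn Φ) (Q.nn Φ) Z Z') M))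
    (γ : BM (Bo (Sum.elim (Q.nn Φ) (Q.nn Φ)) (VO ℓ hℓ Z' m) M)) : Prop :=
  ∃ β', Gys (zsec (VV ℓ hℓ Z' m) (fun _ => lat_laur_zero_le _) _) (thom _ _) β' β ∧
    Res (bmap (fun x : VO ℓ hℓ Z' m => x.1) (fun _ _ => rfl) M) β' γ

end bundles

/-- The coefficients of `f⁻¹ g⁻¹ s`. -/
noncomputable def tr (w : WW Q Φ n) (hw : ∀ a, w.2 a ≠ 0) (d : ℕ) (s : ℕ → A.NN) (k : ℕ) : A.NN :=
  A.ρ (fun a => Units.mk0 _ (hw a))⁻¹ (coef (Q.gauge (laur w.1)⁻¹ (poly d s)) k)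

/-- The lattice of a triple. -/
def lt (x : A.RS n χ d) : Q.Lat := x.1.1

theorem lt_smul (g : GG (Q.nn Φ)) (x : A.RS n χ d) : lt (g • x) = g • lt x := rfl

/-- The first lattice of a point of the convolution space. -/
def lt₂ (x : A.R2 n χ n' χ' d) : Q.Lat := x.1.1.1.1

theorem lt₂_smul (g : GG (Q.nn Φ)) (x : A.R2 n χ n' χ' d) : lt₂ (g • x) = g • lt₂ x := rfl

variable (A)

/-- The bundle of pairs `(g, f)` over the convolution space: `p⁻¹(R × R)`. -/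
abbrev Vq (n : ℕ) (χ : I → ℤ) (n' : ℕ) (χ' : I → ℤ) (d : ℕ) : Type :=
  VO (lt₂ : A.R2 n χ n' χ' d → _) lt₂_smul Unit n

/-- The bundle of pairs `(g, f)` over `R × R`. -/
abbrev Vp (n : ℕ) (χ : I → ℤ) (n' : ℕ) (χ' : I → ℤ) (d d' : ℕ) : Type :=
  VO (lt : A.RS n χ d → _) lt_smul (A.RS n' χ' d') n

/-- The point `(g⁻¹ L₂, f⁻¹ g⁻¹ s)` of the space of triples. -/
noncomputable def shift (hd : 2 * n' ≤ d') (x : A.Vq n χ n' χ' d) : A.RS n' χ' d' :=
  ⟨(mulL (laur x.1.1.2.1)⁻¹ x.1.1.1.1.1.2,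
      fun k => if k < d' then tr x.1.1.2 x.2.2 d x.1.1.1.1.1.1.1.2 k else 0),
    Rel_inv x.2.1 x.1.1.1.1.2.1, fun _ hk => if_neg (not_lt.2 hk),
    A.Pres_tr hd x.2.1 x.1.1.1.1.2.1 _ x.1.1.1.1.1.1.2.2.2 x.1.1.1.1.2.2⟩

/-- The closed embedding `(L₁, s, L₂, g, f) ↦ ((L₁, s), (g⁻¹ L₂, f⁻¹ g⁻¹ s), g, f)`. -/
noncomputable def iota (hd : 2 * n' ≤ d') (x : A.Vq n χ n' χ' d) : A.Vp n χ n' χ' d d' :=
  ⟨⟨((x.1.1.1.1.1.1, A.shift hd x), x.1.1.2), x.1.2⟩, x.2⟩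

/-- The section `f⁻¹ g⁻¹ s - s'` modulo `t^d'`, whose zero set is the image of `iota`. -/
noncomputable def sig (x : A.Vp n χ n' χ' d d') : Snd (Q.nn Φ) (Q.nn Φ) (Fin d' → A.NN) :=
  fun k => tr x.1.1.2 x.2.2 d x.1.1.1.1.1.2 k - x.1.1.1.2.1.2 k

end Flav

end Vale.Agent.P291Z
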