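import Vale.Agent.P291Z.Nice0

/-!
# The vector bundles `(V × P) / G → (Z × P) / G`
-/

set_option linter.all false

namespace Vale.Agent.P291Z

open Set Function Topology Filter

namespace Eul

/-- a continuous map with a left inverse up to an embedding, continuous along the image -/
theorem isEmbedding_of_left {X Y X' : Type} [TopologicalSpace X] [TopologicalSpace Y]
    [TopologicalSpace X'] {Φ : X → Y} {Ψ : Y → X'} {j : X → X'} (hj : IsEmbedding j)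
    (hΦ : Continuous Φ) (hΨ : ∀ x, ContinuousAt Ψ (Φ x)) (h : ∀ x, Ψ (Φ x) = j x) :
    IsEmbedding Φ := by
  refine ⟨isInducing_iff_nhds.2 fun x => le_antisymm (hΦ.tendsto x).le_comap ?_,
    fun x y e => hj.injective (by rw [← h, e, h])⟩
  rw [hj.isInducing.nhds_eq_comap, ← h x, show j = Ψ ∘ Φ from funext fun x => (h x).symm,
    ← comap_comap]
  exact comap_mono (hΨ x).le_comap

section frame

variable {Z W : Type} [TopologicalSpace Z] {r : ℕ}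

/-- local frames of a closed family of subspaces of constant dimension -/
theorem exists_frame_norm [NormedAddCommGroup W] [NormedSpace ℂ W] [FiniteDimensional ℂ W]
    {V : Set (Z × W)} (hV : IsClosed V)
    (hf : ∀ z, ∃ S : Submodule ℂ W, Module.finrank ℂ S = r ∧ ∀ w, (z, w) ∈ V ↔ w ∈ S) (z₀ : Z) :
    ∃ (N : Set Z) (ψ : Z → (Fin r → ℂ) →ₗ[ℂ] W) (q : W →L[ℂ] (Fin r → ℂ)), IsOpen N ∧ z₀ ∈ N ∧
      (∀ x : Z × (Fin r → ℂ), x.1 ∈ N → ContinuousAt (fun x : Z × (Fin r → ℂ) => ψ x.1 x.2) x) ∧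
      ∀ z ∈ N, (∀ a, q (ψ z a) = a) ∧ ∀ w, (z, w) ∈ V ↔ w ∈ range (ψ z) := by
  classical
  haveI : ProperSpace W := FiniteDimensional.proper ℂ W
  choose S hS hSV using hf
  obtain ⟨e₀⟩ : Nonempty (S z₀ ≃ₗ[ℂ] (Fin r → ℂ)) :=
    FiniteDimensional.nonempty_linearEquiv_of_finrank_eq (by simp [hS])
  obtain ⟨q₀, hq₀⟩ := LinearMap.exists_extend (e₀ : S z₀ →ₗ[ℂ] (Fin r → ℂ))
  let q : W →L[ℂ] (Fin r → ℂ) := LinearMap.toContinuousLinearMap q₀
  obtain ⟨C, hC0, hC⟩ : ∃ C : ℝ, 0 < C ∧ ∀ w ∈ S z₀, ‖w‖ ≤ C * ‖q w‖ := by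
    obtain ⟨C, h0, hC⟩ := (LinearMap.toContinuousLinearMap
      ((S z₀).subtype ∘ₗ (e₀.symm : (Fin r → ℂ) →ₗ[ℂ] S z₀))).bound
    refine ⟨C, h0, fun w hw => ?_⟩
    have h1 : q w = e₀ ⟨w, hw⟩ := LinearMap.congr_fun hq₀ ⟨w, hw⟩
    simpa [h1] using hC (e₀ ⟨w, hw⟩)
  let T : Set (Z × Metric.sphere (0 : W) 1) :=
    {x | (x.1, x.2.1) ∈ V ∧ 2 * C * ‖q x.2.1‖ ≤ 1}
  have hT : IsClosed T :=
    (hV.preimage (f := fun x : Z × Metric.sphere (0 : W) 1 => (x.1, x.2.1)) (by fun_prop)).inter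
      (isClosed_le (f := fun x : Z × Metric.sphere (0 : W) 1 => 2 * C * ‖q x.2.1‖) (by fun_prop)
        continuous_const)
  let N : Set Z := (Prod.fst '' T)ᶜ
  have hN : IsOpen N := (isClosedMap_fst_of_compactSpace T hT).isOpen_compl
  have hz₀ : z₀ ∈ N := by
    rintro ⟨⟨_, w⟩, ⟨h1, h2⟩, rfl⟩
    have h3 := hC w.1 ((hSV _ _).1 h1)
    rw [mem_sphere_zero_iff_norm.1 w.2] at h3
    simp only at h2
    nlinarith [norm_nonneg (q w.1)]
  have hb : ∀ z ∈ N, ∀ w ∈ S z, ‖w‖ ≤ 2 * C * ‖q w‖ := by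
    intro z hz w hw
    by_cases h0 : w = 0
    · simp [h0]
    have hn : 0 < ‖w‖ := norm_pos_iff.2 h0
    have hn' : ‖((‖w‖ : ℂ))⁻¹‖ = ‖w‖⁻¹ := by simp
    by_contra hlt
    refine hz ⟨(z, ⟨((‖w‖ : ℂ))⁻¹ • w, ?_⟩), ⟨(hSV _ _).2 ((S z).smul_mem _ hw), ?_⟩, rfl⟩
    · rw [mem_sphere_zero_iff_norm, norm_smul, hn', inv_mul_cancel₀ hn.ne']
    · show 2 * C * ‖q (((‖w‖ : ℂ))⁻¹ • w)‖ ≤ 1
      rw [map_smul, norm_smul, hn', mul_left_comm, inv_mul_le_iff₀ hn, mul_one]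
      exact (not_le.1 hlt).le
  have hbij : ∀ z ∈ N, Bijective ((q : W →ₗ[ℂ] (Fin r → ℂ)) ∘ₗ (S z).subtype) := by
    intro z hz
    have hi : Injective ((q : W →ₗ[ℂ] (Fin r → ℂ)) ∘ₗ (S z).subtype) := by
      rw [← LinearMap.ker_eq_bot, eq_bot_iff]
      intro w hw
      have h1 := hb z hz w.1 w.2
      rw [show q w.1 = 0 from hw, norm_zero, mul_zero] at h1
      exact Subtype.ext (norm_le_zero_iff.1 h1)
    exact ⟨hi, (LinearMap.injective_iff_surjective_of_finrank_eq_finrank (by simp [hS])).1 hi⟩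
  let ψ : Z → (Fin r → ℂ) →ₗ[ℂ] W := fun z =>
    if h : z ∈ N then (S z).subtype ∘ₗ (LinearEquiv.ofBijective _ (hbij z h)).symm.toLinearMap
    else 0
  have hψ : ∀ z ∈ N, ∀ a, ψ z a ∈ S z ∧ q (ψ z a) = a := by
    intro z hz a
    simp only [ψ, dif_pos hz]
    exact ⟨Subtype.property _, (LinearEquiv.ofBijective _ (hbij z hz)).apply_symm_apply a⟩
  have huniq : ∀ z ∈ N, ∀ w ∈ S z, ψ z (q w) = w := by
    intro z hz w hw
    exact congrArg Subtype.val ((hbij z hz).1 (a₁ := ⟨_, (hψ z hz (q w)).1⟩) (a₂ := ⟨w, hw⟩)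
      (hψ z hz (q w)).2)
  refine ⟨N, ψ, q, hN, hz₀, fun x hx => ?_, fun z hz => ⟨fun a => (hψ z hz a).2, fun w =>
    (hSV z w).trans ⟨fun h => ⟨_, huniq z hz w h⟩, ?_⟩⟩⟩
  · have hev : ∀ᶠ y in 𝓝 x, y.1 ∈ N := continuousAt_fst.eventually (hN.mem_nhds hx)
    refine (isCompact_closedBall (0 : W) (2 * C * (‖x.2‖ + 1))).tendsto_nhds_of_unique_mapClusterPt
      ?_ fun w _ hw => ?_
    · have h1 : ∀ᶠ y in 𝓝 x, ‖y.2‖ < ‖x.2‖ + 1 :=
        (continuous_snd.norm.continuousAt).eventually (gt_mem_nhds (lt_add_one _))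
      filter_upwards [hev, h1] with y hy hy'
      rw [mem_closedBall_zero_iff]
      refine (hb _ hy _ (hψ _ hy y.2).1).trans ?_
      rw [(hψ _ hy y.2).2]
      exact mul_le_mul_of_nonneg_left hy'.le (by positivity)
    · have hcl : IsClosed {t : (Z × (Fin r → ℂ)) × W | (t.1.1, t.2) ∈ V ∧ q t.2 = t.1.2} :=
        (hV.preimage (by fun_prop)).inter (isClosed_eq (by fun_prop) (by fun_prop))
      have hc : MapClusterPt (x, w) (𝓝 x) fun y => (y, ψ y.1 y.2) := by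
        rw [mapClusterPt_iff_frequently]
        intro s hs
        rw [nhds_prod_eq, Filter.mem_prod_iff] at hs
        obtain ⟨s₁, h₁, s₂, h₂, hs⟩ := hs
        exact ((mapClusterPt_iff_frequently.1 hw s₂ h₂).and_eventually h₁).mono
          fun y hy => hs ⟨hy.2, hy.1⟩
      have hm := hcl.mem_of_mapClusterPt hc
        (hev.mono fun y hy => ⟨(hSV _ _).2 (hψ _ hy y.2).1, (hψ _ hy y.2).2⟩)
      rw [← huniq _ hx w ((hSV _ _).1 hm.1), show q w = x.2 from hm.2]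
  · rintro ⟨a, rfl⟩
    exact (hψ z hz a).1

theorem exists_frame [AddCommGroup W] [Module ℂ W] [TopologicalSpace W] {s : ℕ}
    (e : W ≃L[ℂ] (Fin s → ℂ)) {V : Set (Z × W)} (hV : IsClosed V)
    (hf : ∀ z, ∃ S : Submodule ℂ W, Module.finrank ℂ S = r ∧ ∀ w, (z, w) ∈ V ↔ w ∈ S) (z₀ : Z) :
    ∃ (N : Set Z) (ψ : Z → (Fin r → ℂ) →ₗ[ℂ] W) (q : W →L[ℂ] (Fin r → ℂ)), IsOpen N ∧ z₀ ∈ N ∧
      (∀ x : Z × (Fin r → ℂ), x.1 ∈ N → ContinuousAt (fun x : Z × (Fin r → ℂ) => ψ x.1 x.2) x) ∧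
      ∀ z ∈ N, (∀ a, q (ψ z a) = a) ∧ ∀ w, (z, w) ∈ V ↔ w ∈ range (ψ z) := by
  obtain ⟨N, ψ, q, h1, h2, h3, h4⟩ := exists_frame_norm (r := r)
    (V := (fun x : Z × (Fin s → ℂ) => (x.1, e.symm x.2)) ⁻¹' V) (hV.preimage (by fun_prop))
    (fun z => by
      obtain ⟨S, h1, h2⟩ := hf z
      refine ⟨S.map e.toLinearEquiv.toLinearMap, (LinearEquiv.finrank_map_eq _ S).trans h1,
        fun w => (h2 _).trans ⟨fun h => ⟨_, h, e.apply_symm_apply w⟩, ?_⟩⟩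
      rintro ⟨v, hv, rfl⟩
      simpa using hv) z₀
  refine ⟨N, fun z => e.symm.toLinearEquiv.toLinearMap ∘ₗ ψ z, q.comp e.toContinuousLinearMap, h1, h2,
    fun x hx => e.symm.continuous.continuousAt.comp (h3 x hx), fun z hz => ⟨fun a => ?_,
      fun w => ?_⟩⟩
  · simpa using (h4 z hz).1 a
  · have := (h4 z hz).2 (e w)
    simp only [mem_preimage, e.symm_apply_apply] at this
    refine this.trans ⟨?_, ?_⟩
    · rintro ⟨a, ha⟩
      exact ⟨a, by simp [ha]⟩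
    · rintro ⟨a, rfl⟩
      exact ⟨a, by simp⟩

end frame

end Eul

section rep

variable {G W : Type} [Group G] [TopologicalSpace G] [AddCommGroup W] [Module ℂ W]
  [TopologicalSpace W] [DistribMulAction G W] {r : ℕ}

theorem IsRep.finrank_eq' (h : IsRep G W r) : Module.finrank ℂ W = r :=
  h.lin.elim fun e => e.toLinearEquiv.finrank_eq.trans (Module.finrank_fin_fun ℂ)

theorem IsRep.finite (h : IsRep G W r) : Module.Finite ℂ W :=
  h.lin.elim fun e => e.symm.toLinearEquiv.finiteDimensional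

theorem IsRep.continuousAdd (h : IsRep G W r) : ContinuousAdd W :=
  h.lin.elim fun e => e.toHomeomorph.isInducing.continuousAdd e

theorem IsRep.continuousSMul (h : IsRep G W r) : ContinuousSMul ℂ W :=
  h.lin.elim fun e => e.toHomeomorph.isInducing.continuousSMul continuous_id
    fun {c x} => e.map_smul c x

end rep

section level

variable {G Z W : Type} [Group G] [TopologicalSpace G] [TopologicalSpace Z] [MulAction G Z]
  [AddCommGroup W] [Module ℂ W] [TopologicalSpace W] [DistribMulAction G W] {r s : ℕ}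
  {V : SubMulAction G (Z × W)}

/-- the projection of the vector bundle `(V × P) / G → (Z × P) / G` -/
def vproj (V : SubMulAction G (Z × W)) (P : Type) [MulAction G P] : Bor G V P → Bor G Z P :=
  Bor.map (MonoidHom.id G) (fun x => (x.1.1.1, x.2)) fun _ _ => rfl

/-- the zero section of the vector bundle `(V × P) / G → (Z × P) / G` -/
abbrev vzero (V : SubMulAction G (Z × W)) (P : Type) [MulAction G P] : Set (Bor G V P) :=
  {x | ∃ y : V × P, y.1.1.2 = 0 ∧ x = Bor.mk G y}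

theorem isSubVB_top (hW : IsRep G W r) : IsSubVB (⊤ : SubMulAction G (Z × W)) r :=
  ⟨isClosed_univ, fun _ => ⟨⊤, (finrank_top ℂ W).trans hW.finrank_eq',
    fun _ => ⟨fun _ => trivial, fun _ => trivial⟩⟩⟩

theorem IsSubVB.zero_mem (hV : IsSubVB V r) (z : Z) : (z, 0) ∈ V := by
  obtain ⟨S, -, h⟩ := hV.fibre z
  exact (h 0).2 S.zero_mem

theorem IsSubVB.nice' [Nice Z] (hW : IsRep G W s) (hV : IsSubVB V r) : Nice V :=
  haveI := hW.nice
  Nice.of_isLocallyClosed (S := (V : Set (Z × W))) hV.closed.isLocallyClosed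

theorem IsRep.contSub [ContinuousSMul G Z] (hW : IsRep G W s) (V : SubMulAction G (Z × W)) :
    ContinuousSMul G V :=
  haveI := hW.cont
  ⟨(continuous_fst.smul (continuous_subtype_val.comp continuous_snd)).subtype_mk _⟩

variable {P : Type} [TopologicalSpace P] [MulAction G P]

@[simp] theorem vproj_mk (x : V × P) : vproj V P (Bor.mk G x) = Bor.mk G (x.1.1.1, x.2) := rfl

theorem continuous_vproj : Continuous (vproj V P) := Bor.continuous_map' _ (by fun_prop)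

theorem mk_mem_vzero {y : V × P} : Bor.mk G y ∈ vzero V P ↔ y.1.1.2 = 0 := by
  refine ⟨?_, fun h => ⟨y, h, rfl⟩⟩
  rintro ⟨y', h, e⟩
  obtain ⟨g, rfl⟩ := Bor.mk_eq_iff.1 e
  show g • y'.1.1.2 = 0
  rw [h, smul_zero]

theorem vproj_zsec (h0 : ∀ z, (z, 0) ∈ V) (x : Bor G Z P) : vproj V P (zsec V h0 P x) = x := by
  obtain ⟨x, rfl⟩ := Bor.mk_surjective x
  rfl

theorem range_zsec (h0 : ∀ z, (z, 0) ∈ V) : range (zsec V h0 P) = vzero V P := by
  ext b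
  refine ⟨?_, ?_⟩
  · rintro ⟨x, rfl⟩
    obtain ⟨x, rfl⟩ := Bor.mk_surjective x
    exact ⟨(⟨(x.1, 0), h0 _⟩, x.2), rfl, rfl⟩
  · rintro ⟨⟨⟨⟨z, w⟩, hw⟩, u⟩, h, rfl⟩
    obtain rfl : w = 0 := h
    exact ⟨Bor.mk G (z, u), rfl⟩

theorem fib_rank (hV : IsSubVB V r) {r' : ℕ} {φ : (Fin r' → ℂ) → Bor G V P} (h : fib V P r' φ) :
    r' = r := by
  obtain ⟨z, u, ℓ, h1, h2, -⟩ := h
  obtain ⟨S, h3, h4⟩ := hV.fibre z
  rw [← h3, show S = LinearMap.range ℓ from Submodule.ext fun w => (h4 w).symm.trans (h2 w),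
    LinearMap.finrank_range_of_inj h1, Module.finrank_fin_fun]

/-- a chart at every point -/
theorem IsSubVB.exists_lin (hW : IsRep G W s) (hV : IsSubVB V r) (z : Z) :
    ∃ ℓ : (Fin r → ℂ) →ₗ[ℂ] W, Injective ℓ ∧ ∀ w, (z, w) ∈ V ↔ w ∈ range ℓ := by
  haveI := hW.finite
  obtain ⟨S, h1, h2⟩ := hV.fibre z
  obtain ⟨e⟩ : Nonempty ((Fin r → ℂ) ≃ₗ[ℂ] S) :=
    FiniteDimensional.nonempty_linearEquiv_of_finrank_eq (by simp [h1])
  refine ⟨S.subtype ∘ₗ e.toLinearMap, S.injective_subtype.comp e.injective, fun w => (h2 w).trans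
    ⟨fun h => ⟨e.symm ⟨w, h⟩, by simp⟩, ?_⟩⟩
  rintro ⟨a, rfl⟩
  exact (e a).2

theorem fib_trans (hW : IsRep G W s) {φ φ' : (Fin r → ℂ) → Bor G V P} (h : fib V P r φ)
    (h' : fib V P r φ') (e : vproj V P (φ 0) = vproj V P (φ' 0)) :
    ∃ g : (Fin r → ℂ) ≃ₗ[ℂ] (Fin r → ℂ), φ = φ' ∘ g := by
  haveI := hW.comm
  obtain ⟨z, u, ℓ, h1, h2, h3⟩ := h
  obtain ⟨z', u', ℓ', h1', h2', h3'⟩ := h'
  obtain ⟨_, e₁⟩ := h3 0
  obtain ⟨_, e₂⟩ := h3' 0
  rw [e₁, e₂, vproj_mk, vproj_mk] at e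
  obtain ⟨g, hg⟩ := Bor.mk_eq_iff.1 e
  obtain rfl : g • z' = z := congrArg Prod.fst hg
  obtain rfl : g • u' = u := congrArg Prod.snd hg
  let m : (Fin r → ℂ) →ₗ[ℂ] W := DistribSMul.toLinearMap ℂ W g ∘ₗ ℓ'
  have hm : Injective m := (MulAction.injective g).comp h1'
  have hr : LinearMap.range ℓ = LinearMap.range m := by
    ext w
    refine (h2 w).symm.trans ⟨fun h => ?_, ?_⟩
    · have h4 := V.smul_mem g⁻¹ h
      rw [Prod.smul_mk, inv_smul_smul] at h4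
      obtain ⟨a, ha⟩ := (h2' _).1 h4
      exact ⟨a, show g • ℓ' a = w by rw [ha, smul_inv_smul]⟩
    · rintro ⟨a, rfl⟩
      exact V.smul_mem g ((h2' _).2 ⟨a, rfl⟩)
  let γ := (LinearEquiv.ofInjective ℓ h1).trans
    ((LinearEquiv.ofEq _ _ hr).trans (LinearEquiv.ofInjective m hm).symm)
  have hγ : ∀ a, m (γ a) = ℓ a := fun a =>
    congrArg Subtype.val ((LinearEquiv.ofInjective m hm).apply_symm_apply _)
  refine ⟨γ, funext fun a => ?_⟩
  obtain ⟨_, e₃⟩ := h3 a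
  obtain ⟨_, e₄⟩ := h3' (γ a)
  rw [comp_apply, e₃, e₄]
  exact Bor.mk_eq_iff.2 ⟨g, Prod.ext (Subtype.ext (Prod.ext rfl (hγ a))) rfl⟩

variable [Prin G P] [ContinuousSMul G Z]

theorem isVB_fib (hW : IsRep G W s) (hV : IsSubVB V r) :
    IsVB r (vproj V P) {x | ∃ y : V × P, y.1.1.2 = 0 ∧ x = Bor.mk G y} (fib V P) := by
  haveI := hW.contSub V
  haveI : IsTopologicalGroup G := Prin.grp P
  refine ⟨continuous_vproj, fun x => ?_, fun r' φ => fib_rank hV, fun φ φ' => fib_trans hW⟩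
  obtain ⟨⟨z₀, u₀⟩, rfl⟩ := Bor.mk_surjective x
  obtain ⟨U, hU, hu, hUi, τ, hc, hτ⟩ := Prin.loc (G := G) u₀
  obtain ⟨e⟩ := hW.lin
  obtain ⟨N, ψ, q, hN, hz₀, hψ, hq⟩ :=
    Eul.exists_frame e hV.closed hV.fibre ((τ u₀)⁻¹ • z₀)
  have hs : ∀ b : Bor G Z P, (Bor.sec τ b).2 ∈ U → ContinuousAt (Bor.sec τ) b := fun b hb => by
    have := Bor.continuousAt_sec (Z := Z) hU hc hτ hb
    rwa [Bor.mk_sec] at this
  have h1 : ∀ b : Bor G Z P, (Bor.sec τ b).2 ∈ U → τ (Bor.sec τ b).2 = 1 := fun b hb => by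
    have h2 : b.out.2 ∈ U := by
      have := hUi (τ b.out.2) _ hb
      rwa [Bor.sec, Prod.smul_snd, smul_inv_smul] at this
    rw [Bor.sec, Prod.smul_snd, hτ _ _ h2, inv_mul_cancel]
  let N' : Set (Bor G Z P) := {b | (Bor.sec τ b).2 ∈ U ∧ (Bor.sec τ b).1 ∈ N}
  have hN' : IsOpen N' := isOpen_iff_mem_nhds.2 fun b hb =>
    inter_mem ((continuousAt_snd.comp (hs b hb.1)).preimage_mem_nhds (hU.mem_nhds hb.1))
      ((continuousAt_fst.comp (hs b hb.1)).preimage_mem_nhds (hN.mem_nhds hb.2))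
  let θ : N' × (Fin r → ℂ) → V × P := fun x =>
    (⟨((Bor.sec τ x.1.1).1, ψ (Bor.sec τ x.1.1).1 x.2), ((hq _ x.1.2.2).2 _).2 ⟨_, rfl⟩⟩,
      (Bor.sec τ x.1.1).2)
  have hs' : Continuous fun x : N' × (Fin r → ℂ) => Bor.sec τ x.1.1 :=
    continuous_iff_continuousAt.2 fun x => (hs _ x.1.2.1).comp (f := fun x : N' × (Fin r → ℂ) =>
      x.1.1) (continuous_subtype_val.comp continuous_fst).continuousAt
  have hθ : Continuous θ := by
    refine (Continuous.subtype_mk (hs'.fst.prodMk (continuous_iff_continuousAt.2 fun x => ?_))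
      _).prodMk hs'.snd
    exact (hψ ((Bor.sec τ x.1.1).1, x.2) x.1.2.2).comp
      (f := fun x : N' × (Fin r → ℂ) => ((Bor.sec τ x.1.1).1, x.2))
      (hs'.fst.prodMk continuous_snd).continuousAt
  have hp : ∀ x, vproj V P (Bor.mk G (θ x)) = x.1 := fun x => Bor.mk_sec τ x.1.1
  have hsθ : ∀ x, Bor.sec τ (Bor.mk G (θ x)) = θ x := fun x => by
    rw [Bor.sec_mk hτ (x := θ x) x.1.2.1, show τ (θ x).2 = 1 from h1 _ x.1.2.1, inv_one, one_smul]
  have hr : range (fun x => Bor.mk G (θ x)) = vproj V P ⁻¹' N' := by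
    ext b
    refine ⟨?_, fun hb => ?_⟩
    · rintro ⟨x, rfl⟩
      rw [mem_preimage, hp]
      exact x.1.2
    · obtain ⟨⟨v, u⟩, rfl⟩ := Bor.mk_surjective b
      obtain ⟨g, hg⟩ := Bor.mk_eq_iff.1 (Bor.mk_sec τ (vproj V P (Bor.mk G (v, u))))
      have h2 : ((Bor.sec τ (vproj V P (Bor.mk G (v, u)))).1, g • v.1.2) ∈ V := by
        rw [← hg]
        exact V.smul_mem g v.2
      obtain ⟨a, ha⟩ := ((hq _ hb.2).2 _).1 h2
      have h3 := congrArg Prod.fst hg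
      have h4 := congrArg Prod.snd hg
      exact ⟨(⟨_, hb⟩, a), Bor.mk_eq_iff.2 ⟨g, Prod.ext (Subtype.ext (Prod.ext h3 ha.symm)) h4⟩⟩
  refine ⟨N', fun x => Bor.mk G (θ x), ?_, ⟨hN', ⟨?_, ?_⟩, hr, hp, fun x => ?_⟩, fun y =>
    ⟨(Bor.sec τ y.1).1, (Bor.sec τ y.1).2, ψ (Bor.sec τ y.1).1,
      LeftInverse.injective (hq _ y.2.2).1, (hq _ y.2.2).2, fun a => ⟨_, rfl⟩⟩⟩
  · have := Bor.sec_mk (Z := Z) hτ (x := (z₀, u₀)) hu
    exact ⟨by rw [this]; exact hUi _ _ hu, by rw [this]; exact hz₀⟩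
  · refine Eul.isEmbedding_of_left (Ψ := fun b => (vproj V P b, q (Bor.sec τ b).1.1.2))
      (j := Prod.map Subtype.val id) (IsEmbedding.subtypeVal.prodMap IsEmbedding.id)
      (Bor.continuous_mk.comp hθ) (fun x => continuous_vproj.continuousAt.prodMk ?_) fun x => ?_
    · exact (show Continuous fun y : V × P => q y.1.1.2 by fun_prop).continuousAt.comp
        (Bor.continuousAt_sec hU hc hτ x.1.2.1)
    · refine Prod.ext (hp x) ?_
      show q (Bor.sec τ (Bor.mk G (θ x))).1.1.2 = x.2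
      rw [hsθ]
      exact (hq _ x.1.2.2).1 _
  · rw [hr]
    exact hN'.preimage continuous_vproj
  · refine mk_mem_vzero.trans ⟨fun h => ?_, fun h => ?_⟩
    · rw [← (hq _ x.1.2.2).1 x.2, show ψ _ x.2 = 0 from h, map_zero]
    · show ψ _ x.2 = 0
      rw [h, map_zero]

variable [Nice P] [Nice Z]

theorem isThom_thom (hW : IsRep G W s) (hV : IsSubVB V r) :
    IsThom {x | ∃ y : V × P, y.1.1.2 = 0 ∧ x = Bor.mk G y} (fib V P) (thom V P) :=
  haveI := hW.contSub V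
  haveI := hV.nice' hW
  (isVB_fib hW hV).epsilon_spec

theorem thom_cocycle (hW : IsRep G W s) (hV : IsSubVB V r) : supp (δ (thom V P)) = ∅ :=
  (isThom_thom hW hV).1

theorem supp_thom (hW : IsRep G W s) (hV : IsSubVB V r) : supp (thom V P) ⊆ vzero V P :=
  (isThom_thom hW hV).2.1

theorem isDeg_thom (hW : IsRep G W s) (hV : IsSubVB V r) : IsDeg (2 * r) (thom V P) :=
  (isVB_fib hW hV).thom_deg (isThom_thom hW hV)

/-- uniqueness of Thom cocycles -/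
theorem IsThom.cohom_thom (hW : IsRep G W s) (hV : IsSubVB V r) {t : Coch (Bor G V P)}
    (ht : IsThom (vzero V P) (fib V P) t) : Cohom (vzero V P) t (thom V P) :=
  haveI := hW.contSub V
  haveI := hV.nice' hW
  (isVB_fib hW hV).thom_unique ht (isThom_thom hW hV)

end level

end Vale.Agent.P291Z
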