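import Vale.Agent.P291Z.T13

/-!
# Sequences of vector spaces: colimits, compatible families of functionals, exactness
-/

namespace Vale.Agent.P291Z

open Function

theorem exact_dualMap {A B C : Type*} [AddCommGroup A] [Module ℂ A] [AddCommGroup B] [Module ℂ B]
    [AddCommGroup C] [Module ℂ C] {f : A →ₗ[ℂ] B} {g : B →ₗ[ℂ] C} (h : Function.Exact f g) :
    Function.Exact g.dualMap f.dualMap := by
  rw [LinearMap.exact_iff] at h ⊢
  rw [LinearMap.ker_dualMap_eq_dualAnnihilator_range,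
    LinearMap.range_dualMap_eq_dualAnnihilator_ker, h]

theorem dualMap_bijective {A B : Type*} [AddCommGroup A] [Module ℂ A] [AddCommGroup B]
    [Module ℂ B] {f : A →ₗ[ℂ] B} (h : Bijective f) : Bijective f.dualMap :=
  ⟨LinearMap.dualMap_injective_of_surjective h.2, LinearMap.dualMap_surjective_of_injective h.1⟩

namespace Seq

variable {V W U : ℕ → Type} [∀ M, AddCommGroup (V M)] [∀ M, Module ℂ (V M)]
  [∀ M, AddCommGroup (W M)] [∀ M, Module ℂ (W M)] [∀ M, AddCommGroup (U M)] [∀ M, Module ℂ (U M)]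
  (g : ∀ M, V M →ₗ[ℂ] V (M + 1)) (g' : ∀ M, W M →ₗ[ℂ] W (M + 1)) (g'' : ∀ M, U M →ₗ[ℂ] U (M + 1))

/-- the transition maps -/
noncomputable def tr (M N : ℕ) (h : M ≤ N) : V M →ₗ[ℂ] V N :=
  Nat.leRec (motive := fun N _ => V M →ₗ[ℂ] V N) LinearMap.id (fun N _ f => g N ∘ₗ f) h

theorem tr_self (M : ℕ) (h : M ≤ M) (v : V M) : tr g M M h v = v := by
  rw [tr, Nat.leRec_self]; rfl

theorem tr_succ {M N : ℕ} (h : M ≤ N) (h' : M ≤ N + 1) (v : V M) :
    tr g M (N + 1) h' v = g N (tr g M N h v) := by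
  rw [tr, Nat.leRec_succ _ _ h]; rfl

theorem tr_one (M : ℕ) (h : M ≤ M + 1) (v : V M) : tr g M (M + 1) h v = g M v := by
  rw [tr_succ g le_rfl, tr_self]

theorem tr_tr {L M N : ℕ} (h : L ≤ M) (h' : M ≤ N) (v : V L) :
    tr g M N h' (tr g L M h v) = tr g L N (h.trans h') v := by
  induction h' with
  | refl => rw [tr_self]
  | step h' ih => rw [tr_succ g h', ih, tr_succ g (h.trans h')]

instance : DirectedSystem V fun M N h => tr g M N h where
  map_self M v := tr_self g M _ v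
  map_map _ _ _ h h' v := tr_tr g h h' v

/-- the colimit -/
def Colim : Type := Module.DirectLimit V (tr g)

noncomputable instance : AddCommGroup (Colim g) :=
  inferInstanceAs (AddCommGroup (Module.DirectLimit V (tr g)))

noncomputable instance : Module ℂ (Colim g) :=
  inferInstanceAs (Module ℂ (Module.DirectLimit V (tr g)))

/-- the maps to the colimit -/
noncomputable def of (M : ℕ) : V M →ₗ[ℂ] Colim g := Module.DirectLimit.of ℂ ℕ V (tr g) M

theorem of_tr {M N : ℕ} (h : M ≤ N) (v : V M) : of g N (tr g M N h v) = of g M v :=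
  Module.DirectLimit.of_f

theorem of_g (M : ℕ) (v : V M) : of g (M + 1) (g M v) = of g M v := by
  rw [← tr_one g M (Nat.le_succ M), of_tr]

theorem exists_of (c : Colim g) : ∃ M v, of g M v = c := Module.DirectLimit.exists_of c

theorem exists_of_ge (c : Colim g) (N : ℕ) : ∃ M, N ≤ M ∧ ∃ v, of g M v = c := by
  obtain ⟨M, v, rfl⟩ := exists_of g c
  exact ⟨max N M, le_max_left _ _, _, of_tr g (le_max_right _ _) v⟩

theorem of_eq_zero {M : ℕ} {v : V M} : of g M v = 0 ↔ ∃ (N : ℕ) (h : M ≤ N), tr g M N h v = 0 :=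
  ⟨fun h => Module.DirectLimit.of.zero_exact h, fun ⟨N, h, e⟩ => by
    rw [← of_tr g h, e, map_zero]⟩

theorem of_eq_zero_ge {M : ℕ} {v : V M} (h : of g M v = 0) (L : ℕ) :
    ∃ (N : ℕ) (h : M ≤ N), L ≤ N ∧ tr g M N h v = 0 := by
  obtain ⟨N, h, e⟩ := (of_eq_zero g).1 h
  refine ⟨max N L, h.trans (le_max_left _ _), le_max_right _ _, ?_⟩
  rw [← tr_tr g h (le_max_left _ _), e, map_zero]

theorem tr_comm {P : Type*} [AddCommGroup P] [Module ℂ P] {φ : ∀ M, V M →ₗ[ℂ] P}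
    (h : ∀ M v, φ (M + 1) (g M v) = φ M v) {M N : ℕ} (e : M ≤ N) (v : V M) :
    φ N (tr g M N e v) = φ M v := by
  induction e with
  | refl => rw [tr_self]
  | step e ih => rw [tr_succ g e, h, ih]

/-- the universal property -/
noncomputable def lift {P : Type*} [AddCommGroup P] [Module ℂ P] (φ : ∀ M, V M →ₗ[ℂ] P)
    (h : ∀ M v, φ (M + 1) (g M v) = φ M v) : Colim g →ₗ[ℂ] P :=
  Module.DirectLimit.lift ℂ ℕ V (tr g) φ fun _ _ e v => tr_comm g h e v

theorem lift_of {P : Type*} [AddCommGroup P] [Module ℂ P] (φ : ∀ M, V M →ₗ[ℂ] P)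
    (h : ∀ M v, φ (M + 1) (g M v) = φ M v) (M : ℕ) (v : V M) :
    lift g φ h (of g M v) = φ M v := Module.DirectLimit.lift_of _ _ _

theorem hom_ext {P : Type*} [AddCommGroup P] [Module ℂ P] {f f' : Colim g →ₗ[ℂ] P}
    (h : ∀ M v, f (of g M v) = f' (of g M v)) : f = f' :=
  LinearMap.ext fun c => by
    obtain ⟨M, v, rfl⟩ := exists_of g c
    exact h M v

/-- levelwise maps which commute with the transition maps -/
def Comm (φ : ∀ M, V M →ₗ[ℂ] W M) : Prop := ∀ M v, φ (M + 1) (g M v) = g' M (φ M v)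

variable {g g' g''}

theorem Comm.comp {φ : ∀ M, V M →ₗ[ℂ] W M} {ψ : ∀ M, W M →ₗ[ℂ] U M} (h' : Comm g' g'' ψ)
    (h : Comm g g' φ) : Comm g g'' fun M => ψ M ∘ₗ φ M := fun M v => by
  rw [LinearMap.comp_apply, h, h', LinearMap.comp_apply]

theorem Comm.tr {φ : ∀ M, V M →ₗ[ℂ] W M} (h : Comm g g' φ) {M N : ℕ} (e : M ≤ N) (v : V M) :
    φ N (tr g M N e v) = tr g' M N e (φ M v) := by
  induction e with
  | refl => rw [tr_self, tr_self]
  | step e ih => rw [tr_succ g e, h, ih, tr_succ g' e]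

/-- the inverses of bijective levelwise maps -/
theorem Comm.symm {φ : ∀ M, V M ≃ₗ[ℂ] W M} (h : Comm g g' fun M => (φ M : V M →ₗ[ℂ] W M)) :
    Comm g' g fun M => ((φ M).symm : W M →ₗ[ℂ] V M) := fun M w => by
  obtain ⟨v, rfl⟩ := (φ M).surjective w
  have := h M v
  simp only [LinearEquiv.coe_coe] at this ⊢
  rw [← this, LinearEquiv.symm_apply_apply, LinearEquiv.symm_apply_apply]

/-- the induced map of colimits -/
noncomputable def Comm.map {φ : ∀ M, V M →ₗ[ℂ] W M} (h : Comm g g' φ) : Colim g →ₗ[ℂ] Colim g' :=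
  lift g (fun M => of g' M ∘ₗ φ M) fun M v => by
    rw [LinearMap.comp_apply, h, of_g, LinearMap.comp_apply]

theorem Comm.map_of {φ : ∀ M, V M →ₗ[ℂ] W M} (h : Comm g g' φ) (M : ℕ) (v : V M) :
    h.map (of g M v) = of g' M (φ M v) := lift_of _ _ _ _ _

theorem Comm.map_map {φ : ∀ M, V M →ₗ[ℂ] W M} {ψ : ∀ M, W M →ₗ[ℂ] U M} (h' : Comm g' g'' ψ)
    (h : Comm g g' φ) (c : Colim g) : h'.map (h.map c) = (h'.comp h).map c := by
  obtain ⟨M, v, rfl⟩ := exists_of g c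
  rw [h.map_of, h'.map_of, Comm.map_of, LinearMap.comp_apply]

theorem Comm.map_injective_iff {φ : ∀ M, V M →ₗ[ℂ] W M} (h : Comm g g' φ) :
    Injective h.map ↔ ∀ M v, φ M v = 0 → of g M v = 0 := by
  rw [injective_iff_map_eq_zero]
  refine ⟨fun H M v e => H _ (by rw [h.map_of, e, map_zero]), fun H c e => ?_⟩
  obtain ⟨M, v, rfl⟩ := exists_of g c
  rw [h.map_of] at e
  obtain ⟨N, hN, e⟩ := (of_eq_zero g').1 e
  rw [← of_tr g hN]
  exact H N _ (by rw [h.tr, e])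

theorem Comm.map_surjective_iff {φ : ∀ M, V M →ₗ[ℂ] W M} (h : Comm g g' φ) :
    Surjective h.map ↔ ∀ M w, ∃ N v, of g' N (φ N v) = of g' M w := by
  refine ⟨fun H M w => ?_, fun H c => ?_⟩
  · obtain ⟨c, e⟩ := H (of g' M w)
    obtain ⟨N, v, rfl⟩ := exists_of g c
    exact ⟨N, v, by rw [← h.map_of, e]⟩
  · obtain ⟨M, w, rfl⟩ := exists_of g' c
    obtain ⟨N, v, e⟩ := H M w
    exact ⟨of g N v, by rw [h.map_of, e]⟩

theorem Comm.map_injective {φ : ∀ M, V M →ₗ[ℂ] W M} (h : Comm g g' φ) {L : ℕ}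
    (H : ∀ M, L ≤ M → Injective (φ M)) : Injective h.map :=
  h.map_injective_iff.2 fun M v e => by
    have : Seq.tr g M (max L M) (le_max_right _ _) v = 0 :=
      H _ (le_max_left _ _) (by rw [h.tr, e, map_zero, map_zero])
    rw [← of_tr g (le_max_right L M), this, map_zero]

theorem Comm.map_surjective {φ : ∀ M, V M →ₗ[ℂ] W M} (h : Comm g g' φ) {L : ℕ}
    (H : ∀ M, L ≤ M → Surjective (φ M)) : Surjective h.map :=
  h.map_surjective_iff.2 fun M w => by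
    obtain ⟨v, e⟩ := H _ (le_max_left L M) (Seq.tr g' M (max L M) (le_max_right _ _) w)
    exact ⟨_, v, by rw [e, of_tr]⟩

/-- **colimits are exact** -/
theorem Comm.exact_map {φ : ∀ M, V M →ₗ[ℂ] W M} {ψ : ∀ M, W M →ₗ[ℂ] U M} (h : Comm g g' φ)
    (h' : Comm g' g'' ψ) {L : ℕ} (H : ∀ M, L ≤ M → Function.Exact (φ M) (ψ M)) :
    Function.Exact h.map h'.map := fun c => by
  constructor
  · intro e
    obtain ⟨M, w, rfl⟩ := exists_of g' c
    rw [h'.map_of] at e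
    obtain ⟨N, hN, hL, e⟩ := of_eq_zero_ge g'' e L
    rw [← h'.tr] at e
    obtain ⟨v, hv⟩ := (H N hL _).1 e
    exact ⟨of g N v, by rw [h.map_of, hv, of_tr]⟩
  · rintro ⟨c, rfl⟩
    obtain ⟨M, hM, v, rfl⟩ := exists_of_ge g c L
    rw [h.map_of, h'.map_of, (H M hM).apply_apply_eq_zero, map_zero]

variable (g)

/-- compatible families of functionals -/
def Fam : Submodule ℂ (∀ M, Module.Dual ℂ (V M)) where
  carrier := {β | ∀ M, (g M).dualMap (β (M + 1)) = β M}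
  zero_mem' _ := map_zero _
  add_mem' h h' M := by rw [Pi.add_apply, map_add, h M, h' M, Pi.add_apply]
  smul_mem' c _ h M := by rw [Pi.smul_apply, map_smul, h M, Pi.smul_apply]

theorem mem_Fam {β : ∀ M, Module.Dual ℂ (V M)} :
    β ∈ Fam g ↔ ∀ M, (g M).dualMap (β (M + 1)) = β M := Iff.rfl

theorem mem_Fam' {β : ∀ M, Module.Dual ℂ (V M)} :
    β ∈ Fam g ↔ ∀ M v, β (M + 1) (g M v) = β M v :=
  forall_congr' fun _ => LinearMap.ext_iff

/-- the family given by a functional on the colimit -/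
noncomputable def fam (φ : Module.Dual ℂ (Colim g)) (M : ℕ) : Module.Dual ℂ (V M) :=
  φ ∘ₗ of g M

theorem fam_apply (φ : Module.Dual ℂ (Colim g)) (M : ℕ) (v : V M) :
    fam g φ M v = φ (of g M v) := rfl

theorem fam_mem (φ : Module.Dual ℂ (Colim g)) : fam g φ ∈ Fam g :=
  (mem_Fam' g).2 fun M v => by rw [fam_apply, fam_apply, of_g]

theorem fam_injective : Injective (fam g) := fun _ _ h =>
  hom_ext g fun M v => LinearMap.congr_fun (congrFun h M) v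

variable {g}

theorem exists_fam {β : ∀ M, Module.Dual ℂ (V M)} (h : β ∈ Fam g) : ∃ φ, fam g φ = β :=
  ⟨lift g β ((mem_Fam' g).1 h), funext fun M => LinearMap.ext fun v =>
    lift_of g β ((mem_Fam' g).1 h) M v⟩

theorem Fam.tr {β : ∀ M, Module.Dual ℂ (V M)} (h : β ∈ Fam g) {M N : ℕ} (e : M ≤ N) (v : V M) :
    β N (tr g M N e v) = β M v := tr_comm g ((mem_Fam' g).1 h) e v

theorem Fam.eq_of_of {β : ∀ M, Module.Dual ℂ (V M)} (h : β ∈ Fam g) {M N : ℕ} {v : V M} {w : V N}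
    (e : of g M v = of g N w) : β M v = β N w := by
  obtain ⟨φ, rfl⟩ := exists_fam h
  rw [fam_apply, fam_apply, e]

/-- a family is determined by its members of large index -/
theorem Fam.ext_ge {β β' : ∀ M, Module.Dual ℂ (V M)} (h : β ∈ Fam g) (h' : β' ∈ Fam g) {L : ℕ}
    (e : ∀ M, L ≤ M → β M = β' M) : β = β' :=
  funext fun M => LinearMap.ext fun v => by
    rw [← Fam.tr h (le_max_right L M), ← Fam.tr h' (le_max_right L M), e _ (le_max_left _ _)]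

variable (g) in
/-- compatible families are the functionals on the colimit -/
noncomputable def famEquiv : Module.Dual ℂ (Colim g) ≃ₗ[ℂ] Fam g :=
  LinearEquiv.ofBijective
    { toFun := fun φ => ⟨fam g φ, fam_mem g φ⟩
      map_add' := fun _ _ => rfl
      map_smul' := fun _ _ => rfl }
    ⟨fun _ _ h => fam_injective g (congrArg Subtype.val h), fun β => by
      obtain ⟨φ, h⟩ := exists_fam β.2
      exact ⟨φ, Subtype.ext h⟩⟩

theorem famEquiv_val (φ : Module.Dual ℂ (Colim g)) : (famEquiv g φ).1 = fam g φ := rfl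

theorem Comm.fam_dual {φ : ∀ M, V M →ₗ[ℂ] W M} (h : Comm g g' φ) (γ : Module.Dual ℂ (Colim g')) :
    fam g (h.map.dualMap γ) = fun M => (φ M).dualMap (fam g' γ M) :=
  funext fun M => LinearMap.ext fun v => congrArg γ (h.map_of M v)

theorem Comm.dual_mem {φ : ∀ M, V M →ₗ[ℂ] W M} (h : Comm g g' φ) {γ : ∀ M, Module.Dual ℂ (W M)}
    (hγ : γ ∈ Fam g') : (fun M => (φ M).dualMap (γ M)) ∈ Fam g := by
  obtain ⟨γ, rfl⟩ := exists_fam hγ
  rw [← h.fam_dual]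
  exact fam_mem _ _

/-- **exactness for families** -/
theorem Comm.exists_of_exact {φ : ∀ M, V M →ₗ[ℂ] W M} {ψ : ∀ M, W M →ₗ[ℂ] U M} (h : Comm g g' φ)
    (h' : Comm g' g'' ψ) (H : Function.Exact h.map h'.map) {β : ∀ M, Module.Dual ℂ (W M)}
    (hβ : β ∈ Fam g') (e : ∀ M, (φ M).dualMap (β M) = 0) :
    ∃ γ ∈ Fam g'', ∀ M, (ψ M).dualMap (γ M) = β M := by
  obtain ⟨β, rfl⟩ := exists_fam hβ
  obtain ⟨γ, rfl⟩ := (exact_dualMap H β).1 (fam_injective g (by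
    rw [h.fam_dual]; exact funext e))
  exact ⟨fam g'' γ, fam_mem _ _, fun M => (congrFun (h'.fam_dual γ) M).symm⟩

theorem Comm.exists_of_injective {ψ : ∀ M, W M →ₗ[ℂ] U M} (h : Comm g' g'' ψ)
    (H : Injective h.map) {β : ∀ M, Module.Dual ℂ (W M)} (hβ : β ∈ Fam g') :
    ∃ γ ∈ Fam g'', ∀ M, (ψ M).dualMap (γ M) = β M := by
  obtain ⟨β, rfl⟩ := exists_fam hβ
  obtain ⟨γ, rfl⟩ := LinearMap.dualMap_surjective_of_injective H β
  exact ⟨fam g'' γ, fam_mem _ _, fun M => (congrFun (h.fam_dual γ) M).symm⟩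

theorem Comm.eq_of_surjective {ψ : ∀ M, W M →ₗ[ℂ] U M} (h : Comm g' g'' ψ)
    (H : Surjective h.map) {γ γ' : ∀ M, Module.Dual ℂ (U M)} (hγ : γ ∈ Fam g'')
    (hγ' : γ' ∈ Fam g'') (e : ∀ M, (ψ M).dualMap (γ M) = (ψ M).dualMap (γ' M)) : γ = γ' := by
  obtain ⟨γ, rfl⟩ := exists_fam hγ
  obtain ⟨γ', rfl⟩ := exists_fam hγ'
  refine congrArg _ (LinearMap.dualMap_injective_of_surjective H (fam_injective g' ?_))
  rw [h.fam_dual, h.fam_dual]
  exact funext e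

end Seq

/-! ## Sequences of cohomology groups with compact supports, with degrees -/

section deg

variable {X Y Z : ℕ → Type} [∀ M, TopologicalSpace (X M)] [∀ M, TopologicalSpace (Y M)]
  [∀ M, TopologicalSpace (Z M)]

/-- levelwise maps which send degree `k + a M` to degree `k + b M` -/
def Shift (a b : ℕ → ℤ) (φ : ∀ M, Hc (X M) →ₗ[ℂ] Hc (Y M)) : Prop :=
  ∀ M k, ∀ c ∈ Hc.deg (X M) (k + a M), φ M c ∈ Hc.deg (Y M) (k + b M)

/-- transition maps which send degree `k + a M` to degree `k + a (M + 1)` -/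
def Step (a : ℕ → ℤ) (g : ∀ M, Hc (X M) →ₗ[ℂ] Hc (X (M + 1))) : Prop :=
  ∀ M k, ∀ c ∈ Hc.deg (X M) (k + a M), g M c ∈ Hc.deg (X (M + 1)) (k + a (M + 1))

theorem comp_shift {A B : Type} [TopologicalSpace A] [TopologicalSpace B] {a b : ℤ}
    {φ : Hc A →ₗ[ℂ] Hc B} (h : ∀ k, ∀ c ∈ Hc.deg A (k + a), φ c ∈ Hc.deg B (k + b)) (k : ℤ)
    (c : Hc A) : Hc.comp (k + b) (φ c) = φ (Hc.comp (k + a) c) := by
  have := Hc.comp_map (f := φ) (r := b - a) (fun j c hc => by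
    have := h (j - a) c (by rwa [sub_add_cancel])
    rwa [show j - a + b = j + (b - a) by ring] at this) (k + a) c
  rwa [show k + a + (b - a) = k + b by ring] at this

theorem Step.comm {a : ℕ → ℤ} {g : ∀ M, Hc (X M) →ₗ[ℂ] Hc (X (M + 1))} (h : Step a g) (k : ℤ) :
    Seq.Comm g g fun M => Hc.comp (k + a M) := fun M c => comp_shift (h M) k c

theorem BM.isDeg_comp {A : Type} [TopologicalSpace A] (k : ℤ) (β : BM A) :
    BM.IsDeg k ((Hc.comp k).dualMap β) := BM.isDeg_iff.2 fun j hj c hc => by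
  rw [LinearMap.dualMap_apply, Hc.comp_of_ne hc hj.symm, map_zero]

theorem BM.IsDeg.dualMap {A B : Type} [TopologicalSpace A] [TopologicalSpace B] {a b : ℤ}
    {φ : Hc A →ₗ[ℂ] Hc B} (h : ∀ k, ∀ c ∈ Hc.deg A (k + a), φ c ∈ Hc.deg B (k + b)) {k : ℤ}
    {β : BM B} (hβ : BM.IsDeg (k + b) β) : BM.IsDeg (k + a) (φ.dualMap β) :=
  BM.isDeg_iff.2 fun j hj c hc => BM.isDeg_iff.1 hβ (j - a + b) (by omega) _
    (h (j - a) c (by rwa [sub_add_cancel]))

/-- a family which maps to a homogeneous family can be made homogeneous -/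
theorem exists_deg_of_dual {b c : ℕ → ℤ} {g'' : ∀ M, Hc (Z M) →ₗ[ℂ] Hc (Z (M + 1))}
    (hg : Step c g'') {ψ : ∀ M, Hc (Y M) →ₗ[ℂ] Hc (Z M)} (hψ : Shift b c ψ) {k : ℤ}
    {β : ∀ M, BM (Y M)} (hβ : ∀ M, BM.IsDeg (k + b M) (β M)) {γ : ∀ M, BM (Z M)}
    (hγ : γ ∈ Seq.Fam g'') (e : ∀ M, (ψ M).dualMap (γ M) = β M) :
    ∃ γ' ∈ Seq.Fam g'', (∀ M, BM.IsDeg (k + c M) (γ' M)) ∧ ∀ M, (ψ M).dualMap (γ' M) = β M :=
  ⟨fun M => (Hc.comp (k + c M)).dualMap (γ M), (hg.comm k).dual_mem hγ,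
    fun _ => BM.isDeg_comp _ _, fun M => LinearMap.ext fun v => by
      rw [LinearMap.dualMap_apply, LinearMap.dualMap_apply, comp_shift (hψ M),
        ← LinearMap.dualMap_apply, e, (hβ M).comp]⟩

/-- **exactness for homogeneous families of Borel-Moore classes** -/
theorem exists_fam_of_exact {b c : ℕ → ℤ} {g : ∀ M, Hc (X M) →ₗ[ℂ] Hc (X (M + 1))}
    {g' : ∀ M, Hc (Y M) →ₗ[ℂ] Hc (Y (M + 1))} {g'' : ∀ M, Hc (Z M) →ₗ[ℂ] Hc (Z (M + 1))}
    (hg : Step c g'') {φ : ∀ M, Hc (X M) →ₗ[ℂ] Hc (Y M)} {ψ : ∀ M, Hc (Y M) →ₗ[ℂ] Hc (Z M)}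
    (h : Seq.Comm g g' φ) (h' : Seq.Comm g' g'' ψ) (hψ : Shift b c ψ)
    (H : ∀ M, Function.Exact (φ M) (ψ M)) {k : ℤ} {β : ∀ M, BM (Y M)} (hβ : β ∈ Seq.Fam g')
    (hk : ∀ M, BM.IsDeg (k + b M) (β M)) (e : ∀ M, (φ M).dualMap (β M) = 0) :
    ∃ γ ∈ Seq.Fam g'', (∀ M, BM.IsDeg (k + c M) (γ M)) ∧ ∀ M, (ψ M).dualMap (γ M) = β M := by
  obtain ⟨γ, hγ, e⟩ := h.exists_of_exact h' (h.exact_map h' (L := 0) fun M _ => H M) hβ e
  exact exists_deg_of_dual hg hψ hk hγ e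

/-- a map which is injective on the colimits gives a surjection of homogeneous families -/
theorem exists_fam_of_injective {b c : ℕ → ℤ} {g' : ∀ M, Hc (Y M) →ₗ[ℂ] Hc (Y (M + 1))}
    {g'' : ∀ M, Hc (Z M) →ₗ[ℂ] Hc (Z (M + 1))} (hg : Step c g'')
    {ψ : ∀ M, Hc (Y M) →ₗ[ℂ] Hc (Z M)} (h' : Seq.Comm g' g'' ψ) (hψ : Shift b c ψ)
    (H : Injective h'.map) {k : ℤ} {β : ∀ M, BM (Y M)} (hβ : β ∈ Seq.Fam g')
    (hk : ∀ M, BM.IsDeg (k + b M) (β M)) :
    ∃ γ ∈ Seq.Fam g'', (∀ M, BM.IsDeg (k + c M) (γ M)) ∧ ∀ M, (ψ M).dualMap (γ M) = β M := by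
  obtain ⟨γ, hγ, e⟩ := h'.exists_of_injective H hβ
  exact exists_deg_of_dual hg hψ hk hγ e

end deg

end Vale.Agent.P291Z
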