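import Vale.Agent.P291Z.Coul1Lem

/-!
# The convolution product and the coefficient map
-/

namespace Vale.Agent.P291Z.Flav

open Set Function Quiv

variable {I E Φ : Type} {Q : Quiv I E} [Fintype Φ] [Fintype I] [Fintype E] (A : Flav Q Φ)
  {n n' d d' : ℕ} {χ χ' : I → ℤ} {k k' : ℤ}

variable {A}

/-- `β₃ = m_* (q^*)⁻¹ p^* (β₁ × β₂)` is the convolution product of `β₁` and `β₂`. -/
def ConvRel (β₁ : A.An n χ k) (β₂ : A.An n' χ' k') (β₃ : A.An (n + n') (χ + χ') (k + k')) : Prop :=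
  ∀ d, 2 * (n + n') ≤ d → ∃ c : ∀ M, BM (Bo (Q.nn Φ) (A.R2 n χ n' χ' d) M),
    IsFam (k + k' + 2 * Q.idx (χ + χ') + 2 * d * Q.dimN) c ∧ ∀ M,
      Push (A.mm M) (c M) (β₃.1 d M) ∧ ∀ d' (hd : 2 * n' ≤ d'), ∃ b b' γ γ',
        CrossG (c M) (fund _ M) b ∧ PullV lt₂ lt₂_smul b γ ∧
        CrossG (β₁.1 d M) (β₂.1 d' M) b' ∧ PullV lt lt_smul b' γ' ∧
        Gys (bmap (A.iota hd) (A.iota_smul hd) M)
          (euler (fun x => A.sig x.1) fun h x => A.sig_smul h x.1) γ' γ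

/-- `β` is the cap product of `r` with the fundamental class of the fibre over the base point. -/
def CapRel (r : RR Q Φ) (β : A.An 0 0 k) : Prop :=
  ∀ M, ∃ b, Push (toPt _ _ M) (β.1 0 M) b ∧ Cap (r.1 M) (fund _ M) b

variable (A)

/-- The convolution product. -/
noncomputable def conv : A.AA →ₗ[ℂ] A.AA →ₗ[ℂ] A.AA :=
  Classical.epsilon fun c => ∀ n χ k n' χ' k' (β₁ : A.An n χ k) (β₂ : A.An n' χ' k') β₃,
    ConvRel β₁ β₂ β₃ → c (cls β₁) (cls β₂) = cls β₃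

/-- The coefficient map `R → A_F`. -/
noncomputable def coefA : RR Q Φ →+ A.AA :=
  Classical.epsilon fun φ => ∀ r k (β : A.An 0 0 k), CapRel r β → φ r = cls β

end Vale.Agent.P291Z.Flav
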