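import Vale.Agent.P291Z.KNF

/-!
# Coordinates on `N ⊕ N^*`, continuity of the actions, the rotation
-/

set_option linter.unusedSectionVars false

namespace Vale.Agent.P291Z

open Matrix Module Vale.Agent.P291.Hik

/-- The same quiver data. -/
abbrev Quiv.qd {I E : Type} (Q : Quiv I E) : QData I E := ⟨Q.s, Q.t, Q.v, Q.w⟩

namespace Flav

open Quiv

variable {I E Φ : Type} {Q : Quiv I E} [Fintype Φ] [Fintype I] [Fintype E] {A : Flav Q Φ}

/-- The underlying linear form. -/
noncomputable def lf (p : A.ND) : Q.N ℂ →ₗ[ℂ] ℂ := ContinuousLinearMap.toLinearMap p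

/-- A linear form as a point of `N^*`. -/
noncomputable def ofLf (A : Flav Q Φ) (ℓ : Q.N ℂ →ₗ[ℂ] ℂ) : A.ND :=
  LinearMap.toContinuousLinearMap ℓ

theorem lf_ofLf (ℓ : Q.N ℂ →ₗ[ℂ] ℂ) : lf (ofLf A ℓ) = ℓ := rfl

theorem lf_ext {p q : A.ND} (h : ∀ s, lf p s = lf q s) : p = q := ContinuousLinearMap.ext h

theorem lf_add (p q : A.ND) : lf (p + q) = lf p + lf q := rfl

theorem lf_sub (p q : A.ND) : lf (p - q) = lf p - lf q := rfl

theorem lf_smul (c : ℂ) (p : A.ND) : lf (c • p) = c • lf p := rfl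

theorem lf_act (g : GG (Q.nn Φ)) (p : A.ND) (s : Q.N ℂ) : lf (g • p) s = lf p (A.rep g⁻¹ s) := rfl

theorem mu_def (z : A.NN × A.ND) (ξ : Q.En ℂ) : mu z ξ = lf z.2 (Q.lie ξ z.1) := rfl

theorem lf_apply (p : A.ND) (s : Q.N ℂ) :
    lf p s = ∑ e, (yy p e * s.1 e).trace + ∑ i, (ii p i * s.2 i).trace := by
  classical
  have e : s = ∑ e, ∑ a, ∑ b, s.1 e b a • ((Pi.single e (Matrix.single b a 1), 0) : Q.N ℂ) +
      ∑ i, ∑ a, ∑ l, s.2 i l a • ((0, Pi.single i (Matrix.single l a 1)) : Q.N ℂ) := by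
    refine Prod.ext (funext fun e => ?_) (funext fun i => ?_)
    · simp only [Prod.fst_add, Prod.fst_sum, Prod.smul_fst, smul_zero, Finset.sum_const_zero,
        add_zero, Finset.sum_apply, Pi.smul_apply]
      rw [Finset.sum_eq_single e (fun e' _ h => by simp [Pi.single_eq_of_ne h.symm])
        (fun h => absurd (Finset.mem_univ _) h), Finset.sum_comm]
      simp only [Pi.single_eq_same, smul_single, smul_eq_mul, mul_one]
      exact matrix_eq_sum_single _
    · simp only [Prod.snd_add, Prod.snd_sum, Prod.smul_snd, smul_zero, Finset.sum_const_zero,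
        zero_add, Finset.sum_apply, Pi.smul_apply]
      rw [Finset.sum_eq_single i (fun e' _ h => by simp [Pi.single_eq_of_ne h.symm])
        (fun h => absurd (Finset.mem_univ _) h), Finset.sum_comm]
      simp only [Pi.single_eq_same, smul_single, smul_eq_mul, mul_one]
      exact matrix_eq_sum_single _
  conv_lhs => rw [e]
  simp only [map_add, map_sum, map_smul, smul_eq_mul, Matrix.trace, diag_apply, mul_apply]
  congr 1 <;>
  exact Finset.sum_congr rfl fun _ _ => Finset.sum_congr rfl fun _ _ =>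
    Finset.sum_congr rfl fun _ _ => mul_comm _ _

/-- The vector that represents a linear form. -/
noncomputable def sharp (p : A.ND) : Q.N ℂ := (fun e => (yy p e)ᴴ, fun i => (ii p i)ᴴ)

theorem lf_eq_hN (p : A.ND) (s : Q.N ℂ) : lf p s = hN s (sharp p) := by
  rw [lf_apply, hN]
  simp only [sharp, conjTranspose_conjTranspose]
  congr 1 <;> exact Finset.sum_congr rfl fun _ _ => trace_mul_comm _ _

/-- The linear form given by a vector. -/
noncomputable def flat (A : Flav Q Φ) (s : Q.N ℂ) : A.ND :=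
  ofLf A ⟨⟨fun x => hN x s, fun a b => hN_add_left a b s⟩, fun c a => hN_smul_left c a s⟩

theorem lf_flat (s x : Q.N ℂ) : lf (flat A s) x = hN x s := rfl

theorem sharp_flat (s : Q.N ℂ) : sharp (flat A s) = s :=
  hN_ext fun x => by rw [← lf_eq_hN, lf_flat]

theorem flat_sharp (p : A.ND) : flat A (sharp p) = p :=
  lf_ext fun x => by rw [lf_flat, lf_eq_hN]

theorem yy_flat (s : Q.N ℂ) (e : E) : yy (flat A s) e = (s.1 e)ᴴ := by
  rw [← conjTranspose_conjTranspose (yy _ e)]
  exact congrArg (fun x : Q.N ℂ => (x.1 e)ᴴ) (sharp_flat s)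

theorem ii_flat (s : Q.N ℂ) (i : I) : ii (flat A s) i = (s.2 i)ᴴ := by
  rw [← conjTranspose_conjTranspose (ii _ i)]
  exact congrArg (fun x : Q.N ℂ => (x.2 i)ᴴ) (sharp_flat s)

/-- The coordinates of a point. -/
noncomputable def pt (z : A.NN × A.ND) : Q.qd.Pt ℂ := ⟨z.1.1, yy z.2, z.1.2, ii z.2⟩

/-- The point with given coordinates. -/
noncomputable def unpt (A : Flav Q Φ) (z : Q.qd.Pt ℂ) : A.NN × A.ND :=
  ((z.x, z.j), flat A (fun e => (z.y e)ᴴ, fun i => (z.i i)ᴴ))

theorem pt_unpt (z : Q.qd.Pt ℂ) : pt (unpt A z) = z :=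
  KN.pt_ext (fun _ => rfl)
    (fun e => (yy_flat (A := A) (fun e => (z.y e)ᴴ, fun i => (z.i i)ᴴ) e).trans
      (conjTranspose_conjTranspose (z.y e))) (fun _ => rfl)
    fun i => (ii_flat (A := A) (fun e => (z.y e)ᴴ, fun i => (z.i i)ᴴ) i).trans
      (conjTranspose_conjTranspose (z.i i))

theorem unpt_pt (z : A.NN × A.ND) : unpt A (pt z) = z := Prod.ext rfl (flat_sharp z.2)

theorem pt_injective : Function.Injective (pt : A.NN × A.ND → _) :=
  Function.LeftInverse.injective unpt_pt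

theorem mu_pt (z : A.NN × A.ND) (ξ : Q.En ℂ) : (pt z).mu ξ = mu z ξ := by
  rw [mu_def, lf_apply, QData.Pt.mu, sub_eq_add_neg, ← Finset.sum_neg_distrib]
  congr 1
  refine Finset.sum_congr rfl fun i _ => ?_
  rw [← trace_neg, ← Matrix.mul_neg]
  rfl

theorem st_pt (ν : I → ℤ) (z : A.NN × A.ND) : (pt z).St ν ↔ St ν z := Iff.rfl

theorem ss_pt (ν : I → ℤ) (z : A.NN × A.ND) : (pt z).SS ν ↔ SemiSt ν z := Iff.rfl

theorem muR_pt (z : A.NN × A.ND) (ξ : Q.En ℂ) : KN.muR (pt z) ξ =
    hN (Q.lie ξ z.1) z.1 - hN (Q.lie ξ (sharp z.2)) (sharp z.2) := by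
  have k1 : ∀ {m n : Type} [Fintype m] [Fintype n] (x : Matrix m n ℂ) (a : Matrix n n ℂ)
      (y : Matrix n m ℂ), (x * a * y).trace = (a * (y * x)).trace := by
    intro m n _ _ x a y
    rw [Matrix.mul_assoc, trace_mul_comm, Matrix.mul_assoc]
  simp only [KN.muR, hN, pt, Quiv.lie, sharp, LinearMap.coe_mk, AddHom.coe_mk, Matrix.sub_mul,
    Matrix.neg_mul, trace_sub, trace_neg, conjTranspose_conjTranspose, Finset.sum_sub_distrib,
    Finset.sum_neg_distrib, k1, Matrix.mul_assoc (ξ _)]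
  ring

/-! ### Linear changes of coordinates -/

/-- The map induced by an automorphism `T` of `N` with inverse `T'`. -/
noncomputable def tw (T T' : Module.End ℂ (Q.N ℂ)) (z : A.NN × A.ND) : A.NN × A.ND :=
  (T z.1, ofLf A (lf z.2 ∘ₗ T'))

theorem smul_eq_tw (g : GG (Q.nn Φ)) (z : A.NN × A.ND) : g • z = tw (A.rep g) (A.rep g⁻¹) z := rfl

theorem tw_tw (T T' S S' : Module.End ℂ (Q.N ℂ)) (z : A.NN × A.ND) :
    tw T T' (tw S S' z) = tw (T * S) (S' * T') z := rfl

theorem tw_one (z : A.NN × A.ND) : tw 1 1 z = z := rfl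

theorem pt_tw_gauge {g h : Q.En ℂ} (hg : g * h = 1) (z : A.NN × A.ND) :
    pt (tw (Q.gauge g) (Q.gauge h) z) = KN.act g h (pt z) := by
  have h1 : ∀ i, (g i)⁻¹ = h i := fun i => Matrix.inv_eq_right_inv (congrFun hg i)
  have h2 : sharp (ofLf A (lf z.2 ∘ₗ Q.gauge h)) = Q.gauge (star h) (sharp z.2) :=
    hN_ext fun s => by rw [← lf_eq_hN, ← hN_gauge, ← lf_eq_hN]; rfl
  have h3 : ∀ i, ((h i)ᴴ)⁻¹ = (g i)ᴴ := fun i => Matrix.inv_eq_right_inv (by
    rw [← conjTranspose_mul, show g i * h i = 1 from congrFun hg i, conjTranspose_one])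
  refine KN.pt_ext (fun e => ?_) (fun e => ?_) (fun i => ?_) fun i => ?_
  · change g _ * z.1.1 e * (g _)⁻¹ = _
    rw [h1]; rfl
  · have h4 : (yy (ofLf A (lf z.2 ∘ₗ Q.gauge h)) e)ᴴ =
        (h (Q.t e))ᴴ * (yy z.2 e)ᴴ * ((h (Q.s e))ᴴ)⁻¹ := congrArg (fun x : Q.N ℂ => x.1 e) h2
    rw [h3, ← conjTranspose_mul, ← conjTranspose_mul, ← Matrix.mul_assoc] at h4
    exact conjTranspose_injective h4
  · change z.1.2 i * (g _)⁻¹ = _
    rw [h1]; rfl
  · have h4 : (ii (ofLf A (lf z.2 ∘ₗ Q.gauge h)) i)ᴴ =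
        (ii z.2 i)ᴴ * ((h i)ᴴ)⁻¹ := congrArg (fun x : Q.N ℂ => x.2 i) h2
    rw [h3, ← conjTranspose_mul] at h4
    exact conjTranspose_injective h4

theorem mu_tw {T T' : Module.End ℂ (Q.N ℂ)} (hT : T' * T = 1)
    (hc : ∀ ξ, T * Q.lie ξ = Q.lie ξ * T) (z : A.NN × A.ND) (ξ : Q.En ℂ) :
    mu (tw T T' z) ξ = mu z ξ := by
  change lf z.2 ((T' * (Q.lie ξ * T)) z.1) = _
  rw [← hc, ← mul_assoc, hT, one_mul]
  rfl

theorem sharp_unitary {T T' : Module.End ℂ (Q.N ℂ)} (hT : T * T' = 1)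
    (hu : ∀ s s', hN (T s) (T s') = hN s s') (p : A.ND) :
    sharp (ofLf A (lf p ∘ₗ T')) = T (sharp p) := hN_ext fun s => by
  rw [← lf_eq_hN, show s = T (T' s) from (congrArg (· s) hT).symm, hu, ← lf_eq_hN,
    show T (T' s) = s from congrArg (· s) hT]
  rfl

theorem muR_tw {T T' : Module.End ℂ (Q.N ℂ)} (hT : T * T' = 1)
    (hu : ∀ s s', hN (T s) (T s') = hN s s') (hc : ∀ ξ, T * Q.lie ξ = Q.lie ξ * T)
    (z : A.NN × A.ND) (ξ : Q.En ℂ) : KN.muR (pt (tw T T' z)) ξ = KN.muR (pt z) ξ := by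
  have h1 : ∀ s, Q.lie ξ (T s) = T (Q.lie ξ s) := fun s => (congrArg (· s) (hc ξ)).symm
  have h2 : ∀ (s : Q.N ℂ) (p : A.ND), hN (Q.lie ξ (T s)) (T s) -
      hN (Q.lie ξ (sharp (ofLf A (lf p ∘ₗ T')))) (sharp (ofLf A (lf p ∘ₗ T'))) =
      hN (Q.lie ξ s) s - hN (Q.lie ξ (sharp p)) (sharp p) := fun s p => by
    rw [sharp_unitary hT hu, h1, h1, hu, hu]
  rw [muR_pt, muR_pt]
  exact h2 z.1 z.2

/-- The rotation. -/
noncomputable def rotZ (z : A.NN × A.ND) : A.NN × A.ND := unpt A (KN.rot (pt z))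

/-- The inverse rotation. -/
noncomputable def unrotZ (z : A.NN × A.ND) : A.NN × A.ND := unpt A (KN.unrot (pt z))

theorem pt_rotZ (z : A.NN × A.ND) : pt (rotZ z) = KN.rot (pt z) := pt_unpt _

theorem pt_unrotZ (z : A.NN × A.ND) : pt (unrotZ z) = KN.unrot (pt z) := pt_unpt _

theorem unrotZ_rotZ (z : A.NN × A.ND) : unrotZ (rotZ z) = z := by
  rw [unrotZ, pt_rotZ, KN.unrot_rot, unpt_pt]

theorem rotZ_unrotZ (z : A.NN × A.ND) : rotZ (unrotZ z) = z := by
  rw [rotZ, pt_unrotZ, KN.rot_unrot, unpt_pt]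

theorem rotZ_eq (z : A.NN × A.ND) :
    rotZ z = ((show Q.N ℂ from z.1) - sharp z.2, z.2 + flat A z.1) := by
  apply pt_injective
  rw [pt_rotZ]
  refine KN.pt_ext (fun _ => rfl) (fun e => ?_) (fun _ => rfl) fun i => ?_
  · exact congrArg (yy z.2 e + ·) (yy_flat (A := A) z.1 e).symm
  · exact congrArg (ii z.2 i + ·) (ii_flat (A := A) z.1 i).symm

theorem rotZ_tw {T T' : Module.End ℂ (Q.N ℂ)} (hT : T * T' = 1)
    (hu : ∀ s s', hN (T s) (T s') = hN s s') (z : A.NN × A.ND) :
    rotZ (tw T T' z) = tw T T' (rotZ z) := by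
  have h1 : ∀ (x : Q.N ℂ) (p : A.ND), T x - sharp (ofLf A (lf p ∘ₗ T')) = T (x - sharp p) :=
    fun x p => by rw [sharp_unitary hT hu, map_sub]
  have h2 : ∀ x s : Q.N ℂ, hN s (T x) = hN (T' s) x := fun x s => by
    rw [← hu (T' s), show T (T' s) = s from congrArg (· s) hT]
  rw [rotZ_eq, rotZ_eq]
  exact Prod.ext (h1 z.1 z.2) (lf_ext fun s => congrArg (lf z.2 (T' s) + ·) (h2 z.1 s))

/-! ### Continuity -/

variable {T : Type*} [TopologicalSpace T]

theorem continuous_lf (s : Q.N ℂ) : Continuous fun p : A.ND => lf p s :=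
  continuous_eval_const (F := Q.N ℂ →L[ℂ] ℂ) s

theorem continuous_yy (e : E) : Continuous fun p : A.ND => yy p e :=
  continuous_matrix fun _ _ => continuous_lf _

theorem continuous_ii (i : I) : Continuous fun p : A.ND => ii p i :=
  continuous_matrix fun _ _ => continuous_lf _

theorem continuous_hN {a b : T → Q.N ℂ} (ha : Continuous a) (hb : Continuous b) :
    Continuous fun τ => hN (a τ) (b τ) := by
  unfold hN
  fun_prop

theorem continuous_sharp : Continuous (sharp : A.ND → Q.N ℂ) :=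
  (continuous_pi fun e => (continuous_yy e).matrix_conjTranspose).prodMk
    (continuous_pi fun i => (continuous_ii i).matrix_conjTranspose)

theorem continuous_lf₂ {p : T → A.ND} {s : T → Q.N ℂ} (hp : Continuous p) (hs : Continuous s) :
    Continuous fun τ => lf (p τ) (s τ) := by
  simp only [lf_eq_hN]
  exact continuous_hN hs (continuous_sharp.comp hp)

theorem continuous_flat : Continuous (flat A) := by
  let ℓ : (Q.Co → ℂ) →ₗ[ℂ] (Q.N ℂ →L[ℂ] ℂ) :=
    { toFun := fun c => flat A (Q.co.symm (star c))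
      map_add' := fun a b => lf_ext (A := A) fun x => by
        change hN x _ = hN x _ + hN x _
        simp only [hN_eq, LinearEquiv.apply_symm_apply, star_star, add_dotProduct]
      map_smul' := fun c a => lf_ext (A := A) fun x => by
        change hN x _ = c * hN x _
        simp only [hN_eq, LinearEquiv.apply_symm_apply, star_star, smul_dotProduct, smul_eq_mul] }
  have h1 : Continuous fun s : Q.N ℂ => ℓ (star (Q.co s)) :=
    ℓ.continuous_of_finiteDimensional.comp (Q.co.toLinearMap.continuous_of_finiteDimensional).star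
  refine h1.congr fun s => ?_
  change flat A (Q.co.symm (star (star (Q.co s)))) = _
  rw [star_star, LinearEquiv.symm_apply_apply]

theorem continuous_ND {p : T → A.ND} (h : ∀ s, Continuous fun τ => lf (p τ) s) : Continuous p := by
  have h1 : Continuous fun τ => sharp (p τ) :=
    (continuous_pi fun e => (continuous_matrix fun _ _ => h _).matrix_conjTranspose).prodMk
      (continuous_pi fun i => (continuous_matrix fun _ _ => h _).matrix_conjTranspose)
  simpa only [Function.comp_def, flat_sharp] using (continuous_flat (A := A)).comp h1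

theorem cont_pt {z : T → A.NN × A.ND} (hz : Continuous z) : KN.Cont fun τ => pt (z τ) :=
  ⟨fun e => (continuous_apply e).comp (continuous_fst.comp hz.fst),
    fun e => (continuous_yy e).comp hz.snd,
    fun i => (continuous_apply i).comp (continuous_snd.comp hz.fst),
    fun i => (continuous_ii i).comp hz.snd⟩

theorem continuous_unpt {z : T → Q.qd.Pt ℂ} (hz : KN.Cont z) :
    Continuous fun τ => unpt A (z τ) :=
  ((continuous_pi hz.x).prodMk (continuous_pi hz.j)).prodMk (continuous_flat.comp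
    ((continuous_pi fun e => (hz.y e).matrix_conjTranspose).prodMk
      (continuous_pi fun i => (hz.i i).matrix_conjTranspose)))

theorem continuous_rotZ : Continuous (rotZ : A.NN × A.ND → _) :=
  continuous_unpt (cont_pt continuous_id).rot

theorem continuous_unrotZ : Continuous (unrotZ : A.NN × A.ND → _) :=
  continuous_unpt (cont_pt continuous_id).unrot

theorem continuous_tw (S S' : Module.End ℂ (Q.N ℂ)) :
    Continuous (tw S S' : A.NN × A.ND → _) :=
  (S.continuous_of_finiteDimensional.comp continuous_fst).prodMk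
    (continuous_ND fun s => (continuous_lf (S' s)).comp continuous_snd)

theorem continuous_rep {g : T → GG (Q.nn Φ)} {s : T → Q.N ℂ} (hg : Continuous g)
    (hs : Continuous s) : Continuous fun τ => A.rep (g τ) (s τ) := by
  have h1 : Continuous fun τ => fl Q Φ (g τ) := continuous_pi fun a =>
    GeneralLinearGroup.continuous_det.comp ((continuous_apply (Sum.inr a)).comp hg)
  have h2 : Continuous fun τ => A.ρ (fl Q Φ (g τ)) (s τ) := A.continuous_rho.comp (h1.prodMk hs)
  have h3 : ∀ i, Continuous fun τ => ga Q Φ (g τ) i := fun i =>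
    Units.continuous_val.comp ((continuous_apply (Sum.inl i)).comp hg)
  have h4 : ∀ i, Continuous fun τ => (ga Q Φ (g τ) i)⁻¹ := fun i => by
    have := Units.continuous_coe_inv.comp ((continuous_apply (Sum.inl i)).comp hg)
    exact this.congr fun τ => Matrix.coe_units_inv _
  exact (continuous_pi fun e => ((h3 _).matrix_mul ((continuous_apply e).comp h2.fst)).matrix_mul
    (h4 _)).prodMk (continuous_pi fun i => ((continuous_apply i).comp h2.snd).matrix_mul (h4 _))

theorem continuousSMul_NN : ContinuousSMul (GG (Q.nn Φ)) A.NN :=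
  ⟨continuous_rep (A := A) (T := GG (Q.nn Φ) × Q.N ℂ) (g := fun p => p.1) (s := fun p => p.2)
    continuous_fst continuous_snd⟩

theorem continuousSMul_ND : ContinuousSMul (GG (Q.nn Φ)) A.ND :=
  ⟨continuous_ND (T := GG (Q.nn Φ) × A.ND) (p := fun p => p.1 • p.2) fun s =>
    continuous_lf₂ (T := GG (Q.nn Φ) × A.ND) (p := fun p => p.2) (s := fun p => A.rep p.1⁻¹ s)
      continuous_snd (continuous_rep (g := fun p : GG (Q.nn Φ) × A.ND => p.1⁻¹) (s := fun _ => s)
        continuous_fst.inv continuous_const)⟩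

end Flav

end Vale.Agent.P291Z
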