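import Vale.Agent.P291Z.QL.PolyL

/-!
# Invariance lemmas for the spaces of lattices and triples
-/

set_option linter.unusedSectionVars false

namespace Vale.Agent.P291Z

open Set Function Matrix

section ev

variable {X : Type} [TopologicalSpace X]

theorem ev_zero (a : Coch X) : ev (0 : BM X) a = 0 := by
  unfold ev; split_ifs <;> rfl

theorem ev_add (β β' : BM X) (a : Coch X) : ev (β + β') a = ev β a + ev β' a := by
  unfold ev; split_ifs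
  · rfl
  · exact (add_zero _).symm

theorem ev_smul (c : ℂ) (β : BM X) (a : Coch X) : ev (c • β) a = c * ev β a := by
  unfold ev; split_ifs
  · rfl
  · exact (mul_zero _).symm

variable {Y : Type} [TopologicalSpace Y]

theorem Gys.zero (i : X → Y) (t : Coch Y) : Gys i t 0 0 := fun a _ _ => by
  rw [ev_zero, ev_zero]

theorem Gys.add {i : X → Y} {t : Coch Y} {β₁ β₂ : BM Y} {γ₁ γ₂ : BM X} (h₁ : Gys i t β₁ γ₁)
    (h₂ : Gys i t β₂ γ₂) : Gys i t (β₁ + β₂) (γ₁ + γ₂) := fun a ha ha' => by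
  rw [ev_add, ev_add, h₁ a ha ha', h₂ a ha ha']

theorem Gys.smul {i : X → Y} {t : Coch Y} {β : BM Y} {γ : BM X} (c : ℂ) (h : Gys i t β γ) :
    Gys i t (c • β) (c • γ) := fun a ha ha' => by
  rw [ev_smul, ev_smul, h a ha ha']

theorem IsFam.zero {J : Type} [Fintype J] {n : J → ℕ} {Z : Type} [TopologicalSpace Z]
    [MulAction (GG n) Z] (k : ℤ) : IsFam k (fun M => (0 : BM (Bo n Z M))) :=
  fun _ => ⟨Gys.zero _ _, fun _ a _ _ => ev_zero a⟩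

theorem IsFam.add {J : Type} [Fintype J] {n : J → ℕ} {Z : Type} [TopologicalSpace Z]
    [MulAction (GG n) Z] {k : ℤ} {β β' : ∀ M, BM (Bo n Z M)} (h : IsFam k β) (h' : IsFam k β') :
    IsFam k (β + β') :=
  fun M => ⟨(h M).1.add (h' M).1, fun j a hj ha => by
    rw [Pi.add_apply, ev_add, (h M).2 j a hj ha, (h' M).2 j a hj ha, add_zero]⟩

theorem IsFam.smul {J : Type} [Fintype J] {n : J → ℕ} {Z : Type} [TopologicalSpace Z]
    [MulAction (GG n) Z] {k : ℤ} {β : ∀ M, BM (Bo n Z M)} (c : ℂ) (h : IsFam k β) :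
    IsFam k (c • β) :=
  fun M => ⟨(h M).1.smul c, fun j a hj ha => by
    rw [Pi.smul_apply, ev_smul, (h M).2 j a hj ha, mul_zero]⟩

end ev

namespace Flav

open Quiv

variable {I E Φ : Type} {Q : Quiv I E} [Fintype Φ] (A : Flav Q Φ)

theorem smul_lat_one (g : GG (Q.nn Φ)) : g • (lat 1 : Q.Lat) = lat 1 := by
  rw [QL.smul_lat, QL.mulL_lat, mul_one, ← QL.lat_mul_cst 1 (QL.ga_mul_inv g), one_mul]

theorem Rel_smul (g : GG (Q.nn Φ)) {n : ℕ} {χ : I → ℤ} {L L' : Q.Lat} (h : Rel n χ L L') :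
    Rel n χ (g • L) (g • L') :=
  QL.rel_mulL (QL.det_cst_ga g) h

theorem Rel_smul_one (g : GG (Q.nn Φ)) {n : ℕ} {χ : I → ℤ} {L : Q.Lat} (h : Rel n χ (lat 1) L) :
    Rel n χ (lat 1) (g • L) := by
  have := Rel_smul g h
  rwa [smul_lat_one] at this

theorem Rel_trans {n n' : ℕ} {χ χ' : I → ℤ} {L L' L'' : Q.Lat} (h : Rel n χ L L')
    (h' : Rel n' χ' L' L'') : Rel (n + n') (χ + χ') L L'' :=
  QL.rel_trans h h'

theorem Rel_succ {n : ℕ} {χ : I → ℤ} {L L' : Q.Lat} (h : Rel n χ L L') : Rel (n + 1) χ L L' :=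
  QL.rel_mono n.le_succ h

theorem Rel_inv {n : ℕ} {χ : I → ℤ} {g : Q.En KK} {L L' : Q.Lat} (hg : lat g = L)
    (h : Rel n χ L L') : Rel n χ (lat 1) (mulL g⁻¹ L') :=
  QL.rel_inv hg h

theorem Pres_smul [Fintype I] [Fintype E] (g : GG (Q.nn Φ)) {n : ℕ} {χ : I → ℤ} {L₀ L : Q.Lat}
    (hL : Rel n χ L₀ L) {d : ℕ} {s : ℕ → A.NN} (h : Pres L (poly d s)) :
    Pres (g • L) (poly d (g • s :)) :=
  QL.pres_smul A g hL h

theorem poly_succ {d : ℕ} {s : ℕ → Q.N ℂ} (h : s d = 0) : poly (d + 1) s = poly d s :=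
  QL.poly_succ h

theorem lat_laur_smul {n : ℕ} (h : GG (Sum.elim (Q.nn Φ) (Q.nn Φ))) (w : WW Q Φ n) :
    lat (laur (h • w).1) = fstG _ _ h • lat (laur w.1) := by
  rw [QL.laur_smul, QL.lat_mul_cst _ (QL.ga_inv_mul _), QL.smul_lat, QL.mulL_lat]

theorem smul_le_smul (g : GG (Q.nn Φ)) {L L' : Q.Lat} (h : L ≤ L') : g • L ≤ g • L' :=
  QL.mulL_mono _ h

theorem lat_laur_zero_le {n : ℕ} (L : Q.Lat) : lat (laur (0 : WW Q Φ n).1) ≤ L := by
  rw [QL.laur_zero]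
  exact QL.lat_zero_le L

theorem ne_zero_smul {n : ℕ} (h : GG (Sum.elim (Q.nn Φ) (Q.nn Φ))) {w : WW Q Φ n}
    (hw : ∀ a, w.2 a ≠ 0) (a : Φ) : (h • w).2 a ≠ 0 :=
  mul_ne_zero (mul_ne_zero (Units.ne_zero _) (hw a)) (Units.ne_zero _)

theorem mulL_inv_smul {n : ℕ} (h : GG (Sum.elim (Q.nn Φ) (Q.nn Φ))) (w : WW Q Φ n) (L : Q.Lat) :
    mulL (laur (h • w).1)⁻¹ (fstG _ _ h • L) = sndG _ _ h • mulL (laur w.1)⁻¹ L := by
  rw [QL.laur_smul_inv, QL.smul_lat, QL.smul_lat, ← mulL_mul, ← mulL_mul, mul_assoc, mul_assoc,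
    ← cst_mul, QL.ga_inv_mul, cst_one, mul_one]

theorem tr_smul [Fintype I] [Fintype E] {n m : ℕ} {χ : I → ℤ}
    (h : GG (Sum.elim (Q.nn Φ) (Q.nn Φ))) {w : WW Q Φ n}
    (hw : ∀ a, w.2 a ≠ 0) {L : Q.Lat} (hg : lat (laur w.1) = L) (hL : Rel m χ (lat 1) L) (d : ℕ)
    (s : ℕ → A.NN) (k : ℕ) :
    A.ρ (fun a => Units.mk0 _ (ne_zero_smul h hw a))⁻¹
      (coef (Q.gauge (laur (h • w).1)⁻¹ (poly d (fstG _ _ h • s :))) k) =
    A.rep (sndG _ _ h) (A.ρ (fun a => Units.mk0 _ (hw a))⁻¹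
      (coef (Q.gauge (laur w.1)⁻¹ (poly d s)) k)) := by
  have e : (fun a => Units.mk0 _ (ne_zero_smul h hw a)) = fl Q Φ (fstG _ _ h) *
      (fun a => Units.mk0 _ (hw a)) * (fl Q Φ (sndG _ _ h))⁻¹ := by
    rw [← map_inv, ← map_inv]
    exact funext fun a => Units.ext rfl
  rw [e]
  exact QL.tr_smul A h (QL.det_of_rel_right hg hL) _ d s k

theorem Pres_tr [Fintype I] [Fintype E] {n' d d' : ℕ} (hd : 2 * n' ≤ d') {χ' : I → ℤ}
    {g : Q.En KK} {L L' : Q.Lat}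
    (hg : lat g = L) (hL : Rel n' χ' L L') (f : Φ → ℂˣ) {s : ℕ → Q.N ℂ} (h : Pres L (poly d s))
    (h' : Pres L' (poly d s)) :
    Pres (mulL g⁻¹ L') (poly d' fun k =>
      if k < d' then A.ρ f (coef (Q.gauge g⁻¹ (poly d s)) k) else 0) :=
  QL.pres_tr A hd hg hL f h h'

end Flav

end Vale.Agent.P291Z
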