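import Vale.Agent.P291Z.GL0
import Vale.Agent.P291Z.Sys1
import Vale.Agent.P291Z.Coul2
import Vale.Agent.P291Z.KNB0

set_option linter.all false

/-!
# Products of systems, representations of `GG n`
-/

namespace Vale.Agent.P291Z

open Set Function Topology

theorem IsRep.continuous_linear {G G' W W' : Type} [Group G] [TopologicalSpace G] [AddCommGroup W]
    [Module ℂ W] [TopologicalSpace W] [DistribMulAction G W] [Group G'] [TopologicalSpace G']
    [AddCommGroup W'] [Module ℂ W'] [TopologicalSpace W'] [DistribMulAction G' W'] {r r' : ℕ}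
    (h : IsRep G W r) (h' : IsRep G' W' r') (L : W →ₗ[ℂ] W') : Continuous L := by
  obtain ⟨e⟩ := h.lin
  obtain ⟨e'⟩ := h'.lin
  have := (e'.toLinearEquiv.toLinearMap ∘ₗ L ∘ₗ
    e.symm.toLinearEquiv.toLinearMap).continuous_of_finiteDimensional
  exact (e'.symm.continuous.comp (this.comp e.continuous)).congr fun x => by simp

theorem IsRep.finrank_eq {G W : Type} [Group G] [TopologicalSpace G] [AddCommGroup W]
    [Module ℂ W] [TopologicalSpace W] [DistribMulAction G W] {r : ℕ} (h : IsRep G W r) :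
    Module.finrank ℂ W = r :=
  h.lin.elim fun e => e.toLinearEquiv.finrank_eq.trans (Module.finrank_fin_fun ℂ)

/-- restriction of a representation along a continuous homomorphism -/
theorem IsRep.compHom {G G' W : Type} [Group G] [TopologicalSpace G] [Group G']
    [TopologicalSpace G'] [AddCommGroup W] [Module ℂ W] [TopologicalSpace W]
    [DistribMulAction G' W] {r : ℕ} (h : IsRep G' W r) (φ : G →* G') (hφ : Continuous φ) :
    @IsRep G W _ _ _ _ _ (DistribMulAction.compHom W φ) r :=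
  letI := DistribMulAction.compHom W φ
  haveI := h.cont
  ⟨h.lin, ⟨fun g c x => h.comm.smul_comm (φ g) c x⟩,
    ⟨(hφ.comp continuous_fst).smul continuous_snd⟩⟩

section gl

variable {J : Type} [Fintype J] (n : J → ℕ)

variable {n} {Z Z' : Type} [TopologicalSpace Z] [MulAction (GG n) Z] [TopologicalSpace Z']
  [MulAction (GG n) Z']

theorem isFam_iff {k : ℤ} {β : ∀ M, BM (Bo n Z M)} : IsFam k β ↔ β ∈ FamS (GG n) Z k := Iff.rfl

theorem HGdeg_eq (k : ℤ) : HGdeg n Z k = HSdeg (GG n) Z k := rfl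

theorem HG_eq : HG n Z = HS (GG n) Z := rfl

theorem bmap_eq (f : Z →[GG n] Z') (M : ℕ) : bmap f f.map_smul M = smap f M := rfl

theorem toPt_eq (M : ℕ) : Flav.toPt n Z M = bptC (GG n) Z M := rfl

end gl

section prod

variable (G G₁ G₂ : Type) [Group G] [TopologicalSpace G] [Sys G] [Group G₁] [TopologicalSpace G₁]
  [Sys G₁] [Group G₂] [TopologicalSpace G₂] [Sys G₂]

/-- The system for `G` is the product of the systems for `G₁` and `G₂`. -/
structure SysProd where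
  /-- first projection -/
  π₁ : G →* G₁
  /-- second projection -/
  π₂ : G →* G₂
  homeo : IsHomeomorph fun g => (π₁ g, π₂ g)
  /-- first projection -/
  e₁ : ∀ M, Sys.P G M → Sys.P G₁ M
  /-- second projection -/
  e₂ : ∀ M, Sys.P G M → Sys.P G₂ M
  e₁_smul : ∀ M (g : G) u, e₁ M (g • u) = π₁ g • e₁ M u
  e₂_smul : ∀ M (g : G) u, e₂ M (g • u) = π₂ g • e₂ M u
  ehomeo : ∀ M, IsHomeomorph fun u => (e₁ M u, e₂ M u)
  inc₁ : ∀ M u, e₁ (M + 1) (Sys.inc M u) = Sys.inc M (e₁ M u)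
  inc₂ : ∀ M u, e₂ (M + 1) (Sys.inc M u) = Sys.inc M (e₂ M u)
  /-- the splitting of the normal representation -/
  w : Sys.W G ≃ₗ[ℂ] Sys.W G₁ × Sys.W G₂
  w_smul : ∀ (g : G) x, w (g • x) = (π₁ g • (w x).1, π₂ g • (w x).2)
  w_col : ∀ M u, w (Sys.col M u) = (Sys.col M (e₁ (M + 1) u), Sys.col M (e₂ (M + 1) u))
  dim : ∀ M, Sys.dim G M = Sys.dim G₁ M + Sys.dim G₂ M

variable {G G₁ G₂} (S : SysProd G G₁ G₂) {B Z₁ Z₂ : Type} [TopologicalSpace B] [MulAction G B]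
  [TopologicalSpace Z₁] [MulAction G₁ Z₁] [TopologicalSpace Z₂] [MulAction G₂ Z₂]

/-- first projection of the approximations -/
def SysProd.p₁ (b : B → Z₁) (hb : ∀ (g : G) y, b (g • y) = S.π₁ g • b y) (M : ℕ) :
    Bq G B M → Bq G₁ Z₁ M :=
  Bor.map S.π₁ (fun x => (b x.1, S.e₁ M x.2)) fun g x => Prod.ext (hb g x.1) (S.e₁_smul M g x.2)

/-- second projection of the approximations -/
def SysProd.p₂ (b : B → Z₂) (hb : ∀ (g : G) y, b (g • y) = S.π₂ g • b y) (M : ℕ) :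
    Bq G B M → Bq G₂ Z₂ M :=
  Bor.map S.π₂ (fun x => (b x.1, S.e₂ M x.2)) fun g x => Prod.ext (hb g x.1) (S.e₂_smul M g x.2)

variable [Nice B] [ContinuousSMul G B] [Nice Z₁] [ContinuousSMul G₁ Z₁] [Nice Z₂]
  [ContinuousSMul G₂ Z₂]

theorem SysProd.continuous_π₁ : Continuous S.π₁ := continuous_fst.comp S.homeo.continuous

theorem SysProd.continuous_π₂ : Continuous S.π₂ := continuous_snd.comp S.homeo.continuous

theorem SysProd.continuous_e₁ (M : ℕ) : Continuous (S.e₁ M) :=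
  continuous_fst.comp (S.ehomeo M).continuous

theorem SysProd.continuous_e₂ (M : ℕ) : Continuous (S.e₂ M) :=
  continuous_snd.comp (S.ehomeo M).continuous

theorem SysProd.exists_elt (g₁ : G₁) (g₂ : G₂) : ∃ g, S.π₁ g = g₁ ∧ S.π₂ g = g₂ := by
  obtain ⟨g, hg⟩ := S.homeo.surjective (g₁, g₂)
  exact ⟨g, congrArg Prod.fst hg, congrArg Prod.snd hg⟩

include S in
theorem SysProd.rk_eq : Sys.rk G = Sys.rk G₁ + Sys.rk G₂ := by
  have h0 := S.dim 0
  have h1 := S.dim (0 + 1)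
  rw [Sys.dim_succ, Sys.dim_succ, Sys.dim_succ] at h1
  omega

theorem SysProd.continuous_p₁ {b : B → Z₁} (hb : ∀ (g : G) y, b (g • y) = S.π₁ g • b y)
    (h : Continuous b) (M : ℕ) : Continuous (S.p₁ b hb M) :=
  Bor.continuous_map' _ ((h.comp continuous_fst).prodMk ((S.continuous_e₁ M).comp continuous_snd))

theorem SysProd.continuous_p₂ {b : B → Z₂} (hb : ∀ (g : G) y, b (g • y) = S.π₂ g • b y)
    (h : Continuous b) (M : ℕ) : Continuous (S.p₂ b hb M) :=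
  Bor.continuous_map' _ ((h.comp continuous_fst).prodMk ((S.continuous_e₂ M).comp continuous_snd))

theorem SysProd.comm₁ {b : B → Z₁} (hb : ∀ (g : G) y, b (g • y) = S.π₁ g • b y) (M : ℕ)
    (x : Bq G B M) : S.p₁ b hb (M + 1) (binc G B M x) = binc G₁ Z₁ M (S.p₁ b hb M x) := by
  obtain ⟨x, rfl⟩ := Bor.mk_surjective x
  exact congrArg (fun u => Bor.mk G₁ (b x.1, u)) (S.inc₁ M x.2)

theorem SysProd.comm₂ {b : B → Z₂} (hb : ∀ (g : G) y, b (g • y) = S.π₂ g • b y) (M : ℕ)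
    (x : Bq G B M) : S.p₂ b hb (M + 1) (binc G B M x) = binc G₂ Z₂ M (S.p₂ b hb M x) := by
  obtain ⟨x, rfl⟩ := Bor.mk_surjective x
  exact congrArg (fun u => Bor.mk G₂ (b x.1, u)) (S.inc₂ M x.2)

theorem SysProd.isHomeomorph {b₁ : B → Z₁} (hb₁ : ∀ (g : G) y, b₁ (g • y) = S.π₁ g • b₁ y)
    {b₂ : B → Z₂} (hb₂ : ∀ (g : G) y, b₂ (g • y) = S.π₂ g • b₂ y)
    (h : IsHomeomorph fun y => (b₁ y, b₂ y)) (M : ℕ) :
    IsHomeomorph fun x => (S.p₁ b₁ hb₁ M x, S.p₂ b₂ hb₂ M x) := by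
  have hΦ : IsHomeomorph fun x : B × Sys.P G M => ((b₁ x.1, S.e₁ M x.2), (b₂ x.1, S.e₂ M x.2)) :=
    (Homeomorph.prodProdProdComm _ _ _ _).isHomeomorph.comp (h.prodMap (S.ehomeo M))
  have hq := (Bor.isOpenQuotientMap_mk (G := G₁) (Z := Z₁) (P := Sys.P G₁ M)).prodMap
    (Bor.isOpenQuotientMap_mk (G := G₂) (Z := Z₂) (P := Sys.P G₂ M))
  refine ⟨(S.continuous_p₁ hb₁ (continuous_fst.comp h.continuous) M).prodMk
    (S.continuous_p₂ hb₂ (continuous_snd.comp h.continuous) M),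
    IsOpenMap.of_comp Bor.continuous_mk Bor.mk_surjective (hq.isOpenMap.comp hΦ.isOpenMap),
    fun x y e => ?_, Surjective.of_comp (g := Bor.mk G) (hq.surjective.comp hΦ.surjective)⟩
  obtain ⟨x, rfl⟩ := Bor.mk_surjective x
  obtain ⟨y, rfl⟩ := Bor.mk_surjective y
  obtain ⟨g₁, e₁⟩ := Bor.mk_eq_iff.1 (congrArg Prod.fst e)
  obtain ⟨g₂, e₂⟩ := Bor.mk_eq_iff.1 (congrArg Prod.snd e)
  obtain ⟨g, rfl, rfl⟩ := S.exists_elt g₁ g₂
  refine Bor.mk_eq_iff.2 ⟨g, hΦ.injective (Prod.ext ?_ ?_)⟩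
  · exact (Prod.ext (hb₁ g y.1) (S.e₁_smul M g y.2)).trans e₁
  · exact (Prod.ext (hb₂ g y.1) (S.e₂_smul M g y.2)).trans e₂

theorem SysProd.preimage_bset₁ {b : B → Z₁} (hb : ∀ (g : G) y, b (g • y) = S.π₁ g • b y)
    {A : Set Z₁} (hA : ∀ (g : G₁), ∀ z ∈ A, g • z ∈ A) (M : ℕ) :
    S.p₁ b hb M ⁻¹' bset A M ⊆ bset (b ⁻¹' A) M := by
  intro x
  obtain ⟨x, rfl⟩ := Bor.mk_surjective x
  rintro ⟨y, hy, e⟩
  obtain ⟨g, hg⟩ := Bor.mk_eq_iff.1 e
  have e1 : g • y.1 = b x.1 := congrArg Prod.fst hg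
  exact ⟨x, show b x.1 ∈ A from e1 ▸ hA g _ hy, rfl⟩

theorem SysProd.preimage_bset₂ {b : B → Z₂} (hb : ∀ (g : G) y, b (g • y) = S.π₂ g • b y)
    {A : Set Z₂} (hA : ∀ (g : G₂), ∀ z ∈ A, g • z ∈ A) (M : ℕ) :
    S.p₂ b hb M ⁻¹' bset A M ⊆ bset (b ⁻¹' A) M := by
  intro x
  obtain ⟨x, rfl⟩ := Bor.mk_surjective x
  rintro ⟨y, hy, e⟩
  obtain ⟨g, hg⟩ := Bor.mk_eq_iff.1 e
  have e1 : g • y.1 = b x.1 := congrArg Prod.fst hg
  exact ⟨x, show b x.1 ∈ A from e1 ▸ hA g _ hy, rfl⟩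

/-- level maps that commute with the inclusions preserve compatible families -/
theorem HS.map_mem {G' Z Z' : Type} [Group G'] [TopologicalSpace G'] [Sys G'] [TopologicalSpace Z]
    [MulAction G Z] [TopologicalSpace Z'] [MulAction G' Z'] (F : ∀ M, C(Bq G Z M, Bq G' Z' M))
    (hF : ∀ M x, F (M + 1) (binc G Z M x) = binc G' Z' M (F M x)) :
    (∀ k, ∀ c ∈ HSdeg G' Z' k, (fun M => H.map (F M) (c M)) ∈ HSdeg G Z k) ∧
      ∀ c ∈ HS G' Z', (fun M => H.map (F M) (c M)) ∈ HS G Z := by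
  have h1 : ∀ k, ∀ c ∈ HSdeg G' Z' k, (fun M => H.map (F M) (c M)) ∈ HSdeg G Z k :=
    fun k c hc M => ⟨by
      beta_reduce
      rw [← (hc M).1, H.map_map, H.map_map]
      exact congrArg (fun φ => H.map φ (c (M + 1))) (ContinuousMap.ext (hF M)), (hc M).2.map _⟩
  refine ⟨h1, fun c hc => ?_⟩
  have : HS G' Z' ≤ (HS G Z).comap
      (RingHom.pi fun M => (H.map (F M)).comp (Pi.evalRingHom _ M)) :=
    Subring.closure_le.2 fun c hc => by
      obtain ⟨k, hk⟩ := mem_iUnion.1 hc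
      exact Subring.subset_closure (mem_iUnion.2 ⟨k, h1 k c hk⟩)
  exact this hc

/-- the ring map `H_{G₁}(pt) → H_G(pt)` -/
noncomputable def SysProd.r₁ : HS G₁ Unit →+* HS G Unit :=
  ((RingHom.pi fun M => (H.map ⟨S.p₁ (id : Unit → Unit) (fun _ _ => rfl) M,
    S.continuous_p₁ _ continuous_id M⟩).comp (Pi.evalRingHom _ M)).comp
    (HS G₁ Unit).subtype).codRestrict (HS G Unit)
    fun c => (HS.map_mem _ (S.comm₁ (b := (id : Unit → Unit)) fun _ _ => rfl)).2 c.1 c.2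

/-- the ring map `H_{G₂}(pt) → H_G(pt)` -/
noncomputable def SysProd.r₂ : HS G₂ Unit →+* HS G Unit :=
  ((RingHom.pi fun M => (H.map ⟨S.p₂ (id : Unit → Unit) (fun _ _ => rfl) M,
    S.continuous_p₂ _ continuous_id M⟩).comp (Pi.evalRingHom _ M)).comp
    (HS G₂ Unit).subtype).codRestrict (HS G Unit)
    fun c => (HS.map_mem _ (S.comm₂ (b := (id : Unit → Unit)) fun _ _ => rfl)).2 c.1 c.2

/-- the cross product -/
noncomputable def SysProd.cross {b₁ : B → Z₁} (hb₁ : ∀ (g : G) y, b₁ (g • y) = S.π₁ g • b₁ y)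
    {b₂ : B → Z₂} (hb₂ : ∀ (g : G) y, b₂ (g • y) = S.π₂ g • b₂ y) :
    EH G₁ Z₁ →ₗ[ℂ] EH G₂ Z₂ →ₗ[ℂ] EH G B := lcross (S.p₁ b₁ hb₁) (S.p₂ b₂ hb₂)

theorem SysProd.r₁_apply (r : HS G₁ Unit) (M : ℕ) :
    (S.r₁ r).1 M = H.map ⟨S.p₁ (id : Unit → Unit) (fun _ _ => rfl) M,
      S.continuous_p₁ _ continuous_id M⟩ (r.1 M) := rfl

theorem SysProd.r₂_apply (r : HS G₂ Unit) (M : ℕ) :
    (S.r₂ r).1 M = H.map ⟨S.p₂ (id : Unit → Unit) (fun _ _ => rfl) M,
      S.continuous_p₂ _ continuous_id M⟩ (r.1 M) := rfl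

theorem SysProd.r₁_deg {k : ℤ} {r : HS G₁ Unit} (h : r.1 ∈ HSdeg G₁ Unit k) :
    (S.r₁ r).1 ∈ HSdeg G Unit k :=
  (HS.map_mem (fun M => ⟨S.p₁ (id : Unit → Unit) (fun _ _ => rfl) M,
    S.continuous_p₁ _ continuous_id M⟩) (S.comm₁ (b := (id : Unit → Unit)) fun _ _ => rfl)).1 k _ h

theorem SysProd.r₂_deg {k : ℤ} {r : HS G₂ Unit} (h : r.1 ∈ HSdeg G₂ Unit k) :
    (S.r₂ r).1 ∈ HSdeg G Unit k :=
  (HS.map_mem (fun M => ⟨S.p₂ (id : Unit → Unit) (fun _ _ => rfl) M,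
    S.continuous_p₂ _ continuous_id M⟩) (S.comm₂ (b := (id : Unit → Unit)) fun _ _ => rfl)).1 k _ h

end prod

section split

variable {J J₁ J₂ : Type} {ι₁ : J₁ → J} {ι₂ : J₂ → J} (hb : Bijective (Sum.elim ι₁ ι₂))
include hb

theorem isHomeomorph_split (X : J → Type) [∀ j, TopologicalSpace (X j)] :
    IsHomeomorph fun g : ∀ j, X j => ((fun j => g (ι₁ j)), fun j => g (ι₂ j)) :=
  ((Homeomorph.piCongrLeft (Y := X) (Equiv.ofBijective _ hb)).symm.trans
    (Homeomorph.sumPiEquivProdPi J₁ J₂ fun j => X (Sum.elim ι₁ ι₂ j))).isHomeomorph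

theorem isHomeomorph_splitE (n : J → ℕ) (M : ℕ) : IsHomeomorph fun u : EE n M =>
    ((⟨fun j => u.1 (ι₁ j), fun j => u.2 (ι₁ j)⟩ : EE (fun j => n (ι₁ j)) M),
      (⟨fun j => u.1 (ι₂ j), fun j => u.2 (ι₂ j)⟩ : EE (fun j => n (ι₂ j)) M)) := by
  have h := isHomeomorph_split hb fun j => Matrix (Fin (n j)) (Fin M) ℂ
  have hc := h.continuous.comp (continuous_subtype_val (p := fun u => u ∈ EE n M))
  refine isHomeomorph_iff_isEmbedding_surjective.2 ⟨IsEmbedding.of_comp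
    (((continuous_fst.comp hc).subtype_mk _).prodMk ((continuous_snd.comp hc).subtype_mk _))
    (continuous_subtype_val.prodMap continuous_subtype_val)
    (h.isEmbedding.comp IsEmbedding.subtypeVal), fun y => ?_⟩
  obtain ⟨u, hu⟩ := h.surjective (y.1.1, y.2.1)
  refine ⟨⟨u, fun j => ?_⟩, Prod.ext (Subtype.ext (congrArg Prod.fst hu))
    (Subtype.ext (congrArg Prod.snd hu))⟩
  obtain ⟨j | j, rfl⟩ := hb.2 j
  · have e : u (ι₁ j) = y.1.1 j := congrFun (congrArg Prod.fst hu) j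
    exact (congrArg (fun A : Matrix _ _ ℂ => Surjective A.mulVec) e).mpr (y.1.2 j)
  · have e : u (ι₂ j) = y.2.1 j := congrFun (congrArg Prod.snd hu) j
    exact (congrArg (fun A : Matrix _ _ ℂ => Surjective A.mulVec) e).mpr (y.2.2 j)

theorem dimB_split [Fintype J] [Fintype J₁] [Fintype J₂] (n : J → ℕ) (M : ℕ) :
    dimB n M = dimB (fun j => n (ι₁ j)) M + dimB (fun j => n (ι₂ j)) M :=
  (hb.sum_comp fun j => (n j : ℤ) * (M - n j)).symm.trans (Fintype.sum_sum_type _)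

/-- the product structure given by a splitting of the index set -/
noncomputable def splitProd [Fintype J] [Fintype J₁] [Fintype J₂] (n : J → ℕ) :
    SysProd (GG n) (GG fun j => n (ι₁ j)) (GG fun j => n (ι₂ j)) where
  π₁ := { toFun := fun g j => g (ι₁ j), map_one' := rfl, map_mul' := fun _ _ => rfl }
  π₂ := { toFun := fun g j => g (ι₂ j), map_one' := rfl, map_mul' := fun _ _ => rfl }
  homeo := isHomeomorph_split hb fun j => GL (Fin (n j)) ℂ
  e₁ _ u := (⟨fun j => u.1 (ι₁ j), fun j => u.2 (ι₁ j)⟩ : EE (fun j => n (ι₁ j)) _)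
  e₂ _ u := (⟨fun j => u.1 (ι₂ j), fun j => u.2 (ι₂ j)⟩ : EE (fun j => n (ι₂ j)) _)
  e₁_smul _ _ _ := rfl
  e₂_smul _ _ _ := rfl
  ehomeo := isHomeomorph_splitE hb n
  inc₁ _ _ := rfl
  inc₂ _ _ := rfl
  w := LinearEquiv.ofBijective
    ({ toFun := fun x => (fun j => x (ι₁ j), fun j => x (ι₂ j))
       map_add' := fun _ _ => rfl
       map_smul' := fun _ _ => rfl } : Mat n (fun _ => 1) →ₗ[ℂ]
        Mat (fun j => n (ι₁ j)) (fun _ => 1) × Mat (fun j => n (ι₂ j)) fun _ => 1)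
    (isHomeomorph_split hb fun j => Matrix (Fin (n j)) (Fin 1) ℂ).bijective
  w_smul _ _ := rfl
  w_col _ _ := rfl
  dim := dimB_split hb n

end split

theorem bijective_inl_inr {J₁ J₂ : Type} :
    Bijective (Sum.elim Sum.inl Sum.inr : J₁ ⊕ J₂ → J₁ ⊕ J₂) := by
  rw [Sum.elim_inl_inr]; exact bijective_id

section glprod

variable {J J₁ J₂ : Type} [Fintype J] [Fintype J₁] [Fintype J₂]

/-- the standard product structure -/
noncomputable def sumProd (n₁ : J₁ → ℕ) (n₂ : J₂ → ℕ) :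
    SysProd (GG (Sum.elim n₁ n₂)) (GG n₁) (GG n₂) where
  π₁ := fstG n₁ n₂
  π₂ := sndG n₁ n₂
  homeo := isHomeomorph_split bijective_inl_inr fun j => GL (Fin (Sum.elim n₁ n₂ j)) ℂ
  e₁ _ := fstE
  e₂ _ := sndE
  e₁_smul _ _ _ := rfl
  e₂_smul _ _ _ := rfl
  ehomeo := isHomeomorph_splitE bijective_inl_inr (Sum.elim n₁ n₂)
  inc₁ _ _ := rfl
  inc₂ _ _ := rfl
  w := { toFun := fun x => (fun j => x (Sum.inl j), fun j => x (Sum.inr j))
         map_add' := fun _ _ => rfl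
         map_smul' := fun _ _ => rfl
         invFun := fun x j => match j with
           | Sum.inl j => x.1 j
           | Sum.inr j => x.2 j
         left_inv := fun x => funext fun j => by cases j <;> rfl
         right_inv := fun _ => rfl }
  w_smul _ _ := rfl
  w_col _ _ := rfl
  dim := dimB_split bijective_inl_inr (Sum.elim n₁ n₂)

/-- splitting of the index set into two parts -/
theorem exists_splitProd (n : J → ℕ) (n₁ : J₁ → ℕ) (n₂ : J₂ → ℕ) (ι₁ : J₁ → J) (ι₂ : J₂ → J)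
    (hb : Bijective (Sum.elim ι₁ ι₂)) (h₁ : ∀ j, n (ι₁ j) = n₁ j) (h₂ : ∀ j, n (ι₂ j) = n₂ j) :
    ∃ S : SysProd (GG n) (GG n₁) (GG n₂), (∀ g j, HEq (S.π₁ g j) (g (ι₁ j))) ∧
      ∀ g j, HEq (S.π₂ g j) (g (ι₂ j)) := by
  obtain rfl : (fun j => n (ι₁ j)) = n₁ := funext h₁
  obtain rfl : (fun j => n (ι₂ j)) = n₂ := funext h₂
  exact ⟨splitProd hb n, fun _ _ => HEq.rfl, fun _ _ => HEq.rfl⟩

theorem continuous_fstG (n₁ : J₁ → ℕ) (n₂ : J₂ → ℕ) : Continuous (fstG n₁ n₂) :=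
  continuous_pi fun j => continuous_apply (Sum.inl j)

theorem continuous_sndG (n₁ : J₁ → ℕ) (n₂ : J₂ → ℕ) : Continuous (sndG n₁ n₂) :=
  continuous_pi fun j => continuous_apply (Sum.inr j)

variable {n₁ : J₁ → ℕ} {n₂ : J₂ → ℕ} {Z₁ Z₂ : Type} [TopologicalSpace Z₁] [TopologicalSpace Z₂]

instance [Nice Z₁] [Nice Z₂] : Nice (Pr n₁ n₂ Z₁ Z₂) := inferInstanceAs (Nice (Z₁ × Z₂))

instance [MulAction (GG n₁) Z₁] [MulAction (GG n₂) Z₂] [ContinuousSMul (GG n₁) Z₁]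
    [ContinuousSMul (GG n₂) Z₂] : ContinuousSMul (GG (Sum.elim n₁ n₂)) (Pr n₁ n₂ Z₁ Z₂) :=
  ⟨Continuous.prodMk (Z := GG (Sum.elim n₁ n₂) × (Z₁ × Z₂))
    (((continuous_fstG n₁ n₂).comp continuous_fst).smul (continuous_fst.comp continuous_snd))
    (((continuous_sndG n₁ n₂).comp continuous_fst).smul (continuous_snd.comp continuous_snd))⟩

theorem IsRep.snd {W : Type} [AddCommGroup W] [Module ℂ W] [TopologicalSpace W]
    [DistribMulAction (GG n₂) W] {r : ℕ} (h : IsRep (GG n₂) W r) :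
    IsRep (GG (Sum.elim n₁ n₂)) (Snd n₁ n₂ W) r :=
  h.compHom (sndG n₁ n₂) (continuous_sndG n₁ n₂)

end glprod

section quiv

variable {I E Φ : Type} {Q : Quiv I E} [Fintype Φ] [Fintype I] [Fintype E] (A : Flav Q Φ)

theorem Quiv.finrank_N : Module.finrank ℂ (Q.N ℂ) = Q.dimN.toNat := by
  have : Q.dimN = ((∑ e, Q.v (Q.t e) * Q.v (Q.s e) + ∑ i, Q.w i * Q.v i : ℕ) : ℤ) := by
    simp [Quiv.dimN]
  rw [this, Int.toNat_natCast]
  simp [Module.finrank_prod, Module.finrank_pi_fintype, Module.finrank_matrix]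

theorem Flav.isRep_NN : IsRep (GG (Q.nn Φ)) A.NN Q.dimN.toNat :=
  ⟨(show Nonempty (Q.N ℂ ≃L[ℂ] (Fin Q.dimN.toNat → ℂ)) from
      ⟨ContinuousLinearEquiv.ofFinrankEq (Quiv.finrank_N.trans (Module.finrank_fin_fun ℂ).symm)⟩),
    ⟨fun g c s => map_smul (A.rep g) c s⟩, Flav.continuousSMul_NN⟩

theorem Flav.isRep_ND : IsRep (GG (Q.nn Φ)) A.ND Q.dimN.toNat :=
  ⟨(show Nonempty ((Q.N ℂ →L[ℂ] ℂ) ≃L[ℂ] (Fin Q.dimN.toNat → ℂ)) from
      ⟨ContinuousLinearEquiv.ofFinrankEq (by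
      rw [Module.finrank_fin_fun, ← (LinearMap.toContinuousLinearMap (𝕜 := ℂ) (E := Q.N ℂ)
        (F' := ℂ)).finrank_eq, ← Quiv.finrank_N]
      exact Subspace.dual_finrank_eq)⟩),
    ⟨fun _ _ _ => rfl⟩, Flav.continuousSMul_ND⟩

theorem Flav.continuous_ga : Continuous (Flav.ga Q Φ) :=
  continuous_pi fun i => Units.continuous_val.comp (continuous_apply (Sum.inl i))

theorem Flav.continuous_fl : Continuous (Flav.fl Q Φ) :=
  continuous_pi fun a =>
    Matrix.GeneralLinearGroup.continuous_det.comp (continuous_apply (Sum.inr a))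

theorem isRep_WW (n : ℕ) : IsRep (GG (Sum.elim (Q.nn Φ) (Q.nn Φ))) (WW Q Φ n)
    ((2 * n + 1) * ∑ i, Q.v i * Q.v i + Fintype.card Φ) := by
  refine ⟨(show Nonempty (((Finset.Icc (-n : ℤ) n → Q.En ℂ) × (Φ → ℂ)) ≃L[ℂ] (Fin _ → ℂ)) from
    ⟨ContinuousLinearEquiv.ofFinrankEq ?_⟩), ⟨fun h c x => Prod.ext (funext fun k => ?_)
      (funext fun a => ?_)⟩, ⟨?_⟩⟩
  · have : (n + 1 + n : ℤ).toNat = 2 * n + 1 := by omega
    simp [Module.finrank_prod, Module.finrank_pi_fintype, Module.finrank_matrix, this]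
  · change _ * (c • x.1 k) * _ = c • (_ * x.1 k * _)
    rw [mul_smul_comm, smul_mul_assoc]
  · change _ * (c • x.2 a) * _ = c • (_ * x.2 a * _)
    rw [mul_smul_comm, smul_mul_assoc]
  · have h1 := (continuous_fstG (Q.nn Φ) (Q.nn Φ)).comp
      (continuous_fst (Y := (Finset.Icc (-n : ℤ) n → Q.En ℂ) × (Φ → ℂ)))
    have h2 := (continuous_sndG (Q.nn Φ) (Q.nn Φ)).comp
      (continuous_fst (Y := (Finset.Icc (-n : ℤ) n → Q.En ℂ) × (Φ → ℂ))).inv
    exact Continuous.prodMk (continuous_pi fun k => ((Flav.continuous_ga.comp h1).mul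
      ((continuous_apply k).comp (continuous_fst.comp continuous_snd))).mul
        (Flav.continuous_ga.comp h2)) (continuous_pi fun a =>
      ((Units.continuous_val.comp ((continuous_apply a).comp (Flav.continuous_fl.comp h1))).mul
        ((continuous_apply a).comp (continuous_snd.comp continuous_snd))).mul
        (Units.continuous_val.comp ((continuous_apply a).comp (Flav.continuous_fl.comp h2))))

instance : Nice A.NN := A.isRep_NN.nice

instance : Nice A.ND := A.isRep_ND.nice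

instance : ContinuousSMul (GG (Q.nn Φ)) A.NN := A.isRep_NN.cont

instance : ContinuousSMul (GG (Q.nn Φ)) A.ND := A.isRep_ND.cont

end quiv

end Vale.Agent.P291Z
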