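import Vale.Agent.P291Z.Sys0

/-!
# Calculus of the total operations on cohomology with compact supports of nice spaces
-/

set_option linter.unusedSectionVars false

namespace Vale.Agent.P291Z

open Set Function Topology

variable {X Y Z U X' Y' U' : Type} [TopologicalSpace X] [TopologicalSpace Y] [TopologicalSpace Z]
  [TopologicalSpace U] [TopologicalSpace X'] [TopologicalSpace Y'] [TopologicalSpace U']

theorem cpull_eq {f : X → Y} (h : IsPr f) : cpull f = Hc.pull h := dif_pos h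

theorem cext_eq [Nice Y] {j : X → Y} (h : IsOpenEmbedding j) : cext j = Hc.push h := dif_pos h

theorem cgys_eq [Nice Y] {i : X → Y} (h : IsClosedEmbedding i) {t : Coch Y} (ht : supp (δ t) = ∅)
    (hs : supp t ⊆ range i) : cgys i t = Hc.gys h ht hs :=
  dif_pos (⟨h, ht, hs⟩ : IsClosedEmbedding i ∧ supp (δ t) = ∅ ∧ supp t ⊆ range i)

theorem cconn_eq [Nice Y] {i : X → Y} (hi : IsClosedEmbedding i) {j : U → Y}
    (hj : IsOpenEmbedding j) (hc : range j = (range i)ᶜ) : cconn i j = Hc.conn hi hj hc :=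
  dif_pos (⟨hi, hj, hc⟩ : IsClosedEmbedding i ∧ IsOpenEmbedding j ∧ range j = (range i)ᶜ)

theorem push_apply (f : X → Y) (β : BM X) (c : Hc Y) : push f β c = β (cpull f c) := rfl

theorem res_apply [Nice Y] (j : X → Y) (β : BM Y) (c : Hc X) : res j β c = β (cext j c) := rfl

theorem gys_apply [Nice Y] (i : X → Y) (t : Coch Y) (β : BM Y) (c : Hc X) :
    gys i t β c = β (cgys i t c) := rfl

theorem bdy_apply [Nice Y] (i : X → Y) (j : U → Y) (β : BM U) (c : Hc X) :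
    bdy i j β c = β (cconn i j c) := rfl

theorem cap_apply (h : H X) (β : BM X) (c : Hc X) : cap h β c = β (Hc.act h c) := rfl

theorem cpull_deg (f : X → Y) {k : ℤ} {c : Hc Y} (hc : c ∈ Hc.deg Y k) :
    cpull f c ∈ Hc.deg X k := by
  unfold cpull
  split_ifs with h
  · exact Hc.pull_deg h hc
  · exact Submodule.zero_mem _

theorem cext_deg [Nice Y] (j : X → Y) {k : ℤ} {c : Hc X} (hc : c ∈ Hc.deg X k) :
    cext j c ∈ Hc.deg Y k := by
  unfold cext
  split_ifs with h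
  · exact Hc.push_deg h hc
  · exact Submodule.zero_mem _

theorem cgys_deg [Nice Y] (i : X → Y) {t : Coch Y} {d : ℤ} (ht : IsDeg d t) {k : ℤ} {c : Hc X}
    (hc : c ∈ Hc.deg X k) : cgys i t c ∈ Hc.deg Y (k + d) := by
  unfold cgys
  split_ifs with h
  · exact Hc.gys_deg _ _ _ ht hc
  · exact Submodule.zero_mem _

theorem cconn_deg [Nice Y] (i : X → Y) (j : U → Y) {k : ℤ} {c : Hc X} (hc : c ∈ Hc.deg X k) :
    cconn i j c ∈ Hc.deg U (k + 1) := by
  unfold cconn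
  split_ifs with h
  · exact Hc.conn_deg _ _ _ hc
  · exact Submodule.zero_mem _

/-- cocycles of even degree commute with all cocycles, with supports -/
theorem cohom_comm_even {b t : Coch X} (hb : supp (δ b) = ∅) (ht : supp (δ t) = ∅) {d : ℤ}
    (hd : IsDeg (2 * d) t) : Cohom (supp b ∩ supp t) (b * t) (t * b) := by
  refine b.induction_comp (P := fun b' => Cohom (supp b ∩ supp t) (b' * t) (t * b'))
    ⟨0, by rw [supp_zero]; exact empty_subset _, by simpa using supp_zero⟩ ?_ fun k => ?_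
  · rintro b₁ b₂ ⟨c₁, h₁, e₁⟩ ⟨c₂, h₂, e₂⟩
    refine ⟨c₁ + c₂, (supp_add _ _).trans (union_subset h₁ h₂), ?_⟩
    rw [← supp_add_eq_empty e₁ e₂]
    congr 1
    rw [map_add]
    noncomm_ring
  · obtain ⟨c, -, h1, h2⟩ := exists_comm (isDeg_comp k b) hd
    refine ⟨c, h1.trans (inter_subset_inter_left _ (supp_comp k b)), ?_⟩
    rw [cocycle_comp hb k, ht, empty_inter, inter_empty, union_empty,
      show k * (2 * d) = 2 * (k * d) by ring, zpow_mul, show ((-1 : ℂ) ^ (2 : ℤ)) = 1 by norm_num,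
      one_zpow, one_smul] at h2
    exact subset_empty_iff.1 h2

theorem Cohom.mono {A B : Set X} {a b : Coch X} (h : Cohom A a b) (hAB : A ⊆ B) : Cohom B a b := by
  obtain ⟨c, h1, h2⟩ := h
  exact ⟨c, h1.trans hAB, h2⟩

theorem Cohom.refl (A : Set X) (a : Coch X) : Cohom A a a :=
  ⟨0, by rw [supp_zero]; exact empty_subset _, by simpa using supp_zero⟩

theorem Cohom.symm {A : Set X} {a b : Coch X} (h : Cohom A a b) : Cohom A b a := by
  obtain ⟨c, h1, h2⟩ := h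
  refine ⟨-c, by rwa [supp_neg], ?_⟩
  rw [← h2, ← supp_neg]
  congr 1
  rw [map_neg]
  abel

theorem Cohom.trans {A : Set X} {a b c : Coch X} (h : Cohom A a b) (h' : Cohom A b c) :
    Cohom A a c := by
  obtain ⟨u, h1, h2⟩ := h
  obtain ⟨v, h3, h4⟩ := h'
  refine ⟨u + v, (supp_add _ _).trans (union_subset h1 h3), ?_⟩
  rw [← supp_add_eq_empty h2 h4]
  congr 1
  rw [map_add]
  abel

theorem Cohom.pull {A : Set Y} {a b : Coch Y} (h : Cohom A a b) {f : X → Y} (hf : Continuous f) :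
    Cohom (f ⁻¹' A) (pull f a) (pull f b) := by
  obtain ⟨c, h1, h2⟩ := h
  refine ⟨P291Z.pull f c, (supp_pull hf c).trans (preimage_mono h1), ?_⟩
  rw [δ_pull, ← map_sub, ← map_sub]
  exact supp_pull_eq_empty hf h2

theorem Cohom.cocycle {A : Set X} {a b : Coch X} (h : Cohom A a b) (hb : supp (δ b) = ∅) :
    supp (δ a) = ∅ := by
  obtain ⟨c, -, h2⟩ := h
  exact cocycle_of_cohom hb h2

theorem Cohom.hcls_eq {A : Set X} {a b : Coch X} (h : Cohom A a b) (hb : supp (δ b) = ∅) :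
    hcls a = hcls b := by
  obtain ⟨c, -, h2⟩ := h
  exact hcls_eq_of_cohom hb h2

theorem Cohom.supp_subset {A : Set X} {a b : Coch X} (h : Cohom A a b) (hb : supp b ⊆ A) :
    supp a ⊆ A := by
  obtain ⟨c, h1, h2⟩ := h
  intro x hx
  by_contra hA
  have h3 := (Van x).add_mem ((Van x).add_mem (supp_eq_empty.1 h2 x) (Van.δ fun h => hA (h1 h)))
    (show b ∈ Van x from fun h => hA (hb h))
  rw [sub_add_cancel, sub_add_cancel] at h3
  exact h3 hx

theorem Cohom.mul_right {A : Set X} {a b : Coch X} (h : Cohom A a b) {t : Coch X}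
    (ht : supp (δ t) = ∅) : Cohom (A ∩ supp t) (a * t) (b * t) := by
  obtain ⟨c, h1, h2⟩ := h
  exact ⟨c * t, (supp_mul _ _).trans (inter_subset_inter_left _ h1), cobound_mul_right h2 ht⟩

theorem Cohom.mul_left {A : Set X} {a b : Coch X} (h : Cohom A a b) {t : Coch X}
    (ht : supp (δ t) = ∅) : Cohom (supp t ∩ A) (t * a) (t * b) := by
  obtain ⟨c, h1, h2⟩ := h
  exact ⟨par t * c, (supp_mul _ _).trans (inter_subset_inter (supp_par t) h1),
    cobound_mul_left h2 ht⟩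

/-- products with cohomologous cochains -/
theorem cls_mul_congr {A K : Set X} {a u u' : Coch X} (h : Cohom A u u') (hK : IsCompact K)
    (hA : supp a ∩ A ⊆ K) (hd : ∀ x ∈ A, δ a ∈ Van x) : cls (a * u) = cls (a * u') := by
  obtain ⟨c, h1, h2⟩ := h
  refine cls_eq_of_Bc ⟨par a * c, isCompact_supp_of_subset hK ((supp_mul _ _).trans
    ((inter_subset_inter (supp_par a) h1).trans hA)), supp_eq_empty.2 fun x => ?_⟩
  have e : a * u - a * u' - δ (par a * c) = a * (u - u' - δ c) + par (δ a) * c := by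
    rw [δ_mul, par_par, δ_par]; noncomm_ring
  rw [e]
  refine (Van x).add_mem (Van.mul_left (supp_eq_empty.1 h2 x) _) ?_
  by_cases hx : x ∈ A
  · exact Van.mul_right (Van.par (hd x hx)) _
  · exact Van.mul_left (fun h => hx (h1 h)) _

variable [Nice X] [Nice Y] [Nice Z] [Nice U] [Nice X'] [Nice Y'] [Nice U']

theorem cext_cpull_homeo {e : X → Y} (he : IsHomeomorph e) (c : Hc Y) :
    cext e (cpull e c) = c := by
  rw [cext_eq he.isOpenEmbedding, cpull_eq (IsPr.of_isHomeomorph he)]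
  exact Hc.push_homeomorph (he.homeomorph e) c

theorem cpull_bijective {e : X → Y} (he : IsHomeomorph e) : Bijective (cpull e) := by
  rw [cpull_eq (IsPr.of_isHomeomorph he)]
  exact (Hc.equiv (he.homeomorph e)).bijective

theorem cpull_cext_homeo {e : X → Y} (he : IsHomeomorph e) (c : Hc X) :
    cpull e (cext e c) = c := by
  obtain ⟨c, rfl⟩ := (cpull_bijective he).2 c
  rw [cext_cpull_homeo he]

theorem cgys_congr {i : Y → X} (hi : IsClosedEmbedding i) {t t' : Coch X} (ht : supp (δ t) = ∅)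
    (hs : supp t ⊆ range i) (ht' : supp (δ t') = ∅) (hs' : supp t' ⊆ range i)
    (h : Cohom (range i) t t') : cgys i t = cgys i t' := by
  rw [cgys_eq hi ht hs, cgys_eq hi ht' hs', Hc.gys_congr hi ht hs ht' hs' h]

theorem cgys_cgys {i : Z → Y} (hi : IsClosedEmbedding i) {j : Y → X} (hj : IsClosedEmbedding j)
    {s t : Coch X} (hs : supp (δ s) = ∅) (hs' : j ⁻¹' supp s ⊆ range i) (ht : supp (δ t) = ∅)
    (ht' : supp t ⊆ range j) (c : Hc Z) :
    cgys j t (cgys i (pull j s) c) = cgys (j ∘ i) (s * t) c := by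
  have h1 : supp (pull j s) ⊆ range i := (supp_pull hj.continuous s).trans hs'
  have h3 : supp (s * t) ⊆ range (j ∘ i) := fun x hx => by
    obtain ⟨y, rfl⟩ := ht' (supp_mul s t hx).2
    obtain ⟨z, rfl⟩ := hs' (supp_mul s t hx).1
    exact ⟨z, rfl⟩
  rw [cgys_eq hj ht ht', cgys_eq hi (cocycle_pull hj.continuous hs) h1,
    cgys_eq (hj.comp hi) (cocycle_mul hs ht) h3]
  exact Hc.gys_gys hi hj _ h1 ht ht' (fun x => supp_eq_empty.1 hs _) (fun x hx h => hx (hs' h)) _ _ c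

theorem cgys_comm {i : Y → X} (hi : IsClosedEmbedding i) {j : Y' → X} (hj : IsClosedEmbedding j)
    {i' : Z → Y'} (hi' : IsClosedEmbedding i') {j' : Z → Y} (hj' : IsClosedEmbedding j')
    (hsq : ∀ z, i (j' z) = j (i' z)) (hr : i ⁻¹' range j ⊆ range j') {s t : Coch X}
    (ht : supp (δ t) = ∅) (ht' : supp t ⊆ range i) (hs : supp (δ s) = ∅) (hs' : supp s ⊆ range j)
    {d : ℤ} (hd : IsDeg (2 * d) t) (c : Hc Z) :
    cgys i t (cgys j' (pull i s) c) = cgys j s (cgys i' (pull j t) c) := by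
  have hr' : j ⁻¹' range i ⊆ range i' := by
    rintro y ⟨x, hx⟩
    obtain ⟨z, rfl⟩ := hr (show x ∈ i ⁻¹' range j from ⟨y, hx.symm⟩)
    exact ⟨z, hj.injective (by rw [← hsq, hx])⟩
  have e : i ∘ j' = j ∘ i' := funext hsq
  have h3 : supp s ∩ supp t ⊆ range (j ∘ i') := fun x hx => by
    obtain ⟨y, rfl⟩ := hs' hx.1
    obtain ⟨z, rfl⟩ := hr' (ht' hx.2)
    exact ⟨z, rfl⟩
  rw [cgys_cgys hj' hi hs ((preimage_mono hs').trans hr) ht ht',
    cgys_cgys hi' hj ht ((preimage_mono ht').trans hr') hs hs', e,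
    cgys_congr (hj.comp hi') (cocycle_mul hs ht) ((supp_mul _ _).trans h3) (cocycle_mul ht hs)
      ((supp_mul _ _).trans (inter_comm _ _ ▸ h3)) ((cohom_comm_even hs ht hd).mono h3)]

theorem cgys_cpull {k : Z → Y} (hk : IsClosedEmbedding k) {j : Y → X} (hj : IsClosedEmbedding j)
    {t : Coch X} (ht : supp (δ t) = ∅) (hs : supp t ⊆ range (j ∘ k)) (c : Hc Y) :
    cgys (j ∘ k) t (cpull k c) = cgys j t c := by
  have hs' : supp t ⊆ range j := hs.trans (range_comp_subset_range _ _)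
  obtain ⟨a, ha, rfl⟩ := cls_surj_near' hj c
  rw [cgys_eq hj ht hs', cgys_eq (hj.comp hk) ht hs, cpull_eq (IsPr.of_isClosedEmbedding hk),
    Hc.pull_cls _ (Near.pull_Zc (IsPr.of_isClosedEmbedding hj) ha), P291Z.pull_pull,
    Hc.gys_cls hj ht hs' ha, Hc.gys_cls (hj.comp hk) ht hs ⟨ha.1, fun z => ha.2 _⟩]

theorem cconn_cgys {i : Y → X} (hi : IsClosedEmbedding i) {j : U → X} (hj : IsOpenEmbedding j)
    (hc : range j = (range i)ᶜ) {i' : Y' → X'} (hi' : IsClosedEmbedding i') {j' : U' → X'}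
    (hj' : IsOpenEmbedding j') (hc' : range j' = (range i')ᶜ) {k : X' → X}
    (hk : IsClosedEmbedding k) {kY : Y' → Y} (hkY : IsClosedEmbedding kY) {kU : U' → U}
    (hkU : IsClosedEmbedding kU) (hsq : ∀ y, k (i' y) = i (kY y)) (hsq' : ∀ u, k (j' u) = j (kU u))
    {t : Coch X} (ht : supp (δ t) = ∅) (hs : supp t ⊆ range k) (c : Hc Y') :
    cconn i j (cgys kY (pull i t) c) = cgys kU (pull j t) (cconn i' j' c) := by
  have hY : i ⁻¹' range k ⊆ range kY := by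
    rintro y ⟨x, hx⟩
    by_cases h : x ∈ range i'
    · obtain ⟨z, rfl⟩ := h
      exact ⟨z, hi.injective (by rw [← hsq, hx])⟩
    · obtain ⟨u, rfl⟩ : x ∈ range j' := by rw [hc']; exact h
      have : i y ∈ range j := ⟨kU u, by rw [← hsq', hx]⟩
      rw [hc] at this
      exact absurd (mem_range_self y) this
  have hU : j ⁻¹' range k ⊆ range kU := by
    rintro y ⟨x, hx⟩
    by_cases h : x ∈ range i'
    · obtain ⟨z, rfl⟩ := h
      have : j y ∈ range j := mem_range_self y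
      rw [hc] at this
      exact absurd ⟨kY z, by rw [← hsq, hx]⟩ this
    · obtain ⟨u, rfl⟩ : x ∈ range j' := by rw [hc']; exact h
      exact ⟨u, hj.injective (by rw [← hsq', hx])⟩
  have s1 : supp (pull i t) ⊆ range kY :=
    (supp_pull hi.continuous t).trans ((preimage_mono hs).trans hY)
  have s2 : supp (pull j t) ⊆ range kU :=
    (supp_pull hj.continuous t).trans ((preimage_mono hs).trans hU)
  have e1 : k ∘ i' = i ∘ kY := funext hsq
  have e2 : k ∘ j' = j ∘ kU := funext hsq'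
  obtain ⟨a, ha, rfl⟩ := cls_surj_near' (hk.comp hi') c
  have n1 : pull i a ∈ Near kY :=
    Near.pull (i := k ∘ i') (g := id) (IsPr.of_isClosedEmbedding hi) (fun z => (hsq z).symm) ha
  have n2 : pull k a ∈ Near i' :=
    Near.pull (i := k ∘ i') (g := id) (IsPr.of_isClosedEmbedding hk) (fun _ => rfl) ha
  have n3 : a * t ∈ Near i := ⟨isCompact_supp_of_subset ha.1
    ((supp_mul _ _).trans inter_subset_left), fun y => by
      rw [δ_mul]
      refine (Van _).add_mem ?_ (Van.mul_left (supp_eq_empty.1 ht _) _)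
      by_cases hy : y ∈ range kY
      · obtain ⟨z, rfl⟩ := hy
        exact Van.mul_right (hsq z ▸ ha.2 z) _
      · exact Van.mul_left (fun h => hy (hY (hs h))) _⟩
  have hK : IsCompact (j' ⁻¹' (k ⁻¹' supp (δ a))) := by
    refine (hj'.isInducing.isCompact_preimage_iff ?_).2
      (hk.isCompact_preimage (isCompact_supp_of_subset ha.1 (supp_δ a)))
    rw [hc']
    rintro _ hx ⟨z, rfl⟩
    exact ha.2 z hx
  rw [cgys_eq hkY (cocycle_pull hi.continuous ht) s1, cgys_eq hkU (cocycle_pull hj.continuous ht) s2,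
    cconn_eq hi hj hc, cconn_eq hi' hj' hc']
  conv_lhs => rw [e1, ← P291Z.pull_pull, Hc.gys_cls hkY _ s1 n1, ← map_mul, Hc.conn_cls hi hj hc n3]
  conv_rhs => rw [← P291Z.pull_pull, Hc.conn_cls hi' hj' hc' n2, δ_pull, P291Z.pull_pull, e2,
    ← P291Z.pull_pull, Hc.gys_cls' hkU _ s2 (a := pull j (δ a))
      (fun z => by rw [δ_pull, δ_δ, map_zero]; exact Submodule.zero_mem _) hK
      (fun u hu => by
        have := supp_pull hj.continuous _ hu
        rwa [mem_preimage, ← hsq'] at this), ← map_mul]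
  refine cls_eq_of_null fun u => ?_
  rw [← map_sub, δ_mul, add_sub_cancel_left]
  exact Van.pull hj.continuous.continuousAt (Van.mul_left (supp_eq_empty.1 ht _) _)

section cross

variable {X₁ X₂ X₁' X₂' : Type} [TopologicalSpace X₁] [TopologicalSpace X₂] [TopologicalSpace X₁']
  [TopologicalSpace X₂'] [Nice X₁] [Nice X₂] [Nice X₁'] [Nice X₂']
  {p₁ : X → X₁} {p₂ : X → X₂} (hp : IsHomeomorph fun x => (p₁ x, p₂ x))
  {q₁ : X' → X₁'} {q₂ : X' → X₂'} (hq : IsHomeomorph fun x => (q₁ x, q₂ x))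
  {f : X' → X} {f₁ : X₁' → X₁} {f₂ : X₂' → X₂} (h₁ : ∀ x, p₁ (f x) = f₁ (q₁ x))
  (h₂ : ∀ x, p₂ (f x) = f₂ (q₂ x))

include hp

theorem cross_spec (β₁ : BM X₁) (β₂ : BM X₂) : Cross p₁ p₂ β₁ β₂ (cross p₁ p₂ β₁ β₂) := by
  have hp' := IsPr.of_isHomeomorph hp
  let e := LinearEquiv.ofBijective _ (Hc.kunneth hp)
  have ex : ∃ φ : BM X₁ →ₗ[ℂ] BM X₂ →ₗ[ℂ] BM X, ∀ β₁ β₂, Cross p₁ p₂ β₁ β₂ (φ β₁ β₂) := by
    refine ⟨(TensorProduct.mk ℂ (BM X₁) (BM X₂)).compr₂
      (e.symm.dualMap.toLinearMap ∘ₗ TensorProduct.dualDistrib ℂ (Hc X₁) (Hc X₂)),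
      fun β₁ β₂ => (cross_iff hp').2 fun c c' => ?_⟩
    have : e.symm (Hc.cross hp' c c') = c ⊗ₜ c' := by
      rw [LinearEquiv.symm_apply_eq]
      exact (TensorProduct.lift.tmul c c').symm
    rw [LinearMap.compr₂_apply, TensorProduct.mk_apply, LinearMap.comp_apply,
      LinearEquiv.coe_coe, LinearEquiv.dualMap_apply, this, TensorProduct.dualDistrib_apply]
  exact Classical.epsilon_spec ex β₁ β₂

theorem cross_apply (β₁ : BM X₁) (β₂ : BM X₂) (c : Hc X₁) (c' : Hc X₂) :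
    cross p₁ p₂ β₁ β₂ (Hc.cross (IsPr.of_isHomeomorph hp) c c') = β₁ c * β₂ c' :=
  (cross_iff _).1 (cross_spec hp β₁ β₂) c c'

theorem cross_ext {β₁ : BM X₁} {β₂ : BM X₂} {β : BM X}
    (h : ∀ c c', β (Hc.cross (IsPr.of_isHomeomorph hp) c c') = β₁ c * β₂ c') :
    β = cross p₁ p₂ β₁ β₂ :=
  (existsUnique_cross hp β₁ β₂).unique ((cross_iff _).2 h) (cross_spec hp β₁ β₂)

theorem isCompact_cross {K₁ : Set X₁} {K₂ : Set X₂} (h₁ : IsCompact K₁) (h₂ : IsCompact K₂) :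
    IsCompact (p₁ ⁻¹' K₁ ∩ p₂ ⁻¹' K₂) := (IsPr.of_isHomeomorph hp).pre _ (h₁.prod h₂)

include hq h₁ h₂

theorem cross_map_eq : f = (hp.homeomorph _).symm ∘ Prod.map f₁ f₂ ∘ fun x => (q₁ x, q₂ x) :=
  funext fun x => ((hp.homeomorph _).eq_symm_apply.2 (Prod.ext (h₁ x) (h₂ x)))

theorem cross_range : p₁ ⁻¹' range f₁ ∩ p₂ ⁻¹' range f₂ ⊆ range f := by
  rintro x ⟨⟨y₁, e₁⟩, ⟨y₂, e₂⟩⟩
  obtain ⟨y, hy⟩ := hq.surjective (y₁, y₂)
  exact ⟨y, hp.injective (Prod.ext ((h₁ y).trans ((congrArg (fun z => f₁ z.1) hy).trans e₁))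
    ((h₂ y).trans ((congrArg (fun z => f₂ z.2) hy).trans e₂)))⟩

theorem isPr_cross (e₁ : IsPr f₁) (e₂ : IsPr f₂) : IsPr f := by
  have h3 : IsPr (Prod.map f₁ f₂) := ⟨e₁.cont.prodMap e₂.cont, fun K hK =>
    ((e₁.pre _ (hK.image continuous_fst)).prod (e₂.pre _ (hK.image continuous_snd))).of_isClosed_subset
      (hK.isClosed.preimage (e₁.cont.prodMap e₂.cont))
      fun x hx => ⟨⟨_, hx, rfl⟩, ⟨_, hx, rfl⟩⟩⟩
  rw [cross_map_eq hp hq h₁ h₂]
  exact (IsPr.of_homeomorph _).comp (h3.comp (IsPr.of_isHomeomorph hq))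

theorem isOpenEmbedding_cross (e₁ : IsOpenEmbedding f₁) (e₂ : IsOpenEmbedding f₂) :
    IsOpenEmbedding f := by
  rw [cross_map_eq hp hq h₁ h₂]
  exact (hp.homeomorph _).symm.isOpenEmbedding.comp ((e₁.prodMap e₂).comp hq.isOpenEmbedding)

theorem isClosedEmbedding_cross (e₁ : IsClosedEmbedding f₁) (e₂ : IsClosedEmbedding f₂) :
    IsClosedEmbedding f := by
  have h3 : IsClosedEmbedding (Prod.map f₁ f₂) := ⟨e₁.isEmbedding.prodMap e₂.isEmbedding, by
    rw [range_prodMap]; exact e₁.isClosed_range.prod e₂.isClosed_range⟩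
  rw [cross_map_eq hp hq h₁ h₂]
  exact (hp.homeomorph _).symm.isClosedEmbedding.comp (h3.comp hq.isClosedEmbedding)

omit hp hq in
theorem pull_cross (a₁ : Coch X₁) (a₂ : Coch X₂) :
    pull q₁ (pull f₁ a₁) * pull q₂ (pull f₂ a₂) = pull f (pull p₁ a₁ * pull p₂ a₂) := by
  rw [map_mul, P291Z.pull_pull, P291Z.pull_pull, P291Z.pull_pull, P291Z.pull_pull,
    show p₁ ∘ f = f₁ ∘ q₁ from funext h₁, show p₂ ∘ f = f₂ ∘ q₂ from funext h₂]

theorem cpull_cross (e₁ : IsPr f₁) (e₂ : IsPr f₂) (c : Hc X₁) (c' : Hc X₂) :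
    cpull f (Hc.cross (IsPr.of_isHomeomorph hp) c c') =
      Hc.cross (IsPr.of_isHomeomorph hq) (cpull f₁ c) (cpull f₂ c') := by
  obtain ⟨a, ha, rfl⟩ := cls_surj c
  obtain ⟨b, hb, rfl⟩ := cls_surj c'
  rw [cpull_eq e₁, cpull_eq e₂, cpull_eq (isPr_cross hp hq h₁ h₂ e₁ e₂), Hc.cross_cls _ ha hb,
    Hc.pull_cls _ ha, Hc.pull_cls _ hb, Hc.cross_cls _ (e₁.pull_Zc ha) (e₂.pull_Zc hb),
    Hc.pull_cls _ (cross_Zc (IsPr.of_isHomeomorph hp) ha hb), pull_cross h₁ h₂]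

theorem cext_cross (e₁ : IsOpenEmbedding f₁) (e₂ : IsOpenEmbedding f₂) (c : Hc X₁') (c' : Hc X₂') :
    cext f (Hc.cross (IsPr.of_isHomeomorph hq) c c') =
      Hc.cross (IsPr.of_isHomeomorph hp) (cext f₁ c) (cext f₂ c') := by
  have hp' := IsPr.of_isHomeomorph hp
  obtain ⟨a, ha, sa, rfl⟩ := cls_surj_open' e₁ c
  obtain ⟨b, hb, sb, rfl⟩ := cls_surj_open' e₂ c'
  rw [cext_eq e₁, cext_eq e₂, cext_eq (isOpenEmbedding_cross hp hq h₁ h₂ e₁ e₂),
    Hc.cross_cls _ (pull_open_Zc e₁ ha sa) (pull_open_Zc e₂ hb sb), Hc.push_cls _ ha sa,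
    Hc.push_cls _ hb sb, Hc.cross_cls _ ha hb, pull_cross h₁ h₂,
    Hc.push_cls _ (cross_Zc hp' ha hb) ((supp_mul _ _).trans ((inter_subset_inter
      ((supp_pull hp'.cont₁ a).trans (preimage_mono sa))
      ((supp_pull hp'.cont₂ b).trans (preimage_mono sb))).trans (cross_range hp hq h₁ h₂)))]

theorem cgys_cross (e₁ : IsClosedEmbedding f₁) (e₂ : IsClosedEmbedding f₂) {t₁ : Coch X₁}
    {t₂ : Coch X₂} (c₁ : supp (δ t₁) = ∅) (s₁ : supp t₁ ⊆ range f₁) (c₂ : supp (δ t₂) = ∅)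
    (s₂ : supp t₂ ⊆ range f₂) {d : ℤ} (hd : IsDeg (2 * d) t₁) (c : Hc X₁') (c' : Hc X₂') :
    cgys f (pull p₁ t₁ * pull p₂ t₂) (Hc.cross (IsPr.of_isHomeomorph hq) c c') =
      Hc.cross (IsPr.of_isHomeomorph hp) (cgys f₁ t₁ c) (cgys f₂ t₂ c') := by
  have hp' := IsPr.of_isHomeomorph hp
  have hf := isClosedEmbedding_cross hp hq h₁ h₂ e₁ e₂
  have cS := cocycle_pull hp'.cont₁ c₁
  have cT := cocycle_pull hp'.cont₂ c₂
  have sS := (supp_pull hp'.cont₁ t₁).trans (preimage_mono s₁)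
  have sT := (supp_pull hp'.cont₂ t₂).trans (preimage_mono s₂)
  have sST : supp (pull p₁ t₁) ∩ supp (pull p₂ t₂) ⊆ range f :=
    (inter_subset_inter sS sT).trans (cross_range hp hq h₁ h₂)
  have sTS : supp (pull p₂ t₂) ∩ supp (pull p₁ t₁) ⊆ range f := inter_comm _ _ ▸ sST
  obtain ⟨a, ha, rfl⟩ := cls_surj_near' e₁ c
  obtain ⟨b, hb, rfl⟩ := cls_surj_near' e₂ c'
  have hK := isCompact_cross hp ha.1 hb.1
  have n : pull p₁ a * pull p₂ b ∈ Near f := ⟨isCompact_supp_of_subset hK ((supp_mul _ _).trans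
    (inter_subset_inter (supp_pull hp'.cont₁ a) (supp_pull hp'.cont₂ b))), fun x => by
      rw [δ_mul, δ_pull, δ_pull]
      exact (Van _).add_mem
        (Van.mul_right (Van.pull hp'.cont₁.continuousAt (h₁ x ▸ ha.2 _)) _)
        (Van.mul_left (Van.pull hp'.cont₂.continuousAt (h₂ x ▸ hb.2 _)) _)⟩
  have zb := Near.mul_Zc hb c₂ s₂
  rw [← cgys_congr hf (cocycle_mul cT cS) ((supp_mul _ _).trans sTS) (cocycle_mul cS cT)
      ((supp_mul _ _).trans sST) ((cohom_comm_even cT cS (hd.pull p₁)).mono sTS),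
    cgys_eq hf (cocycle_mul cT cS) ((supp_mul _ _).trans sTS), cgys_eq e₁ c₁ s₁, cgys_eq e₂ c₂ s₂,
    Hc.cross_cls _ (Near.pull_Zc (IsPr.of_isClosedEmbedding e₁) ha)
      (Near.pull_Zc (IsPr.of_isClosedEmbedding e₂) hb), pull_cross h₁ h₂, Hc.gys_cls _ _ _ n,
    Hc.gys_cls _ _ _ ha, Hc.gys_cls _ _ _ hb, Hc.cross_cls _ (Near.mul_Zc ha c₁ s₁) zb,
    mul_assoc, ← mul_assoc (pull p₂ b), ← map_mul, map_mul (pull p₁), mul_assoc]
  refine cls_mul_congr (cohom_comm_even (cocycle_pull hp'.cont₂ zb.2) cS (hd.pull p₁)) hK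
    (fun x hx => ⟨supp_pull hp'.cont₁ a hx.1, (supp_mul _ _ (supp_pull hp'.cont₂ _ hx.2.1)).1⟩)
    fun x hx => ?_
  obtain ⟨y, hy⟩ := sS hx.2
  rw [δ_pull]
  exact Van.pull hp'.cont₁.continuousAt (hy ▸ ha.2 y)

end cross

section act

variable {X₁ X₂ : Type} [TopologicalSpace X₁] [TopologicalSpace X₂] [Nice X₁] [Nice X₂]
  {p₁ : C(X, X₁)} {p₂ : C(X, X₂)} (hp : IsHomeomorph fun x => (p₁ x, p₂ x))
include hp

theorem act_cross_right (h : H X₂) (c : Hc X₁) (c' : Hc X₂) :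
    Hc.act (H.map p₂ h) (Hc.cross (IsPr.of_isHomeomorph hp) c c') =
      Hc.cross (IsPr.of_isHomeomorph hp) c (Hc.act h c') := by
  obtain ⟨a, ha, rfl⟩ := cls_surj c
  obtain ⟨b, hb, rfl⟩ := cls_surj c'
  obtain ⟨t, ht, rfl⟩ := hcls_surj h
  rw [H.map_hcls _ ht, Hc.cross_cls _ ha hb, Hc.act_cls ht hb, Hc.cross_cls _ ha (mul_Zc hb ht),
    Hc.act_cls (cocycle_pull p₂.continuous ht) (cross_Zc (IsPr.of_isHomeomorph hp) ha hb),
    map_mul, mul_assoc]

theorem act_cross_left {d : ℤ} {h : H X₁} (hd : H.IsDeg (2 * d) h) (c : Hc X₁) (c' : Hc X₂) :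
    Hc.act (H.map p₁ h) (Hc.cross (IsPr.of_isHomeomorph hp) c c') =
      Hc.cross (IsPr.of_isHomeomorph hp) (Hc.act h c) c' := by
  obtain ⟨a, ha, rfl⟩ := cls_surj c
  obtain ⟨b, hb, rfl⟩ := cls_surj c'
  obtain ⟨t, ht, hd', rfl⟩ := H.isDeg_iff.1 hd
  rw [H.map_hcls _ ht, Hc.cross_cls _ ha hb, Hc.act_cls ht ha, Hc.cross_cls _ (mul_Zc ha ht) hb,
    Hc.act_cls (cocycle_pull p₁.continuous ht) (cross_Zc (IsPr.of_isHomeomorph hp) ha hb),
    map_mul, mul_assoc, mul_assoc]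
  exact cls_mul_congr (cohom_comm_even (cocycle_pull p₂.continuous hb.2)
    (cocycle_pull p₁.continuous ht) (hd'.pull p₁)) (isCompact_cross hp ha.1 hb.1)
    (fun x hx => ⟨supp_pull p₁.continuous a hx.1, supp_pull p₂.continuous b hx.2.1⟩)
    fun x _ => supp_eq_empty.1 (cocycle_pull p₁.continuous ha.2) x

end act

end Vale.Agent.P291Z
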