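import Vale.Agent.P291Z.TSys0

/-!
# The antisymmetrizer of the Weyl group
-/

set_option linter.all false

namespace Vale.Agent.P291Z.TS

open Set Function MvPolynomial
open Fl (Art artT0 Inv mem_Inv)

variable {J : Type} [Fintype J] {n : J → ℕ}

theorem sgn_mul (v w : Wy n) : Wy.sgn (v * w) = Wy.sgn v * Wy.sgn w := by
  simp [Wy.sgn, Finset.prod_mul_distrib]

theorem sgn_inv (w : Wy n) : Wy.sgn w⁻¹ = Wy.sgn w := by
  simp [Wy.sgn]

theorem sgn_one : Wy.sgn (1 : Wy n) = 1 := by
  simp [Wy.sgn]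

theorem sgn_mul_self (w : Wy n) : Wy.sgn w * Wy.sgn w = 1 := by
  nth_rewrite 1 [← sgn_inv]
  rw [← sgn_mul, inv_mul_cancel, sgn_one]

theorem rename_mul (v w : Wy n) (s : SP n) :
    rename (Wy.perm (v * w)) s = rename (Wy.perm v) (rename (Wy.perm w) s) := by
  rw [rename_rename]
  rfl

theorem rename_one (s : SP n) : rename (Wy.perm (1 : Wy n)) s = s := rename_id_apply s

theorem rename_inv (w : Wy n) (s : SP n) : rename (Wy.perm w) (rename (Wy.perm w⁻¹) s) = s := by
  rw [← rename_mul, mul_inv_cancel, rename_one]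

/-- the antisymmetrizer -/
noncomputable def alt : SP n →ₗ[ℂ] SP n := ∑ w : Wy n, Wy.sgn w • (rename (Wy.perm w)).toLinearMap

theorem alt_apply (s : SP n) : alt s = ∑ w : Wy n, Wy.sgn w • rename (Wy.perm w) s := by
  simp [alt]

theorem rename_alt (v : Wy n) (s : SP n) : rename (Wy.perm v) (alt s) = Wy.sgn v • alt s := by
  rw [alt_apply, map_sum, Finset.smul_sum, ← Equiv.sum_comp (Equiv.mulLeft v)
    fun w => Wy.sgn v • Wy.sgn w • rename (Wy.perm w) s]
  refine Finset.sum_congr rfl fun w _ => ?_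
  rw [Equiv.coe_mulLeft, sgn_mul, smul_smul, ← mul_assoc, sgn_mul_self, one_mul, map_smul,
    rename_mul]

theorem alt_rename (v : Wy n) (s : SP n) : alt (rename (Wy.perm v) s) = Wy.sgn v • alt s := by
  rw [alt_apply, alt_apply, Finset.smul_sum, ← Equiv.sum_comp (Equiv.mulRight v)
    fun w => Wy.sgn v • Wy.sgn w • rename (Wy.perm w) s]
  refine Finset.sum_congr rfl fun w _ => ?_
  rw [Equiv.coe_mulRight, sgn_mul, smul_smul, mul_left_comm, sgn_mul_self, mul_one, rename_mul]

theorem alt_inv_mul {f : SP n} (hf : f ∈ Inv n) (s : SP n) : alt (f * s) = f * alt s := by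
  rw [alt_apply, alt_apply, Finset.mul_sum]
  exact Finset.sum_congr rfl fun w _ => by
    rw [map_mul, show rename (Wy.perm w) f = f from mem_Inv.1 hf w, mul_smul_comm]

theorem alt_art {a : Art n} (ha : a ≠ artT0 n) : alt (monomial a.1 1 : SP n) = 0 := by
  classical
  have h1 : ∃ j, ¬Injective fun r : Fin (n j) => a.1 ⟨j, r⟩ := by
    by_contra h
    push Not at h
    refine ha (Subtype.ext (Fl.eq_top_of_degree a.2 (Eq.le ?_)))
    refine Fl.degree_artT0.trans ?_
    rw [Fl.degree_eq_sum, Fintype.sum_sigma, Fl.dfl]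
    refine Finset.sum_congr rfl fun j _ => ?_
    let f : Fin (n j) → Fin (n j) := fun r => ⟨a.1 ⟨j, r⟩, (a.2 ⟨j, r⟩).trans_le (Nat.sub_le _ _)⟩
    have hf : Bijective f := (Finite.injective_iff_bijective).1 fun r s e =>
      h j (congrArg Fin.val e)
    rw [← Finset.sum_range_id, Finset.sum_range, ← (Equiv.ofBijective f hf).sum_comp]
    rfl
  obtain ⟨j, hj⟩ := h1
  obtain ⟨r, s, e, hrs⟩ := not_injective_iff.1 hj
  let τ : Wy n := Pi.mulSingle j (Equiv.swap r s)
  have h2 : Wy.sgn τ = -1 := by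
    rw [Wy.sgn, Finset.prod_eq_single j (fun i _ hi => by simp [τ, Pi.mulSingle_eq_of_ne hi])
      (fun h => absurd (Finset.mem_univ j) h)]
    simp [τ, Equiv.Perm.sign_swap hrs]
  have h3 : rename (Wy.perm τ) (monomial a.1 1 : SP n) = monomial a.1 1 := by
    rw [rename_monomial]
    congr 2
    refine Finsupp.ext fun ⟨i, c⟩ => ?_
    rw [Finsupp.mapDomain_equiv_apply]
    show a.1 ⟨i, (τ i).symm c⟩ = _
    by_cases hi : i = j
    · subst hi
      simp only [τ, Pi.mulSingle_eq_same, Equiv.symm_swap]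
      exact Equiv.apply_swap_eq_self (v := fun r => a.1 ⟨i, r⟩) e c
    · simp only [τ, Pi.mulSingle_eq_of_ne hi]
      rfl
  have h4 := alt_rename τ (monomial a.1 1)
  rw [h3, h2, neg_one_smul, eq_neg_iff_add_eq_zero, ← two_smul ℂ] at h4
  exact (smul_eq_zero.1 h4).resolve_left two_ne_zero

theorem alt_top : alt (monomial (artT0 n).1 1 : SP n) = Del n := by
  classical
  have h1 : ∀ j, ∏ a : Fin (n j), ∏ b ∈ Finset.Ioi a, (X ⟨j, a⟩ - X ⟨j, b⟩ : SP n) =
      ∑ σ : Equiv.Perm (Fin (n j)), ((Equiv.Perm.sign σ : ℤ) : ℂ) •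
        ∏ r : Fin (n j), (X ⟨j, σ r⟩ : SP n) ^ (n j - r - 1) := fun j => by
    have := Matrix.det_projVandermonde (fun _ => (1 : SP n)) fun a : Fin (n j) => X ⟨j, a⟩
    simp only [one_mul] at this
    rw [← this, Matrix.det_apply]
    refine Finset.sum_congr rfl fun σ _ => ?_
    rw [Int.cast_smul_eq_zsmul, Units.smul_def]
    congr 1
    exact Finset.prod_congr rfl fun r _ => by
      rw [Matrix.projVandermonde_apply, one_pow, one_mul, Fin.val_rev, Nat.sub_sub]
  rw [Del, Finset.prod_congr rfl fun j _ => h1 j, Finset.prod_univ_sum, alt_apply]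
  refine Finset.sum_congr (Finset.ext fun _ => by simp) fun w _ => ?_
  rw [Finset.prod_smul, monomial_eq, C_1, one_mul, Finsupp.prod_fintype _ _ fun _ => pow_zero _,
    map_prod, Fintype.prod_sigma]
  simp only [map_pow, rename_X]
  rfl

theorem Del_ne_zero : Del n ≠ 0 :=
  Finset.prod_ne_zero_iff.2 fun j _ => Finset.prod_ne_zero_iff.2 fun a _ =>
    Finset.prod_ne_zero_iff.2 fun b hb => sub_ne_zero.2 fun h => (Finset.mem_Ioi.1 hb).ne
      (sigma_mk_injective (β := fun j => Fin (n j)) (X_injective h))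

theorem rename_Del (w : Wy n) : rename (Wy.perm w) (Del n) = Wy.sgn w • Del n := by
  rw [← alt_top, rename_alt]

theorem alt_mul_Del (s : SP n) : alt (s * Del n) = Del n * ∑ w : Wy n, rename (Wy.perm w) s := by
  rw [alt_apply, Finset.mul_sum]
  exact Finset.sum_congr rfl fun w _ => by
    rw [map_mul, rename_Del, mul_smul_comm, smul_smul, sgn_mul_self, one_smul, mul_comm]

theorem alt_sum {c : Art n → SP n} (hc : ∀ a, c a ∈ Inv n) :
    alt (∑ a, c a * monomial a.1 1) = Del n * c (artT0 n) := by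
  rw [map_sum, Finset.sum_eq_single (artT0 n) (fun a _ ha => by
    rw [alt_inv_mul (hc a), alt_art ha, mul_zero]) (fun h => absurd (Finset.mem_univ _) h),
    alt_inv_mul (hc _), alt_top, mul_comm]

end Vale.Agent.P291Z.TS
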