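import Vale.Agent.P291Z.TS1
import Vale.Agent.P291Z.TS2
import Vale.Agent.P291Z.GL1
import Vale.Agent.P291Z.OpsC

/-!
# The equivariant cohomology of a point for the torus; integration along flag manifolds
-/

set_option linter.all false

namespace Vale.Agent.P291Z

open Set Function Topology MvPolynomial
open Fl (Art artT0 art0 lhc Box bdT top)

theorem TS.hs_compat {G Z : Type} [Group G] [TopologicalSpace G] [Sys G] [TopologicalSpace Z]
    [MulAction G Z] (r : HS G Z) (M : ℕ) : H.map (bincC G Z M) (r.1 (M + 1)) = r.1 M := by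
  obtain ⟨r, hr⟩ := r
  induction hr using Subring.closure_induction with
  | mem x hx => exact ((mem_iUnion.1 hx).choose_spec M).1
  | zero => exact map_zero _
  | one => exact map_one _
  | add x y _ _ hx hy => exact (map_add _ _ _).trans (congrArg₂ (· + ·) hx hy)
  | neg x _ hx => exact (map_neg _ _).trans (congrArg Neg.neg hx)
  | mul x y _ _ hx hy => exact (map_mul _ _ _).trans (congrArg₂ (· * ·) hx hy)

theorem TS.hs_mem {G Z : Type} [Group G] [TopologicalSpace G] [Sys G] [TopologicalSpace Z]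
    [MulAction G Z] {k : ℤ} {c : ∀ M, H (Bq G Z M)} (h : c ∈ HSdeg G Z k) : c ∈ HS G Z :=
  Subring.subset_closure (mem_iUnion.2 ⟨k, h⟩)

variable {J : Type} [Fintype J] {n : J → ℕ} {M : ℕ}

namespace TS

section torus

variable {Z : Type} [TopologicalSpace Z] [MulAction (Tc n) Z]

theorem map_binc (p : SP n) : H.map (bincC (Tc n) Z M) (evT n Z (M + 1) p) = evT n Z M p :=
  (map_evT (bincC (Tc n) Z M) id (fun x => (x.1, Sys.inc M x.2)) (fun _ => rfl)
    (fun _ _ _ => Fl.ip_snoc _ _) p).trans (congrArg _ (rename_id_apply p))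

theorem map_bpt (p : SP n) : H.map (bptC (Tc n) Z M) (evT n Unit M p) = evT n Z M p :=
  (map_evT (bptC (Tc n) Z M) id (fun x => ((), x.2)) (fun _ => rfl)
    (fun _ _ _ => rfl) p).trans (congrArg _ (rename_id_apply p))

theorem evT_mem_deg {p : SP n} {k : ℕ} (hp : p.IsHomogeneous k) :
    (fun M => evT n Z M p) ∈ HSdeg (Tc n) Z (2 * k) := fun _ => ⟨map_binc p, evT_deg hp⟩

end torus

variable (n) in
/-- the values of a polynomial on all approximations -/
noncomputable def psi0 : SP n →+* ∀ M, H (Bq (Tc n) Unit M) :=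
  RingHom.pi fun M => (evT n Unit M).toRingHom

theorem psi0_mem (p : SP n) : psi0 n p ∈ HS (Tc n) Unit := by
  rw [← p.sum_homogeneousComponent, map_sum]
  exact Subring.sum_mem _ fun d _ =>
    TS.hs_mem (evT_mem_deg (homogeneousComponent_isHomogeneous d p))

theorem psi0_injective : Injective (psi0 n) :=
  (injective_iff_map_eq_zero _).2 fun p h => evT_inj_large le_rfl (congrFun h _)

theorem eq_zero_of_odd {k : ℤ} (hk : ∀ d : ℕ, k ≠ 2 * d) {c : H (Bq (Tc n) Unit M)}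
    (hc : H.IsDeg k c) : c = 0 := by
  obtain ⟨p, rfl⟩ := evT_surjective c
  rw [← hc.comp_eq, comp_evT_of_ne hk]

theorem exists_hom {d : ℕ} {c : H (Bq (Tc n) Unit M)} (hc : H.IsDeg (2 * d) c) :
    ∃ p : SP n, p.IsHomogeneous d ∧ evT n Unit M p = c := by
  obtain ⟨p, rfl⟩ := evT_surjective c
  exact ⟨_, homogeneousComponent_isHomogeneous d p, by rw [← comp_evT, hc.comp_eq]⟩

theorem exists_psi0 {k : ℤ} {c : ∀ M, H (Bq (Tc n) Unit M)} (hc : c ∈ HSdeg (Tc n) Unit k) :
    ∃ p, psi0 n p = c := by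
  by_cases hk : ∃ d : ℕ, k = 2 * d
  · obtain ⟨d, rfl⟩ := hk
    obtain ⟨p, hp, e⟩ := exists_hom (hc (d + ∑ j, n j)).2
    refine ⟨p, funext fun M => ?_⟩
    show evT n Unit M p = c M
    rcases le_total M (d + ∑ j, n j) with h | h
    · exact Nat.decreasingInduction (fun M _ ih => by rw [← map_binc, ih, (hc M).1]) e h
    · refine Nat.le_induction e (fun M hM ih => ?_) M h
      obtain ⟨q, hq, e'⟩ := exists_hom (hc (M + 1)).2
      rw [← e', ← sub_eq_zero.1 (evT_inj_large (p := q - p) (M := M)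
        ((Nat.add_le_add_right (hq.sub hp).totalDegree_le _).trans hM)
        (by rw [map_sub, ih, ← map_binc, e', (hc M).1, sub_self]))]
  · exact ⟨0, funext fun M => (map_zero (evT n Unit M)).trans
      (eq_zero_of_odd (fun d h => hk ⟨d, h⟩) (hc M).2).symm⟩

end TS

variable (n) in
/-- the isomorphism `S ≅ H_T(pt)`, `X c ↦` Euler class of the weight line of `c` -/
noncomputable def psiT : SP n ≃+* HS (Tc n) Unit :=
  RingEquiv.ofBijective ((TS.psi0 n).codRestrict _ TS.psi0_mem)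
    ⟨fun _ _ h => TS.psi0_injective (congrArg Subtype.val h), fun ⟨c, hc⟩ => by
      have : HS (Tc n) Unit ≤ (TS.psi0 n).range := Subring.closure_le.2
        (iUnion_subset fun k c hc => TS.exists_psi0 hc)
      obtain ⟨p, rfl⟩ := this hc
      exact ⟨p, rfl⟩⟩

theorem psiT_apply (s : SP n) (M : ℕ) : (psiT n s).1 M = TS.evT n Unit M s := rfl

theorem psiT_C (c : ℂ) : (psiT n (MvPolynomial.C c)).1 = algebraMap ℂ _ c :=
  funext fun M => (TS.evT n Unit M).commutes c

theorem psiT_deg {k : ℕ} {s : SP n} :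
    (psiT n s).1 ∈ HSdeg (Tc n) Unit (2 * k) ↔ s.IsHomogeneous k := by
  refine ⟨fun h => ?_, TS.evT_mem_deg⟩
  rw [TS.psi0_injective (a₁ := s) (a₂ := homogeneousComponent k s) (funext fun M =>
    ((h M).2.comp_eq.symm.trans (TS.comp_evT k s)))]
  exact homogeneousComponent_isHomogeneous k s

section G

variable (Z : Type) [TopologicalSpace Z] [MulAction (GG n) Z] [MulAction (Tc n) Z]
  [IsScalarTower (Tc n) (GG n) Z]

/-- the flag bundle -/
noncomputable def piT (M : ℕ) : Bq (Tc n) Z M → Bq (GG n) Z M :=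
  Bor.map (toG n) (fun x => (x.1, St.toE n x.2)) fun t x => Prod.ext (smulT_eq Z t x.1) rfl

variable {Z} [Nice Z] [ContinuousSMul (GG n) Z]

theorem isPr_piT (M : ℕ) : IsPr (piT (n := n) Z M) := TS.isPr_piC

namespace TS

variable (n Z) in
/-- the flag bundle as a continuous map -/
noncomputable def pC (M : ℕ) : C(Bq (Tc n) Z M, Bq (GG n) Z M) := ⟨piT Z M, (isPr_piT M).cont⟩

theorem isPr_pC : IsPr (pC n Z M) := isPr_piT M

theorem lh_pC : Bijective (H.lh (pC n Z M) (art (n := n) Z M)) := lh_piC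

theorem map_pC_injective : Injective (H.map (pC n Z M)) := fun a b h => by
  have : ∀ a, H.lh (pC n Z M) (art Z M) (Finsupp.single (art0 n) a) = H.map (pC n Z M) a :=
    fun a => by
      rw [H.lh_single]
      exact (congrArg (_ * ·) (map_one (evT n Z M))).trans (mul_one _)
  exact Finsupp.single_injective _ (lh_pC.1 ((this a).trans (h.trans (this b).symm)))

theorem piT_binc (x : Bq (Tc n) Z M) :
    piT Z (M + 1) (binc (Tc n) Z M x) = binc (GG n) Z M (piT Z M x) := by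
  obtain ⟨x, rfl⟩ := Bor.mk_surjective x
  rfl

theorem bpt_piT (x : Bq (Tc n) Z M) :
    bpt (GG n) Z M (piT Z M x) = piT Unit M (bpt (Tc n) Z M x) := by
  obtain ⟨x, rfl⟩ := Bor.mk_surjective x
  rfl

theorem piT_wact (w : Wy n) (x : Bq (Tc n) Z M) : piT Z M (wact Z w M x) = piT Z M x := by
  obtain ⟨x, rfl⟩ := Bor.mk_surjective x
  exact Bor.mk_smul (wG w) (x.1, St.toE n x.2)

theorem map_pC_bpt (c : H (Bq (GG n) Unit M)) :
    H.map (pC n Z M) (H.map (bptC (GG n) Z M) c) =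
      H.map (bptC (Tc n) Z M) (H.map (pC n Unit M) c) := by
  rw [H.map_map, H.map_map]
  congr 2
  exact ContinuousMap.ext bpt_piT

/-- `x ^ a π ^ * c` -/
noncomputable def gen (p : SP n) : Hc (Bq (GG n) Z M) →ₗ[ℂ] Hc (Bq (Tc n) Z M) :=
  Hc.act (evT n Z M p) ∘ₗ Hc.pull isPr_pC

theorem gen_apply (p : SP n) (c : Hc (Bq (GG n) Z M)) :
    gen p c = Hc.act (evT n Z M p) (Hc.pull isPr_pC c) := rfl

variable (Z) in
/-- the Leray-Hirsch isomorphism -/
noncomputable def lhE (M : ℕ) : (Art n →₀ Hc (Bq (GG n) Z M)) ≃ₗ[ℂ] Hc (Bq (Tc n) Z M) :=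
  LinearEquiv.ofBijective (lhc isPr_pC (art Z M)) lhc_piC

theorem lhE_single (a : Art n) (c : Hc (Bq (GG n) Z M)) :
    lhE Z M (Finsupp.single a c) = gen (monomial a.1 1) c := Fl.lhc_single isPr_pC _ a c

theorem gen_ext {V : Type} [AddCommGroup V] [Module ℂ V] {φ ψ : Hc (Bq (Tc n) Z M) →ₗ[ℂ] V}
    (h : ∀ (a : Art n) c, φ (gen (monomial a.1 1) c) = ψ (gen (monomial a.1 1) c)) : φ = ψ :=
  (LinearMap.cancel_right (lhE Z M).surjective (g := (lhE Z M).toLinearMap)).1
    (Finsupp.lhom_ext fun a c => by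
      simp only [LinearMap.comp_apply, LinearEquiv.coe_toLinearMap, lhE_single, h])

variable (Z) in
/-- integration along the fibres -/
noncomputable def int (M : ℕ) : Hc (Bq (Tc n) Z M) →ₗ[ℂ] Hc (Bq (GG n) Z M) :=
  Finsupp.lapply (artT0 n) ∘ₗ (lhE Z M).symm.toLinearMap

open Classical in
theorem int_gen (a : Art n) (c : Hc (Bq (GG n) Z M)) :
    int Z M (gen (monomial a.1 1) c) = if a = artT0 n then c else 0 := by
  rw [← lhE_single, int, LinearMap.comp_apply, LinearEquiv.coe_toLinearMap,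
    LinearEquiv.symm_apply_apply, Finsupp.lapply_apply, Finsupp.single_apply]

theorem int_comm {Z' : Type} [TopologicalSpace Z'] [MulAction (GG n) Z'] [MulAction (Tc n) Z']
    [IsScalarTower (Tc n) (GG n) Z'] [Nice Z'] [ContinuousSMul (GG n) Z'] {M' : ℕ}
    {φ : Hc (Bq (Tc n) Z M) →ₗ[ℂ] Hc (Bq (Tc n) Z' M')}
    {ψ : Hc (Bq (GG n) Z M) →ₗ[ℂ] Hc (Bq (GG n) Z' M')}
    (h : ∀ p c, φ (gen p c) = gen p (ψ c)) (c : Hc (Bq (Tc n) Z M)) :
    int Z' M' (φ c) = ψ (int Z M c) :=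
  DFunLike.congr_fun (gen_ext (φ := int Z' M' ∘ₗ φ) (ψ := ψ ∘ₗ int Z M) fun a c => by
    rw [LinearMap.comp_apply, LinearMap.comp_apply, h, int_gen, int_gen]
    split_ifs
    exacts [rfl, (map_zero _).symm]) c

theorem gen_deg {p : SP n} {d : ℕ} (hp : p.IsHomogeneous d) {k : ℤ} {c : Hc (Bq (GG n) Z M)}
    (hc : c ∈ Hc.deg _ k) : gen p c ∈ Hc.deg _ (k + 2 * d) :=
  Hc.act_deg (evT_deg hp) (Hc.pull_deg _ hc)

theorem int_comp (k : ℤ) (c : Hc (Bq (Tc n) Z M)) :
    int Z M (Hc.comp (k + 2 * dimFl n) c) = Hc.comp k (int Z M c) :=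
  DFunLike.congr_fun (gen_ext (φ := int Z M ∘ₗ Hc.comp (k + 2 * dimFl n))
    (ψ := Hc.comp k ∘ₗ int Z M) fun a c => by
    have := Hc.comp_map (fun k c hc => gen_deg (isHomogeneous_monomial 1
      (rfl : a.1.degree = _)) hc) (k + 2 * dimFl n - 2 * a.1.degree) c
    rw [sub_add_cancel] at this
    rw [LinearMap.comp_apply, LinearMap.comp_apply, this, int_gen, int_gen]
    split_ifs with h
    · rw [h, Fl.degree_artT0, dimFl_eq, add_sub_cancel_right]
    · rw [map_zero]) c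

theorem int_deg {k : ℤ} {c : Hc (Bq (Tc n) Z M)} (hc : c ∈ Hc.deg _ (k + 2 * dimFl n)) :
    int Z M c ∈ Hc.deg _ k := by
  rw [Hc.mem_deg_iff, ← int_comp, Hc.comp_of_mem hc]

theorem gen_mul (p q : SP n) (c : Hc (Bq (GG n) Z M)) :
    gen (p * q) c = Hc.act (evT n Z M q) (gen p c) := by
  rw [gen_apply, map_mul, Hc.act_mul, gen_apply]

theorem act_gen (h : H (Bq (GG n) Z M)) (p : SP n) (c : Hc (Bq (GG n) Z M)) :
    Hc.act (H.map (pC n Z M) h) (gen p c) = gen p (Hc.act h c) := by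
  rw [gen_apply, gen_apply, Hc.pull_act, ← Hc.act_mul, ← Hc.act_mul, evT_comm]

end TS

end G

namespace TS

theorem lh_fintype {E B : Type} [TopologicalSpace E] [TopologicalSpace B] {ι : Type} [Fintype ι]
    (p : C(E, B)) (t : ι → H E) (a : ι →₀ H B) : H.lh p t a = ∑ j, H.map p (a j) * t j := by
  rw [H.lh_apply]
  exact Finset.sum_subset (Finset.subset_univ _) fun j _ hj => by
    rw [Finsupp.notMem_support_iff.1 hj, map_zero, zero_mul]

theorem lh_ext {a b : Art n → H (Bq (GG n) Unit M)}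
    (h : ∑ j, H.map (pC n Unit M) (a j) * art Unit M j =
      ∑ j, H.map (pC n Unit M) (b j) * art Unit M j) : a = b :=
  Finsupp.equivFunOnFinite.symm.injective (lh_pC.1 (by rw [lh_fintype, lh_fintype]; exact h))

/-- **the Artin monomials generate** `H_T(pt)` over `H_G(pt)` -/
theorem exists_coeff (s : SP n) : ∃ r : Art n → HS (GG n) Unit, ∀ M,
    evT n Unit M s = ∑ a, H.map (pC n Unit M) ((r a).1 M) * art Unit M a := by
  induction s using MvPolynomial.induction_on' with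
  | add p q hp hq =>
    obtain ⟨r, hr⟩ := hp
    obtain ⟨r', hr'⟩ := hq
    exact ⟨r + r', fun M => by
      rw [map_add, hr, hr', ← Finset.sum_add_distrib]
      exact Finset.sum_congr rfl fun a _ => by
        rw [← add_mul, ← map_add]
        rfl⟩
  | monomial b z =>
    choose r hr using fun M => (lh_pC (n := n) (Z := Unit) (M := M)).2 (evT n Unit M (monomial b z))
    simp only [lh_fintype] at hr
    refine ⟨fun a => ⟨fun M => r M a,
      TS.hs_mem (k := 2 * b.degree - 2 * a.1.degree) fun M => ⟨?_, ?_⟩⟩, fun M => (hr M).symm⟩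
    · refine congrFun (lh_ext (a := fun a => H.map (bincC (GG n) Unit M) (r (M + 1) a)) ?_) a
      rw [hr, ← map_binc, ← hr, map_sum]
      refine Finset.sum_congr rfl fun a _ => ?_
      rw [map_mul, art, art, map_binc, H.map_map, H.map_map]
      congr 3
      exact ContinuousMap.ext fun x => (piT_binc x).symm
    · rw [← congrFun (lh_ext (a := fun a => H.comp (2 * b.degree - 2 * a.1.degree) (r M a))
        (b := r M) ?_) a]
      · exact H.isDeg_comp _ _
      rw [hr, ← (evT_deg (isHomogeneous_monomial z (rfl : b.degree = _))).comp_eq, ← hr, map_sum]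
      refine Finset.sum_congr rfl fun a _ => ?_
      rw [← H.comp_map, art, ← H.comp_mul_right (evT_deg (isHomogeneous_monomial 1
        (rfl : a.1.degree = _))), sub_add_cancel]

end TS

section prod

variable {J₁ J₂ : Type} [Fintype J₁] [Fintype J₂] (n₁ : J₁ → ℕ) (n₂ : J₂ → ℕ)

/-- the product structure for tori -/
noncomputable def sumProdT : SysProd (Tc (Sum.elim n₁ n₂)) (Tc n₁) (Tc n₂) where
  π₁ := fstT n₁ n₂
  π₂ := sndT n₁ n₂
  homeo := isHomeomorph_split (ι₁ := fun c : Bx n₁ => (⟨Sum.inl c.1, c.2⟩ : Bx (Sum.elim n₁ n₂)))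
    (ι₂ := fun c : Bx n₂ => ⟨Sum.inr c.1, c.2⟩) (bijective_iff_has_inverse.2
      ⟨fun c => match c with
        | ⟨Sum.inl j, a⟩ => Sum.inl ⟨j, a⟩
        | ⟨Sum.inr j, a⟩ => Sum.inr ⟨j, a⟩, by rintro (c | c) <;> rfl,
        by rintro ⟨j | j, a⟩ <;> rfl⟩) fun _ => Circle
  e₁ _ u := ⟨fun j => u.1 (Sum.inl j), fun j => u.2 (Sum.inl j)⟩
  e₂ _ u := ⟨fun j => u.1 (Sum.inr j), fun j => u.2 (Sum.inr j)⟩
  e₁_smul _ _ _ := rfl
  e₂_smul _ _ _ := rfl
  ehomeo M := by
    have hc : Continuous fun u : St (Sum.elim n₁ n₂) M =>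
        ((⟨fun j => u.1 (Sum.inl j), fun j => u.2 (Sum.inl j)⟩ : St n₁ M),
          (⟨fun j => u.1 (Sum.inr j), fun j => u.2 (Sum.inr j)⟩ : St n₂ M)) :=
      ((continuous_pi fun j =>
        (Fl.continuous_mat (Sum.inl j)).comp TS.continuous_val).subtype_mk _).prodMk
        ((continuous_pi fun j =>
          (Fl.continuous_mat (Sum.inr j)).comp TS.continuous_val).subtype_mk _)
    haveI : CompactSpace (Sys.P (Tc (Sum.elim n₁ n₂)) M) :=
      inferInstanceAs (CompactSpace (St _ M))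
    exact isHomeomorph_iff_continuous_bijective.2 ⟨hc, fun u v h => Subtype.ext (funext fun j =>
      match j with
      | Sum.inl j => congrArg (fun x : St n₁ M × St n₂ M => x.1.1 j) h
      | Sum.inr j => congrArg (fun x : St n₁ M × St n₂ M => x.2.1 j) h), fun x =>
      ⟨⟨fun j => match j with
        | Sum.inl j => x.1.1 j
        | Sum.inr j => x.2.1 j, fun j => match j with
        | Sum.inl j => x.1.2 j
        | Sum.inr j => x.2.2 j⟩, rfl⟩⟩
  inc₁ _ _ := rfl
  inc₂ _ _ := rfl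
  w := (sumProd n₁ n₂).w
  w_smul _ _ := rfl
  w_col _ _ := rfl
  dim M := by
    show dimB _ M + dimFl _ = dimB n₁ M + dimFl n₁ + (dimB n₂ M + dimFl n₂)
    rw [show dimB (Sum.elim n₁ n₂) M = dimB n₁ M + dimB n₂ M from (sumProd n₁ n₂).dim M, dimFl,
      Fintype.sum_sum_type]
    exact add_add_add_comm _ _ _ _

section

variable {n₁ n₂} {B Z : Type} [TopologicalSpace B] [MulAction (Tc (Sum.elim n₁ n₂)) B] [Nice B]
  [ContinuousSMul (Tc (Sum.elim n₁ n₂)) B] [TopologicalSpace Z] [Nice Z] {b : B → Z}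

theorem TS.map_p₁ [MulAction (Tc n₁) Z] [ContinuousSMul (Tc n₁) Z]
    (hb : ∀ g y, b (g • y) = (sumProdT n₁ n₂).π₁ g • b y) (hc : Continuous b) (s : SP n₁) :
    H.map ⟨(sumProdT n₁ n₂).p₁ b hb M, (sumProdT n₁ n₂).continuous_p₁ hb hc M⟩ (TS.evT n₁ Z M s) =
      TS.evT (Sum.elim n₁ n₂) B M (rename (fun c => ⟨Sum.inl c.1, c.2⟩) s) :=
  TS.map_evT ⟨(sumProdT n₁ n₂).p₁ b hb M, (sumProdT n₁ n₂).continuous_p₁ hb hc M⟩ _
    (fun x => (b x.1, (sumProdT n₁ n₂).e₁ M x.2)) (fun _ => rfl) (fun _ _ _ => rfl) s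

theorem TS.map_p₂ [MulAction (Tc n₂) Z] [ContinuousSMul (Tc n₂) Z]
    (hb : ∀ g y, b (g • y) = (sumProdT n₁ n₂).π₂ g • b y) (hc : Continuous b) (s : SP n₂) :
    H.map ⟨(sumProdT n₁ n₂).p₂ b hb M, (sumProdT n₁ n₂).continuous_p₂ hb hc M⟩ (TS.evT n₂ Z M s) =
      TS.evT (Sum.elim n₁ n₂) B M (rename (fun c => ⟨Sum.inr c.1, c.2⟩) s) :=
  TS.map_evT ⟨(sumProdT n₁ n₂).p₂ b hb M, (sumProdT n₁ n₂).continuous_p₂ hb hc M⟩ _
    (fun x => (b x.1, (sumProdT n₁ n₂).e₂ M x.2)) (fun _ => rfl) (fun _ _ _ => rfl) s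

end

theorem sumProdT_r₁ (s : SP n₁) : (sumProdT n₁ n₂).r₁ (psiT n₁ s) =
    psiT _ (MvPolynomial.rename (fun c => ⟨Sum.inl c.1, c.2⟩) s) :=
  Subtype.ext (funext fun M => TS.map_p₁ (b := id) (fun _ _ => rfl) continuous_id s)

theorem sumProdT_r₂ (s : SP n₂) : (sumProdT n₁ n₂).r₂ (psiT n₂ s) =
    psiT _ (MvPolynomial.rename (fun c => ⟨Sum.inr c.1, c.2⟩) s) :=
  Subtype.ext (funext fun M => TS.map_p₂ (b := id) (fun _ _ => rfl) continuous_id s)

end prod

end Vale.Agent.P291Z
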