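import Vale.Agent.P291Z.TS3
import Vale.Agent.P291Z.TS4
import Vale.Agent.P291Z.EulVB
import Vale.Agent.P291Z.T14

/-!
# Integration along flag manifolds and the standard operations; fundamental classes
-/

set_option linter.all false

namespace Vale.Agent.P291Z.TS

open Set Function Topology MvPolynomial
open Fl (Art artT0 art0 Box bdT top toH)

section gen

variable {G G' Z : Type} [Group G] [TopologicalSpace G] [Sys G] [TopologicalSpace Z] [MulAction G Z]

theorem mk_mem_range_binc {M : ℕ} {x : Z × Sys.P G (M + 1)} :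
    Bor.mk G x ∈ range (binc G Z M) ↔ Sys.col M x.2 = 0 := by
  refine ⟨fun ⟨y, hy⟩ => ?_, fun h => ?_⟩
  · obtain ⟨y, rfl⟩ := Bor.mk_surjective y
    obtain ⟨g, rfl⟩ := Bor.mk_eq_iff.1 hy.symm
    exact (Sys.col_zero _ _).2 ⟨g • y.2, Sys.inc_smul M g y.2⟩
  · obtain ⟨u, hu⟩ := (Sys.col_zero _ _).1 h
    exact ⟨Bor.mk G (x.1, u), congrArg (Bor.mk G) (Prod.ext rfl hu)⟩

theorem compact_pt (M : ℕ) : CompactSpace (Bq G Unit M) := by
  let f : MulAction.orbitRel.Quotient G (Sys.P G M) → Bq G Unit M :=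
    Quotient.map' (fun u => ((), u)) (by rintro _ y ⟨h, rfl⟩; exact ⟨h, rfl⟩)
  have hf : Continuous f := Continuous.quotient_map' (by fun_prop) _
  refine Surjective.compactSpace hf fun x => ?_
  obtain ⟨x, rfl⟩ := Bor.mk_surjective x
  exact ⟨Quotient.mk'' x.2, rfl⟩

theorem comp_cap {X : Type} [TopologicalSpace X] {D : ℤ} {γ : BM X} (hγ : BM.IsDeg D γ) (j : ℤ)
    (y : H X) : (Hc.comp (D - j)).dualMap (cap y γ) = cap (H.comp j y) γ := by
  refine LinearMap.ext fun c => ?_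
  show pd γ y (Hc.comp (D - j) c) = pd γ (H.comp j y) c
  refine H.induction_deg (P := fun y => pd γ y (Hc.comp (D - j) c) = pd γ (H.comp j y) c) y
    (by simp) (fun a b ha hb => by simp only [map_add, LinearMap.add_apply, ha, hb]) fun l => ?_
  have h := pd_deg hγ (H.isDeg_comp l y)
  by_cases e : j = l
  · rw [e, h.comp, (H.isDeg_comp l y).comp_eq]
  · rw [(H.isDeg_comp l y).comp_ne e, map_zero, LinearMap.zero_apply]
    exact BM.isDeg_iff.1 h _ (by omega) _ (Hc.comp_mem _ c)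

end gen

variable {J : Type} [Fintype J] {n : J → ℕ} {M M' : ℕ}

/-! ### Euler classes -/

section euler

variable {Z : Type} [TopologicalSpace Z] [MulAction (Tc n) Z] [Nice Z] [ContinuousSMul (Tc n) Z]

theorem hcls_euler_wt {W ι : Type} [AddCommGroup W] [Module ℂ W] [TopologicalSpace W]
    [DistribMulAction (Tc n) W] [Fintype ι] {r : ℕ} (hW : IsRep (Tc n) W r)
    (b : Module.Basis ι ℂ W) (χ : ι → Bx n → ℤ)
    (hb : ∀ (t : Tc n) p, t • b p = chr n (χ p) t • b p)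
    {σ : Z × Sys.P (Tc n) M → W} (hσ : ∀ (t : Tc n) x, σ (t • x) = t • σ x) (hc : Continuous σ) :
    hcls (euler σ hσ) = evT n Z M (∏ p, linf n (χ p)) :=
  hcls_euler_weights hW b χ hb (fun _ => rfl) (isVB_fib hW (isSubVB_top hW)) hσ hc

theorem hcls_euler_mat (m : J → ℕ) {σ : Z × Sys.P (Tc n) M → Mat n m}
    (hσ : ∀ (t : Tc n) x, σ (t • x) = t • σ x) (hc : Continuous σ) :
    hcls (euler σ hσ) =
      evT n Z M (monomial (Finsupp.equivFunOnFinite.symm fun c => m c.1) 1) := by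
  classical
  let e : Mat n m ≃ₗ[ℂ] ((Σ c : Bx n, Fin (m c.1)) → ℂ) :=
    { toFun := fun u p => u p.1.1 p.1.2 p.2
      invFun := fun v j a b => v ⟨⟨j, a⟩, b⟩
      map_add' := fun _ _ => rfl
      map_smul' := fun _ _ => rfl
      left_inv := fun _ => rfl
      right_inv := fun _ => rfl }
  rw [hcls_euler_wt (isRep_Mat n m).toT (Module.Basis.ofEquivFun e) (fun p => Pi.single p.1 1)
    (fun t p => e.injective (funext fun q => ?_)) hσ hc]
  · congr 1
    rw [monomial_eq, C_1, one_mul, Finsupp.prod_fintype _ _ fun _ => pow_zero _,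
      Fintype.prod_sigma]
    refine Finset.prod_congr rfl fun c _ => ?_
    have : linf n (Pi.single c 1) = X c := by
      rw [linf, Finset.sum_eq_single c (fun d _ h => by simp [Pi.single_eq_of_ne h])
        (fun h => absurd (Finset.mem_univ c) h)]
      simp
    simp [this]
  · have h1 : chr n (Pi.single p.1 1) t = t p.1 := by
      rw [chr, Finset.prod_eq_single p.1 (fun d _ h => by simp [Pi.single_eq_of_ne h])
        (fun h => absurd (Finset.mem_univ _) h)]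
      simp
    have h2 : ∀ u : Mat n m, e (t • u) q = t q.1 * e u q := fun u =>
      Matrix.diagonal_mul (fun a => (t ⟨q.1.1, a⟩ : ℂ)) (u q.1.1) q.1.2 q.2
    rw [h2, map_smul, h1, Module.Basis.coe_ofEquivFun, e.apply_symm_apply, Pi.smul_apply,
      smul_eq_mul]
    by_cases h : q = p
    · rw [h]
    · rw [Pi.single_eq_of_ne h, mul_zero, mul_zero]

theorem hcls_ecol : hcls (ecol (Tc n) Z M) =
    evT n Z (M + 1) (monomial (Finsupp.equivFunOnFinite.symm fun _ => 1) 1) :=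
  hcls_euler_mat (fun _ => 1) _ ((Sys.col_cont M).comp continuous_snd)

end euler

/-! ### the standard operations -/

section ops

variable {Z Z' : Type} [TopologicalSpace Z] [MulAction (GG n) Z] [MulAction (Tc n) Z]
  [IsScalarTower (Tc n) (GG n) Z] [Nice Z] [ContinuousSMul (GG n) Z]
  [TopologicalSpace Z'] [MulAction (GG n) Z'] [MulAction (Tc n) Z']
  [IsScalarTower (Tc n) (GG n) Z'] [Nice Z'] [ContinuousSMul (GG n) Z']

theorem preimage_piT {A : Set Z} (hA : ∀ (g : GG n), ∀ z ∈ A, g • z ∈ A) :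
    piT (n := n) Z M ⁻¹' bset A M ⊆ bset A M := fun x ⟨y, hy, e⟩ => by
  obtain ⟨x, rfl⟩ := Bor.mk_surjective x
  obtain ⟨g, hg⟩ := Bor.mk_eq_iff.1 e
  exact ⟨x, congrArg Prod.fst hg ▸ hA g _ hy, rfl⟩

theorem piT_smap (f : Z →[GG n] Z') (x : Bq (Tc n) Z M) :
    piT Z' M (smap (toT f) M x) = smap f M (piT Z M x) := by
  obtain ⟨x, rfl⟩ := Bor.mk_surjective x
  rfl

theorem preimage_range_smap (f : Z →[GG n] Z') :
    piT Z' M ⁻¹' range (smap f M) ⊆ range (smap (toT f) M) := by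
  rw [range_smap, range_smap]
  exact preimage_piT (by rintro g _ ⟨z, rfl⟩; exact ⟨g • z, map_smul f g z⟩)

theorem map_smap {f : Z →[GG n] Z'} (hf : Continuous (smap (toT f) M)) (p : SP n) :
    H.map ⟨_, hf⟩ (evT n Z' M p) = evT n Z M p :=
  (map_evT ⟨_, hf⟩ id (fun x => (f x.1, x.2)) (fun _ => rfl) (fun _ _ _ => rfl) p).trans
    (congrArg _ (rename_id_apply p))

variable {fT : C(Bq (Tc n) Z M, Bq (Tc n) Z' M')} {fG : Bq (GG n) Z M → Bq (GG n) Z' M'}
  (hsq : ∀ x, piT Z' M' (fT x) = fG (piT Z M x)) (hev : ∀ p, H.map fT (evT n Z' M' p) = evT n Z M p)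
include hsq hev

theorem int_cpull (hT : IsPr fT) (hG : IsPr fG) (c : Hc (Bq (Tc n) Z' M')) :
    int Z M (cpull fT c) = cpull fG (int Z' M' c) :=
  int_comm (fun p c => by
    rw [cpull_eq hT, cpull_eq hG, gen_apply, gen_apply, Hc.pull_act, hev, Hc.pull_pull,
      Hc.pull_pull, Hc.pull_congr (isPr_pC.comp hT) (hG.comp isPr_pC) hsq]) c

variable (hr : piT Z' M' ⁻¹' range fG ⊆ range fT)
include hr

theorem int_cext (hT : IsOpenEmbedding fT) (hG : IsOpenEmbedding fG) (c : Hc (Bq (Tc n) Z M)) :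
    int Z' M' (cext fT c) = cext fG (int Z M c) :=
  int_comm (fun p c => by
    rw [cext_eq hT, cext_eq hG, gen_apply, gen_apply, ← hev, Hc.push_act,
      Hc.pull_push hG hT isPr_pC isPr_pC hsq hr]) c

theorem int_cgys (hT : IsClosedEmbedding fT) (hG : IsClosedEmbedding fG)
    {t : Coch (Bq (GG n) Z' M')} (ht : supp (δ t) = ∅) (hs : supp t ⊆ range fG) {d : ℕ}
    (hd : IsDeg (2 * d) t) (c : Hc (Bq (Tc n) Z M)) :
    int Z' M' (cgys fT (pull (piT Z' M') t) c) = cgys fG t (int Z M c) :=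
  int_comm (fun p c => by
    have h1 := cocycle_pull (isPr_piT (Z := Z') M').cont ht
    have h2 := ((supp_pull (isPr_piT (Z := Z') M').cont t).trans (preimage_mono hs)).trans hr
    rw [cgys_eq hT h1 h2, cgys_eq hG ht hs, gen_apply, gen_apply, ← hev,
      Hc.gys_act hT h1 h2 (hd.pull _) (even_two_mul _),
      Hc.pull_gys_sq hG hT isPr_pC isPr_pC hsq ht hs h1 h2]
    rfl) c

end ops

/-! ### the fundamental classes for the torus -/

variable (n) in
/-- the coefficient of the top monomial -/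
noncomputable def II (M : ℕ) : H (Bq (Tc n) Unit M) →ₗ[ℂ] ℂ := (good_BT (n := n)).pd.choose

theorem II_top (h : top (bdT fun _ => M) ∈ Box (bdT (n := n) fun _ => M)) :
    II n M (evT n Unit M (monomial (top (bdT fun _ => M)) 1)) = 1 :=
  ((good_BT (n := n)).pd.choose_spec.1 _ h).trans (if_pos rfl)

theorem II_ne {a : Bx n →₀ ℕ} (ha : a ∈ Box (bdT fun _ => M)) (h : a ≠ top (bdT fun _ => M)) :
    II n M (evT n Unit M (monomial a 1)) = 0 :=
  ((good_BT (n := n)).pd.choose_spec.1 a ha).trans (if_neg h)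

theorem II_ext {V : Type} [AddCommGroup V] [Module ℂ V] {φ ψ : H (Bq (Tc n) Unit M) →ₗ[ℂ] V}
    (h : ∀ a ∈ Box (bdT fun _ => M),
      φ (evT n Unit M (monomial a 1)) = ψ (evT n Unit M (monomial a 1))) : φ = ψ :=
  good_BT.basis.basis.ext fun a => by
    rw [Fl.IsBasis.basis_apply]
    exact h a.1 a.2

theorem le_of_mem_Box {a : Bx n →₀ ℕ} (ha : a ∈ Box (bdT fun _ => M)) (j : J) : n j ≤ M := by
  by_contra h
  have : a ⟨j, M, not_le.1 h⟩ < M - M := ha ⟨j, M, not_le.1 h⟩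
  omega

theorem top_mem_Box (h : ∀ j, n j ≤ M) : top (bdT (n := n) fun _ => M) ∈ Box (bdT fun _ => M) :=
  fun c => Nat.sub_one_lt (Nat.sub_pos_of_lt (c.2.2.trans_le (h c.1))).ne'

variable (n) in
/-- the fundamental class -/
noncomputable def gam (M : ℕ) : BM (Bq (Tc n) Unit M) := II n M ∘ₗ toH

theorem gam_apply (c : Hc (Bq (Tc n) Unit M)) : gam n M c = II n M (toH c) := rfl

theorem gam_deg : BM.IsDeg (2 * (dimB n M + dimFl n)) (gam n M) :=
  BM.isDeg_iff.2 fun j hj c hc => by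
    rw [gam_apply, ← (Fl.toH_deg hc).comp_eq]
    refine DFunLike.congr_fun (II_ext (φ := II n M ∘ₗ H.comp j) (ψ := 0) fun a ha => ?_) _
    have h := evT_deg (Z := Unit) (M := M) (isHomogeneous_monomial 1 (rfl : a.degree = _))
    rw [LinearMap.comp_apply, LinearMap.zero_apply]
    by_cases e : j = 2 * a.degree
    · rw [e, h.comp_eq, II_ne ha]
      rintro rfl
      exact hj (by rw [e, Fl.degree_top_bdT (le_of_mem_Box ha), dimFl_eq])
    · rw [h.comp_ne e, map_zero]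

theorem gam_ne_zero (h : ∀ j, n j ≤ M) : gam n M ≠ 0 := fun h0 => by
  obtain ⟨c, hc⟩ := Fl.toH_bijective.2 (evT n Unit M (monomial (top (bdT fun _ => M)) 1))
  have := gam_apply c
  rw [h0, hc, II_top (top_mem_Box h)] at this
  exact zero_ne_one this

theorem gys_gam (ht : supp (δ (ecol (Tc n) Unit M)) = ∅)
    (hs : supp (ecol (Tc n) Unit M) ⊆ range (binc (Tc n) Unit M)) :
    gys (binc (Tc n) Unit M) (ecol (Tc n) Unit M) (gam n (M + 1)) = gam n M := by
  let E := LinearEquiv.ofBijective (toH : Hc (Bq (Tc n) Unit M) →ₗ[ℂ] _) Fl.toH_bijective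
  have hi := isClosedEmbedding_binc (G := Tc n) (Z := Unit) M
  have := II_ext (φ := gys (binc (Tc n) Unit M) (ecol (Tc n) Unit M) (gam n (M + 1)) ∘ₗ
    E.symm.toLinearMap) (ψ := II n M) fun a ha => by
    obtain ⟨c, hc⟩ := Fl.toH_bijective.2 (evT n Unit (M + 1) (monomial a 1))
    have h1 : E.symm (evT n Unit M (monomial a 1)) = Hc.pull (IsPr.of_isClosedEmbedding hi) c :=
      E.symm_apply_eq.2 ((Fl.toH_pull (f := bincC (Tc n) Unit M) _ c).trans
        (by rw [hc, map_binc])).symm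
    rw [LinearMap.comp_apply, LinearEquiv.coe_toLinearMap, h1, gys_apply, cgys_eq hi ht hs,
      Hc.gys_pull, ← Hc.act_hcls, gam_apply, Fl.toH_act, hc, hcls_ecol, ← map_mul,
      monomial_mul, mul_one]
    have h2 : a + (Finsupp.equivFunOnFinite.symm fun _ => 1) ∈ Box (bdT fun _ => M + 1) :=
      fun c => by
        have : a c < M - c.2 := ha c
        show a c + 1 < M + 1 - c.2
        omega
    have h3 : a + (Finsupp.equivFunOnFinite.symm fun _ => 1) = top (bdT fun _ => M + 1) ↔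
        a = top (bdT fun _ => M) :=
      Finsupp.ext_iff.trans ((forall_congr' fun c => by
        have : a c < M - c.2 := ha c
        show a c + 1 = M + 1 - c.2 - 1 ↔ a c = M - c.2 - 1
        omega).trans Finsupp.ext_iff.symm)
    by_cases h : a = top (bdT fun _ => M)
    · rw [h3.2 h, II_top (h3.2 h ▸ h2), h, II_top (h ▸ ha)]
    · rw [II_ne h2 (mt h3.1 h), II_ne ha h]
  exact LinearMap.ext fun c => by
    rw [gam_apply, ← this, LinearMap.comp_apply, LinearEquiv.coe_toLinearMap]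
    exact congrArg _ (E.symm_apply_apply c).symm

theorem pd_gam_bijective : Bijective (pd (gam n M)) := by
  let E := LinearEquiv.ofBijective (toH : Hc (Bq (Tc n) Unit M) →ₗ[ℂ] _) Fl.toH_bijective
  haveI := Module.Finite.of_basis (good_BT (n := n) (M := M)).basis.basis
  haveI := E.symm.finiteDimensional
  have h : Injective (pd (gam n M)) := (injective_iff_map_eq_zero _).2 fun y hy => by
    by_contra h0
    obtain ⟨y', h1⟩ := (good_BT (n := n)).pd.choose_spec.2 y h0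
    obtain ⟨c, rfl⟩ := Fl.toH_bijective.2 y'
    obtain ⟨p, rfl⟩ := evT_surjective y
    rw [evT_comm, ← Fl.toH_act] at h1
    exact h1 (DFunLike.congr_fun hy c)
  exact ⟨h, (LinearMap.injective_iff_surjective_of_finrank_eq_finrank
    (E.finrank_eq.symm.trans Subspace.dual_finrank_eq.symm)).1 h⟩

/-! ### products -/

section prod

variable {J₁ J₂ : Type} [Fintype J₁] [Fintype J₂] {n₁ : J₁ → ℕ} {n₂ : J₂ → ℕ}

/-- the concatenation of two Artin exponents -/
noncomputable def cat (a : Art n₁) (b : Art n₂) : Art (Sum.elim n₁ n₂) :=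
  ⟨Finsupp.equivFunOnFinite.symm fun c => match c with
    | ⟨Sum.inl j, r⟩ => a.1 ⟨j, r⟩
    | ⟨Sum.inr j, r⟩ => b.1 ⟨j, r⟩, by
    rintro ⟨j | j, r⟩
    exacts [a.2 ⟨j, r⟩, b.2 ⟨j, r⟩]⟩

theorem cat_eq_top {a : Art n₁} {b : Art n₂} :
    cat a b = artT0 _ ↔ a = artT0 _ ∧ b = artT0 _ :=
  ⟨fun h => ⟨Subtype.ext (Finsupp.ext fun c =>
      congrArg (fun x : Art (Sum.elim n₁ n₂) => x.1 ⟨Sum.inl c.1, c.2⟩) h),
    Subtype.ext (Finsupp.ext fun c =>
      congrArg (fun x : Art (Sum.elim n₁ n₂) => x.1 ⟨Sum.inr c.1, c.2⟩) h)⟩, by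
    rintro ⟨rfl, rfl⟩
    exact Subtype.ext (Finsupp.ext (by rintro ⟨j | j, r⟩ <;> rfl))⟩

theorem monomial_cat (a : Art n₁) (b : Art n₂) :
    (monomial (cat a b).1 1 : SP (Sum.elim n₁ n₂)) =
      rename (fun c : Bx n₁ => (⟨Sum.inl c.1, c.2⟩ : Bx (Sum.elim n₁ n₂))) (monomial a.1 1) *
        rename (fun c : Bx n₂ => (⟨Sum.inr c.1, c.2⟩ : Bx (Sum.elim n₁ n₂))) (monomial b.1 1) := by
  simp only [monomial_eq, C_1, one_mul, Finsupp.prod_fintype _ _ fun _ => pow_zero _, map_prod,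
    map_pow, rename_X, Fintype.prod_sigma, Fintype.prod_sum_type]
  rfl

variable {B Z₁ Z₂ : Type} [TopologicalSpace B] [MulAction (GG (Sum.elim n₁ n₂)) B]
  [MulAction (Tc (Sum.elim n₁ n₂)) B] [IsScalarTower (Tc (Sum.elim n₁ n₂)) (GG (Sum.elim n₁ n₂)) B]
  [Nice B] [ContinuousSMul (GG (Sum.elim n₁ n₂)) B]
  [TopologicalSpace Z₁] [MulAction (GG n₁) Z₁] [MulAction (Tc n₁) Z₁]
  [IsScalarTower (Tc n₁) (GG n₁) Z₁] [Nice Z₁] [ContinuousSMul (GG n₁) Z₁]
  [TopologicalSpace Z₂] [MulAction (GG n₂) Z₂] [MulAction (Tc n₂) Z₂]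
  [IsScalarTower (Tc n₂) (GG n₂) Z₂] [Nice Z₂] [ContinuousSMul (GG n₂) Z₂]

theorem int_cross {b₁ : B → Z₁} (hb₁ : ∀ g y, b₁ (g • y) = (sumProd n₁ n₂).π₁ g • b₁ y)
    {b₂ : B → Z₂} (hb₂ : ∀ g y, b₂ (g • y) = (sumProd n₁ n₂).π₂ g • b₂ y)
    (hb : IsHomeomorph fun y => (b₁ y, b₂ y))
    (hb₁' : ∀ g y, b₁ (g • y) = (sumProdT n₁ n₂).π₁ g • b₁ y)
    (hb₂' : ∀ g y, b₂ (g • y) = (sumProdT n₁ n₂).π₂ g • b₂ y) (c₁ : Hc (Bq (Tc n₁) Z₁ M))
    (c₂ : Hc (Bq (Tc n₂) Z₂ M)) :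
    int B M (Hc.cross (IsPr.of_isHomeomorph ((sumProdT n₁ n₂).isHomeomorph hb₁' hb₂' hb M)) c₁ c₂) =
      Hc.cross (IsPr.of_isHomeomorph ((sumProd n₁ n₂).isHomeomorph hb₁ hb₂ hb M))
        (int Z₁ M c₁) (int Z₂ M c₂) := by
  have hT := (sumProdT n₁ n₂).isHomeomorph hb₁' hb₂' hb M
  have hG := (sumProd n₁ n₂).isHomeomorph hb₁ hb₂ hb M
  have hT' : IsHomeomorph fun x =>
      ((⟨_, (sumProdT n₁ n₂).continuous_p₁ hb₁' hb.continuous.fst M⟩ : C(_, _)) x,
        (⟨_, (sumProdT n₁ n₂).continuous_p₂ hb₂' hb.continuous.snd M⟩ : C(_, _)) x) := hT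
  refine DFunLike.congr_fun (DFunLike.congr_fun (gen_ext
    (φ := (Hc.cross (IsPr.of_isHomeomorph hT)).compr₂ (int B M))
    (ψ := (Hc.cross (IsPr.of_isHomeomorph hG)).compl₁₂ (int Z₁ M) (int Z₂ M))
    fun a d₁ => gen_ext fun b d₂ => ?_) c₁) c₂
  have h1 : Hc.cross (IsPr.of_isHomeomorph hT) (gen (monomial a.1 1) d₁) (gen (monomial b.1 1) d₂) =
      gen (monomial (cat a b).1 1) (Hc.cross (IsPr.of_isHomeomorph hG) d₁ d₂) := by
    rw [monomial_cat, gen_mul, gen_apply, gen_apply, gen_apply, ← map_p₁ hb₁' hb.continuous.fst,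
      ← map_p₂ hb₂' hb.continuous.snd, ← cpull_eq (isPr_pC (Z := B)),
      cpull_cross hG hT (f := pC _ B M) (f₁ := pC n₁ Z₁ M) (f₂ := pC n₂ Z₂ M) (fun x => by
        obtain ⟨x, rfl⟩ := Bor.mk_surjective x
        rfl) (fun x => by
        obtain ⟨x, rfl⟩ := Bor.mk_surjective x
        rfl) isPr_pC isPr_pC, cpull_eq isPr_pC, cpull_eq isPr_pC]
    exact (act_cross_right hT' _ _ _).symm.trans (congrArg _ (act_cross_left hT'
      (evT_deg (isHomogeneous_monomial 1 (rfl : a.1.degree = _))) _ _).symm)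
  rw [LinearMap.compr₂_apply, LinearMap.compl₁₂_apply, h1, int_gen, int_gen, int_gen]
  by_cases ha : a = artT0 _ <;> by_cases hb : b = artT0 _ <;> simp [cat_eq_top, ha, hb]

end prod

end Vale.Agent.P291Z.TS
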