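import Vale.Agent.P291Z.GLSys
import Vale.Agent.P291Z.TS5

/-!
# Restriction to the torus and transfer, fundamental classes
-/

set_option linter.all false

namespace Vale.Agent.P291Z

open Set Function Topology

theorem TS.isLev_map {G G' Z Z' : Type} [Group G] [TopologicalSpace G] [Sys G] [Group G']
    [TopologicalSpace G'] [Sys G'] [TopologicalSpace Z] [MulAction G Z] [Nice Z]
    [ContinuousSMul G Z] [TopologicalSpace Z'] [MulAction G' Z'] [Nice Z'] [ContinuousSMul G' Z']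
    {φ : G →* G'} {f : Z → Z'} (hf : Continuous f) {e : ∀ M, Sys.P G M → Sys.P G' M}
    (he : ∀ M, Continuous (e M))
    (hs : ∀ M g (x : Z × Sys.P G M), (f (g • x).1, e M (g • x).2) = φ g • (f x.1, e M x.2))
    (hi : ∀ M u, e (M + 1) (Sys.inc M u) = Sys.inc M (e M u)) (L : Sys.W G ≃ₗ[ℂ] Sys.W G')
    (hL : ∀ (g : G) w, L (g • w) = φ g • L w)
    (hc : ∀ M u, L (Sys.col M u) = Sys.col M (e (M + 1) u)) (hr : Sys.rk G' = Sys.rk G) {c : ℤ}
    (hd : ∀ M, Sys.dim G M = Sys.dim G' M + c) :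
    IsLev (fun M => Bor.map φ (fun x => (f x.1, e M x.2)) (hs M)) c where
  cont M := Bor.continuous_map' _ ((hf.comp continuous_fst).prodMk ((he M).comp continuous_snd))
  comm M x := by
    obtain ⟨x, rfl⟩ := Bor.mk_surjective x
    exact congrArg (Bor.mk G') (Prod.ext rfl (hi M x.2))
  cart M x hx := by
    obtain ⟨x, rfl⟩ := Bor.mk_surjective x
    exact TS.mk_mem_range_binc.2 (L.map_eq_zero_iff.1 ((hc M x.2).trans
      (TS.mk_mem_range_binc (x := (f x.1, e (M + 1) x.2)).1 hx)))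
  col M := (euler_pull isRep_sysW (hr ▸ isRep_sysW) φ (hs (M + 1))
    ((hf.comp continuous_fst).prodMk ((he _).comp continuous_snd)) _
    ((Sys.col_cont M).comp continuous_snd) _ ((Sys.col_cont M).comp continuous_snd)
    (fun _ => L.toLinearMap) ((isRep_sysW.continuous_linear isRep_sysW _).comp continuous_snd)
    (fun _ => L.bijective) (fun g _ w => hL g w) fun x => hc M x.2).mono (by
      rintro _ ⟨y, hy, rfl⟩
      exact TS.mk_mem_range_binc.2 hy)
  dim := hd

variable {J : Type} [Fintype J] {n : J → ℕ}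

theorem eu_weights {W ι : Type} [AddCommGroup W] [Module ℂ W] [TopologicalSpace W]
    [DistribMulAction (Tc n) W] [Fintype ι] {r : ℕ} (hW : IsRep (Tc n) W r)
    (b : Module.Basis ι ℂ W) (χ : ι → Bx n → ℤ) (hb : ∀ (t : Tc n) p, t • b p = chr n (χ p) t • b p) :
    eu hW = psiT n (∏ p, linf n (χ p)) :=
  Subtype.ext (funext fun _ => TS.hcls_euler_wt hW b χ hb _ continuous_const)

section T

variable {Z Z' : Type} [TopologicalSpace Z] [MulAction (Tc n) Z] [Nice Z] [ContinuousSMul (Tc n) Z]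
  [TopologicalSpace Z'] [MulAction (Tc n) Z'] [Nice Z'] [ContinuousSMul (Tc n) Z']

noncomputable instance : Module (SP n) (EH (Tc n) Z) :=
  Module.compHom _ (psiT n : SP n →+* HS (Tc n) Unit)

theorem EH.smulT_def (s : SP n) (β : EH (Tc n) Z) : s • β = psiT n s • β := rfl

theorem EH.smulT_apply (s : SP n) (β : EH (Tc n) Z) (M : ℕ) :
    (s • β).1 M = cap (TS.evT n Z M s) (β.1 M) := by
  rw [EH.smulT_def, EH.smul_apply, psiT_apply, TS.map_bpt]

instance : IsScalarTower ℂ (SP n) (EH (Tc n) Z) :=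
  ⟨fun c s β => EH.ext fun M => LinearMap.ext fun x => by
    show _ = c • (s • β).1 M x
    rw [EH.smulT_apply, EH.smulT_apply, cap_apply, cap_apply, map_smul, map_smul,
      LinearMap.smul_apply, map_smul]⟩

theorem isLev_wmap (w : Wy n) {f : Z → Z'} (hf : ∀ (t : Tc n) z, f (t • z) = wT w t • f z)
    (hc : Continuous f) : IsLev (wmap w f hf) 0 :=
  TS.isLev_map (G := Tc n) (G' := Tc n) (φ := wT w) (e := fun _ => TS.wS w) hc
    (fun _ => TS.continuous_wS w) (fun M t x => Prod.ext (hf t x.1) (TS.wS_smul w t x.2))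
    (fun M u => TS.toE_injective (addCol_smul M (wG w) (St.toE n u)).symm)
    (DistribMulAction.toLinearEquiv ℂ (Mat n fun _ => 1) (wG w)) (fun t x => by
      show wG w • toG n t • x = toG n (wT w t) • wG w • x
      rw [toG_wT, smul_smul, smul_smul, inv_mul_cancel_right]) (fun _ _ => rfl) rfl
    fun _ => (add_zero _).symm

theorem lpush_wmap_smul (w : Wy n) {f : Z → Z'} (hf : ∀ (t : Tc n) z, f (t • z) = wT w t • f z)
    (hc : IsPr f) (s : SP n) (β : EH (Tc n) Z) :
    lpush (wmap w f hf) (s • β) = MvPolynomial.rename (Wy.perm w) s • lpush (wmap w f hf) β := by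
  refine EH.ext fun M => ?_
  have h := isLev_wmap w hf hc.cont
  have h1 := TS.map_evT ⟨wmap w f hf M, h.cont M⟩ (Wy.perm w⁻¹) (fun x => (f x.1, TS.wS w x.2))
    (fun _ => rfl) (fun c x y => congrArg₂ Fl.ip (TS.row_wG w x.2.1 c) (TS.row_wG w y.2.1 c))
    (MvPolynomial.rename (Wy.perm w) s)
  rw [← TS.rename_mul, inv_mul_cancel, TS.rename_one] at h1
  rw [EH.smulT_apply, lpush_apply h (isPr_wmap w hf hc), lpush_apply h (isPr_wmap w hf hc),
    EH.smulT_apply, ← h1]
  exact push_cap (f := ⟨wmap w f hf M, h.cont M⟩) (isPr_wmap w hf hc M) _ _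

end T

section G

variable {Z : Type} [TopologicalSpace Z] [MulAction (GG n) Z] [MulAction (Tc n) Z]
  [IsScalarTower (Tc n) (GG n) Z] {Z' : Type} [TopologicalSpace Z'] [MulAction (GG n) Z']
  [MulAction (Tc n) Z'] [IsScalarTower (Tc n) (GG n) Z']
  [Nice Z] [ContinuousSMul (GG n) Z] [Nice Z'] [ContinuousSMul (GG n) Z']

theorem isLev_piT : IsLev (piT (n := n) Z) (dimFl n) :=
  TS.isLev_map (G := Tc n) (G' := GG n) (φ := toG n) (f := id) (e := fun _ => St.toE n)
    continuous_id (fun _ => TS.continuous_toE) (fun _ t x => Prod.ext (smulT_eq Z t x.1) rfl)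
    (fun _ _ => rfl) (LinearEquiv.refl ℂ (Mat n fun _ => 1)) (fun _ _ => rfl) (fun _ _ => rfl) rfl
    fun _ => rfl

/-- the transfer -/
noncomputable def trT : EH (Tc n) Z →ₗ[ℂ] EH (GG n) Z := lpush (piT Z)

/-- the restriction to the torus: `trT (f • resT β) = ∂ f • β` -/
noncomputable def resT : EH (GG n) Z →ₗ[ℂ] EH (Tc n) Z :=
  EH.lift fun M => (TS.int Z M).dualMap

theorem TS.int_fam {k : ℤ} {β : ∀ M, BM (Bq (GG n) Z M)} (h : β ∈ FamS (GG n) Z k) :
    (fun M => (TS.int Z M).dualMap (β M)) ∈ FamS (Tc n) Z k :=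
  mem_FamS_iff.2 fun M => ⟨LinearMap.ext fun c => by
    have hT := isCo_ecol (G := Tc n) (Z := Z) M
    have hG := isCo_ecol (G := GG n) (Z := Z) M
    have hl := isLev_piT (n := n) (Z := Z)
    rw [gys_apply, LinearMap.dualMap_apply, LinearMap.dualMap_apply, ← (mem_FamS_iff.1 h M).1,
      gys_apply, ← cgys_congr (isClosedEmbedding_binc M) ((hl.col M).cocycle hT.cocycle)
        ((hl.col M).supp_subset hT.supp) hT.cocycle hT.supp (hl.col M)]
    exact congrArg _ (TS.int_cgys (fT := bincC (Tc n) Z M) TS.piT_binc TS.map_binc (hl.cart M)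
      (isClosedEmbedding_binc M) (isClosedEmbedding_binc M) hG.cocycle hG.supp hG.deg c), by
    have := BM.IsDeg.dualMap (a := 2 * dimFl n) (b := 0) (φ := TS.int Z M)
      (fun k c hc => by simpa using TS.int_deg hc) (k := k + 2 * dimB n M)
      (by rw [add_zero]; exact (mem_FamS_iff.1 h M).2)
    rwa [add_assoc, ← mul_add] at this⟩

theorem resT_apply (β : EH (GG n) Z) (M : ℕ) (c : Hc (Bq (Tc n) Z M)) :
    (resT β).1 M c = β.1 M (TS.int Z M c) :=
  DFunLike.congr_fun (EH.lift_apply (c := 0) (fun k β h => by simpa using TS.int_fam h) β M) c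

theorem trT_apply (z : EH (Tc n) Z) (M : ℕ) : (trT z).1 M = push (piT Z M) (z.1 M) :=
  lpush_apply isLev_piT isPr_piT z M

theorem TS.trT_smul_apply (s : SP n) (z : EH (Tc n) Z) (M : ℕ) (c : Hc (Bq (GG n) Z M)) :
    (trT (s • z)).1 M c = z.1 M (TS.gen s c) := by
  rw [trT_apply, push_apply, EH.smulT_apply, cap_apply, cpull_eq (isPr_piT M)]
  rfl

theorem trT_deg {k : ℤ} {z : EH (Tc n) Z} (h : z ∈ EH.deg (Tc n) Z k) :
    trT z ∈ EH.deg (GG n) Z (k + 2 * dimFl n) := lpush_deg isLev_piT isPr_piT h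

variable (n) in
/-- `R → S` -/
noncomputable def psiG : HS (GG n) Unit →+* SP n :=
  (psiT n).symm.toRingHom.comp (HS.lmap (isLev_piT (Z := Unit)))

theorem psiT_psiG (r : HS (GG n) Unit) : psiT n (psiG n r) = HS.lmap (isLev_piT (Z := Unit)) r :=
  (psiT n).apply_symm_apply _

theorem TS.evT_psiG (r : HS (GG n) Unit) (M : ℕ) :
    TS.evT n Unit M (psiG n r) = H.map (TS.pC n Unit M) (r.1 M) :=
  congrFun (congrArg Subtype.val (psiT_psiG r)) M

theorem TS.evT_psiG' (r : HS (GG n) Unit) (M : ℕ) :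
    TS.evT n Z M (psiG n r) = H.map (TS.pC n Z M) (H.map (bptC (GG n) Z M) (r.1 M)) := by
  rw [TS.map_pC_bpt, ← TS.evT_psiG, TS.map_bpt]

theorem psiG_injective : Injective (psiG n) := fun r r' h => Subtype.ext (funext fun M =>
  TS.map_pC_injective ((TS.evT_psiG r M).symm.trans (h ▸ TS.evT_psiG r' M)))

theorem TS.psiG_mem (r : HS (GG n) Unit) : psiG n r ∈ Fl.Inv n := Fl.mem_Inv.2 fun w =>
  TS.psi0_injective (funext fun M => by
    have h := (isLev_wmap (Z := Unit) (Z' := Unit) w⁻¹ (f := fun z => wG w⁻¹ • z) (fun _ _ => rfl)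
      continuous_const).cont M
    refine (TS.map_evT ⟨wact Unit w⁻¹ M, h⟩ (Wy.perm w) (fun x => (x.1, TS.wS w⁻¹ x.2))
      (fun _ => rfl) (fun c x y => congrArg₂ Fl.ip (TS.row_wG w⁻¹ x.2.1 c)
        (TS.row_wG w⁻¹ y.2.1 c)) _).symm.trans ?_
    show _ = TS.evT n Unit M _
    rw [TS.evT_psiG, H.map_map]
    congr 2
    exact ContinuousMap.ext (TS.piT_wact w⁻¹))

theorem TS.exists_artin (s : SP n) : ∃ r : Fl.Art n → HS (GG n) Unit,
    s = ∑ a, psiG n (r a) * MvPolynomial.monomial a.1 1 := by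
  obtain ⟨r, hr⟩ := TS.exists_coeff s
  refine ⟨r, TS.psi0_injective (funext fun M => (hr M).trans ?_)⟩
  show _ = TS.evT n Unit M _
  simp only [map_sum, map_mul, TS.evT_psiG]
  rfl

theorem mem_range_psiG {s : SP n} :
    s ∈ (psiG n).range ↔ ∀ w : Wy n, MvPolynomial.rename (Wy.perm w) s = s := by
  refine ⟨?_, fun h => ?_⟩
  · rintro ⟨r, rfl⟩
    exact Fl.mem_Inv.1 (TS.psiG_mem r)
  · obtain ⟨r, hr⟩ := TS.exists_artin s
    exact ⟨_, (Fl.artin_coeff (fun f => (TS.exists_artin f).elim fun r h =>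
      ⟨_, fun a => TS.psiG_mem (r a), h⟩) (Fl.mem_Inv.2 h) (fun a => TS.psiG_mem (r a)) hr).symm⟩

theorem psiG_deg {r : HS (GG n) Unit} {k : ℤ} : r.1 ∈ HSdeg (GG n) Unit k ↔
    r = 0 ∨ ∃ d : ℕ, k = 2 * d ∧ (psiG n r).IsHomogeneous d := by
  refine ⟨fun h => ?_, ?_⟩
  · have h1 := HS.lmap_deg (isLev_piT (Z := Unit)) h
    rw [← psiT_psiG] at h1
    by_cases hk : ∃ d : ℕ, k = 2 * d
    · obtain ⟨d, rfl⟩ := hk
      exact Or.inr ⟨d, rfl, psiT_deg.1 h1⟩
    · exact Or.inl (psiG_injective ((TS.psi0_injective (funext fun M => (TS.eq_zero_of_odd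
        (fun d h => hk ⟨d, h⟩) (h1 M).2).trans (map_zero (TS.evT n Unit M)).symm)).trans
        (map_zero _).symm))
  · rintro (rfl | ⟨d, rfl, h⟩)
    · exact fun M => ⟨map_zero _, (H.deg _ k).zero_mem⟩
    · refine fun M => ⟨TS.hs_compat r M, ?_⟩
      rw [← TS.map_pC_injective (a₁ := H.comp (2 * d) (r.1 M)) (a₂ := r.1 M) (by
        rw [← H.comp_map, ← TS.evT_psiG, (TS.evT_deg h).comp_eq])]
      exact H.isDeg_comp _ _

theorem psiG_algebraMap (c : ℂ) (r : HS (GG n) Unit) (h : r.1 = algebraMap ℂ _ c) :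
    psiG n r = MvPolynomial.C c :=
  TS.psi0_injective (funext fun M => (TS.evT_psiG r M).trans (by
    rw [h]
    exact ((H.mapA (TS.pC n Unit M)).commutes c).trans ((TS.evT n Unit M).commutes c).symm))

theorem resT_deg {k : ℤ} {β : EH (GG n) Z} (h : β ∈ EH.deg (GG n) Z k) :
    resT β ∈ EH.deg (Tc n) Z k := by
  have : (resT β).1 = fun M => (TS.int Z M).dualMap (β.1 M) :=
    funext fun M => LinearMap.ext (resT_apply β M)
  show (resT β).1 ∈ FamS (Tc n) Z k
  rw [this]
  exact TS.int_fam h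

theorem resT_smul (r : HS (GG n) Unit) (β : EH (GG n) Z) : resT (r • β) = psiG n r • resT β :=
  EH.ext fun M => LinearMap.ext fun c => by
    rw [resT_apply, EH.smul_apply, EH.smulT_apply, cap_apply, cap_apply, resT_apply, TS.evT_psiG',
      TS.int_comm (TS.act_gen _)]

theorem trT_smul (r : HS (GG n) Unit) (z : EH (Tc n) Z) : trT (psiG n r • z) = r • trT z := by
  rw [EH.smulT_def, psiT_psiG]
  exact lpush_smul isLev_piT isPr_piT isLev_piT (fun _ => TS.bpt_piT) r z

theorem eq_zero_of_trT {z : EH (Tc n) Z} (h : ∀ s : SP n, trT (s • z) = 0) : z = 0 :=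
  EH.ext fun M => TS.gen_ext fun a c => by
    rw [← TS.trT_smul_apply, h]
    rfl

theorem TS.ext_trT {z z' : EH (Tc n) Z} (h : ∀ s : SP n, trT (s • z) = trT (s • z')) : z = z' :=
  sub_eq_zero.1 (eq_zero_of_trT fun s => by rw [smul_sub, map_sub, h, sub_self])

theorem TS.exists_div (s : SP n) : ∃ r, Del n * psiG n r = TS.alt s := by
  obtain ⟨r, rfl⟩ := TS.exists_artin s
  exact ⟨_, (TS.alt_sum fun a => TS.psiG_mem (r a)).symm⟩

theorem TS.trT_resT {s : SP n} {r : HS (GG n) Unit} (h : Del n * psiG n r = TS.alt s)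
    (β : EH (GG n) Z) : trT (s • resT β) = r • β := by
  obtain ⟨r', rfl⟩ := TS.exists_artin s
  rw [TS.alt_sum fun a => TS.psiG_mem (r' a)] at h
  obtain rfl := psiG_injective (mul_left_cancel₀ TS.Del_ne_zero h)
  rw [Finset.sum_smul, map_sum, Finset.sum_eq_single (Fl.artT0 n) (fun a _ ha => ?_)
    fun h => absurd (Finset.mem_univ _) h]
  all_goals
    rw [mul_smul, trT_smul]
  · congr 1
    exact EH.ext fun M => LinearMap.ext fun c => by
      rw [TS.trT_smul_apply, resT_apply, TS.int_gen, if_pos rfl]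
  · rw [show trT ((MvPolynomial.monomial a.1 1 : SP n) • resT β) = 0 from
      EH.ext fun M => LinearMap.ext fun c => by
        rw [TS.trT_smul_apply, resT_apply, TS.int_gen, if_neg ha, map_zero]
        rfl, smul_zero]

theorem trT_resT {s : SP n} {r : HS (GG n) Unit}
    (h : Del n * psiG n r = ∑ w : Wy n, Wy.sgn w • MvPolynomial.rename (Wy.perm w) s)
    (β : EH (GG n) Z) : trT (s • resT β) = r • β := TS.trT_resT (h.trans (TS.alt_apply s).symm) β

theorem TS.trT_top (β : EH (GG n) Z) :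
    trT ((MvPolynomial.monomial (Fl.artT0 n).1 1 : SP n) • resT β) = β :=
  (TS.trT_resT (by rw [map_one, mul_one, TS.alt_top]) β).trans (one_smul _ β)

theorem resT_injective : Injective (resT : EH (GG n) Z → EH (Tc n) Z) := fun β β' h => by
  rw [← TS.trT_top β, h, TS.trT_top]

theorem TS.isPr_wG (w : Wy n) : IsPr fun z : Z => wG w • z :=
  IsPr.of_homeomorph (Homeomorph.smul (wG w))

theorem isPr_wact (w : Wy n) (M : ℕ) : IsPr (wact Z w M) := isPr_wmap w _ (TS.isPr_wG w) M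

theorem isLev_wact (w : Wy n) : IsLev (wact Z w) 0 := isLev_wmap w _ (TS.isPr_wG w).cont

theorem lpush_wact_smul (w : Wy n) (s : SP n) (β : EH (Tc n) Z) :
    lpush (wact Z w) (s • β) = MvPolynomial.rename (Wy.perm w) s • lpush (wact Z w) β :=
  lpush_wmap_smul w _ (TS.isPr_wG w) s β

theorem trT_wact (w : Wy n) (z : EH (Tc n) Z) : trT (lpush (wact Z w) z) = trT z :=
  EH.ext fun M => by
    rw [trT_apply, trT_apply, lpush_apply (isLev_wact w) (isPr_wact w),
      push_push (isPr_wact w M) (isPr_piT M)]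
    congr 2
    exact funext (TS.piT_wact w)

theorem TS.trT_smul_wact (w : Wy n) (s : SP n) (z : EH (Tc n) Z) :
    trT (s • lpush (wact Z w) z) = trT (MvPolynomial.rename (Wy.perm w⁻¹) s • z) := by
  rw [← trT_wact w (MvPolynomial.rename (Wy.perm w⁻¹) s • z), lpush_wact_smul, TS.rename_inv]

theorem wact_resT (w : Wy n) (β : EH (GG n) Z) :
    lpush (wact Z w) (resT β) = Wy.sgn w • resT β := TS.ext_trT fun s => by
  obtain ⟨r, hr⟩ := TS.exists_div (Wy.sgn w • s)
  rw [TS.trT_smul_wact, smul_comm, ← smul_assoc, TS.trT_resT hr,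
    TS.trT_resT (by rw [hr, TS.alt_rename, TS.sgn_inv, map_smul])]

theorem resT_trT (z : EH (Tc n) Z) : Del n • resT (trT z) = ∑ w : Wy n, lpush (wact Z w) z :=
  TS.ext_trT fun s => by
    obtain ⟨r, hr⟩ := TS.exists_div (s * Del n)
    rw [smul_smul, TS.trT_resT hr, ← trT_smul,
      mul_left_cancel₀ TS.Del_ne_zero (hr.trans (TS.alt_mul_Del s)), Finset.smul_sum, map_sum,
      Finset.sum_smul, map_sum, ← Equiv.sum_comp (Equiv.inv (Wy n))]
    exact Finset.sum_congr rfl fun w _ => (TS.trT_smul_wact w s z).symm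

theorem resT_epush {f : Z →[GG n] Z'} (hf : IsPr f) (β : EH (GG n) Z) :
    resT (epush f β) = epush (toT f) (resT β) :=
  EH.ext fun M => LinearMap.ext fun c => by
    have h := isPr_smap (f := toT f) hf M
    rw [resT_apply, epush_apply hf, epush_apply (f := toT f) hf, push_apply, push_apply, resT_apply]
    exact congrArg _ (TS.int_cpull (fT := ⟨_, h.cont⟩) (TS.piT_smap f) (TS.map_smap _) h
      (isPr_smap hf M) c).symm

theorem trT_epush {f : Z →[GG n] Z'} (hf : IsPr f) (z : EH (Tc n) Z) :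
    trT (epush (toT f) z) = epush f (trT z) :=
  EH.ext fun M => by
    rw [trT_apply, epush_apply hf, epush_apply (f := toT f) hf, trT_apply,
      push_push (isPr_smap (f := toT f) hf M) (isPr_piT M), push_push (isPr_piT M) (isPr_smap hf M)]
    congr 2
    exact funext (TS.piT_smap f)

theorem resT_eres {j : Z →[GG n] Z'} (hj : IsOpenEmbedding j) (β : EH (GG n) Z') :
    resT (eres j β) = eres (toT j) (resT β) :=
  EH.ext fun M => LinearMap.ext fun c => by
    have h := isOpenEmbedding_smap (f := toT j) hj M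
    rw [resT_apply, eres_apply hj, eres_apply (j := toT j) hj, res_apply, res_apply, resT_apply]
    exact congrArg _ (TS.int_cext (fT := ⟨_, h.continuous⟩) (TS.piT_smap j) (TS.map_smap _)
      (TS.preimage_range_smap j) h (isOpenEmbedding_smap hj M) c).symm

theorem isCoc_piT {A : Set Z} (hA : ∀ (g : GG n), ∀ z ∈ A, g • z ∈ A) {d : ℕ}
    {t : ∀ M, Coch (Bq (GG n) Z M)} (ht : IsCoc A d t) :
    IsCoc A d fun M => pull (piT Z M) (t M) where
  cocycle M := cocycle_pull (isPr_piT M).cont (ht.cocycle M)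
  deg M := (ht.deg M).pull _
  supp M := ((supp_pull (isPr_piT M).cont _).trans (preimage_mono (ht.supp M))).trans
    (TS.preimage_piT hA)
  compat M := by
    have := ((ht.compat M).pull (isPr_piT (Z := Z) M).cont).mono (TS.preimage_piT hA)
    rwa [show pull (piT Z M) (pull (binc (GG n) Z M) (t (M + 1))) =
      pull (binc (Tc n) Z M) (pull (piT Z (M + 1)) (t (M + 1))) from Coch.ext fun l =>
        congrArg (t (M + 1)).1 (by
          rw [List.map_map, List.map_map]
          exact congrArg (List.map · l) (funext fun x => (TS.piT_binc x).symm))] at this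

theorem resT_egys {i : Z →[GG n] Z'} (hi : IsClosedEmbedding i) {d : ℕ}
    {t : ∀ M, Coch (Bq (GG n) Z' M)} (ht : IsCoc (range i) d t) (β : EH (GG n) Z') :
    resT (egys i t β) = egys (toT i) (fun M => pull (piT Z' M) (t M)) (resT β) :=
  EH.ext fun M => LinearMap.ext fun c => by
    have h := isClosedEmbedding_smap (f := toT i) hi M
    rw [resT_apply, egys_apply hi ht, egys_apply (i := toT i) hi (isCoc_piT (by
      rintro g _ ⟨z, rfl⟩
      exact ⟨g • z, map_smul i g z⟩) ht), gys_apply, gys_apply, resT_apply]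
    exact congrArg _ (TS.int_cgys (fT := ⟨_, h.continuous⟩) (TS.piT_smap i) (TS.map_smap _)
      (TS.preimage_range_smap i) h (isClosedEmbedding_smap hi M) (ht.cocycle M)
      ((ht.supp M).trans (range_smap i M).ge) (ht.deg M) c).symm

theorem eul_piT {W : Type} [AddCommGroup W] [Module ℂ W] [TopologicalSpace W]
    [DistribMulAction (GG n) W] [DistribMulAction (Tc n) W] [IsScalarTower (Tc n) (GG n) W] {r : ℕ}
    (hW : IsRep (GG n) W r) {σ : Z →[GG n] W} (hσ : Continuous σ) :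
    Coh (σ ⁻¹' {0}) (fun M => pull (piT Z M) (eul σ M)) (eul (toT σ)) := fun M =>
  (euler_pull hW.toT hW (toG n) _ (continuous_fst.prodMk (TS.continuous_toE.comp continuous_snd)) _
    (hσ.comp continuous_fst) _ (hσ.comp continuous_fst) (fun _ => LinearMap.id) continuous_snd
    (fun _ => bijective_id) (fun t _ w => smulT_eq W t w) fun _ => rfl).mono fun _ h => h

theorem eu_toT {W : Type} [AddCommGroup W] [Module ℂ W] [TopologicalSpace W]
    [DistribMulAction (GG n) W] [DistribMulAction (Tc n) W] [IsScalarTower (Tc n) (GG n) W] {r : ℕ}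
    (hW : IsRep (GG n) W r) : psiT n (psiG n (eu hW)) = eu hW.toT :=
  Subtype.ext (funext fun M => (TS.evT_psiG _ M).trans ((H.map_hcls _
    (isCo_euler hW _ continuous_const).cocycle).trans
    ((eul_piT (Z := Unit) hW (σ := ⟨fun _ => 0, fun g _ => (smul_zero g).symm⟩) continuous_const
      M).hcls_eq (isCo_euler hW.toT _ continuous_const).cocycle)))

end G

section fund

namespace TS

variable (n) in
/-- the fundamental class for the torus -/
noncomputable def gamT : EH (Tc n) Unit :=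
  EH.mk (k := 0) (gam n) (mem_FamS_iff.2 fun M =>
    ⟨gys_gam (isCo_ecol M).cocycle (isCo_ecol M).supp, by rw [zero_add]; exact gam_deg⟩)

theorem gamT_deg : gamT n ∈ EH.deg (Tc n) Unit 0 := mem_FamS_iff.2 fun M =>
  ⟨gys_gam (isCo_ecol M).cocycle (isCo_ecol M).supp, by rw [zero_add]; exact gam_deg⟩

theorem smul_gamT (s : SP n) (M : ℕ) : (s • gamT n).1 M = pd (gam n M) (evT n Unit M s) :=
  EH.smulT_apply s _ M

theorem exists_smul_gamT {k : ℤ} {z : EH (Tc n) Unit} (hz : z ∈ EH.deg (Tc n) Unit k) :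
    ∃ s : SP n, (psiT n s).1 ∈ HSdeg (Tc n) Unit (-k) ∧ s • gamT n = z := by
  choose y hy using fun M => (pd_gam_bijective (n := n) (M := M)).2 (z.1 M)
  have h : y ∈ HSdeg (Tc n) Unit (-k) := fun M => ⟨pd_gam_bijective.1 (by
    rw [hy, ← z.compat M, ← hy, ← show _ = gam n M from (gamT n).compat M]
    exact (gys_cap (i := bincC (Tc n) Unit M) (isClosedEmbedding_binc M) (isCo_ecol M) _ _).symm),
    by
    rw [← pd_gam_bijective.1 (a₁ := H.comp (-k) (y M)) (a₂ := y M)
      ((comp_cap gam_deg _ _).symm.trans (LinearMap.ext fun c => ?_))]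
    · exact H.isDeg_comp _ _
    show pd (gam n M) (y M) (Hc.comp _ c) = _
    rw [hy, sub_neg_eq_add, add_comm]
    exact (mem_FamS_iff.1 hz M).2.comp c⟩
  obtain ⟨s, rfl⟩ := exists_psi0 h
  exact ⟨s, h, EH.ext fun M => (smul_gamT s M).trans (hy M)⟩

theorem gamT_free : Bijective fun s : SP n => s • gamT n :=
  ⟨fun s s' h => psi0_injective (funext fun M => pd_gam_bijective.1
    ((smul_gamT s M).symm.trans ((congrArg (fun z : EH (Tc n) Unit => z.1 M) h).trans
      (smul_gamT s' M)))), fun z => z.induction (P := fun z => ∃ s : SP n, s • gamT n = z)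
    ⟨0, zero_smul _ _⟩ (by
    rintro _ _ ⟨a, rfl⟩ ⟨b, rfl⟩
    exact ⟨a + b, add_smul _ _ _⟩) fun k a ha => (exists_smul_gamT ha).imp fun _ h => h.2⟩

theorem exists_C_gamT {z : EH (Tc n) Unit} (hz : z ∈ EH.deg (Tc n) Unit 0) (h0 : z ≠ 0) :
    ∃ c : ℂ, c ≠ 0 ∧ c • gamT n = z := by
  obtain ⟨s, h1, rfl⟩ := exists_smul_gamT hz
  have h2 := MvPolynomial.totalDegree_eq_zero_iff_eq_C.1
    (Nat.le_zero.1 (psiT_deg (k := 0).1 (by simpa using h1)).totalDegree_le)
  rw [h2, MvPolynomial.C_eq_smul_one, smul_assoc, one_smul] at h0 ⊢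
  exact ⟨_, left_ne_zero_of_smul h0, rfl⟩

theorem free_of_deg {z : EH (Tc n) Unit} (hz : z ∈ EH.deg (Tc n) Unit 0) (h0 : z ≠ 0) :
    Bijective fun s : SP n => s • z := by
  obtain ⟨c, hc, rfl⟩ := exists_C_gamT hz h0
  have : (fun s : SP n => s • c • gamT n) = (fun s : SP n => s • gamT n) ∘ fun s => c • s :=
    funext fun s => by rw [comp_apply, smul_comm, smul_assoc]
  rw [this]
  exact gamT_free.comp (MulAction.bijective₀ hc)

theorem exists_fund : ∃ β : ∀ M, BM (Bo n Unit M), IsFam 0 β ∧ ∀ M, (∀ j, n j ≤ M) →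
    ev (β M) (euler (fun _ => (0 : Mat n fun j => M - n j)) fun g _ => (smul_zero g).symm) = 1 := by
  refine ⟨(trT ((MvPolynomial.monomial (Fl.artT0 n).1 1 : SP n) • gamT n)).1, ?_, fun M h => ?_⟩
  · have := trT_deg (EH.smul_deg (psiT_deg.2 (MvPolynomial.isHomogeneous_monomial 1
      (Fl.degree_artT0 (n := n)))) gamT_deg)
    rw [dimFl_eq, zero_sub, neg_add_cancel] at this
    exact isFam_iff.2 this
  · haveI : CompactSpace (Bo n Unit M) := compact_pt (G := GG n) M
    have h1 := isCo_euler (Z := Unit) (P := EE n M) (isRep_Mat n fun j => M - n j)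
      (σ := fun _ => 0) (fun g _ => (smul_zero g).symm) continuous_const
    have h2 := congrFun (congrArg Subtype.val (eu_toT (isRep_Mat n fun j => M - n j))) M
    rw [psiT_apply, evT_psiG] at h2
    refine (ev_eq _ _).trans ((trT_smul_apply _ _ M _).trans ((gam_apply _).trans ?_))
    rw [gen_apply, Fl.toH_act, Fl.toH_pull]
    erw [Fl.toH_cls (Zc_of_compact h1.cocycle), h2.trans (hcls_euler_mat _ _ continuous_const)]
    rw [← map_mul, MvPolynomial.monomial_mul, mul_one, ← Fl.top_bdT h, II_top (top_mem_Box h)]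

end TS

theorem fund_isFam : IsFam 0 (fund n) := (Classical.epsilon_spec TS.exists_fund).1

variable (n)

/-- the equivariant fundamental class of a point -/
noncomputable def fundE : EH (GG n) Unit := EH.mk (fund n) (isFam_iff.1 fund_isFam)

/-- the same for the torus -/
noncomputable def fundT : EH (Tc n) Unit := resT (fundE n)

theorem fund_norm (M : ℕ) (h : ∀ j, n j ≤ M) :
    ev (fund n M) (euler (fun _ => (0 : Mat n fun j => M - n j)) fun g _ => (smul_zero g).symm) = 1 :=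
  (Classical.epsilon_spec TS.exists_fund).2 M h

theorem fundE_deg : fundE n ∈ EH.deg (GG n) Unit 0 := isFam_iff.1 fund_isFam

theorem fundT_deg : fundT n ∈ EH.deg (Tc n) Unit 0 := resT_deg (fundE_deg n)

theorem fundT_ne_zero : fundT n ≠ 0 := fun h => by
  have h1 := fund_norm n _ TS.le_sum
  rw [show fund n _ = 0 from congrArg (fun z : EH (GG n) Unit => z.1 _)
    (resT_injective (h.trans (map_zero _).symm)), ev_zero] at h1
  exact zero_ne_one h1

theorem fundT_free : Bijective fun s : SP n => s • fundT n :=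
  TS.free_of_deg (fundT_deg n) (fundT_ne_zero n)

theorem fundE_free : Bijective fun r : HS (GG n) Unit => r • fundE n :=
  ⟨fun r r' h => psiG_injective ((fundT_free n).1
    ((resT_smul r _).symm.trans ((congrArg resT h).trans (resT_smul r' _)))), fun β => by
    obtain ⟨s, hs⟩ := (fundT_free n).2 (resT β)
    obtain ⟨r, hr⟩ := TS.exists_div (MvPolynomial.monomial (Fl.artT0 n).1 1 * s)
    refine ⟨r, (TS.trT_resT hr _).symm.trans ?_⟩
    rw [mul_smul, show s • resT (fundE n) = resT β from hs, TS.trT_top]⟩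

end fund

section prod

variable {J₁ J₂ : Type} [Fintype J₁] [Fintype J₂] {n₁ : J₁ → ℕ} {n₂ : J₂ → ℕ}
  {B Z₁ Z₂ : Type} [TopologicalSpace B] [MulAction (GG (Sum.elim n₁ n₂)) B]
  [MulAction (Tc (Sum.elim n₁ n₂)) B] [IsScalarTower (Tc (Sum.elim n₁ n₂)) (GG (Sum.elim n₁ n₂)) B]
  [Nice B] [ContinuousSMul (GG (Sum.elim n₁ n₂)) B]
  [TopologicalSpace Z₁] [MulAction (GG n₁) Z₁] [MulAction (Tc n₁) Z₁]
  [IsScalarTower (Tc n₁) (GG n₁) Z₁] [Nice Z₁] [ContinuousSMul (GG n₁) Z₁]
  [TopologicalSpace Z₂] [MulAction (GG n₂) Z₂] [MulAction (Tc n₂) Z₂]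
  [IsScalarTower (Tc n₂) (GG n₂) Z₂] [Nice Z₂] [ContinuousSMul (GG n₂) Z₂]

theorem resT_cross {b₁ : B → Z₁} (hb₁ : ∀ g y, b₁ (g • y) = (sumProd n₁ n₂).π₁ g • b₁ y)
    {b₂ : B → Z₂} (hb₂ : ∀ g y, b₂ (g • y) = (sumProd n₁ n₂).π₂ g • b₂ y)
    (hb : IsHomeomorph fun y => (b₁ y, b₂ y))
    (hb₁' : ∀ g y, b₁ (g • y) = (sumProdT n₁ n₂).π₁ g • b₁ y)
    (hb₂' : ∀ g y, b₂ (g • y) = (sumProdT n₁ n₂).π₂ g • b₂ y) (β₁ : EH (GG n₁) Z₁)
    (β₂ : EH (GG n₂) Z₂) : resT ((sumProd n₁ n₂).cross hb₁ hb₂ β₁ β₂) =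
      (sumProdT n₁ n₂).cross hb₁' hb₂' (resT β₁) (resT β₂) :=
  EH.ext fun M => by
    rw [SysProd.cross_apply _ _ _ hb]
    refine cross_ext ((sumProdT n₁ n₂).isHomeomorph hb₁' hb₂' hb M) fun c c' => ?_
    rw [resT_apply, resT_apply, resT_apply, TS.int_cross hb₁ hb₂ hb, SysProd.cross_apply _ _ _ hb,
      cross_apply ((sumProd n₁ n₂).isHomeomorph hb₁ hb₂ hb M)]

/-- the cross product of the fundamental classes generates -/
theorem cross_fundT_free : Bijective fun s : SP (Sum.elim n₁ n₂) =>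
    s • (sumProdT n₁ n₂).cross (B := Unit) (b₁ := id) (fun _ _ => rfl) (b₂ := id) (fun _ _ => rfl)
      (fundT n₁) (fundT n₂) := by
  have hb : IsHomeomorph fun y : Unit => (id y, id y) :=
    isHomeomorph_iff_continuous_bijective.2 ⟨by fun_prop, fun _ _ _ => rfl, fun _ => ⟨(), rfl⟩⟩
  refine TS.free_of_deg (by
    simpa using SysProd.cross_deg _ _ _ hb (fundT_deg n₁) (fundT_deg n₂)) fun h => ?_
  obtain ⟨c₁, h₁, e₁⟩ := TS.exists_C_gamT (fundT_deg n₁) (fundT_ne_zero n₁)
  obtain ⟨c₂, h₂, e₂⟩ := TS.exists_C_gamT (fundT_deg n₂) (fundT_ne_zero n₂)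
  obtain ⟨x₁, k₁⟩ := DFunLike.ne_iff.1 (TS.gam_ne_zero (n := n₁) (M := ∑ j, n₁ j + ∑ j, n₂ j)
    fun j => (TS.le_sum j).trans (Nat.le_add_right _ _))
  obtain ⟨x₂, k₂⟩ := DFunLike.ne_iff.1 (TS.gam_ne_zero (n := n₂) (M := ∑ j, n₁ j + ∑ j, n₂ j)
    fun j => (TS.le_sum j).trans (Nat.le_add_left _ _))
  have := cross_apply ((sumProdT n₁ n₂).isHomeomorph (fun _ _ => rfl) (fun _ _ => rfl) hb _)
    ((fundT n₁).1 _) ((fundT n₂).1 _) x₁ x₂
  rw [← SysProd.cross_apply _ _ _ hb, h, ← e₁, ← e₂] at this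
  exact mul_ne_zero (mul_ne_zero h₁ k₁) (mul_ne_zero h₂ k₂) this.symm

end prod

end Vale.Agent.P291Z
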