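import Vale.Agent.P291Z.EH2
import Vale.Agent.P291Z.GL1
import Vale.Agent.P291Z.OpsC

/-!
# The calculus of cross products for products of systems
-/

set_option linter.all false

namespace Vale.Agent.P291Z

open Set Function Topology

theorem Cohom.mul_both {X : Type} [TopologicalSpace X] {A B : Set X} {a a' b b' : Coch X}
    (h : Cohom A a a') (h' : Cohom B b b') (ha : supp (δ a') = ∅) (hA : supp a' ⊆ A)
    (hb : supp (δ b') = ∅) (hB : supp b' ⊆ B) : Cohom (A ∩ B) (a * b) (a' * b') :=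
  ((h'.mul_left (h.cocycle ha)).mono (inter_subset_inter_left _ (h.supp_subset hA))).trans
    ((h.mul_right hb).mono (inter_subset_inter_right _ hB))

section prod

variable {G G₁ G₂ : Type} [Group G] [TopologicalSpace G] [Sys G] [Group G₁] [TopologicalSpace G₁]
  [Sys G₁] [Group G₂] [TopologicalSpace G₂] [Sys G₂]
  (S : SysProd G G₁ G₂) {B Z₁ Z₂ : Type} [TopologicalSpace B] [MulAction G B]
  [TopologicalSpace Z₁] [MulAction G₁ Z₁] [TopologicalSpace Z₂] [MulAction G₂ Z₂]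
  [Nice B] [ContinuousSMul G B] [Nice Z₁] [ContinuousSMul G₁ Z₁] [Nice Z₂]
  [ContinuousSMul G₂ Z₂]

theorem SysProd.isProd {b₁ : B → Z₁} (hb₁ : ∀ (g : G) y, b₁ (g • y) = S.π₁ g • b₁ y) {b₂ : B → Z₂}
    (hb₂ : ∀ (g : G) y, b₂ (g • y) = S.π₂ g • b₂ y) (h : IsHomeomorph fun y => (b₁ y, b₂ y)) :
    IsProd (S.p₁ b₁ hb₁) (S.p₂ b₂ hb₂) := by
  refine ⟨S.isHomeomorph hb₁ hb₂ h, S.comm₁ hb₁, S.comm₂ hb₂, fun M => ?_, S.dim⟩
  letI := DistribMulAction.compHom (Sys.W G₁) S.π₁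
  letI := DistribMulAction.compHom (Sys.W G₂) S.π₂
  have r₁ : IsRep G (Sys.W G₁) (Sys.rk G₁) := isRep_sysW.compHom S.π₁ S.continuous_π₁
  have r₂ : IsRep G (Sys.W G₂) (Sys.rk G₂) := isRep_sysW.compHom S.π₂ S.continuous_π₂
  have r₀ : IsRep G (Sys.W G) (Sys.rk G₁ + Sys.rk G₂) := S.rk_eq ▸ isRep_sysW
  let σ₁ : B × Sys.P G (M + 1) → Sys.W G₁ := fun x => Sys.col M (S.e₁ (M + 1) x.2)
  let σ₂ : B × Sys.P G (M + 1) → Sys.W G₂ := fun x => Sys.col M (S.e₂ (M + 1) x.2)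
  have s₁ : ∀ (g : G) x, σ₁ (g • x) = g • σ₁ x := fun g x =>
    (congrArg (Sys.col M) (S.e₁_smul _ g x.2)).trans (Sys.col_smul M _ _)
  have s₂ : ∀ (g : G) x, σ₂ (g • x) = g • σ₂ x := fun g x =>
    (congrArg (Sys.col M) (S.e₂_smul _ g x.2)).trans (Sys.col_smul M _ _)
  have c₁ : Continuous σ₁ := (Sys.col_cont M).comp ((S.continuous_e₁ _).comp continuous_snd)
  have c₂ : Continuous σ₂ := (Sys.col_cont M).comp ((S.continuous_e₂ _).comp continuous_snd)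
  have s₁₂ : ∀ (g : G) x, (σ₁ (g • x), σ₂ (g • x)) = g • (σ₁ x, σ₂ x) := fun g x =>
    Prod.ext (s₁ g x) (s₂ g x)
  have k₁ : Cohom (zset G σ₁) (pull (S.p₁ b₁ hb₁ (M + 1)) (ecol G₁ Z₁ M)) (euler σ₁ s₁) :=
    euler_pull r₁ isRep_sysW S.π₁ _
      (((continuous_fst.comp h.continuous).comp continuous_fst).prodMk
        ((S.continuous_e₁ _).comp continuous_snd)) s₁ c₁ _
      ((Sys.col_cont M).comp continuous_snd) (fun _ => LinearMap.id) continuous_snd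
      (fun _ => bijective_id) (fun _ _ _ => rfl) fun _ => rfl
  have k₂ : Cohom (zset G σ₂) (pull (S.p₂ b₂ hb₂ (M + 1)) (ecol G₂ Z₂ M)) (euler σ₂ s₂) :=
    euler_pull r₂ isRep_sysW S.π₂ _
      (((continuous_snd.comp h.continuous).comp continuous_fst).prodMk
        ((S.continuous_e₂ _).comp continuous_snd)) s₂ c₂ _
      ((Sys.col_cont M).comp continuous_snd) (fun _ => LinearMap.id) continuous_snd
      (fun _ => bijective_id) (fun _ _ _ => rfl) fun _ => rfl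
  have k₃ := euler_prod r₁ r₂ s₁ c₁ s₂ c₂ s₁₂
  have k₄ := euler_pull r₀ (r₁.prod r₂) (MonoidHom.id G) (f := id) (fun _ _ => rfl) continuous_id
    (σ := fun x : B × Sys.P G (M + 1) => Sys.col M x.2) (fun g x => Sys.col_smul M g x.2)
    ((Sys.col_cont M).comp continuous_snd) s₁₂ (c₁.prodMk c₂) (fun _ => S.w.toLinearMap)
    ((r₀.continuous_linear (r₁.prod r₂) S.w.toLinearMap).comp continuous_snd)
    (fun _ => S.w.bijective) (fun g _ x => S.w_smul g x) fun x => S.w_col M x.2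
  have e : Bor.map (MonoidHom.id G) (id : B × Sys.P G (M + 1) → _) (fun _ _ => rfl) = id :=
    funext fun x => by obtain ⟨x, rfl⟩ := Bor.mk_surjective x; rfl
  rw [e, pull_id] at k₄
  have z₀ : zset G (fun x : B × Sys.P G (M + 1) => Sys.col M x.2) ⊆ range (binc G B M) := by
    rintro _ ⟨⟨y, u⟩, hu, rfl⟩
    obtain ⟨v, rfl⟩ := (Sys.col_zero M u).1 hu
    exact ⟨Bor.mk G (y, v), rfl⟩
  have z₁ : zset G σ₁ ∩ zset G σ₂ ⊆ range (binc G B M) := by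
    rintro _ ⟨⟨x, hx, rfl⟩, y, hy, e⟩
    obtain ⟨g, rfl⟩ := Bor.mk_eq_iff.1 e
    refine z₀ ⟨g • y, S.w.injective ?_, rfl⟩
    rw [map_zero, S.w_col]
    exact Prod.ext hx ((s₂ g y).trans (by rw [hy, smul_zero]; rfl))
  have i₁ := isCo_euler r₁ s₁ c₁
  have i₂ := isCo_euler r₂ s₂ c₂
  exact (((k₁.mul_both k₂ i₁.cocycle i₁.supp i₂.cocycle i₂.supp).trans k₃.symm).mono z₁).trans
    (k₄.mono z₀)

section calc1

variable {b₁ : B → Z₁} (hb₁ : ∀ (g : G) y, b₁ (g • y) = S.π₁ g • b₁ y) {b₂ : B → Z₂}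
  (hb₂ : ∀ (g : G) y, b₂ (g • y) = S.π₂ g • b₂ y) (hb : IsHomeomorph fun y => (b₁ y, b₂ y))
include hb

theorem SysProd.cross_apply (β₁ : EH G₁ Z₁) (β₂ : EH G₂ Z₂) (M : ℕ) :
    (S.cross hb₁ hb₂ β₁ β₂).1 M =
      P291Z.cross (S.p₁ b₁ hb₁ M) (S.p₂ b₂ hb₂ M) (β₁.1 M) (β₂.1 M) :=
  lcross_apply (S.isProd hb₁ hb₂ hb) β₁ β₂ M

theorem SysProd.cross_deg {k l : ℤ} {β₁ : EH G₁ Z₁} {β₂ : EH G₂ Z₂} (h₁ : β₁ ∈ EH.deg G₁ Z₁ k)
    (h₂ : β₂ ∈ EH.deg G₂ Z₂ l) : S.cross hb₁ hb₂ β₁ β₂ ∈ EH.deg G B (k + l) :=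
  lcross_deg (S.isProd hb₁ hb₂ hb) h₁ h₂

theorem SysProd.cross_smul₁ {r : HS G₁ Unit} {d : ℤ} (hr : r.1 ∈ HSdeg G₁ Unit (2 * d))
    (β₁ : EH G₁ Z₁) (β₂ : EH G₂ Z₂) :
    S.cross hb₁ hb₂ (r • β₁) β₂ = S.r₁ r • S.cross hb₁ hb₂ β₁ β₂ := by
  refine EH.ext fun M => ?_
  have := cap_cross (p₁ := ⟨S.p₁ b₁ hb₁ M, S.continuous_p₁ _ (continuous_fst.comp hb.continuous) M⟩)
    (p₂ := ⟨S.p₂ b₂ hb₂ M, S.continuous_p₂ _ (continuous_snd.comp hb.continuous) M⟩)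
    (S.isHomeomorph hb₁ hb₂ hb M) ((hr M).2.map (bptC G₁ Z₁ M)) 1 (β₁.1 M) (β₂.1 M)
  rw [map_one, mul_one, cap_one, H.map_map] at this
  rw [EH.smul_apply, S.cross_apply hb₁ hb₂ hb, S.cross_apply hb₁ hb₂ hb, EH.smul_apply,
    S.r₁_apply, H.map_map]
  refine this.symm.trans (congrArg (fun φ => cap (H.map φ (r.1 M)) _)
    (ContinuousMap.ext fun x => ?_))
  obtain ⟨x, rfl⟩ := Bor.mk_surjective x
  rfl

theorem SysProd.cross_smul₂ (r : HS G₂ Unit) (β₁ : EH G₁ Z₁) (β₂ : EH G₂ Z₂) :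
    S.cross hb₁ hb₂ β₁ (r • β₂) = S.r₂ r • S.cross hb₁ hb₂ β₁ β₂ := by
  refine EH.ext fun M => ?_
  have := cap_cross (p₁ := ⟨S.p₁ b₁ hb₁ M, S.continuous_p₁ _ (continuous_fst.comp hb.continuous) M⟩)
    (p₂ := ⟨S.p₂ b₂ hb₂ M, S.continuous_p₂ _ (continuous_snd.comp hb.continuous) M⟩)
    (S.isHomeomorph hb₁ hb₂ hb M) (d := 0) H.isDeg_one (H.map (bptC G₂ Z₂ M) (r.1 M)) (β₁.1 M)
    (β₂.1 M)
  rw [map_one, one_mul, cap_one, H.map_map] at this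
  rw [EH.smul_apply, S.cross_apply hb₁ hb₂ hb, S.cross_apply hb₁ hb₂ hb, EH.smul_apply,
    S.r₂_apply, H.map_map]
  refine this.symm.trans (congrArg (fun φ => cap (H.map φ (r.1 M)) _)
    (ContinuousMap.ext fun x => ?_))
  obtain ⟨x, rfl⟩ := Bor.mk_surjective x
  rfl

theorem SysProd.isCoc₁ {A : Set Z₁} (hA : ∀ (g : G₁), ∀ z ∈ A, g • z ∈ A) {d : ℕ}
    {t : ∀ M, Coch (Bq G₁ Z₁ M)} (ht : IsCoc A d t) :
    IsCoc (b₁ ⁻¹' A) d fun M => pull (S.p₁ b₁ hb₁ M) (t M) := by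
  have hc := S.continuous_p₁ hb₁ (continuous_fst.comp hb.continuous)
  refine ⟨fun M => cocycle_pull (hc M) (ht.cocycle M), fun M => (ht.deg M).pull _,
    fun M => (supp_pull (hc M) _).trans ((preimage_mono (ht.supp M)).trans
      (S.preimage_bset₁ hb₁ hA M)), fun M => ?_⟩
  have := ((ht.compat M).pull (hc M)).mono (S.preimage_bset₁ hb₁ hA M)
  rw [pull_pull] at this ⊢
  exact (congrArg (fun φ => Cohom _ (pull φ (t (M + 1))) _) (funext (S.comm₁ hb₁ M))).mpr this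

theorem SysProd.isCoc₂ {A : Set Z₂} (hA : ∀ (g : G₂), ∀ z ∈ A, g • z ∈ A) {d : ℕ}
    {t : ∀ M, Coch (Bq G₂ Z₂ M)} (ht : IsCoc A d t) :
    IsCoc (b₂ ⁻¹' A) d fun M => pull (S.p₂ b₂ hb₂ M) (t M) := by
  have hc := S.continuous_p₂ hb₂ (continuous_snd.comp hb.continuous)
  refine ⟨fun M => cocycle_pull (hc M) (ht.cocycle M), fun M => (ht.deg M).pull _,
    fun M => (supp_pull (hc M) _).trans ((preimage_mono (ht.supp M)).trans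
      (S.preimage_bset₂ hb₂ hA M)), fun M => ?_⟩
  have := ((ht.compat M).pull (hc M)).mono (S.preimage_bset₂ hb₂ hA M)
  rw [pull_pull] at this ⊢
  exact (congrArg (fun φ => Cohom _ (pull φ (t (M + 1))) _) (funext (S.comm₂ hb₂ M))).mpr this

variable {B' Z₁' Z₂' : Type} [TopologicalSpace B'] [MulAction G B'] [TopologicalSpace Z₁']
  [MulAction G₁ Z₁'] [TopologicalSpace Z₂'] [MulAction G₂ Z₂'] [Nice B'] [ContinuousSMul G B']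
  [Nice Z₁'] [ContinuousSMul G₁ Z₁'] [Nice Z₂'] [ContinuousSMul G₂ Z₂']
  {c₁ : B' → Z₁'} (hc₁ : ∀ (g : G) y, c₁ (g • y) = S.π₁ g • c₁ y) {c₂ : B' → Z₂'}
  (hc₂ : ∀ (g : G) y, c₂ (g • y) = S.π₂ g • c₂ y) (hc : IsHomeomorph fun y => (c₁ y, c₂ y))
  {f : B' →[G] B} {f₁ : Z₁' →[G₁] Z₁} {f₂ : Z₂' →[G₂] Z₂} (h₁ : ∀ y, b₁ (f y) = f₁ (c₁ y))
  (h₂ : ∀ y, b₂ (f y) = f₂ (c₂ y))
include hc h₁ h₂

omit S in
theorem SysProd.map_eq : (f : B' → B) =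
    hb.homeomorph.symm ∘ Prod.map f₁ f₂ ∘ fun y => (c₁ y, c₂ y) :=
  funext fun y => hb.homeomorph.eq_symm_apply.2 (Prod.ext (h₁ y) (h₂ y))

theorem SysProd.sq₁ (M : ℕ) (x : Bq G B' M) :
    S.p₁ b₁ hb₁ M (smap f M x) = smap f₁ M (S.p₁ c₁ hc₁ M x) := by
  obtain ⟨x, rfl⟩ := Bor.mk_surjective x
  exact congrArg (fun z => Bor.mk G₁ (z, S.e₁ M x.2)) (h₁ x.1)

theorem SysProd.sq₂ (M : ℕ) (x : Bq G B' M) :
    S.p₂ b₂ hb₂ M (smap f M x) = smap f₂ M (S.p₂ c₂ hc₂ M x) := by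
  obtain ⟨x, rfl⟩ := Bor.mk_surjective x
  exact congrArg (fun z => Bor.mk G₂ (z, S.e₂ M x.2)) (h₂ x.1)

theorem SysProd.epush_cross (e₁ : IsPr f₁) (e₂ : IsPr f₂) (β₁ : EH G₁ Z₁') (β₂ : EH G₂ Z₂') :
    epush f (S.cross hc₁ hc₂ β₁ β₂) = S.cross hb₁ hb₂ (epush f₁ β₁) (epush f₂ β₂) := by
  have hf : IsPr f := by
    rw [SysProd.map_eq hb hc h₁ h₂]
    exact (IsPr.of_homeomorph _).comp ((e₁.prodMap e₂).comp (IsPr.of_isHomeomorph hc))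
  refine EH.ext fun M => ?_
  rw [epush_apply hf, S.cross_apply hb₁ hb₂ hb, S.cross_apply hc₁ hc₂ hc, epush_apply e₁,
    epush_apply e₂]
  exact push_cross (S.isHomeomorph hb₁ hb₂ hb M) (S.isHomeomorph hc₁ hc₂ hc M)
    (S.sq₁ hb₁ hb hc₁ hc h₁ h₂ M) (S.sq₂ hb₂ hb hc₂ hc h₁ h₂ M) (isPr_smap e₁ M)
    (isPr_smap e₂ M) _ _

theorem SysProd.eres_cross (e₁ : IsOpenEmbedding f₁) (e₂ : IsOpenEmbedding f₂) (β₁ : EH G₁ Z₁)
    (β₂ : EH G₂ Z₂) :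
    eres f (S.cross hb₁ hb₂ β₁ β₂) = S.cross hc₁ hc₂ (eres f₁ β₁) (eres f₂ β₂) := by
  have hf : IsOpenEmbedding f := by
    rw [SysProd.map_eq hb hc h₁ h₂]
    exact hb.homeomorph.symm.isOpenEmbedding.comp ((e₁.prodMap e₂).comp hc.isOpenEmbedding)
  refine EH.ext fun M => ?_
  rw [eres_apply hf, S.cross_apply hb₁ hb₂ hb, S.cross_apply hc₁ hc₂ hc, eres_apply e₁,
    eres_apply e₂]
  exact res_cross (S.isHomeomorph hb₁ hb₂ hb M) (S.isHomeomorph hc₁ hc₂ hc M)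
    (S.sq₁ hb₁ hb hc₁ hc h₁ h₂ M) (S.sq₂ hb₂ hb hc₂ hc h₁ h₂ M) (isOpenEmbedding_smap e₁ M)
    (isOpenEmbedding_smap e₂ M) _ _

theorem SysProd.egys_cross (e₁ : IsClosedEmbedding f₁) (e₂ : IsClosedEmbedding f₂) {d e : ℕ}
    {t₁ : ∀ M, Coch (Bq G₁ Z₁ M)} {t₂ : ∀ M, Coch (Bq G₂ Z₂ M)} (ht₁ : IsCoc (range f₁) d t₁)
    (ht₂ : IsCoc (range f₂) e t₂) (β₁ : EH G₁ Z₁) (β₂ : EH G₂ Z₂) :
    egys f (fun M => pull (S.p₁ b₁ hb₁ M) (t₁ M) * pull (S.p₂ b₂ hb₂ M) (t₂ M))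
      (S.cross hb₁ hb₂ β₁ β₂) = S.cross hc₁ hc₂ (egys f₁ t₁ β₁) (egys f₂ t₂ β₂) := by
  have hf : IsClosedEmbedding f := by
    rw [SysProd.map_eq hb hc h₁ h₂]
    exact hb.homeomorph.symm.isClosedEmbedding.comp ((e₁.prodMap e₂).comp hc.isClosedEmbedding)
  have i₁ : ∀ (g : G₁), ∀ z ∈ range f₁, g • z ∈ range f₁ := by
    rintro g _ ⟨z, rfl⟩; exact ⟨g • z, f₁.map_smul g z⟩
  have i₂ : ∀ (g : G₂), ∀ z ∈ range f₂, g • z ∈ range f₂ := by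
    rintro g _ ⟨z, rfl⟩; exact ⟨g • z, f₂.map_smul g z⟩
  have ht : IsCoc (range f) (d + e)
      fun M => pull (S.p₁ b₁ hb₁ M) (t₁ M) * pull (S.p₂ b₂ hb₂ M) (t₂ M) := by
    refine IsCoc.mono ?_ (IsCoc.mul (fun g z hz => ?_) (S.isCoc₁ hb₁ hb i₁ ht₁)
      (S.isCoc₂ hb₂ hb i₂ ht₂))
    · rintro y ⟨⟨z₁, k₁⟩, z₂, k₂⟩
      obtain ⟨x, hx⟩ := hc.surjective (z₁, z₂)
      refine ⟨x, hb.injective (Prod.ext ?_ ?_)⟩
      · exact (h₁ x).trans ((congrArg f₁ (congrArg Prod.fst hx)).trans k₁)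
      · exact (h₂ x).trans ((congrArg f₂ (congrArg Prod.snd hx)).trans k₂)
    · rw [mem_preimage, hb₁]
      exact i₁ _ _ hz
  refine EH.ext fun M => ?_
  rw [egys_apply hf ht, S.cross_apply hb₁ hb₂ hb, S.cross_apply hc₁ hc₂ hc, egys_apply e₁ ht₁,
    egys_apply e₂ ht₂]
  exact gys_cross (S.isHomeomorph hb₁ hb₂ hb M) (S.isHomeomorph hc₁ hc₂ hc M)
    (S.sq₁ hb₁ hb hc₁ hc h₁ h₂ M) (S.sq₂ hb₂ hb hc₂ hc h₁ h₂ M) (isClosedEmbedding_smap e₁ M)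
    (isClosedEmbedding_smap e₂ M)
    ⟨ht₁.cocycle M, ht₁.deg M, (range_smap f₁ M).symm ▸ ht₁.supp M⟩
    ⟨ht₂.cocycle M, ht₂.deg M, (range_smap f₂ M).symm ▸ ht₂.supp M⟩ _ _

end calc1

end prod

end Vale.Agent.P291Z
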