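import Vale.Agent.P291Z.IndP

/-!
# Homogeneous components of equivariant cohomology classes
-/

set_option linter.unusedSectionVars false

namespace Vale.Agent.P291Z

open Set Function Topology

section general

variable {G : Type} [Group G] [TopologicalSpace G] [Sys G] {X Y : Type} [TopologicalSpace X]
  [MulAction G X] [TopologicalSpace Y] [MulAction G Y]

theorem HS.of_deg {k : ℤ} {c : ∀ M, H (Bq G X M)} (h : c ∈ HSdeg G X k) : c ∈ HS G X :=
  Subring.subset_closure (mem_iUnion.2 ⟨k, h⟩)

theorem HS.induction_on {P : HS G X → Prop} (c : HS G X) (h0 : P 0)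
    (hadd : ∀ a b, P a → P b → P (a + b)) (h : ∀ k, ∀ a : HS G X, a.1 ∈ HSdeg G X k → P a) :
    P c := by
  obtain ⟨c, hc⟩ := c
  have h1 : ∀ a ∈ Submonoid.closure (⋃ k, HSdeg G X k), ∃ k, a ∈ HSdeg G X k := fun a ha => by
    induction ha using Submonoid.closure_induction with
    | mem a h => exact mem_iUnion.1 h
    | one => exact ⟨0, fun M => ⟨map_one _, H.isDeg_one⟩⟩
    | mul a b _ _ ha hb =>
      obtain ⟨k, ha⟩ := ha
      obtain ⟨l, hb⟩ := hb
      exact ⟨k + l, fun M => ⟨(map_mul _ _ _).trans (congrArg₂ (· * ·) (ha M).1 (hb M).1),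
        (ha M).2.mul (hb M).2⟩⟩
  have h2 : ∀ a ∈ AddSubmonoid.closure (⋃ k, HSdeg G X k), ∀ ha, P ⟨a, ha⟩ := fun a ha => by
    induction ha using AddSubmonoid.closure_induction with
    | mem a h' => obtain ⟨k, h'⟩ := mem_iUnion.1 h'; exact fun _ => h k _ h'
    | zero => exact fun _ => h0
    | add a b ha hb iha ihb =>
      have h3 : AddSubmonoid.closure (⋃ k, HSdeg G X k) ≤ (HS G X).toAddSubgroup.toAddSubmonoid :=
        AddSubmonoid.closure_le.2 Subring.subset_closure
      exact fun _ => hadd ⟨a, h3 ha⟩ ⟨b, h3 hb⟩ (iha _) (ihb _)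
  refine h2 c ?_ hc
  have h4 := Subring.mem_closure_iff.1 hc
  clear hc
  induction h4 using AddSubgroup.closure_induction with
  | mem a ha => exact AddSubmonoid.subset_closure (mem_iUnion.2 (h1 a ha))
  | zero => exact zero_mem _
  | add a b _ _ ha hb => exact add_mem ha hb
  | neg a _ ha =>
    clear * - ha
    induction ha using AddSubmonoid.closure_induction with
    | mem a h' =>
      obtain ⟨k, h'⟩ := mem_iUnion.1 h'
      exact AddSubmonoid.subset_closure (mem_iUnion.2 ⟨k, fun M =>
        ⟨(map_neg _ _).trans (congrArg (-·) (h' M).1), (H.deg _ k).neg_mem (h' M).2⟩⟩)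
    | zero => rw [neg_zero]; exact zero_mem _
    | add a b _ _ ha hb => rw [neg_add]; exact add_mem ha hb

theorem HS.compat' (c : HS G X) (M : ℕ) : H.map (bincC G X M) (c.1 (M + 1)) = c.1 M := by
  induction c using HS.induction_on with
  | h0 => exact map_zero _
  | hadd a b ha hb => exact (map_add _ _ _).trans (congrArg₂ (· + ·) ha hb)
  | h k a ha => exact (ha M).1

theorem HS.comp_deg (k : ℤ) (c : HS G X) : (fun M => H.comp k (c.1 M)) ∈ HSdeg G X k :=
  fun M => ⟨by rw [← H.comp_map, HS.compat' c], H.isDeg_comp k _⟩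

/-- The homogeneous components. -/
noncomputable def HS.cmp (k : ℤ) : HS G X →+ HS G X where
  toFun c := ⟨fun M => H.comp k (c.1 M), HS.of_deg (HS.comp_deg k c)⟩
  map_zero' := Subtype.ext (funext fun _ => map_zero _)
  map_add' _ _ := Subtype.ext (funext fun _ => map_add _ _ _)

variable [Nice X] [ContinuousSMul G X] [Nice Y] [ContinuousSMul G Y]

theorem HS.lmap_bijective {F : ∀ M, Bq G X M → Bq G Y M} {c : ℤ} (hF : IsLev F c)
    (h : ∀ M, IsHomeomorph (F M)) : Bijective (HS.lmap hF) := by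
  have h1 : ∀ M, Bijective (H.map (⟨F M, hF.cont M⟩ : C(_, _))) := fun M =>
    H.map_bijective_of_homeomorph (h M).homeomorph
  refine ⟨fun a b e => Subtype.ext (funext fun M => (h1 M).1
    (congrFun (congrArg Subtype.val e) M)), fun a => ?_⟩
  induction a using HS.induction_on with
  | h0 => exact ⟨0, map_zero _⟩
  | hadd a b ha hb =>
    obtain ⟨a, rfl⟩ := ha
    obtain ⟨b, rfl⟩ := hb
    exact ⟨a + b, map_add _ _ _⟩
  | h k a ha =>
    choose d hd using fun M => (h1 M).2 (a.1 M)
    refine ⟨⟨d, HS.of_deg (k := k) fun M => ⟨(h1 M).1 ?_, ?_⟩⟩, Subtype.ext (funext hd)⟩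
    · rw [hd, ← (ha M).1, ← hd, H.map_map, H.map_map]
      exact congrArg (H.map · _) (ContinuousMap.ext fun x => (hF.comm M x).symm)
    · have h2 : H.comp k (d M) = d M :=
        (h1 M).1 ((H.comp_map _ k (d M)).symm.trans (by rw [hd, (ha M).2.comp_eq]))
      exact h2 ▸ H.isDeg_comp k _

theorem eact_mul (a b : HS G X) (β : EH G X) : eact (a * b).1 β = eact a.1 (eact b.1 β) :=
  EH.ext fun M => by
    rw [eact_apply, eact_apply, eact_apply]
    exact cap_mul _ _ _

theorem comp_eact {D : ℤ} {o : EH G X} (ho : o ∈ EH.deg G X D) (k : ℤ) (c : HS G X) :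
    EH.comp (D - k) (eact c.1 o) = eact (HS.cmp k c).1 o := by
  induction c using HS.induction_on with
  | h0 => rw [map_zero, eact_zero, map_zero]
  | hadd a b ha hb => rw [map_add, eact_add, eact_add, map_add, ha, hb]
  | h j a ha =>
    by_cases h : k = j
    · subst h
      rw [EH.comp_of_mem (eact_deg ha ho),
        show HS.cmp k a = a from Subtype.ext (funext fun M => (ha M).2.comp_eq)]
    · rw [EH.comp_of_ne (eact_deg ha ho) (by omega),
        show HS.cmp k a = 0 from Subtype.ext (funext fun M => (ha M).2.comp_ne h), eact_zero]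

theorem eact_deg_iff {D : ℤ} {o : EH G X} (ho : o ∈ EH.deg G X D)
    (h : Injective fun c : HS G X => eact c.1 o) (k : ℤ) (c : HS G X) :
    eact c.1 o ∈ EH.deg G X (D - k) ↔ c.1 ∈ HSdeg G X k := by
  refine ⟨fun h1 => ?_, fun h1 => eact_deg h1 ho⟩
  rw [h ((EH.comp_of_mem h1).symm.trans (comp_eact ho k c))]
  exact HS.comp_deg k c

theorem lpush_eact {F : ∀ M, Bq G X M → Bq G Y M} {d : ℤ} (hF : IsLev F d) (hp : ∀ M, IsPr (F M))
    (c : HS G Y) (β : EH G X) : lpush F (eact (HS.lmap hF c).1 β) = eact c.1 (lpush F β) :=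
  EH.ext fun M => by
    rw [lpush_apply hF hp, eact_apply, eact_apply, lpush_apply hF hp]
    exact push_cap (f := ⟨F M, hF.cont M⟩) (hp M) _ _

end general

end Vale.Agent.P291Z
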