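import Vale.Agent.P291Z.T6

set_option linter.all false

/-!
# Classes in the cohomology ring, the module structure, compact spaces
-/

namespace Vale.Agent.P291Z

open Topology Set Filter TopologicalSpace

variable {X Y Z : Type} [TopologicalSpace X] [TopologicalSpace Y] [TopologicalSpace Z]

theorem mem_Zs {a : Coch X} : a ∈ Zs X ↔ supp (δ a) = ∅ := Iff.rfl

theorem Zs.cyc (a : Zs X) : supp (δ a.1) = ∅ := a.2

theorem cocycle_zero : supp (δ (0 : Coch X)) = ∅ := (Zs X).zero_mem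

theorem cocycle_one : supp (δ (1 : Coch X)) = ∅ := (Zs X).one_mem

theorem cocycle_add {a b : Coch X} (ha : supp (δ a) = ∅) (hb : supp (δ b) = ∅) :
    supp (δ (a + b)) = ∅ := (Zs X).add_mem ha hb

theorem cocycle_sub {a b : Coch X} (ha : supp (δ a) = ∅) (hb : supp (δ b) = ∅) :
    supp (δ (a - b)) = ∅ := (Zs X).sub_mem ha hb

theorem cocycle_neg {a : Coch X} (ha : supp (δ a) = ∅) : supp (δ (-a)) = ∅ := (Zs X).neg_mem ha

theorem cocycle_smul (c : ℂ) {a : Coch X} (ha : supp (δ a) = ∅) : supp (δ (c • a)) = ∅ :=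
  (Zs X).smul_mem ha c

theorem cocycle_sum {ι : Type*} {s : Finset ι} {a : ι → Coch X}
    (ha : ∀ i ∈ s, supp (δ (a i)) = ∅) : supp (δ (∑ i ∈ s, a i)) = ∅ := (Zs X).sum_mem ha

theorem cocycle_δ (a : Coch X) : supp (δ (δ a)) = ∅ := by rw [δ_δ, supp_zero]

open Classical in
/-- the class of a cocycle (zero for other cochains) -/
noncomputable def hcls (a : Coch X) : H X := if h : supp (δ a) = ∅ then H.mk ⟨a, h⟩ else 0

theorem hcls_of_mem {a : Coch X} (h : supp (δ a) = ∅) : hcls a = H.mk ⟨a, h⟩ := dif_pos h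

theorem hcls_val (a : Zs X) : hcls a.1 = H.mk a := hcls_of_mem a.2

theorem H.mk_surj : Function.Surjective (H.mk : Zs X → H X) := RingCon.mk'_surjective _

theorem hcls_surj (c : H X) : ∃ a, supp (δ a) = ∅ ∧ hcls a = c := by
  obtain ⟨a, rfl⟩ := H.mk_surj c
  exact ⟨a.1, a.2, hcls_val a⟩

theorem H.mk_eq_iff {a b : Zs X} : H.mk a = H.mk b ↔ ∃ c, supp (a.1 - b.1 - δ c) = ∅ := by
  refine (RingCon.eq _).trans ((TwoSidedIdeal.rel_iff _ _ _).trans (mem_Bs.trans ?_))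
  refine exists_congr fun c => ?_
  rw [sub_zero, and_iff_right (subset_univ _)]
  rfl

theorem hcls_eq_iff {a b : Coch X} (ha : supp (δ a) = ∅) (hb : supp (δ b) = ∅) :
    hcls a = hcls b ↔ ∃ c, supp (a - b - δ c) = ∅ := by
  rw [hcls_of_mem ha, hcls_of_mem hb, H.mk_eq_iff]

theorem hcls_zero : hcls (0 : Coch X) = 0 := (hcls_val (0 : Zs X)).trans (map_zero _)

theorem hcls_one : hcls (1 : Coch X) = 1 := (hcls_val (1 : Zs X)).trans (map_one _)

theorem hcls_eq_zero {a : Coch X} (ha : supp (δ a) = ∅) :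
    hcls a = 0 ↔ ∃ c, supp (a - δ c) = ∅ := by
  rw [← hcls_zero, hcls_eq_iff ha cocycle_zero, sub_zero]

theorem hcls_add {a b : Coch X} (ha : supp (δ a) = ∅) (hb : supp (δ b) = ∅) :
    hcls (a + b) = hcls a + hcls b := by
  rw [hcls_of_mem ha, hcls_of_mem hb, hcls_of_mem (cocycle_add ha hb), ← map_add]
  rfl

theorem hcls_sub {a b : Coch X} (ha : supp (δ a) = ∅) (hb : supp (δ b) = ∅) :
    hcls (a - b) = hcls a - hcls b := by
  rw [hcls_of_mem ha, hcls_of_mem hb, hcls_of_mem (cocycle_sub ha hb), ← map_sub]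
  rfl

theorem hcls_neg {a : Coch X} (ha : supp (δ a) = ∅) : hcls (-a) = -hcls a := by
  rw [hcls_of_mem ha, hcls_of_mem (cocycle_neg ha), ← map_neg]
  rfl

theorem hcls_mul {a b : Coch X} (ha : supp (δ a) = ∅) (hb : supp (δ b) = ∅) :
    hcls (a * b) = hcls a * hcls b := by
  rw [hcls_of_mem ha, hcls_of_mem hb, hcls_of_mem (cocycle_mul ha hb), ← map_mul]
  rfl

theorem H.mk_smul (c : ℂ) (a : Zs X) : H.mk (c • a) = c • H.mk a := rfl

theorem hcls_smul (c : ℂ) {a : Coch X} (ha : supp (δ a) = ∅) : hcls (c • a) = c • hcls a := by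
  rw [hcls_of_mem ha, hcls_of_mem (cocycle_smul c ha), ← H.mk_smul]
  rfl

theorem hcls_sum {ι : Type*} (s : Finset ι) {a : ι → Coch X} (ha : ∀ i ∈ s, supp (δ (a i)) = ∅) :
    hcls (∑ i ∈ s, a i) = ∑ i ∈ s, hcls (a i) := by
  classical
  induction s using Finset.induction_on with
  | empty => exact hcls_zero
  | insert i s hi ih =>
    rw [Finset.sum_insert hi, Finset.sum_insert hi, hcls_add (ha i (Finset.mem_insert_self i s))
      (cocycle_sum fun j hj => ha j (Finset.mem_insert_of_mem hj)),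
      ih fun j hj => ha j (Finset.mem_insert_of_mem hj)]

theorem cocycle_of_cohom {a b c : Coch X} (hb : supp (δ b) = ∅) (h : supp (a - b - δ c) = ∅) :
    supp (δ a) = ∅ := supp_eq_empty.2 fun x => by
  have := (Van x).add_mem (Van.δ (supp_eq_empty.1 h x)) (supp_eq_empty.1 hb x)
  rwa [map_sub, map_sub, δ_δ, sub_zero, sub_add_cancel] at this

theorem hcls_eq_of_cohom {a b c : Coch X} (hb : supp (δ b) = ∅) (h : supp (a - b - δ c) = ∅) :
    hcls a = hcls b := (hcls_eq_iff (cocycle_of_cohom hb h) hb).2 ⟨c, h⟩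

theorem hcls_eq_of_null {a b : Coch X} (hb : supp (δ b) = ∅) (h : ∀ x, a - b ∈ Van x) :
    hcls a = hcls b :=
  hcls_eq_of_cohom (c := 0) hb (by rw [map_zero, sub_zero]; exact supp_eq_empty.2 h)

theorem H.map_hcls (f : C(X, Y)) {a : Coch Y} (ha : supp (δ a) = ∅) :
    H.map f (hcls a) = hcls (pull f a) := by
  rw [hcls_of_mem ha, hcls_of_mem (cocycle_pull f.continuous ha)]
  rfl

theorem H.map_smulC (f : C(X, Y)) (c : ℂ) (h : H Y) : H.map f (c • h) = c • H.map f h := by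
  obtain ⟨a, ha, rfl⟩ := hcls_surj h
  rw [← hcls_smul c ha, H.map_hcls f ha, H.map_hcls f (cocycle_smul c ha), map_smul (pull f),
    hcls_smul c (cocycle_pull f.continuous ha)]

/-- pull-back as a map of algebras -/
noncomputable def H.mapA (f : C(X, Y)) : H Y →ₐ[ℂ] H X := AlgHom.mk' (H.map f) (H.map_smulC f)

theorem H.mapA_apply (f : C(X, Y)) (h : H Y) : H.mapA f h = H.map f h := rfl

theorem H.map_map (f : C(X, Y)) (g : C(Y, Z)) (h : H Z) :
    H.map f (H.map g h) = H.map (g.comp f) h := by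
  obtain ⟨a, ha, rfl⟩ := hcls_surj h
  rw [H.map_hcls g ha, H.map_hcls f (cocycle_pull g.continuous ha), H.map_hcls _ ha, pull_pull]
  rfl

theorem H.map_id {f : C(X, X)} (hf : ∀ x, f x = x) (h : H X) : H.map f h = h := by
  obtain ⟨a, ha, rfl⟩ := hcls_surj h
  rw [H.map_hcls f ha, show (f : X → X) = id from funext hf, pull_id]

theorem H.map_bijective_of_homeomorph (e : X ≃ₜ Y) : Function.Bijective (H.map (e : C(X, Y))) :=
  Function.bijective_iff_has_inverse.2 ⟨H.map (e.symm : C(Y, X)),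
    fun h => by rw [H.map_map]; exact H.map_id e.apply_symm_apply h,
    fun h => by rw [H.map_map]; exact H.map_id e.symm_apply_apply h⟩

/-! ### degrees -/

theorem cocycle_comp {a : Coch X} (ha : supp (δ a) = ∅) (k : ℤ) : supp (δ (comp k a)) = ∅ := by
  rw [← comp_δ]
  exact supp_eq_empty.2 fun x => Van.comp (supp_eq_empty.1 ha x) _

theorem H.isDeg_iff {k : ℤ} {c : H X} :
    H.IsDeg k c ↔ ∃ a, supp (δ a) = ∅ ∧ P291Z.IsDeg k a ∧ hcls a = c :=
  ⟨fun ⟨a, h1, h2⟩ => ⟨a.1, a.2, h1, (hcls_val a).trans h2⟩,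
    fun ⟨a, h0, h1, h2⟩ => ⟨⟨a, h0⟩, h1, (hcls_of_mem h0).symm.trans h2⟩⟩

/-- the classes of degree `k` -/
def H.deg (X : Type) [TopologicalSpace X] (k : ℤ) : Submodule ℂ (H X) where
  carrier := {c | H.IsDeg k c}
  zero_mem' := ⟨0, isDeg_zero k, map_zero _⟩
  add_mem' := by
    rintro _ _ ⟨a, h, rfl⟩ ⟨b, h', rfl⟩
    exact ⟨a + b, h.add h', map_add _ _ _⟩
  smul_mem' := by
    rintro c _ ⟨a, h, rfl⟩
    exact ⟨c • a, h.smul c, rfl⟩

theorem H.mem_deg {k : ℤ} {c : H X} : c ∈ H.deg X k ↔ H.IsDeg k c := Iff.rfl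

theorem hcls_isDeg {k : ℤ} {a : Coch X} (h : IsDeg k a) : H.IsDeg k (hcls a) := by
  by_cases ha : supp (δ a) = ∅
  · exact H.isDeg_iff.2 ⟨a, ha, h, rfl⟩
  · rw [hcls, dif_neg ha]; exact (H.deg X k).zero_mem

theorem H.IsDeg.mul {p q : ℤ} {c c' : H X} (h : H.IsDeg p c) (h' : H.IsDeg q c') :
    H.IsDeg (p + q) (c * c') := by
  obtain ⟨a, h1, rfl⟩ := h
  obtain ⟨b, h2, rfl⟩ := h'
  exact ⟨a * b, h1.mul h2, map_mul _ _ _⟩

theorem H.isDeg_one : H.IsDeg 0 (1 : H X) := ⟨1, P291Z.isDeg_one, map_one _⟩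

theorem H.IsDeg.map {k : ℤ} {c : H Y} (h : H.IsDeg k c) (f : C(X, Y)) : H.IsDeg k (H.map f c) := by
  obtain ⟨a, h0, h1, rfl⟩ := H.isDeg_iff.1 h
  rw [H.map_hcls f h0]
  exact hcls_isDeg (h1.pull f)

theorem H.IsDeg.eq_zero {k : ℤ} {c : H X} (h : H.IsDeg k c) (hk : k < 0) : c = 0 := by
  obtain ⟨a, -, h1, rfl⟩ := H.isDeg_iff.1 h
  rw [h1.eq_zero hk, hcls_zero]

/-- **graded commutativity** of the cohomology ring -/
theorem H.IsDeg.comm {p q : ℤ} {c c' : H X} (h : H.IsDeg p c) (h' : H.IsDeg q c') :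
    c * c' = ((-1 : ℂ) ^ (p * q)) • (c' * c) := by
  obtain ⟨a, ha, h1, rfl⟩ := H.isDeg_iff.1 h
  obtain ⟨b, hb, h2, rfl⟩ := H.isDeg_iff.1 h'
  obtain ⟨c, -, -, h3⟩ := exists_comm h1 h2
  rw [ha, hb, empty_inter, inter_empty, union_empty, subset_empty_iff] at h3
  rw [← hcls_mul ha hb, ← hcls_mul hb ha, ← hcls_smul _ (cocycle_mul hb ha)]
  exact hcls_eq_of_cohom (cocycle_smul _ (cocycle_mul hb ha)) h3

theorem H.exists_lift {M : Type*} [AddCommGroup M] [Module ℂ M] (β : Zs X →ₗ[ℂ] M)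
    (hw : ∀ a : Zs X, ∀ c, supp (a.1 - δ c) = ∅ → β a = 0) :
    ∃ f : H X →ₗ[ℂ] M, ∀ a, f (H.mk a) = β a := by
  let m : Zs X →ₗ[ℂ] H X := ⟨⟨H.mk, map_add _⟩, H.mk_smul⟩
  have hs : Function.Surjective m := H.mk_surj
  have hk : LinearMap.ker m ≤ LinearMap.ker β := fun a h => by
    obtain ⟨c, hc⟩ := (hcls_eq_zero a.2).1 ((hcls_val a).trans h)
    exact hw a c hc
  refine ⟨(LinearMap.ker m).liftQ β hk ∘ₗ (m.quotKerEquivOfSurjective hs).symm.toLinearMap,
    fun a => ?_⟩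
  have : (m.quotKerEquivOfSurjective hs).symm (H.mk a) = Submodule.Quotient.mk a := by
    rw [LinearEquiv.symm_apply_eq]
    rfl
  rw [LinearMap.comp_apply, LinearEquiv.coe_toLinearMap, this, Submodule.liftQ_apply]

theorem H.exists_comp (k : ℤ) : ∃ f : H X →ₗ[ℂ] H X, ∀ a, supp (δ a) = ∅ →
    f (hcls a) = hcls (P291Z.comp k a) := by
  obtain ⟨f, hf⟩ := H.exists_lift (X := X) (M := H X)
    ⟨⟨fun a => hcls (P291Z.comp k a.1), fun a b => by
      rw [Subalgebra.coe_add, map_add, hcls_add (cocycle_comp (Zs.cyc a) k)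
        (cocycle_comp (Zs.cyc b) k)]⟩,
      fun c a => by
        show hcls (P291Z.comp k (c • a.1)) = c • hcls (P291Z.comp k a.1)
        rw [map_smul, hcls_smul c (cocycle_comp (Zs.cyc a) k)]⟩
    fun a c hc => (hcls_eq_zero (cocycle_comp (Zs.cyc a) k)).2 ⟨P291Z.comp (k - 1) c,
      supp_eq_empty.2 fun x => by
        have := Van.comp (supp_eq_empty.1 hc x) k
        rwa [map_sub, comp_δ'] at this⟩
  exact ⟨f, fun a ha => by rw [hcls_of_mem ha]; exact hf _⟩

/-- the component of degree `k` -/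
noncomputable def H.comp (k : ℤ) : H X →ₗ[ℂ] H X := (H.exists_comp k).choose

theorem H.comp_hcls (k : ℤ) {a : Coch X} (ha : supp (δ a) = ∅) :
    H.comp k (hcls a) = hcls (P291Z.comp k a) := (H.exists_comp k).choose_spec a ha

theorem H.isDeg_comp (k : ℤ) (c : H X) : H.IsDeg k (H.comp k c) := by
  obtain ⟨a, ha, rfl⟩ := hcls_surj c
  rw [H.comp_hcls k ha]
  exact hcls_isDeg (P291Z.isDeg_comp k a)

theorem H.IsDeg.comp_eq {k : ℤ} {c : H X} (h : H.IsDeg k c) : H.comp k c = c := by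
  obtain ⟨a, ha, h', rfl⟩ := H.isDeg_iff.1 h
  rw [H.comp_hcls k ha, P291Z.IsDeg.comp_eq h']

theorem H.IsDeg.comp_ne {k j : ℤ} {c : H X} (h : H.IsDeg k c) (hj : j ≠ k) : H.comp j c = 0 := by
  obtain ⟨a, ha, h', rfl⟩ := H.isDeg_iff.1 h
  rw [H.comp_hcls j ha, P291Z.IsDeg.comp_ne h' hj, hcls_zero]

theorem H.exists_sum_comp (c : H X) :
    ∃ N : ℕ, ∀ M, N ≤ M → ∑ k ∈ Finset.range M, H.comp (k : ℤ) c = c := by
  obtain ⟨a, ha, rfl⟩ := hcls_surj c
  obtain ⟨N, hN⟩ := P291Z.exists_sum_comp a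
  refine ⟨N, fun M hM => ?_⟩
  conv_rhs => rw [← hN M hM, hcls_sum _ fun k _ => cocycle_comp ha _]
  exact Finset.sum_congr rfl fun k _ => H.comp_hcls _ ha

theorem H.induction_deg {P : H X → Prop} (c : H X) (h0 : P 0)
    (hadd : ∀ b c, P b → P c → P (b + c)) (h : ∀ k : ℤ, P (H.comp k c)) : P c := by
  obtain ⟨N, hN⟩ := H.exists_sum_comp c
  rw [← hN N le_rfl]
  exact Finset.sum_induction _ P hadd h0 fun k _ => h k

theorem H.ext_comp {c c' : H X} (h : ∀ k, H.comp k c = H.comp k c') : c = c' := by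
  rw [← sub_eq_zero]
  exact H.induction_deg (P := fun b => b = 0) _ rfl (fun b c hb hc => by rw [hb, hc, add_zero])
    fun k => by rw [map_sub, h k, sub_self]

theorem H.comp_map (f : C(X, Y)) (k : ℤ) (c : H Y) :
    H.comp k (H.map f c) = H.map f (H.comp k c) := by
  obtain ⟨a, ha, rfl⟩ := hcls_surj c
  rw [H.map_hcls f ha, H.comp_hcls k ha, H.comp_hcls k (cocycle_pull f.continuous ha),
    H.map_hcls f (cocycle_comp ha k), comp_pull]

theorem H.comp_mul_right {q : ℤ} {t : H X} (ht : H.IsDeg q t) (k : ℤ) (c : H X) :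
    H.comp (k + q) (c * t) = H.comp k c * t := by
  obtain ⟨a, ha, rfl⟩ := hcls_surj c
  obtain ⟨b, hb, h, rfl⟩ := H.isDeg_iff.1 ht
  rw [← hcls_mul ha hb, H.comp_hcls _ (cocycle_mul ha hb), H.comp_hcls _ ha,
    ← hcls_mul (cocycle_comp ha k) hb, P291Z.comp_mul_right h]

/-- classes of even degree are central -/
theorem H.IsDeg.commute {p : ℤ} {c : H X} (h : H.IsDeg p c) (hp : Even p) (c' : H X) :
    c * c' = c' * c :=
  H.induction_deg (P := fun c' => c * c' = c' * c) c' (by simp)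
    (fun a b ha hb => by rw [mul_add, add_mul, ha, hb]) fun k => by
      rw [h.comm (H.isDeg_comp k c'), (hp.mul_right k).neg_one_zpow, one_smul]

/-! ### the action on cohomology with compact supports -/

theorem Hc.exists_act : ∃ f : H X →ₗ[ℂ] Hc X →ₗ[ℂ] Hc X, ∀ t : Zs X,
    f (H.mk t) = Hc.mulR (Zs.cyc t) :=
  H.exists_lift ⟨⟨fun t => Hc.mulR (Zs.cyc t), fun s t => Hc.hom_ext fun a ha => by
      rw [LinearMap.add_apply, Hc.mulR_cls _ ha, Hc.mulR_cls _ ha, Hc.mulR_cls _ ha,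
        ← cls_add (mul_Zc ha (Zs.cyc s)) (mul_Zc ha (Zs.cyc t)), ← mul_add]
      rfl⟩,
    fun c t => Hc.hom_ext fun a ha => by
      show Hc.mulR (Zs.cyc (c • t)) (cls a) = c • Hc.mulR (Zs.cyc t) (cls a)
      rw [Hc.mulR_cls _ ha, Hc.mulR_cls _ ha, ← cls_smul c (mul_Zc ha (Zs.cyc t)), ← mul_smul_comm]
      rfl⟩
    fun t c hc => Hc.hom_ext fun a ha => by
      show Hc.mulR (Zs.cyc t) (cls a) = 0
      rw [Hc.mulR_cls _ ha]
      exact cls_of_mem_Bc (Zc.mul_cobound ha fun x _ => supp_eq_empty.1 hc x)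

/-- **right multiplication** by cohomology classes -/
noncomputable def Hc.act : H X →ₗ[ℂ] Hc X →ₗ[ℂ] Hc X := Hc.exists_act.choose

theorem Hc.act_hcls {t : Coch X} (ht : supp (δ t) = ∅) : Hc.act (hcls t) = Hc.mulR ht := by
  rw [hcls_of_mem ht]
  exact Hc.exists_act.choose_spec ⟨t, ht⟩

theorem Hc.act_cls {t a : Coch X} (ht : supp (δ t) = ∅) (ha : a ∈ Zc X) :
    Hc.act (hcls t) (cls a) = cls (a * t) := by rw [Hc.act_hcls ht, Hc.mulR_cls ht ha]

theorem Hc.act_one (c : Hc X) : Hc.act 1 c = c := by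
  obtain ⟨a, ha, rfl⟩ := cls_surj c
  rw [← hcls_one, Hc.act_cls cocycle_one ha, mul_one]

theorem Hc.act_mul (h h' : H X) (c : Hc X) : Hc.act (h * h') c = Hc.act h' (Hc.act h c) := by
  obtain ⟨a, ha, rfl⟩ := cls_surj c
  obtain ⟨s, hs, rfl⟩ := hcls_surj h
  obtain ⟨t, ht, rfl⟩ := hcls_surj h'
  rw [← hcls_mul hs ht, Hc.act_cls (cocycle_mul hs ht) ha, Hc.act_cls hs ha,
    Hc.act_cls ht (mul_Zc ha hs), mul_assoc]

theorem Hc.act_deg {p q : ℤ} {h : H X} (hh : H.IsDeg q h) {c : Hc X} (hc : c ∈ Hc.deg X p) :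
    Hc.act h c ∈ Hc.deg X (p + q) := by
  obtain ⟨a, ha, h1, rfl⟩ := hc
  obtain ⟨s, hs, h2, rfl⟩ := H.isDeg_iff.1 hh
  rw [Hc.act_cls hs ha]
  exact cls_mem_deg (h1.mul h2)

theorem Hc.pull_act {f : C(X, Y)} (hf : IsPr f) (h : H Y) (c : Hc Y) :
    Hc.pull hf (Hc.act h c) = Hc.act (H.map f h) (Hc.pull hf c) := by
  obtain ⟨s, hs, rfl⟩ := hcls_surj h
  rw [H.map_hcls f hs, Hc.act_hcls hs, Hc.act_hcls (cocycle_pull f.continuous hs), Hc.pull_mulR]

theorem Hc.push_act [T2Space Y] [LocallyCompactSpace Y] {f : C(X, Y)} (hf : IsOpenEmbedding f)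
    (h : H Y) (c : Hc X) : Hc.push hf (Hc.act (H.map f h) c) = Hc.act h (Hc.push hf c) := by
  obtain ⟨s, hs, rfl⟩ := hcls_surj h
  rw [H.map_hcls f hs, Hc.act_hcls hs, Hc.act_hcls (cocycle_pull f.continuous hs), Hc.push_mulR]

theorem Hc.conn_act {U : Type} [TopologicalSpace U] [MetrizableSpace X] [LocallyCompactSpace X]
    {i : C(Z, X)} (hi : IsClosedEmbedding i) {j : C(U, X)} (hj : IsOpenEmbedding j)
    (hc : range j = (range i)ᶜ) (h : H X) (c : Hc Z) :
    Hc.conn hi hj hc (Hc.act (H.map i h) c) = Hc.act (H.map j h) (Hc.conn hi hj hc c) := by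
  obtain ⟨s, hs, rfl⟩ := hcls_surj h
  rw [H.map_hcls i hs, H.map_hcls j hs, Hc.act_hcls (cocycle_pull i.continuous hs),
    Hc.act_hcls (cocycle_pull j.continuous hs), Hc.conn_mulR hi hj hc hs]

/-- the Gysin map of a cocycle of even degree is linear over the cohomology ring -/
theorem Hc.gys_act [MetrizableSpace X] [LocallyCompactSpace X] {i : C(Z, X)}
    (hi : IsClosedEmbedding i) {t : Coch X} (ht : supp (δ t) = ∅) (hs : supp t ⊆ range i) {d : ℤ}
    (hd : IsDeg d t) (he : Even d) (h : H X) (c : Hc Z) :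
    Hc.gys hi ht hs (Hc.act (H.map i h) c) = Hc.act h (Hc.gys hi ht hs c) := by
  refine H.induction_deg (P := fun h => Hc.gys hi ht hs (Hc.act (H.map i h) c) =
    Hc.act h (Hc.gys hi ht hs c)) h (by simp)
    (fun a b ha hb => by simp only [map_add, LinearMap.add_apply, ha, hb]) fun k => ?_
  obtain ⟨s, h1, h2, e⟩ := H.isDeg_iff.1 (H.isDeg_comp k h)
  have a1 := (supp_mul s t).trans (inter_subset_right.trans hs)
  have a2 := (supp_mul t s).trans (inter_subset_left.trans hs)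
  show _ = _
  rw [← e, H.map_hcls i h1, Hc.act_hcls h1, Hc.act_hcls (cocycle_pull i.continuous h1),
    ← Hc.gys_mul' hi ht hs h1 _ (cocycle_mul h1 ht) a1,
    ← Hc.gys_mul hi ht hs h1 (cocycle_mul ht h1) a2,
    Hc.gys_congr hi (cocycle_mul h1 ht) a1 (cocycle_mul ht h1) a2]
  obtain ⟨u, -, h3, h4⟩ := exists_comm h2 hd
  rw [h1, ht, empty_inter, inter_empty, union_empty, subset_empty_iff,
    (he.mul_left k).neg_one_zpow, one_smul] at h4
  exact ⟨u, h3.trans (inter_subset_right.trans hs), h4⟩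

/-! ### compact spaces -/

theorem Zc_of_compact [CompactSpace X] {a : Coch X} (h : supp (δ a) = ∅) : a ∈ Zc X :=
  ⟨(isClosed_supp a).isCompact, h⟩

theorem cls_eq_iff_hcls [CompactSpace X] {a b : Coch X} (ha : supp (δ a) = ∅)
    (hb : supp (δ b) = ∅) : cls a = cls b ↔ hcls a = hcls b := by
  rw [cls_eq_iff (Zc_of_compact ha) (Zc_of_compact hb), hcls_eq_iff ha hb]
  exact exists_congr fun c => and_iff_right (isClosed_supp c).isCompact

theorem IsPr.of_compact [CompactSpace X] [T2Space Y] {f : X → Y} (hf : Continuous f) : IsPr f :=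
  ⟨hf, fun _ hK => (hK.isClosed.preimage hf).isCompact⟩

theorem hcls_one_ne_zero [Nonempty X] : (1 : H X) ≠ 0 := by
  rw [← hcls_one, Ne, hcls_eq_zero cocycle_one]
  rintro ⟨c, hc⟩
  have := Van.val_single (supp_eq_empty.1 hc (Classical.arbitrary X))
  rw [Coch.sub_val, Pi.sub_apply, δ_val_single, Coch.one_val] at this
  simp [unit] at this

/-- homotopy invariance for a compact source: the pull-back is locally constant -/
theorem H.map_locally_constant [CompactSpace X] {T : Type} [TopologicalSpace T]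
    (h : C(T × X, Y)) (c : H Y) : IsLocallyConstant fun s : T => H.map (h.curry s) c := by
  obtain ⟨a, ha, rfl⟩ := hcls_surj c
  refine (IsLocallyConstant.iff_eventually_eq _).2 fun s => ?_
  have key : ∀ᶠ s' in 𝓝 s, ∀ x ∈ (univ : Set X), ∃ V : Set Y,
      (∀ m : List Y, (∀ y ∈ m, y ∈ V) → (δ a).1 m = 0) ∧
        ∀ᶠ x' in 𝓝 x, h (s, x') ∈ V ∧ h (s', x') ∈ V := by
    refine isCompact_univ.eventually_forall_of_forall_eventually fun x _ => ?_
    obtain ⟨V, hV, h1⟩ := notMem_supp.1 (supp_eq_empty.1 ha (h (s, x)))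
    have h2 : ∀ᶠ z : T × X in 𝓝 (s, x), h (s, z.2) ∈ V ∧ h z ∈ V :=
      Eventually.and (((h.2.comp (continuous_const.prodMk continuous_snd)).continuousAt
        (x := (s, x))) hV) (h.2.continuousAt hV)
    filter_upwards [h2.eventually_nhds] with z hz
    exact ⟨V, h1, (Continuous.prodMk_right z.1).continuousAt.tendsto.eventually hz⟩
  filter_upwards [key] with s' hs'
  rw [H.map_hcls _ ha, H.map_hcls _ ha]
  refine hcls_eq_of_cohom (c := prismOp (h.curry s) (h.curry s') a)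
    (cocycle_pull (h.curry s).continuous ha) (supp_eq_empty.2 fun x => ?_)
  rw [← prismOp_δ, add_sub_cancel_left]
  obtain ⟨V, h1, h2⟩ := hs' x trivial
  exact notMem_supp.2 ⟨_, h2, fun l hl => prismOp_val_eq_zero _ _ h1 hl⟩

/-- the cohomology ring is spanned by the unit -/
def Acyc (X : Type) [TopologicalSpace X] : Prop := ∀ c : H X, ∃ z : ℂ, c = z • 1

theorem H.map_const (y : Y) (c : H Y) : ∃ z : ℂ, H.map (ContinuousMap.const X y) c = z • 1 := by
  obtain ⟨a, ha, rfl⟩ := hcls_surj c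
  refine ⟨a.1 [y], ?_⟩
  rw [H.map_hcls _ ha, ← hcls_one, ← hcls_smul _ cocycle_one]
  refine hcls_eq_of_cohom (c := pull (ContinuousMap.const X y) (coneOp y a))
    (cocycle_smul _ cocycle_one) (supp_eq_empty.2 fun x => ?_)
  have := Van.pull (f := ContinuousMap.const X y) (x := x) continuousAt_const
    (local_cocycle (supp_eq_empty.1 ha y))
  rwa [map_sub, map_sub, map_smul (pull _), map_one, ← δ_pull] at this

theorem acyc_of_subsingleton [Subsingleton X] : Acyc X := fun c => by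
  rcases isEmpty_or_nonempty X with h | ⟨⟨x⟩⟩
  · obtain ⟨a, -, rfl⟩ := hcls_surj c
    exact ⟨0, by rw [Subsingleton.elim a 0, hcls_zero, zero_smul]⟩
  · obtain ⟨z, hz⟩ := H.map_const (X := X) x c
    exact ⟨z, by rw [← hz, H.map_id fun y => Subsingleton.elim _ _]⟩

open unitInterval in
theorem acyc_unitInterval : Acyc I := fun c => by
  let h : C(I × I, I) := ⟨fun z => z.1 * z.2, continuous_fst.mul continuous_snd⟩
  have := (H.map_locally_constant h c).apply_eq_of_preconnectedSpace 1 0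
  obtain ⟨z, hz⟩ := H.map_const (X := I) (0 : I) c
  refine ⟨z, ?_⟩
  rw [← hz, show ContinuousMap.const I (0 : I) = h.curry 0 from
    ContinuousMap.ext fun x => (zero_mul x).symm, ← this]
  exact (H.map_id (fun x => one_mul x) c).symm

theorem Acyc.of_homeomorph (h : Acyc Y) (e : X ≃ₜ Y) : Acyc X := fun c => by
  obtain ⟨c, rfl⟩ := (H.map_bijective_of_homeomorph e).2 c
  obtain ⟨z, rfl⟩ := h c
  exact ⟨z, by rw [H.map_smulC, map_one]⟩

theorem Acyc.span_cls [CompactSpace X] (h : Acyc X) (c : Hc X) :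
    c ∈ Submodule.span ℂ (range fun _ : Unit => cls (1 : Coch X)) := by
  obtain ⟨a, ha, rfl⟩ := cls_surj c
  obtain ⟨z, hz⟩ := h (hcls a)
  rw [← hcls_one, ← hcls_smul _ cocycle_one,
    ← cls_eq_iff_hcls ha.2 (cocycle_smul _ cocycle_one),
    cls_smul _ (Zc_of_compact cocycle_one)] at hz
  rw [hz]
  exact Submodule.smul_mem _ _ (Submodule.subset_span ⟨(), rfl⟩)

theorem cls_one_ne_zero [CompactSpace X] [Nonempty X] : cls (1 : Coch X) ≠ 0 := by
  rw [← cls_zero, Ne, cls_eq_iff_hcls cocycle_one cocycle_zero, hcls_one, hcls_zero]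
  exact hcls_one_ne_zero

end Vale.Agent.P291Z
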