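import Mathlib

/-!
# Alexander-Spanier cochains with complex coefficients: the operations on functions of lists

A cochain of degree `k` is a function of lists of `k + 1` points.
-/

namespace Vale.Agent.P291Z

variable {X : Type}

/-- The cup product. -/
noncomputable def cup (a b : List X → ℂ) : List X → ℂ := fun l =>
  ∑ p ∈ Finset.range l.length, a (l.take (p + 1)) * b (l.drop p)

/-- The coboundary. -/
noncomputable def cob (a : List X → ℂ) : List X → ℂ := fun l =>
  ∑ i ∈ Finset.range l.length, (-1) ^ i * a (l.eraseIdx i)

/-- The unit: the constant function one of degree zero. -/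
noncomputable def unit (X : Type) : List X → ℂ := fun l => if l.length = 1 then 1 else 0

/-- Finite sums of homogeneous cochains of degrees `0, 1, 2, …`. -/
def cochS (X : Type) : Submodule ℂ (List X → ℂ) where
  carrier := {a | a [] = 0 ∧ ∃ N, ∀ l : List X, N < l.length → a l = 0}
  zero_mem' := ⟨rfl, 0, fun _ _ => rfl⟩
  add_mem' := by
    rintro a b ⟨ha, N, hN⟩ ⟨hb, N', hN'⟩
    refine ⟨by simp [ha, hb], max N N', fun l hl => ?_⟩
    simp [hN l (lt_of_le_of_lt (le_max_left _ _) hl), hN' l (lt_of_le_of_lt (le_max_right _ _) hl)]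
  smul_mem' := by
    rintro c a ⟨ha, N, hN⟩
    exact ⟨by simp [ha], N, fun l hl => by simp [hN l hl]⟩

end Vale.Agent.P291Z
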