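import Vale.Agent.P291Z.AS0

/-!
# Algebraic identities for the operations on functions of lists
-/

namespace Vale.Agent.P291Z

variable {X Y : Type}

theorem cup_nil (a b : List X → ℂ) : cup a b [] = 0 := by simp [cup]

theorem cup_cons (a b : List X → ℂ) (x : X) (l : List X) :
    cup a b (x :: l) = a [x] * b (x :: l) + cup (fun m => a (x :: m)) b l := by
  simp only [cup, List.length_cons, Finset.sum_range_succ', List.take_succ_cons, List.drop_succ_cons,
    List.take_zero, List.drop_zero]
  ring

theorem cob_nil (a : List X → ℂ) : cob a [] = 0 := by simp [cob]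

theorem cob_cons (a : List X → ℂ) (x : X) (l : List X) :
    cob a (x :: l) = a l - cob (fun m => a (x :: m)) l := by
  simp only [cob, List.length_cons, Finset.sum_range_succ', List.eraseIdx_cons_succ,
    List.eraseIdx_cons_zero, pow_zero, one_mul, pow_succ]
  rw [sub_eq_add_neg, ← Finset.sum_neg_distrib, add_comm]
  congr 1
  refine Finset.sum_congr rfl fun i _ => by ring

theorem cup_add_left (a a' b : List X → ℂ) : cup (a + a') b = cup a b + cup a' b := by
  funext l; simp [cup, add_mul, Finset.sum_add_distrib]

theorem cup_add_right (a b b' : List X → ℂ) : cup a (b + b') = cup a b + cup a b' := by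
  funext l; simp [cup, mul_add, Finset.sum_add_distrib]

theorem cup_smul_left (c : ℂ) (a b : List X → ℂ) : cup (c • a) b = c • cup a b := by
  funext l; simp [cup, Finset.mul_sum, mul_assoc]

theorem cup_smul_right (c : ℂ) (a b : List X → ℂ) : cup a (c • b) = c • cup a b := by
  funext l; simp only [cup, Pi.smul_apply, smul_eq_mul, Finset.mul_sum]
  exact Finset.sum_congr rfl fun i _ => by ring

theorem cup_zero_left (b : List X → ℂ) : cup 0 b = 0 := by funext l; simp [cup]

theorem cup_zero_right (a : List X → ℂ) : cup a 0 = 0 := by funext l; simp [cup]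

theorem cup_assoc (a b c : List X → ℂ) : cup (cup a b) c = cup a (cup b c) := by
  funext l
  induction l generalizing a with
  | nil => simp [cup_nil]
  | cons x l ih =>
    rw [cup_cons, cup_cons a (cup b c), cup_cons b c, ← ih]
    have h : (fun m => cup a b (x :: m)) =
        a [x] • (fun m => b (x :: m)) + cup (fun m => a (x :: m)) b := by
      funext m; rw [cup_cons]; rfl
    rw [h, cup_add_left, cup_smul_left, cup_cons a b x [], cup_nil]
    simp only [Pi.add_apply, Pi.smul_apply, smul_eq_mul]
    ring

theorem cup_congr_left {a a' : List X → ℂ} (h : ∀ l, l ≠ [] → a l = a' l) (b : List X → ℂ) :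
    cup a b = cup a' b := by
  funext l
  refine Finset.sum_congr rfl fun p hp => ?_
  rw [h]
  intro h0
  have h1 := congrArg List.length h0
  have h2 := Finset.mem_range.1 hp
  simp only [List.length_take, List.length_nil] at h1
  omega

theorem unit_cup {a : List X → ℂ} (ha : a [] = 0) : cup (unit X) a = a := by
  funext l
  cases l with
  | nil => rw [cup_nil, ha]
  | cons x l =>
    rw [cup_cons, cup_congr_left (a' := 0), cup_zero_left]
    · simp [unit]
    · intro m hm
      simp [unit, hm]

theorem cup_unit {a : List X → ℂ} (ha : a [] = 0) : cup a (unit X) = a := by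
  have h : ∀ (l : List X) (a : List X → ℂ), l ≠ [] → cup a (unit X) l = a l := by
    intro l
    induction l with
    | nil => intro a h; exact absurd rfl h
    | cons x l ih =>
      intro a _
      rw [cup_cons]
      by_cases hl : l = []
      · subst hl; simp [unit, cup_nil]
      · rw [ih _ hl]; simp [unit, hl]
  funext l
  by_cases hl : l = []
  · subst hl; rw [cup_nil, ha]
  · exact h l a hl

theorem cup_mem {a b : List X → ℂ} (ha : a ∈ cochS X) (hb : b ∈ cochS X) : cup a b ∈ cochS X := by
  obtain ⟨-, N, hN⟩ := ha
  obtain ⟨-, N', hN'⟩ := hb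
  refine ⟨cup_nil _ _, N + N', fun l hl => Finset.sum_eq_zero fun p hp => ?_⟩
  have h2 := Finset.mem_range.1 hp
  by_cases h : N < p + 1
  · rw [hN, zero_mul]
    rw [List.length_take]; omega
  · rw [hN' (l.drop p), mul_zero]
    rw [List.length_drop]; omega

theorem cob_mem {a : List X → ℂ} (ha : a ∈ cochS X) : cob a ∈ cochS X := by
  obtain ⟨-, N, hN⟩ := ha
  refine ⟨cob_nil _, N + 1, fun l hl => Finset.sum_eq_zero fun i hi => ?_⟩
  have h2 := Finset.mem_range.1 hi
  rw [hN, mul_zero]
  rw [List.length_eraseIdx_of_lt h2]; omega

theorem unit_mem (X : Type) : unit X ∈ cochS X :=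
  ⟨by simp [unit], 1, fun l hl => by simp only [unit]; rw [if_neg (by omega)]⟩

theorem comp_map_mem (f : X → Y) {a : List Y → ℂ} (ha : a ∈ cochS Y) :
    (fun l : List X => a (l.map f)) ∈ cochS X := by
  obtain ⟨h0, N, hN⟩ := ha
  exact ⟨by simpa using h0, N, fun l hl => hN _ (by simpa using hl)⟩

theorem cob_add (a b : List X → ℂ) : cob (a + b) = cob a + cob b := by
  funext l; simp [cob, mul_add, Finset.sum_add_distrib]

theorem cob_smul (c : ℂ) (a : List X → ℂ) : cob (c • a) = c • cob a := by
  funext l; simp only [cob, Pi.smul_apply, smul_eq_mul, Finset.mul_sum]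
  exact Finset.sum_congr rfl fun i _ => by ring

theorem cup_comp_map (f : X → Y) (a b : List Y → ℂ) :
    (fun l : List X => cup a b (l.map f)) =
      cup (fun l : List X => a (l.map f)) (fun l : List X => b (l.map f)) := by
  funext l
  simp [cup, List.map_take, List.map_drop]

theorem cob_comp_map (f : X → Y) (a : List Y → ℂ) :
    (fun l : List X => cob a (l.map f)) = cob (fun l : List X => a (l.map f)) := by
  funext l
  simp [cob, List.eraseIdx_map]

theorem cob_sub (a b : List X → ℂ) : cob (a - b) = cob a - cob b := by
  funext l; simp [cob, mul_sub, Finset.sum_sub_distrib]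

theorem cob_cob (a : List X → ℂ) : cob (cob a) = 0 := by
  funext l
  induction l generalizing a with
  | nil => simp [cob_nil]
  | cons x l ih =>
    rw [cob_cons]
    have h : (fun m => cob a (x :: m)) = a - cob (fun m => a (x :: m)) := by
      funext m; rw [cob_cons]; rfl
    rw [h, cob_sub, Pi.sub_apply, ih]
    simp

/-- the sign `(-1)^degree` -/
noncomputable def sgn (a : List X → ℂ) : List X → ℂ := fun l => (-1) ^ (l.length + 1) * a l

theorem cob_cup {a b : List X → ℂ} (ha : a [] = 0) (hb : b [] = 0) :
    cob (cup a b) = cup (cob a) b + cup (sgn a) (cob b) := by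
  have key : ∀ (l : List X) (a : List X → ℂ),
      cob (cup a b) l = cup (cob a) b l + cup (sgn a) (cob b) l - a [] * b l := by
    intro l
    induction l with
    | nil => intro a; simp [cob_nil, cup_nil, hb]
    | cons x l ih =>
      intro a
      rw [cob_cons, cup_cons, cup_cons]
      have h1 : (fun m => cup a b (x :: m)) =
          a [x] • (fun m => b (x :: m)) + cup (fun m => a (x :: m)) b := by
        funext m; rw [cup_cons]; rfl
      have h2 : (fun m => cob a (x :: m)) = a - cob (fun m => a (x :: m)) := by
        funext m; rw [cob_cons]; rfl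
      have h3 : (fun m => sgn a (x :: m)) = (-1 : ℂ) • sgn (fun m => a (x :: m)) := by
        funext m; simp [sgn, pow_succ]
      rw [h1, h2, h3, cob_add, cob_smul, sub_eq_add_neg a, cup_add_left, cup_smul_left,
        ← neg_one_smul ℂ (cob fun m => a (x :: m)), cup_smul_left]
      simp only [Pi.add_apply, Pi.smul_apply, smul_eq_mul]
      rw [ih, cob_cons b, cob_cons a x [], cob_nil]
      simp only [sgn, List.length_cons, List.length_nil]
      ring
  funext l
  rw [key, ha, zero_mul, sub_zero]
  rfl

end Vale.Agent.P291Z
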