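import Vale.Agent.P291Z.AS0Lem

/-!
# The algebra of Alexander-Spanier cochains, coboundary, pull-back and support
-/

namespace Vale.Agent.P291Z

open Topology

/-- Alexander-Spanier cochains on `X` with complex coefficients. -/
def Coch (X : Type) : Type := cochS X

variable {X Y : Type}

noncomputable instance : AddCommGroup (Coch X) := inferInstanceAs (AddCommGroup (cochS X))

noncomputable instance : Module ℂ (Coch X) := inferInstanceAs (Module ℂ (cochS X))

noncomputable instance : Ring (Coch X) where
  mul a b := ⟨cup a.1 b.1, cup_mem a.2 b.2⟩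
  one := ⟨unit X, unit_mem X⟩
  left_distrib a b c := Subtype.ext (cup_add_right a.1 b.1 c.1)
  right_distrib a b c := Subtype.ext (cup_add_left a.1 b.1 c.1)
  zero_mul a := Subtype.ext (cup_zero_left a.1)
  mul_zero a := Subtype.ext (cup_zero_right a.1)
  mul_assoc a b c := Subtype.ext (cup_assoc a.1 b.1 c.1)
  one_mul a := Subtype.ext (unit_cup a.2.1)
  mul_one a := Subtype.ext (cup_unit a.2.1)

noncomputable instance : Algebra ℂ (Coch X) :=
  Algebra.ofModule (fun c a b => Subtype.ext (cup_smul_left c a.1 b.1))
    (fun c a b => Subtype.ext (cup_smul_right c a.1 b.1))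

/-- The coboundary. -/
noncomputable def δ : Coch X →ₗ[ℂ] Coch X where
  toFun a := ⟨cob a.1, cob_mem a.2⟩
  map_add' a b := Subtype.ext (cob_add a.1 b.1)
  map_smul' c a := Subtype.ext (cob_smul c a.1)

/-- Pull-back along an arbitrary map. -/
noncomputable def pull (f : X → Y) : Coch Y →ₐ[ℂ] Coch X where
  toFun a := ⟨fun l => a.1 (l.map f), comp_map_mem f a.2⟩
  map_one' := Subtype.ext (funext fun l => by
    change unit Y (l.map f) = unit X l
    simp [unit])
  map_mul' a b := Subtype.ext (cup_comp_map f a.1 b.1)
  map_zero' := rfl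
  map_add' _ _ := rfl
  commutes' c := Subtype.ext (funext fun l => by
    change c * unit Y (l.map f) = c * unit X l
    simp [unit])

/-- `a` is homogeneous of degree `k`. -/
def IsDeg (k : ℤ) (a : Coch X) : Prop := ∀ l : List X, (l.length : ℤ) ≠ k + 1 → a.1 l = 0

/-- The support: the points near which `a` does not vanish on all lists of nearby points. -/
def supp [TopologicalSpace X] (a : Coch X) : Set X :=
  {x | ∀ U ∈ 𝓝 x, ∃ l : List X, (∀ y ∈ l, y ∈ U) ∧ a.1 l ≠ 0}

end Vale.Agent.P291Z
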