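import Vale.Agent.P291Z.AS1

/-!
# First properties of coboundary, pull-back and support
-/

namespace Vale.Agent.P291Z

open Topology Set

variable {X Y Z : Type}

@[ext] theorem Coch.ext {a b : Coch X} (h : ∀ l, a.1 l = b.1 l) : a = b := Subtype.ext (funext h)

theorem Coch.add_val (a b : Coch X) : (a + b).1 = a.1 + b.1 := rfl
theorem Coch.sub_val (a b : Coch X) : (a - b).1 = a.1 - b.1 := rfl
theorem Coch.neg_val (a : Coch X) : (-a).1 = -a.1 := rfl
theorem Coch.zero_val : (0 : Coch X).1 = 0 := rfl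
theorem Coch.smul_val (c : ℂ) (a : Coch X) : (c • a).1 = c • a.1 := rfl
theorem Coch.mul_val (a b : Coch X) : (a * b).1 = cup a.1 b.1 := rfl
theorem Coch.one_val : (1 : Coch X).1 = unit X := rfl
theorem δ_val (a : Coch X) : (δ a).1 = cob a.1 := rfl
theorem pull_val (f : X → Y) (a : Coch Y) (l : List X) : (pull f a).1 l = a.1 (l.map f) := rfl

theorem δ_δ (a : Coch X) : δ (δ a) = 0 := Subtype.ext (cob_cob a.1)

theorem δ_pull (f : X → Y) (a : Coch Y) : δ (pull f a) = pull f (δ a) :=
  Subtype.ext (cob_comp_map f a.1).symm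

theorem pull_pull (f : X → Y) (g : Y → Z) (a : Coch Z) : pull f (pull g a) = pull (g ∘ f) a :=
  Coch.ext fun l => by simp [pull_val]

theorem pull_id (a : Coch X) : pull id a = a := Coch.ext fun l => by simp [pull_val]

/-- The parity involution `a ↦ (-1)^(deg a) a`. -/
noncomputable def par : Coch X →ₗ[ℂ] Coch X where
  toFun a := ⟨sgn a.1, by
    obtain ⟨h0, N, hN⟩ := a.2
    exact ⟨by simp [sgn, h0], N, fun l hl => by simp [sgn, hN l hl]⟩⟩
  map_add' a b := Coch.ext fun l => by
    change sgn (a.1 + b.1) l = sgn a.1 l + sgn b.1 l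
    simp [sgn, mul_add]
  map_smul' c a := Coch.ext fun l => by
    change sgn (c • a.1) l = c * sgn a.1 l
    simp only [sgn, Pi.smul_apply, smul_eq_mul]; ring

theorem par_val (a : Coch X) (l : List X) : (par a).1 l = (-1) ^ (l.length + 1) * a.1 l := rfl

theorem δ_mul (a b : Coch X) : δ (a * b) = δ a * b + par a * δ b :=
  Subtype.ext (cob_cup a.2.1 b.2.1)

theorem δ_one : δ (1 : Coch X) = ⟨cob (unit X), cob_mem (unit_mem X)⟩ := rfl

theorem δ_one_eq_zero : δ (1 : Coch X) = 0 := by
  have h := δ_mul (1 : Coch X) 1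
  have hp : par (1 : Coch X) = 1 := Coch.ext fun l => by
    rw [par_val, Coch.one_val]
    unfold unit
    split_ifs with h
    · rw [h]; norm_num
    · simp
  rw [one_mul, mul_one, hp, one_mul] at h
  simpa using h

section top

variable [TopologicalSpace X] [TopologicalSpace Y]

theorem notMem_supp {a : Coch X} {x : X} :
    x ∉ supp a ↔ ∃ U ∈ 𝓝 x, ∀ l : List X, (∀ y ∈ l, y ∈ U) → a.1 l = 0 := by
  simp only [supp, mem_ofPred_eq, not_forall, not_exists, not_and, not_not, exists_prop]

theorem isClosed_supp (a : Coch X) : IsClosed (supp a) := by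
  rw [← isOpen_compl_iff, isOpen_iff_mem_nhds]
  intro x hx
  obtain ⟨U, hU, h⟩ := notMem_supp.1 hx
  filter_upwards [eventually_mem_nhds_iff.2 hU] with y hy
  exact notMem_supp.2 ⟨U, hy, h⟩

theorem supp_zero : supp (0 : Coch X) = ∅ :=
  eq_empty_of_forall_notMem fun _ => notMem_supp.2 ⟨univ, Filter.univ_mem, fun _ _ => rfl⟩

theorem supp_add (a b : Coch X) : supp (a + b) ⊆ supp a ∪ supp b := by
  intro x hx
  by_contra h
  rw [mem_union, not_or] at h
  obtain ⟨U, hU, h1⟩ := notMem_supp.1 h.1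
  obtain ⟨V, hV, h2⟩ := notMem_supp.1 h.2
  refine notMem_supp.2 ⟨U ∩ V, Filter.inter_mem hU hV, fun l hl => ?_⟩ hx
  rw [Coch.add_val, Pi.add_apply, h1 l fun y hy => (hl y hy).1, h2 l fun y hy => (hl y hy).2,
    add_zero]

theorem supp_smul (c : ℂ) (a : Coch X) : supp (c • a) ⊆ supp a := by
  intro x hx
  by_contra h
  obtain ⟨U, hU, h1⟩ := notMem_supp.1 h
  refine notMem_supp.2 ⟨U, hU, fun l hl => ?_⟩ hx
  rw [Coch.smul_val, Pi.smul_apply, h1 l hl, smul_zero]

theorem supp_neg (a : Coch X) : supp (-a) = supp a := by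
  refine Subset.antisymm ?_ ?_
  · rw [← neg_one_smul ℂ a]; exact supp_smul _ _
  · conv_lhs => rw [← neg_neg a, ← neg_one_smul ℂ (-a)]
    exact supp_smul _ _

theorem supp_sub (a b : Coch X) : supp (a - b) ⊆ supp a ∪ supp b := by
  rw [sub_eq_add_neg, ← supp_neg b]; exact supp_add _ _

theorem supp_δ (a : Coch X) : supp (δ a) ⊆ supp a := by
  intro x hx
  by_contra h
  obtain ⟨U, hU, h1⟩ := notMem_supp.1 h
  refine notMem_supp.2 ⟨U, hU, fun l hl => ?_⟩ hx
  rw [δ_val]
  unfold cob
  refine Finset.sum_eq_zero fun i _ => ?_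
  rw [h1 _ fun y hy => hl y (List.mem_of_mem_eraseIdx hy), mul_zero]

theorem supp_par (a : Coch X) : supp (par a) ⊆ supp a := by
  intro x hx
  by_contra h
  obtain ⟨U, hU, h1⟩ := notMem_supp.1 h
  refine notMem_supp.2 ⟨U, hU, fun l hl => ?_⟩ hx
  rw [par_val, h1 l hl, mul_zero]

theorem supp_mul (a b : Coch X) : supp (a * b) ⊆ supp a ∩ supp b := by
  intro x hx
  constructor
  · by_contra h
    obtain ⟨U, hU, h1⟩ := notMem_supp.1 h
    refine notMem_supp.2 ⟨U, hU, fun l hl => ?_⟩ hx
    rw [Coch.mul_val]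
    unfold cup
    refine Finset.sum_eq_zero fun i _ => ?_
    rw [h1 _ fun y hy => hl y (List.mem_of_mem_take hy), zero_mul]
  · by_contra h
    obtain ⟨U, hU, h1⟩ := notMem_supp.1 h
    refine notMem_supp.2 ⟨U, hU, fun l hl => ?_⟩ hx
    rw [Coch.mul_val]
    unfold cup
    refine Finset.sum_eq_zero fun i _ => ?_
    rw [h1 (l.drop i) fun y hy => hl y (List.mem_of_mem_drop hy), mul_zero]

theorem supp_pull_at {f : X → Y} {x : X} (hf : ContinuousAt f x) {a : Coch Y}
    (h : f x ∉ supp a) : x ∉ supp (pull f a) := by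
  obtain ⟨U, hU, h1⟩ := notMem_supp.1 h
  refine notMem_supp.2 ⟨f ⁻¹' U, hf hU, fun l hl => ?_⟩
  refine h1 _ fun y hy => ?_
  obtain ⟨z, hz, rfl⟩ := List.mem_map.1 hy
  exact hl z hz

theorem supp_pull {f : X → Y} (hf : Continuous f) (a : Coch Y) :
    supp (pull f a) ⊆ f ⁻¹' supp a := fun _ hx => by
  by_contra h
  exact supp_pull_at hf.continuousAt h hx

theorem supp_add_eq_empty {a b : Coch X} (ha : supp a = ∅) (hb : supp b = ∅) :
    supp (a + b) = ∅ := by
  have := supp_add a b
  rwa [ha, hb, union_empty, subset_empty_iff] at this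

theorem supp_smul_eq_empty (c : ℂ) {a : Coch X} (ha : supp a = ∅) : supp (c • a) = ∅ := by
  have := supp_smul c a
  rwa [ha, subset_empty_iff] at this

theorem supp_mul_eq_empty_left {a : Coch X} (ha : supp a = ∅) (b : Coch X) : supp (a * b) = ∅ := by
  have := supp_mul a b
  rwa [ha, empty_inter, subset_empty_iff] at this

theorem supp_mul_eq_empty_right (a : Coch X) {b : Coch X} (hb : supp b = ∅) :
    supp (a * b) = ∅ := by
  have := supp_mul a b
  rwa [hb, inter_empty, subset_empty_iff] at this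

theorem cocycle_mul {a b : Coch X} (ha : supp (δ a) = ∅) (hb : supp (δ b) = ∅) :
    supp (δ (a * b)) = ∅ := by
  rw [δ_mul]
  exact supp_add_eq_empty (supp_mul_eq_empty_left ha b) (supp_mul_eq_empty_right _ hb)

omit [TopologicalSpace X] in
theorem par_par (a : Coch X) : par (par a) = a := Coch.ext fun l => by
  rw [par_val, par_val, ← mul_assoc, ← mul_pow]; simp

omit [TopologicalSpace X] in
theorem δ_par (a : Coch X) : δ (par a) = -par (δ a) := Coch.ext fun l => by
  rw [Coch.neg_val, Pi.neg_apply, par_val, δ_val, δ_val]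
  unfold cob
  rw [Finset.mul_sum, ← Finset.sum_neg_distrib]
  refine Finset.sum_congr rfl fun i hi => ?_
  have h2 := Finset.mem_range.1 hi
  rw [par_val, List.length_eraseIdx_of_lt h2]
  obtain ⟨m, hm⟩ : ∃ m, l.length = m + 1 := ⟨l.length - 1, by omega⟩
  rw [hm, Nat.add_sub_cancel]
  ring

theorem cobound_mul_right {a b c t : Coch X} (h : supp (a - b - δ c) = ∅) (ht : supp (δ t) = ∅) :
    supp (a * t - b * t - δ (c * t)) = ∅ := by
  have e : a * t - b * t - δ (c * t) = (a - b - δ c) * t + (-1 : ℂ) • (par c * δ t) := by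
    rw [δ_mul, neg_one_smul]; noncomm_ring
  rw [e]
  exact supp_add_eq_empty (supp_mul_eq_empty_left h t)
    (supp_smul_eq_empty _ (supp_mul_eq_empty_right _ ht))

theorem cobound_mul_left {a b c t : Coch X} (h : supp (a - b - δ c) = ∅) (ht : supp (δ t) = ∅) :
    supp (t * a - t * b - δ (par t * c)) = ∅ := by
  have e : t * a - t * b - δ (par t * c) = t * (a - b - δ c) + par (δ t) * c := by
    rw [δ_mul, par_par, δ_par]; noncomm_ring
  rw [e]
  refine supp_add_eq_empty (supp_mul_eq_empty_right _ h) (supp_mul_eq_empty_left ?_ _)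
  have := supp_par (δ t)
  rwa [ht, subset_empty_iff] at this

theorem isCompact_supp_add {a b : Coch X} (ha : IsCompact (supp a)) (hb : IsCompact (supp b)) :
    IsCompact (supp (a + b)) := (ha.union hb).of_isClosed_subset (isClosed_supp _) (supp_add a b)

theorem isCompact_supp_smul (c : ℂ) {a : Coch X} (ha : IsCompact (supp a)) :
    IsCompact (supp (c • a)) := ha.of_isClosed_subset (isClosed_supp _) (supp_smul c a)

theorem supp_pull_eq_empty {f : X → Y} (hf : Continuous f) {a : Coch Y} (ha : supp a = ∅) :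
    supp (pull f a) = ∅ := by
  have := supp_pull hf a
  rwa [ha, preimage_empty, subset_empty_iff] at this

end top

end Vale.Agent.P291Z
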