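import Vale.Agent.P291Z.AS1Lem

/-!
# Alexander-Spanier cohomology, cohomology with compact supports, Borel-Moore homology,
and the standard operations on Borel-Moore classes
-/

namespace Vale.Agent.P291Z

open Topology Set

variable {X Y X₁ X₂ : Type} [TopologicalSpace X] [TopologicalSpace Y] [TopologicalSpace X₁]
  [TopologicalSpace X₂]

/-- `a` and `b` are cohomologous through a cochain with support in `A`. -/
def Cohom (A : Set X) (a b : Coch X) : Prop := ∃ c, supp c ⊆ A ∧ supp (a - b - δ c) = ∅

/-- Cocycles: cochains whose coboundary vanishes locally. -/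
noncomputable def Zs (X : Type) [TopologicalSpace X] : Subalgebra ℂ (Coch X) where
  carrier := {a | supp (δ a) = ∅}
  mul_mem' := cocycle_mul
  add_mem' ha hb := by
    rw [mem_ofPred_eq, map_add]; exact supp_add_eq_empty ha hb
  algebraMap_mem' c := by
    rw [mem_ofPred_eq, Algebra.algebraMap_eq_smul_one, map_smul, δ_one_eq_zero, smul_zero]
    exact supp_zero

/-- Coboundaries, up to locally vanishing cochains. -/
noncomputable def Bs (X : Type) [TopologicalSpace X] : TwoSidedIdeal (Zs X) :=
  TwoSidedIdeal.mk' {a | Cohom univ a.1 0}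
    ⟨0, subset_univ _, by simpa using supp_zero⟩
    (by
      rintro a b ⟨c, -, hc⟩ ⟨c', -, hc'⟩
      refine ⟨c + c', subset_univ _, ?_⟩
      have := supp_add_eq_empty hc hc'
      rw [← this]; congr 1
      rw [map_add, Subalgebra.coe_add]; abel)
    (by
      rintro a ⟨c, -, hc⟩
      refine ⟨-c, subset_univ _, ?_⟩
      rw [← hc, ← supp_neg]; congr 1
      rw [map_neg, Subalgebra.coe_neg]; abel)
    (by
      rintro t a ⟨c, -, hc⟩
      exact ⟨par t.1 * c, subset_univ _, by simpa using cobound_mul_left hc t.2⟩)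
    (by
      rintro a t ⟨c, -, hc⟩
      exact ⟨c * t.1, subset_univ _, by simpa using cobound_mul_right hc t.2⟩)

theorem mem_Bs {a : Zs X} : a ∈ Bs X ↔ Cohom univ a.1 0 :=
  TwoSidedIdeal.mem_mk' {a : Zs X | Cohom univ a.1 0} _ _ _ _ _ a

/-- The cohomology ring `H^*(X; ℂ)`. -/
def H (X : Type) [TopologicalSpace X] : Type := (Bs X).ringCon.Quotient

noncomputable instance : Ring (H X) := inferInstanceAs (Ring (Bs X).ringCon.Quotient)

noncomputable instance : Algebra ℂ (H X) := inferInstanceAs (Algebra ℂ (Bs X).ringCon.Quotient)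

/-- The class of a cocycle. -/
noncomputable def H.mk : Zs X →+* H X := (Bs X).ringCon.mk'

/-- A class is homogeneous of degree `k`. -/
def H.IsDeg (k : ℤ) (c : H X) : Prop := ∃ a : Zs X, P291Z.IsDeg k a.1 ∧ H.mk a = c

/-- Pull-back of cocycles along a continuous map. -/
noncomputable def Zs.map (f : C(X, Y)) : Zs Y →+* Zs X :=
  ((pull f : Coch Y →+* Coch X).comp (Zs Y).val.toRingHom).codRestrict (Zs X) fun a => by
    change supp (δ (pull f a.1)) = ∅
    rw [δ_pull]; exact supp_pull_eq_empty f.2 a.2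

/-- Pull-back in cohomology along a continuous map. -/
noncomputable def H.map (f : C(X, Y)) : H Y →+* H X :=
  (Bs Y).ringCon.lift (H.mk.comp (Zs.map f)) fun a b h => by
    obtain ⟨c, -, hc⟩ := mem_Bs.1 ((TwoSidedIdeal.rel_iff _ _ _).1 h)
    refine (RingCon.eq _).2 ((TwoSidedIdeal.rel_iff _ _ _).2 (mem_Bs.2 ?_))
    refine ⟨pull f c, subset_univ _, ?_⟩
    have := supp_pull_eq_empty f.2 hc
    rw [← this, map_sub, map_sub, δ_pull, map_zero]
    rfl

/-- Cocycles with compact support. -/
noncomputable def Zc (X : Type) [TopologicalSpace X] : Submodule ℂ (Coch X) where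
  carrier := {a | IsCompact (supp a) ∧ supp (δ a) = ∅}
  zero_mem' := ⟨by rw [supp_zero]; exact isCompact_empty, by rw [map_zero]; exact supp_zero⟩
  add_mem' ha hb := ⟨isCompact_supp_add ha.1 hb.1, by
    rw [map_add]; exact supp_add_eq_empty ha.2 hb.2⟩
  smul_mem' c _ ha := ⟨isCompact_supp_smul c ha.1, by
    rw [map_smul]; exact supp_smul_eq_empty c ha.2⟩

/-- Coboundaries of cochains with compact support, up to locally vanishing cochains. -/
noncomputable def Bc (X : Type) [TopologicalSpace X] : Submodule ℂ (Coch X) where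
  carrier := {a | ∃ c, IsCompact (supp c) ∧ supp (a - δ c) = ∅}
  zero_mem' := ⟨0, by rw [supp_zero]; exact isCompact_empty, by simpa using supp_zero⟩
  add_mem' := by
    rintro a b ⟨c, hc, h⟩ ⟨c', hc', h'⟩
    refine ⟨c + c', isCompact_supp_add hc hc', ?_⟩
    rw [← supp_add_eq_empty h h']; congr 1
    rw [map_add]; abel
  smul_mem' := by
    rintro r a ⟨c, hc, h⟩
    refine ⟨r • c, isCompact_supp_smul r hc, ?_⟩
    rw [← supp_smul_eq_empty r h, map_smul, smul_sub]

/-- Cohomology with compact supports `H_c^*(X; ℂ)`. -/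
abbrev Hc (X : Type) [TopologicalSpace X] : Type := Zc X ⧸ (Bc X).submoduleOf (Zc X)

/-- Borel-Moore homology: the dual of cohomology with compact supports. -/
abbrev BM (X : Type) [TopologicalSpace X] : Type := Module.Dual ℂ (Hc X)

open Classical in
/-- The value of a Borel-Moore class on a compactly supported cocycle. -/
noncomputable def ev (β : BM X) (a : Coch X) : ℂ :=
  if h : a ∈ Zc X then β (Submodule.Quotient.mk ⟨a, h⟩) else 0

/-- `β` has homological degree `k`. -/
def BM.IsDeg (k : ℤ) (β : BM X) : Prop := ∀ j a, j ≠ k → P291Z.IsDeg j a → ev β a = 0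

/-- `β'` is the push-forward of `β` along the proper map `f`. -/
def Push (f : X → Y) (β : BM X) (β' : BM Y) : Prop := ∀ a ∈ Zc Y, ev β' a = ev β (pull f a)

/-- `β'` is the restriction of `β` along the open embedding `j`. -/
def Res (j : X → Y) (β : BM Y) (β' : BM X) : Prop :=
  ∀ a ∈ Zc Y, supp a ⊆ range j → ev β' (pull j a) = ev β a

/-- `β'` is the Gysin pull-back of `β` along the closed embedding `i` (cap product with the class
of the cocycle `t` supported on the image of `i`). -/
def Gys (i : X → Y) (t : Coch Y) (β : BM Y) (β' : BM X) : Prop :=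
  ∀ a : Coch Y, IsCompact (supp a) → Disjoint (supp (δ a)) (range i) →
    ev β' (pull i a) = ev β (a * t)

/-- `β` is the cross product of `β₁` and `β₂`, on a space `X` that is the product of `X₁` and `X₂`
through the projections `p₁`, `p₂`. -/
def Cross (p₁ : X → X₁) (p₂ : X → X₂) (β₁ : BM X₁) (β₂ : BM X₂) (β : BM X) : Prop :=
  ∀ a₁ ∈ Zc X₁, ∀ a₂ ∈ Zc X₂, ev β (pull p₁ a₁ * pull p₂ a₂) = ev β₁ a₁ * ev β₂ a₂

/-- The winding cochain `(z₀, z₁) ↦ log (z₁ / z₀) / (2 π i)` on `ℂ`, a cocycle on `ℂ \ 0`. -/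
noncomputable def wind : Coch ℂ :=
  ⟨fun l => match l with
    | [z₀, z₁] => Complex.log (z₁ / z₀) / (2 * Real.pi * Complex.I)
    | _ => 0, rfl, 2, fun l hl => by
      match l, hl with
      | _ :: _ :: _ :: _, _ => rfl⟩

/-- The orientation cocycle of `ℂ^r`, with support at the origin. -/
noncomputable def tau (r : ℕ) : Coch (Fin r → ℂ) :=
  (List.ofFn fun i : Fin r => pull (fun z => z i) (δ wind)).prod

/-- `t` is a Thom cocycle of a complex vector bundle with total space `X` and zero section `Z`, whose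
fibres have the linear parametrizations `chart r φ`. -/
def IsThom (Z : Set X) (chart : (r : ℕ) → ((Fin r → ℂ) → X) → Prop) (t : Coch X) : Prop :=
  supp (δ t) = ∅ ∧ supp t ⊆ Z ∧ ∀ r φ, chart r φ →
    Cohom {0} (pull φ t) (tau r) ∧ ∀ z (l : List X), l.length ≠ 2 * r → t.1 (φ z :: l) = 0

end Vale.Agent.P291Z
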