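import Vale.Agent.P291Z.EH0
import Vale.Agent.P291Z.EulVB

/-!
# Complete reducibility for representations of compact groups
-/

set_option linter.all false

namespace Vale.Agent.P291Z

open Set Function Topology MeasureTheory

variable {G V W U : Type} [Group G] [TopologicalSpace G] [IsTopologicalGroup G] [CompactSpace G]
  [AddCommGroup V] [Module ℂ V] [TopologicalSpace V] [DistribMulAction G V]
  [AddCommGroup W] [Module ℂ W] [TopologicalSpace W] [DistribMulAction G W]
  [AddCommGroup U] [Module ℂ U] [TopologicalSpace U] [DistribMulAction G U] {r s t : ℕ}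

/-- averaging of a linear map over a compact group -/
theorem IsRep.exists_avg (hV : IsRep G V r) (hW : IsRep G W s) (L : V →ₗ[ℂ] W) :
    ∃ A : V →ₗ[ℂ] W, (∀ (g : G) v, A (g • v) = g • A v) ∧
      ∀ v (S : Submodule ℂ W) (w : W), (∀ g : G, g • L (g⁻¹ • v) - w ∈ S) → A v - w ∈ S := by
  letI : MeasurableSpace G := borel G
  haveI : BorelSpace G := ⟨rfl⟩
  haveI := hV.comm
  haveI := hW.comm
  haveI := hV.cont
  haveI := hW.cont
  haveI := hW.finite
  obtain ⟨e⟩ := hW.lin
  let μ : Measure G := Measure.haarMeasure ⊤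
  haveI : IsProbabilityMeasure μ := ⟨Measure.haarMeasure_self (K₀ := ⊤)⟩
  have hL := hV.continuous_lin hW L
  have hi : ∀ v, Integrable (fun g : G => e (g • L (g⁻¹ • v))) μ := fun v =>
    Continuous.integrable_of_hasCompactSupport (by fun_prop) (HasCompactSupport.of_compactSpace _)
  have hc : ∀ (φ : W →ₗ[ℂ] ℂ) v, φ (e.symm (∫ g, e (g • L (g⁻¹ • v)) ∂μ)) =
      ∫ g, φ (g • L (g⁻¹ • v)) ∂μ := fun φ v => by
    have := (LinearMap.toContinuousLinearMap
      (φ ∘ₗ e.symm.toLinearEquiv.toLinearMap)).integral_comp_comm (hi v)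
    simpa using this.symm
  refine ⟨{ toFun := fun v => e.symm (∫ g, e (g • L (g⁻¹ • v)) ∂μ)
            map_add' := fun v w => ?_
            map_smul' := fun c v => ?_ }, fun h v => ?_, fun v S w hS => ?_⟩
  · rw [← map_add, ← integral_add (hi v) (hi w)]
    simp only [smul_add, map_add]
  · rw [RingHom.id_apply, ← map_smul, ← integral_smul]
    simp only [smul_comm _ c, map_smul]
  · refine (Module.forall_dual_apply_eq_zero_iff ℂ _).1 (fun φ => ?_) |> sub_eq_zero.1
    have h1 := hc (φ ∘ₗ DistribSMul.toLinearMap ℂ W h) v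
    have h2 := integral_mul_left_eq_self (μ := μ) (fun g => φ (g • L (g⁻¹ • h • v))) h
    simp only [mul_inv_rev, mul_smul, inv_smul_smul] at h2
    rw [map_sub, sub_eq_zero]
    exact (hc φ _).trans (h2.symm.trans h1.symm)
  · rw [← Subspace.forall_mem_dualAnnihilator_apply_eq_zero_iff]
    intro φ hφ
    rw [map_sub, sub_eq_zero]
    refine (hc φ v).trans ?_
    rw [show (fun g : G => φ (g • L (g⁻¹ • v))) = fun _ => φ w from funext fun g =>
      sub_eq_zero.1 ((map_sub φ _ _).symm.trans ((Submodule.mem_dualAnnihilator φ).1 hφ _ (hS g)))]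
    simp

/-- an injective equivariant linear map has an equivariant retraction -/
theorem IsRep.exists_retr (hV : IsRep G V r) (hW : IsRep G W s) (j : V →ₗ[ℂ] W)
    (hj : ∀ (g : G) v, j (g • v) = g • j v) (hi : Injective j) :
    ∃ π : W →ₗ[ℂ] V, (∀ (g : G) w, π (g • w) = g • π w) ∧ ∀ v, π (j v) = v := by
  obtain ⟨π₀, h₀⟩ := j.exists_leftInverse_of_injective (LinearMap.ker_eq_bot.2 hi)
  have h₁ : ∀ v, π₀ (j v) = v := LinearMap.congr_fun h₀
  obtain ⟨π, h1, h2⟩ := hW.exists_avg hV π₀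
  refine ⟨π, h1, fun v => sub_eq_zero.1 ((Submodule.mem_bot ℂ).1 (h2 _ ⊥ v fun g => ?_))⟩
  rw [← hj, h₁, smul_inv_smul, sub_self]
  exact zero_mem _

/-- a surjective equivariant linear map has an equivariant section -/
theorem IsRep.exists_sect (hV : IsRep G V r) (hW : IsRep G W s) (q : V →ₗ[ℂ] W)
    (hq : ∀ (g : G) v, q (g • v) = g • q v) (hs : Surjective q) :
    ∃ σ : W →ₗ[ℂ] V, (∀ (g : G) w, σ (g • w) = g • σ w) ∧ ∀ w, q (σ w) = w := by
  obtain ⟨σ₀, h₀⟩ := q.exists_rightInverse_of_surjective (LinearMap.range_eq_top.2 hs)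
  have h₁ : ∀ w, q (σ₀ w) = w := LinearMap.congr_fun h₀
  obtain ⟨σ, h1, h2⟩ := hW.exists_avg hV σ₀
  refine ⟨σ, h1, fun w => ?_⟩
  have := h2 w (LinearMap.ker q) (σ₀ w) fun g => by
    rw [LinearMap.mem_ker, map_sub, hq, h₁, h₁, smul_inv_smul, sub_self]
  rwa [LinearMap.mem_ker, map_sub, h₁, sub_eq_zero] at this

/-- short exact sequences split -/
theorem IsRep.exists_split (hV : IsRep G V r) (hW : IsRep G W s) (j : V →ₗ[ℂ] W)
    (hj : ∀ (g : G) v, j (g • v) = g • j v) (hi : Injective j) (q : W →ₗ[ℂ] U)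
    (hs : Surjective q) (he : ∀ w, q w = 0 ↔ w ∈ range j) :
    ∃ π : W →ₗ[ℂ] V, (∀ (g : G) w, π (g • w) = g • π w) ∧ (∀ v, π (j v) = v) ∧
      Bijective (π.prod q) := by
  obtain ⟨π, h1, h2⟩ := hV.exists_retr hW j hj hi
  refine ⟨π, h1, h2, (injective_iff_map_eq_zero _).2 fun w hw => ?_, fun x => ?_⟩
  · obtain ⟨v, rfl⟩ := (he w).1 (congrArg Prod.snd hw)
    rw [show v = 0 from (h2 v).symm.trans (congrArg Prod.fst hw), map_zero]
  · obtain ⟨w, hw⟩ := hs x.2
    refine ⟨w + j (x.1 - π w), Prod.ext ?_ ?_⟩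
    · show π (w + j (x.1 - π w)) = x.1
      rw [map_add, h2, add_sub_cancel]
    · show q (w + j (x.1 - π w)) = x.2
      rw [map_add, (he _).2 ⟨_, rfl⟩, add_zero, hw]

end Vale.Agent.P291Z
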