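import Vale.Agent.P291Z.EH2

/-!
# Graded isomorphisms of equivariant homology; closed parts with null complement; half-spaces
-/

set_option linter.unusedSectionVars false

namespace Vale.Agent.P291Z

open Set Function Topology

variable {G : Type} [Group G] [TopologicalSpace G] [Sys G]

section iso

variable {X Y Z : Type} [TopologicalSpace X] [MulAction G X] [Nice X] [ContinuousSMul G X]
  [TopologicalSpace Y] [MulAction G Y] [Nice Y] [ContinuousSMul G Y]
  [TopologicalSpace Z] [MulAction G Z] [Nice Z] [ContinuousSMul G Z]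

/-- A linear bijection of degree `c` that commutes with `H_G(pt)`. -/
structure IsoEH (φ : EH G X →ₗ[ℂ] EH G Y) (c : ℤ) : Prop where
  bij : Bijective φ
  smul : ∀ (r : HS G Unit) β, φ (r • β) = r • φ β
  deg : ∀ k, ∀ β ∈ EH.deg G X k, φ β ∈ EH.deg G Y (k + c)

theorem IsoEH.comp {φ : EH G X →ₗ[ℂ] EH G Y} {ψ : EH G Y →ₗ[ℂ] EH G Z} {c d : ℤ} (h' : IsoEH ψ d)
    (h : IsoEH φ c) : IsoEH (ψ ∘ₗ φ) (c + d) :=
  ⟨h'.bij.comp h.bij, fun r β => by rw [LinearMap.comp_apply, h.smul, h'.smul]; rfl,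
    fun k β hβ => add_assoc k c d ▸ h'.deg _ _ (h.deg k β hβ)⟩

theorem IsoEH.deg_iff {φ : EH G X →ₗ[ℂ] EH G Y} {c : ℤ} (h : IsoEH φ c) (k : ℤ) (β : EH G X) :
    φ β ∈ EH.deg G Y (k + c) ↔ β ∈ EH.deg G X k := by
  refine ⟨fun h1 => ?_, h.deg k β⟩
  have h2 := EH.comp_map h.deg k β
  rw [EH.comp_of_mem h1] at h2
  rw [h.bij.1 h2]
  exact EH.comp_mem k β

theorem IsoEH.symm {φ : EH G X →ₗ[ℂ] EH G Y} {c : ℤ} (h : IsoEH φ c) :
    IsoEH (LinearEquiv.ofBijective φ h.bij).symm.toLinearMap (-c) := by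
  have h1 : ∀ β, φ ((LinearEquiv.ofBijective φ h.bij).symm β) = β :=
    (LinearEquiv.ofBijective φ h.bij).apply_symm_apply
  refine ⟨(LinearEquiv.ofBijective φ h.bij).symm.bijective, fun r β => h.bij.1 ?_,
    fun k β hβ => (h.deg_iff _ _).1 ?_⟩
  · rw [h.smul]
    exact (h1 _).trans (congrArg (r • ·) (h1 β).symm)
  · rw [neg_add_cancel_right]
    exact (h1 β).symm ▸ hβ

variable (G X Y) in
/-- The equivariant homology modules are isomorphic up to the shift `c`. -/
def EHIso (c : ℤ) : Prop := ∃ φ : EH G X →ₗ[ℂ] EH G Y, IsoEH φ c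

theorem EHIso.trans {c d e : ℤ} (h : EHIso G X Y c) (h' : EHIso G Y Z d) (he : e = c + d) :
    EHIso G X Z e := by
  obtain ⟨φ, h⟩ := h
  obtain ⟨ψ, h'⟩ := h'
  exact ⟨_, he ▸ h'.comp h⟩

theorem EHIso.symm {c : ℤ} (h : EHIso G X Y c) : EHIso G Y X (-c) := by
  obtain ⟨φ, h⟩ := h
  exact ⟨_, h.symm⟩

theorem isoEH_epush {f : X →[G] Y} (hf : IsPr f) (h : Bijective (epush f)) : IsoEH (epush f) 0 :=
  ⟨h, epush_smul hf, fun k _ hβ => (add_zero k).symm ▸ epush_deg hf hβ⟩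

theorem isoEH_homeo {f : X →[G] Y} (hf : IsHomeomorph f) : IsoEH (epush f) 0 :=
  isoEH_epush (IsPr.of_isClosedEmbedding hf.isClosedEmbedding)
    ⟨LeftInverse.injective (eres_epush_homeo hf), RightInverse.surjective (epush_eres_homeo hf)⟩

/-- Thom isomorphism for a trivial bundle. -/
theorem isoEH_thom {W : Type} [AddCommGroup W] [Module ℂ W] [TopologicalSpace W]
    [DistribMulAction G W] {r : ℕ} (hW : IsRep G W r) {p : X →[G] Y} {κ : X →[G] W}
    (h : IsHomeomorph fun x => (p x, κ x)) {s : Y →[G] X} (hs : ∀ z, p (s z) = z)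
    (hs' : ∀ z, κ (s z) = 0) : IsoEH (egys s (eul κ)) (-(2 * r)) := by
  have := hW.nice
  have h1 : IsClosedEmbedding s := by
    have h2 : IsClosedEmbedding fun y : Y => (y, (0 : W)) :=
      IsClosedEmbedding.of_continuous_injective_isClosedMap (by fun_prop)
        (fun _ _ e => congrArg Prod.fst e) (isClosedMap_prodMk_right 0)
    have h3 : (fun y : Y => (y, (0 : W))) = (fun x => (p x, κ x)) ∘ s :=
      funext fun y => Prod.ext (hs y).symm (hs' y).symm
    exact (h.isClosedEmbedding.of_comp_iff).1 (h3 ▸ h2)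
  have h4 : IsCoc (range s) r (eul κ) :=
    (isCoc_eul hW (continuous_snd.comp h.continuous)).mono fun x hx => mem_range.2
      ⟨p x, h.injective (Prod.ext (hs _) ((hs' _).trans (Eq.symm hx)))⟩
  exact ⟨egys_bijective h1 h4 (cgys_eul_bijective hW h hs hs'), egys_smul h1 h4,
    fun k β hβ => egys_deg h1 h4 hβ⟩

end iso

section sub

variable {X : Type} [TopologicalSpace X] [MulAction G X] [Nice X] [ContinuousSMul G X]

/-- The inclusion of invariant subsets. -/
def sincl {A B : SubMulAction G X} (h : A ≤ B) : A →[G] B where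
  toFun x := ⟨x.1, h x.2⟩
  map_smul' _ _ := rfl

/-- The difference of invariant subsets. -/
def sdif (B A : SubMulAction G X) : SubMulAction G X where
  carrier := (B : Set X) \ A
  smul_mem' g x h := ⟨B.smul_mem g h.1, fun h' => h.2 (by
    have := A.smul_mem g⁻¹ h'
    rwa [inv_smul_smul] at this)⟩

instance (A : SubMulAction G X) : ContinuousSMul G A :=
  ⟨(continuous_fst.smul (continuous_subtype_val.comp continuous_snd)).subtype_mk _⟩

theorem isClosedEmbedding_sincl {A B : SubMulAction G X} (h : A ≤ B) {C : Set X} (hC : IsClosed C)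
    (e : ∀ x ∈ B, x ∈ A ↔ x ∈ C) : IsClosedEmbedding (sincl h) :=
  ⟨IsEmbedding.inclusion h, by
    have : range (sincl h) = Subtype.val ⁻¹' C :=
      Set.ext fun x => ⟨fun ⟨y, hy⟩ => (e _ x.2).1 (hy ▸ y.2), fun hx => ⟨⟨_, (e _ x.2).2 hx⟩, rfl⟩⟩
    exact this ▸ hC.preimage continuous_subtype_val⟩

theorem isOpenEmbedding_sincl {A B : SubMulAction G X} (h : A ≤ B) {C : Set X} (hC : IsOpen C)
    (e : ∀ x ∈ B, x ∈ A ↔ x ∈ C) : IsOpenEmbedding (sincl h) :=
  ⟨IsEmbedding.inclusion h, by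
    have : range (sincl h) = Subtype.val ⁻¹' C :=
      Set.ext fun x => ⟨fun ⟨y, hy⟩ => (e _ x.2).1 (hy ▸ y.2), fun hx => ⟨⟨_, (e _ x.2).2 hx⟩, rfl⟩⟩
    exact this ▸ hC.preimage continuous_subtype_val⟩

theorem range_sincl_sdif {A B : SubMulAction G X} (h : A ≤ B) :
    range (sincl (show sdif B A ≤ B from fun _ h => h.1)) = (range (sincl h))ᶜ :=
  Set.ext fun x => ⟨fun ⟨y, hy⟩ ⟨z, hz⟩ => y.2.2 (by
    rw [show y.1 = z.1 from congrArg Subtype.val (hy.trans hz.symm)]; exact z.2),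
    fun hx => ⟨⟨x.1, x.2, fun h' => hx ⟨⟨_, h'⟩, rfl⟩⟩, rfl⟩⟩

/-- A closed invariant part whose complement has null fibres over `Y`. -/
theorem isoEH_sincl {Y : Type} [TopologicalSpace Y] [MulAction G Y] [Nice Y] [ContinuousSMul G Y]
    {A B : SubMulAction G X} [Nice A] [Nice B] (h : A ≤ B)
    {C : Set X} (hC : IsClosed C) (e : ∀ x ∈ B, x ∈ A ↔ x ∈ C) {p : X →[G] Y} (hp : Continuous p)
    (hn : ∀ y, Null {x | p x = y ∧ x ∈ B ∧ x ∉ A}) : IsoEH (epush (sincl h)) 0 := by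
  have h1 := isClosedEmbedding_sincl h hC e
  have h2 : IsOpenEmbedding (sincl (show sdif B A ≤ B from fun _ h => h.1)) :=
    isOpenEmbedding_sincl _ hC.isOpen_compl fun x hx =>
      ⟨fun h' h'' => h'.2 ((e x hx).2 h''), fun h' => ⟨hx, fun h'' => h' ((e x hx).1 h'')⟩⟩
  have : Nice (sdif B A) := Nice.of_isEmbedding h2.isEmbedding h2.isOpen_range.isLocallyClosed
  refine isoEH_epush (IsPr.of_isClosedEmbedding h1) (epush_bijective_of_null h1 h2
    (range_sincl_sdif h) (ENull.of_fib (f := p.comp (sdif B A).inclusion)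
      (hp.comp continuous_subtype_val) fun y => ?_))
  refine Hc.subsingleton_of_homeomorph ?_ (hn y)
  exact ⟨⟨fun x => ⟨x.1.1, x.2, x.1.2⟩, fun x => ⟨⟨x.1, x.2.2⟩, x.2.1⟩, fun _ => rfl, fun _ => rfl⟩,
    by fun_prop, by fun_prop⟩

/-- A bundle of half-spaces, full fibres and empty fibres. -/
theorem ehIso_half {B W : Type} [TopologicalSpace B] [MulAction G B] [Nice B] [ContinuousSMul G B]
    [AddCommGroup W] [Module ℂ W] [TopologicalSpace W] [DistribMulAction G W] {r : ℕ}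
    (hW : IsRep G W r) {p : X →[G] B} {κ : X →[G] W} (h : IsHomeomorph fun x => (p x, κ x))
    {s : B →[G] X} (hs : ∀ z, p (s z) = z) (hs' : ∀ z, κ (s z) = 0)
    {Z : SubMulAction G X} {B₀ : SubMulAction G B} [Nice Z] [Nice B₀]
    (hB : IsClosed (B₀ : Set B)) (h1 : ∀ x, p x ∈ B₀ → x ∈ Z)
    (h2 : ∀ b ∉ B₀, Null {x | p x = b ∧ x ∈ Z}) : EHIso G Z B₀ (-(2 * r)) := by
  have := hW.nice
  have hp : Continuous p := continuous_fst.comp h.continuous
  let A : SubMulAction G X := ⟨p ⁻¹' B₀, fun g x hx => by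
    change p (g • x) ∈ B₀
    rw [map_smul]
    exact B₀.smul_mem g hx⟩
  have hA : IsClosed (A : Set X) := hB.preimage hp
  have : Nice A := Nice.of_isLocallyClosed hA.isLocallyClosed
  have h3 : IsoEH (epush (sincl (show A ≤ Z from h1))) 0 :=
    isoEH_sincl _ hA (fun _ _ => Iff.rfl) hp fun b => by
      by_cases hb : b ∈ B₀
      · exact null_of_forall_not fun x hx => hx.2.2 (show p x ∈ B₀ from hx.1 ▸ hb)
      · exact (h2 b hb).congr fun x => ⟨fun hx => ⟨hx.1, hx.2.1⟩,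
          fun hx => ⟨hx.1, hx.2, fun h' => hb (hx.1 ▸ h')⟩⟩
  let p' : A →[G] B₀ := ⟨fun x => ⟨p x.1, x.2⟩, fun g x => Subtype.ext (map_smul p g x.1)⟩
  let s' : B₀ →[G] A := ⟨fun b => ⟨s b.1, show p (s b.1) ∈ B₀ from (hs b.1).symm ▸ b.2⟩,
    fun g x => Subtype.ext (map_smul s g x.1)⟩
  have h4 : IsHomeomorph fun x : A => (p' x, (κ.comp A.inclusion) x) := by
    let e := h.homeomorph
    have h5 : ∀ y : B₀ × W, e.symm (y.1.1, y.2) ∈ A := fun y => by
      change (e (e.symm (y.1.1, y.2))).1 ∈ B₀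
      rw [e.apply_symm_apply]
      exact y.1.2
    exact isHomeomorph_iff_exists_inverse.2 ⟨((hp.comp continuous_subtype_val).subtype_mk _).prodMk
      ((continuous_snd.comp h.continuous).comp continuous_subtype_val),
      fun y => ⟨e.symm (y.1.1, y.2), h5 y⟩, fun x => Subtype.ext (e.symm_apply_apply x.1),
      fun y => Prod.ext (Subtype.ext (congrArg Prod.fst (e.apply_symm_apply (y.1.1, y.2))))
        (congrArg (Prod.snd : B × W → W) (e.apply_symm_apply (y.1.1, y.2))),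
      Continuous.subtype_mk (by fun_prop) _⟩
  exact EHIso.trans ⟨_, h3.symm⟩ ⟨_, isoEH_thom hW h4 (s := s') (fun z => Subtype.ext (hs z.1))
    fun z => hs' z.1⟩ (by simp)

end sub

end Vale.Agent.P291Z
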