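import Vale.Agent.P291Z.TSys
import Vale.Agent.P291Z.FouG

/-!
# Upper bounds for the graded dimensions of equivariant homology
-/

set_option linter.all false

namespace Vale.Agent.P291Z

open Set Function Topology

variable (G : Type) [Group G] [TopologicalSpace G] [Sys G]

/-- The homology of `X` is even, and the part of degree `2 D - 2 d` has
dimension at most `h d`. -/
structure Bnd (X : Type) [TopologicalSpace X] [MulAction G X] (D : ℤ) (h : ℤ → ℕ) : Prop where
  fin : ∀ k, Module.Finite ℂ (EH.deg G X k)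
  odd : ∀ k, Odd k → EH.deg G X k = ⊥
  le : ∀ d, Module.finrank ℂ (EH.deg G X (2 * D - 2 * d)) ≤ h d

/-- `h` vanishes below some bound -/
def Bb (h : ℤ → ℕ) : Prop := ∃ c, ∀ d < c, h d = 0

/-- convolution -/
noncomputable def cnv (h h' : ℤ → ℕ) (d : ℤ) : ℕ := ∑ᶠ e, h e * h' (d - e)

variable {G} {G' X Y U : Type} [Group G'] [TopologicalSpace G'] [Sys G']
  [TopologicalSpace X] [MulAction G X] [Nice X] [ContinuousSMul G X]
  [TopologicalSpace U] [MulAction G U] [Nice U] [ContinuousSMul G U] {D D' : ℤ} {h h' : ℤ → ℕ}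

theorem Bnd.mono (H : Bnd G X D h) (e : ∀ d, h d ≤ h' d) : Bnd G X D h' :=
  ⟨H.fin, H.odd, fun d => (H.le d).trans (e d)⟩

theorem Bnd.shift (H : Bnd G X D h) (c : ℤ) : Bnd G X (D + c) fun d => h (d - c) :=
  ⟨H.fin, H.odd, fun d => by
    rw [show 2 * (D + c) - 2 * d = 2 * D - 2 * (d - c) by ring]
    exact H.le _⟩

theorem Bnd.of_isEmpty [IsEmpty X] (D : ℤ) : Bnd G X D 0 :=
  haveI := (ENull.of_isEmpty (G := G) (X := X)).subsingleton
  ⟨fun _ => inferInstance, fun _ _ => Subsingleton.elim _ _,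
    fun _ => Module.finrank_zero_of_subsingleton.le⟩

theorem Bnd.eq_bot (H : Bnd G X D h) {d : ℤ} (hd : h d = 0) : EH.deg G X (2 * D - 2 * d) = ⊥ :=
  haveI := H.fin (2 * D - 2 * d)
  Submodule.finrank_eq_zero.1 (Nat.le_zero.1 (hd ▸ H.le d))

theorem Bnd.eq_bot_of_lt (H : Bnd G X D h) {c : ℤ} (hc : ∀ d < c, h d = 0) (k : ℤ)
    (hk : 2 * D - 2 * c < k) : EH.deg G X k = ⊥ := by
  rcases Int.even_or_odd' k with ⟨e, rfl | rfl⟩
  · rw [show 2 * e = 2 * D - 2 * (D - e) by ring]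
    exact H.eq_bot (hc _ (by omega))
  · exact H.odd _ ⟨e, rfl⟩

section bij

variable [TopologicalSpace Y] [MulAction G' Y] [Nice Y] [ContinuousSMul G' Y]

/-- a graded bijection is bijective in each degree -/
theorem EH.exists_degEquiv {φ : EH G X →ₗ[ℂ] EH G' Y} (hb : Bijective φ) {c : ℤ}
    (hd : ∀ k, ∀ β ∈ EH.deg G X k, φ β ∈ EH.deg G' Y (k + c)) {k l : ℤ} (e : l = k + c) :
    Nonempty (EH.deg G X k ≃ₗ[ℂ] EH.deg G' Y l) := by
  subst e
  refine ⟨LinearEquiv.ofBijective (φ.restrict (hd k)) ⟨fun x y h => Subtype.ext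
    (hb.1 (congrArg Subtype.val h)), fun y => ?_⟩⟩
  obtain ⟨x, hx⟩ := hb.2 y.1
  exact ⟨⟨_, EH.comp_mem k x⟩, Subtype.ext ((EH.comp_map hd k x).symm.trans
    (by rw [hx, EH.comp_of_mem y.2]))⟩

theorem Bnd.of_equiv (H : Bnd G X D h) {c : ℤ}
    (e : ∀ k, Nonempty (EH.deg G X (k - 2 * c) ≃ₗ[ℂ] EH.deg G' Y k)) : Bnd G' Y (D + c) h := by
  have hf : ∀ k, Module.Finite ℂ (EH.deg G' Y k) := fun k =>
    haveI := H.fin (k - 2 * c)
    Module.Finite.equiv (e k).some
  refine ⟨hf, fun k hk => ?_, fun d => ?_⟩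
  · haveI := hf k
    rw [← Submodule.finrank_eq_zero, ← (e k).some.finrank_eq,
      H.odd _ (hk.sub_even (even_two_mul c)), finrank_bot]
  · rw [← (e _).some.finrank_eq, show 2 * (D + c) - 2 * d - 2 * c = 2 * D - 2 * d by ring]
    exact H.le d

/-- transport along a graded bijection, possibly between different groups -/
theorem Bnd.of_bijective (H : Bnd G X D h) {φ : EH G X →ₗ[ℂ] EH G' Y} (hb : Bijective φ) {c : ℤ}
    (hd : ∀ k, ∀ β ∈ EH.deg G X k, φ β ∈ EH.deg G' Y (k + 2 * c)) : Bnd G' Y (D + c) h :=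
  H.of_equiv fun _ => EH.exists_degEquiv hb hd (by ring)

theorem Bnd.of_bijective' (H : Bnd G' Y D h) {φ : EH G X →ₗ[ℂ] EH G' Y} (hb : Bijective φ) {c : ℤ}
    (hd : ∀ k, ∀ β ∈ EH.deg G X k, φ β ∈ EH.deg G' Y (k + 2 * c)) : Bnd G X (D - c) h :=
  sub_eq_add_neg D c ▸ H.of_equiv fun _ => (EH.exists_degEquiv hb hd (by ring)).map fun e => e.symm

end bij

section

variable [TopologicalSpace Y] [MulAction G Y] [Nice Y] [ContinuousSMul G Y]

theorem Bnd.of_homeo (H : Bnd G X D h) {f : X →[G] Y} (hf : IsHomeomorph f) : Bnd G Y D h := by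
  have := H.of_bijective (isoEH_homeo hf).bij (c := 0) (isoEH_homeo hf).deg
  rwa [add_zero] at this

theorem Bnd.of_homeo' (H : Bnd G Y D h) {f : X →[G] Y} (hf : IsHomeomorph f) : Bnd G X D h := by
  have := H.of_bijective' (isoEH_homeo hf).bij (c := 0) (isoEH_homeo hf).deg
  rwa [sub_zero] at this

theorem Bnd.open_closed {i : Y →[G] X} (hi : IsClosedEmbedding i) {j : U →[G] X}
    (hj : IsOpenEmbedding j) (hc : range j = (range i)ᶜ) (H : Bnd G Y D h) (H' : Bnd G U D h') :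
    Bnd G X D (h + h') := by
  have key := fun k => @finite_deg_of_open_closed _ _ _ _ _ _ _ _ _ _ _ _ _ _ _ _ _ _ _ _ hi _ hj hc
    k (H.fin k) (H'.fin k)
  refine ⟨fun k => (key k).1, fun k hk => ?_, fun d =>
    (key _).2.trans (add_le_add (H.le d) (H'.le d))⟩
  haveI := (key k).1
  have := (key k).2
  rw [H.odd k hk, H'.odd k hk, finrank_bot, finrank_bot] at this
  exact Submodule.finrank_eq_zero.1 (Nat.le_zero.1 this)

end

/-- a union of invariant subsets -/
def sUn {ι : Type} (S : ι → SubMulAction G X) (T : Finset ι) : SubMulAction G X where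
  carrier := ⋃ a ∈ T, S a
  smul_mem' g x h := by
    obtain ⟨a, ha, h⟩ := mem_iUnion₂.1 h
    exact mem_iUnion₂.2 ⟨a, ha, (S a).smul_mem g h⟩

theorem mem_sUn {ι : Type} {S : ι → SubMulAction G X} {T : Finset ι} {x : X} :
    x ∈ sUn S T ↔ ∃ a ∈ T, x ∈ S a := mem_iUnion₂.trans (by simp)

/-- a finite partition into invariant pieces `S a`, each closed in the level set of an upper
semicontinuous invariant function `σ` -/
theorem Bnd.of_strata {ι : Type} [Fintype ι] (S : ι → SubMulAction G X) [∀ a, Nice (S a)]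
    (hS : ∀ x, ∃! a, x ∈ S a) (σ : ι → ℕ)
    (hcl : ∀ a, closure (S a : Set X) ⊆ S a ∪ ⋃ b ∈ {b | σ a < σ b}, S b) {h : ι → ℤ → ℕ}
    (H : ∀ a, Bnd G (S a) D (h a)) : Bnd G X D (∑ a, h a) := by
  classical
  have cl : ∀ T : Finset ι, (∀ a ∈ T, ∀ b, σ a < σ b → b ∈ T) → IsClosed (sUn S T : Set X) := by
    intro T hT
    refine isClosed_of_closure_subset ?_
    show closure (⋃ a ∈ T, (S a : Set X)) ⊆ _
    rw [T.closure_biUnion]
    refine iUnion₂_subset fun a ha x hx => mem_sUn.2 ?_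
    rcases hcl a hx with h | h
    · exact ⟨a, ha, h⟩
    · obtain ⟨b, hb, h⟩ := mem_iUnion₂.1 h
      exact ⟨b, hT a ha b hb, h⟩
  have key : ∀ T : Finset ι, (∀ a ∈ T, ∀ b, σ a < σ b → b ∈ T) →
      Bnd G (sUn S T) D (∑ a ∈ T, h a) := by
    intro T
    induction T using Finset.induction_on_min_value σ with
    | empty =>
      intro hT
      haveI := Nice.of_isLocallyClosed (cl _ hT).isLocallyClosed
      haveI : IsEmpty (sUn S ∅) := ⟨fun x => by simpa using mem_sUn.1 x.2⟩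
      exact Bnd.of_isEmpty D
    | insert a T ha hm ih =>
      intro hT
      have hT' : ∀ a ∈ T, ∀ b, σ a < σ b → b ∈ T := fun x hx b hb =>
        (Finset.mem_insert.1 (hT x (Finset.mem_insert_of_mem hx) b hb)).resolve_left
          fun e => (hm x hx).not_gt (e ▸ hb)
      haveI : Nice (sUn S T) := Nice.of_isLocallyClosed (cl _ hT').isLocallyClosed
      haveI : Nice (sUn S (insert a T)) := Nice.of_isLocallyClosed (cl _ hT).isLocallyClosed
      have l1 : sUn S T ≤ sUn S (insert a T) := fun x hx =>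
        mem_sUn.2 ((mem_sUn.1 hx).imp fun b hb => ⟨Finset.mem_insert_of_mem hb.1, hb.2⟩)
      have l2 : S a ≤ sUn S (insert a T) := fun x hx =>
        mem_sUn.2 ⟨a, Finset.mem_insert_self _ _, hx⟩
      have e : ∀ x ∈ sUn S (insert a T), x ∈ S a ↔ x ∉ sUn S T := fun x hx => by
        refine ⟨fun h h' => ?_, fun h => ?_⟩
        · obtain ⟨b, hb, h'⟩ := mem_sUn.1 h'
          exact ha ((hS x).unique h' h ▸ hb)
        · obtain ⟨b, hb, h'⟩ := mem_sUn.1 hx
          rcases Finset.mem_insert.1 hb with rfl | hb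
          exacts [h', absurd (mem_sUn.2 ⟨b, hb, h'⟩) h]
      rw [Finset.sum_insert ha, add_comm]
      refine Bnd.open_closed (isClosedEmbedding_sincl l1 (cl _ hT') fun _ _ => Iff.rfl)
        (isOpenEmbedding_sincl l2 (cl _ hT').isOpen_compl e) (Set.ext fun x => ?_) (ih hT') (H a)
      refine ⟨?_, fun hx => ⟨⟨x.1, (e _ x.2).2 fun h => hx ⟨⟨x.1, h⟩, rfl⟩⟩, rfl⟩⟩
      rintro ⟨y, rfl⟩ ⟨z, hz⟩
      exact (e _ (l2 y.2)).1 y.2 ((congrArg Subtype.val hz : z.1 = y.1) ▸ z.2)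
  have hu := fun (a : ι) (_ : a ∈ Finset.univ) (b : ι) (_ : σ a < σ b) => Finset.mem_univ b
  haveI : Nice (sUn S Finset.univ) := Nice.of_isLocallyClosed (cl _ hu).isLocallyClosed
  refine (key _ hu).of_homeo (f := (sUn S Finset.univ).subtype)
    (isHomeomorph_iff_isEmbedding_surjective.2 ⟨IsEmbedding.subtypeVal, fun x => ?_⟩)
  obtain ⟨a, ha, -⟩ := hS x
  exact ⟨⟨x, mem_sUn.2 ⟨a, Finset.mem_univ _, ha⟩⟩, rfl⟩

theorem Bnd.prod {G₁ G₂ Z₁ : Type} [Group G₁] [TopologicalSpace G₁] [Sys G₁] [Group G₂]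
    [TopologicalSpace G₂] [Sys G₂] [TopologicalSpace Z₁] [MulAction G₁ Z₁] [Nice Z₁]
    [ContinuousSMul G₁ Z₁] {p₁ : ∀ M, Bq G X M → Bq G₁ Z₁ M} {p₂ : ∀ M, Bq G X M → Bq G₂ Unit M}
    (hp : IsProd p₁ p₂) (H₁ : Bnd G₁ Z₁ D h) (hb : Bb h) (H₂ : Bnd G₂ Unit 0 h')
    (hb' : ∀ d < 0, h' d = 0) : Bnd G X D (cnv h' h) := by
  obtain ⟨c, hc⟩ := hb
  have key := finite_deg_prod hp H₁.fin H₂.fin (H₁.eq_bot_of_lt hc)
    fun k hk => H₂.eq_bot_of_lt hb' k (by omega)
  refine ⟨fun k => (key k).1, fun k hk => ?_, fun d => (key _).2.trans ?_⟩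
  · haveI := (key k).1
    refine Submodule.finrank_eq_zero.1 (Nat.le_zero.1 ((key k).2.trans
      (Finset.sum_eq_zero fun j _ => ?_).le))
    rcases Int.even_or_odd j with hj | hj
    · rw [H₁.odd _ (hk.add_even hj), finrank_bot, zero_mul]
    · rw [H₂.odd _ hj.neg, finrank_bot, mul_zero]
  · rw [← Finset.sum_subset (s₁ := (Finset.Icc 0 (d - c)).image (2 * ·)) (fun j hj => by
      obtain ⟨e, he, rfl⟩ := Finset.mem_image.1 hj
      rw [Finset.mem_Icc] at he ⊢
      omega) fun j hj hj' => by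
      rcases Int.even_or_odd' j with ⟨e, rfl | rfl⟩
      · refine absurd (Finset.mem_image_of_mem _ ?_) hj'
        rw [Finset.mem_Icc] at hj ⊢
        omega
      · rw [H₂.odd _ (Odd.neg ⟨e, rfl⟩), finrank_bot, mul_zero],
      Finset.sum_image fun a _ b _ e => by simpa using e, cnv,
      finsum_eq_sum_of_support_subset (s := Finset.Icc 0 (d - c)) _ fun e he => by
      rw [Finset.mem_coe, Finset.mem_Icc]
      exact ⟨not_lt.1 fun h => he (mul_eq_zero_of_left (hb' e h) _),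
        not_lt.1 fun h => he (mul_eq_zero_of_right _ (hc _ (by omega)))⟩]
    refine Finset.sum_le_sum fun e _ => (mul_comm _ _).trans_le (Nat.mul_le_mul ?_ ?_)
    · rw [show -(2 * e) = 2 * 0 - 2 * e by ring]
      exact H₂.le e
    · rw [show 2 * D - 2 * d + 2 * e = 2 * D - 2 * (d - e) by ring]
      exact H₁.le _

section gl

variable {J : Type} [Fintype J] (n : J → ℕ)

/-- conjugacy of monomials under the Weyl group -/
def monS : Setoid (Bx n →₀ ℕ) where
  r a b := ∃ w : Wy n, b = a.mapDomain (Wy.perm w)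
  iseqv := ⟨fun a => ⟨1, Finsupp.mapDomain_id.symm⟩, by
    rintro a _ ⟨w, rfl⟩
    exact ⟨w⁻¹, ((Finsupp.mapDomain_comp.symm.trans (congrArg (Finsupp.mapDomain · a)
      (funext (Wy.perm w).symm_apply_apply))).trans Finsupp.mapDomain_id).symm⟩, by
    rintro a _ _ ⟨w, rfl⟩ ⟨v, rfl⟩
    exact ⟨v * w, Finsupp.mapDomain_comp.symm⟩⟩

/-- the number of orbits of monomials of degree `d` -/
noncomputable def hB (d : ℤ) : ℕ :=
  Nat.card {x : Quotient (monS n) // ((Quotient.out x).degree : ℤ) = d}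

theorem hB_neg {d : ℤ} (hd : d < 0) : hB n d = 0 :=
  haveI : IsEmpty {x : Quotient (monS n) // ((Quotient.out x).degree : ℤ) = d} :=
    ⟨fun x => by have := x.2; omega⟩
  Nat.card_of_isEmpty

theorem finite_degree {σ : Type} [Finite σ] (d : ℤ) : Finite {p : σ →₀ ℕ // (p.degree : ℤ) = d} :=
  ((Finsupp.finite_of_degree_le d.toNat).subset fun p (hp : (p.degree : ℤ) = d) =>
    show p.degree ≤ _ by omega).to_subtype

instance finite_monS (d : ℤ) :
    Finite {x : Quotient (monS n) // ((Quotient.out x).degree : ℤ) = d} :=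
  haveI := finite_degree (σ := Bx n) d
  Finite.of_injective (fun x => (⟨x.1.out, x.2⟩ : {p : Bx n →₀ ℕ // (p.degree : ℤ) = d}))
    fun _ _ h => Subtype.ext (Quotient.out_injective (congrArg Subtype.val h))

variable {n}

theorem smul_fundT_deg {s : SP n} {k : ℤ} : s • fundT n ∈ EH.deg (Tc n) Unit k ↔
    s = 0 ∨ ∃ d : ℕ, k = -(2 * d) ∧ s.IsHomogeneous d := by
  refine ⟨fun h => ?_, ?_⟩
  · obtain ⟨c, hc, e⟩ := TS.exists_C_gamT (fundT_deg n) (fundT_ne_zero n)
    obtain ⟨s', h1, h2⟩ := TS.exists_smul_gamT h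
    rw [← e, smul_comm, ← smul_assoc] at h2
    obtain rfl : s' = c • s := TS.gamT_free.1 h2
    by_cases hk : ∃ d : ℕ, -k = 2 * d
    · obtain ⟨d, hd⟩ := hk
      rw [hd] at h1
      exact Or.inr ⟨d, by omega, ((MvPolynomial.homogeneousSubmodule _ _ d).smul_mem_iff hc).1
        (psiT_deg.1 h1)⟩
    · exact Or.inl ((smul_eq_zero_iff_right hc).1 (TS.psi0_injective (funext fun M =>
        (TS.eq_zero_of_odd (fun d h => hk ⟨d, h⟩) (h1 M).2).trans
          (map_zero (TS.evT n Unit M)).symm)))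
  · rintro (rfl | ⟨d, rfl, h⟩)
    · rw [zero_smul]
      exact zero_mem _
    · have := EH.smul_deg (psiT_deg.2 h) (fundT_deg n)
      rwa [zero_sub] at this

theorem smul_fundE_deg {r : HS (GG n) Unit} {k : ℤ} :
    r • fundE n ∈ EH.deg (GG n) Unit k ↔ r.1 ∈ HSdeg (GG n) Unit (-k) := by
  refine ⟨fun h => psiG_deg.2 ?_, fun h => ?_⟩
  · have := resT_deg h
    rw [resT_smul] at this
    exact (smul_fundT_deg.1 this).imp (fun h => psiG_injective (h.trans (map_zero _).symm))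
      fun ⟨d, h1, h2⟩ => ⟨d, by omega, h2⟩
  · have := EH.smul_deg h (fundE_deg n)
    rwa [zero_sub, neg_neg] at this

theorem bnd_BG_aux (k d : ℤ) (h : ∀ e : ℕ, k = -(2 * e) → (e : ℤ) = d) :
    Module.Finite ℂ (EH.deg (GG n) Unit k) ∧ Module.finrank ℂ (EH.deg (GG n) Unit k) ≤ hB n d := by
  let E : SP n ≃ₗ[ℂ] EH (Tc n) Unit := LinearEquiv.ofBijective
    ((LinearMap.toSpanSingleton (SP n) _ (fundT n)).restrictScalars ℂ) (fundT_free n)
  let L : EH.deg (GG n) Unit k →ₗ[ℂ]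
      ({x : Quotient (monS n) // ((Quotient.out x).degree : ℤ) = d} → ℂ) :=
    LinearMap.pi fun x => MvPolynomial.lcoeff ℂ x.1.out ∘ₗ E.symm.toLinearMap ∘ₗ resT ∘ₗ
      Submodule.subtype _
  have hL : Injective L := (injective_iff_map_eq_zero _).2 fun β hβ => by
    obtain ⟨r, hr⟩ := (fundE_free n).2 β.1
    replace hr : r • fundE n = β.1 := hr
    have h1 : resT β.1 = psiG n r • fundT n := hr ▸ resT_smul r _
    have h2 : E.symm (resT β.1) = psiG n r := E.symm_apply_eq.2 h1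
    have h3 : psiG n r = 0 := by
      refine (smul_fundT_deg.1 (h1 ▸ resT_deg β.2)).elim id fun ⟨e, he, hh⟩ => ?_
      ext m
      obtain ⟨w, hw⟩ := Quotient.mk_out (s := monS n) m
      by_contra hm
      have h4 : (psiG n r).coeff (Quotient.mk (monS n) m).out = (psiG n r).coeff m := by
        conv_rhs => rw [← mem_range_psiG.1 ⟨r, rfl⟩ w, hw,
          MvPolynomial.coeff_rename_mapDomain _ (Wy.perm w).injective]
      have h5 := congrFun hβ ⟨Quotient.mk _ m, (h e he).symm ▸ congrArg _ (by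
        by_contra h6
        exact hm (h4.symm.trans (hh.coeff_eq_zero h6)))⟩
      exact hm (h4.symm.trans (h2 ▸ h5))
    exact Subtype.ext (resT_injective (h1.trans (by rw [h3, zero_smul]; exact (map_zero _).symm)))
  haveI := Fintype.ofFinite {x : Quotient (monS n) // ((Quotient.out x).degree : ℤ) = d}
  exact ⟨Module.Finite.of_injective L hL, (LinearMap.finrank_le_finrank_of_injective hL).trans
    (by rw [Module.finrank_fintype_fun_eq_card, hB, Nat.card_eq_fintype_card])⟩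

variable (n)

theorem bnd_BG : Bnd (GG n) Unit 0 (hB n) := by
  refine ⟨fun k => (bnd_BG_aux k (-k / 2) fun e he => by omega).1, fun k hk => ?_, fun d =>
    (bnd_BG_aux _ d fun e he => by omega).2⟩
  obtain ⟨h1, h2⟩ := bnd_BG_aux (n := n) k (-1) fun e he => by
    obtain ⟨a, rfl⟩ := hk
    omega
  rw [hB_neg n (by omega)] at h2
  exact Submodule.finrank_eq_zero.1 (Nat.le_zero.1 h2)

end gl

end Vale.Agent.P291Z
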