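import Vale.Agent.P291Z.Ind
import Vale.Agent.P291Z.Bnd0

/-!
# The degree of the smooth pull-back
-/

set_option linter.all false

namespace Vale.Agent.P291Z

open Set Function Topology

/-- the degree of the smooth pull-back -/
theorem qstar_deg {J₂ : Type} [Fintype J₂] {n₂ : J₂ → ℕ} {G G₁ : Type} [Group G]
    [TopologicalSpace G] [Sys G] [Group G₁] [TopologicalSpace G₁] [Sys G₁]
    (S : SysProd G G₁ (GG n₂)) {Z B W P : Type} [TopologicalSpace Z] [MulAction G₁ Z] [Nice Z]
    [ContinuousSMul G₁ Z] [TopologicalSpace B] [MulAction G B] [Nice B] [ContinuousSMul G B]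
    [AddCommGroup W] [Module ℂ W] [TopologicalSpace W] [DistribMulAction G W]
    [TopologicalSpace P] [MulAction G P] [Nice P] [ContinuousSMul G P]
    {b : B → Z} (hb : ∀ (g : G) y, b (g • y) = S.π₁ g • b y)
    (V : SubMulAction G (B × W)) (h0 : ∀ y, (y, 0) ∈ V) [Nice V] [ContinuousSMul G V]
    (j : P →[G] V) (hbh : IsHomeomorph b) {r s : ℕ} (hW : IsRep G W s)
    (hV : IsSubVB V r) (hj : IsOpenEmbedding j) {k : ℤ} {β : EH G₁ Z} (h : β ∈ EH.deg G₁ Z k) :
    qstar S hb V h0 j β ∈ EH.deg G P (k + 2 * r) := by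
  have := S.cross_deg hb (b₂ := fun _ => ()) (fun _ _ => rfl)
    ((Homeomorph.prodUnique Z Unit).symm.isHomeomorph.comp hbh) h (fundE_deg n₂)
  rw [add_zero] at this
  exact eres_deg hj (ethom_deg h0 hW hV this)

end Vale.Agent.P291Z
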