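import Vale.Agent.P291Z.Sys0

/-!
# Borel constructions of nice spaces are nice; properties of induced maps
-/

set_option linter.all false

namespace Vale.Agent.P291Z

open Set Function Topology

section basic

variable {X Y : Type} [TopologicalSpace X] [TopologicalSpace Y]

instance : Nice Unit := ⟨inferInstance, inferInstance, inferInstance⟩

instance : Nice ℂ := ⟨inferInstance, inferInstance, inferInstance⟩

instance : Nice ℝ := ⟨inferInstance, inferInstance, inferInstance⟩

instance [Nice X] [Nice Y] : Nice (X × Y) := ⟨inferInstance, inferInstance, inferInstance⟩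

instance {ι : Type} [Finite ι] {X : ι → Type} [∀ i, TopologicalSpace (X i)] [∀ i, Nice (X i)] :
    Nice (∀ i, X i) := ⟨inferInstance, inferInstance, inferInstance⟩

theorem Nice.of_isLocallyClosed [Nice X] {S : Set X} (h : IsLocallyClosed S) : Nice S :=
  ⟨inferInstance, h.locallyCompactSpace, inferInstance⟩

theorem Nice.of_isEmbedding [Nice Y] {f : X → Y} (hf : IsEmbedding f)
    (h : IsLocallyClosed (range f)) : Nice X :=
  ⟨hf.t2Space, hf.isInducing.locallyCompactSpace h, hf.secondCountableTopology⟩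

theorem Nice.of_homeomorph [Nice Y] (e : X ≃ₜ Y) : Nice X :=
  Nice.of_isEmbedding e.isEmbedding (by rw [e.range_coe]; exact isClosed_univ.isLocallyClosed)

theorem IsRep.nice {G W : Type} [Group G] [TopologicalSpace G] [AddCommGroup W] [Module ℂ W]
    [TopologicalSpace W] [DistribMulAction G W] {r : ℕ} (h : IsRep G W r) : Nice W :=
  h.lin.elim fun e => Nice.of_homeomorph e.toHomeomorph

theorem IsPr.isProperMap [Nice Y] {f : X → Y} (h : IsPr f) : IsProperMap f :=
  isProperMap_iff_isCompact_preimage.2 ⟨h.cont, h.pre⟩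

theorem IsPr.prodMap {X' Y' : Type} [TopologicalSpace X'] [TopologicalSpace Y'] [Nice Y] [Nice Y']
    {f : X → Y} {g : X' → Y'} (hf : IsPr f) (hg : IsPr g) : IsPr (Prod.map f g) :=
  IsPr.of_isProperMap (hf.isProperMap.prodMap hg.isProperMap)

end basic

variable {G G' Z Z' P P' : Type} [Group G] [TopologicalSpace G] [Group G'] [TopologicalSpace G']
  [TopologicalSpace Z] [MulAction G Z] [TopologicalSpace P] [MulAction G P]

theorem Bor.isOpenQuotientMap_mk [Prin G P] [ContinuousSMul G Z] :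
    IsOpenQuotientMap (Bor.mk G : Z × P → Bor G Z P) :=
  haveI : ContinuousSMul G P := Prin.cont
  MulAction.isOpenQuotientMap_quotientMk

omit [TopologicalSpace G] [TopologicalSpace Z] [TopologicalSpace P] in
theorem Bor.mk_eq_iff {x y : Z × P} : Bor.mk G x = Bor.mk G y ↔ ∃ g : G, g • y = x :=
  Quotient.eq''

section aux

omit [TopologicalSpace G] [TopologicalSpace Z] [TopologicalSpace P] in
theorem Bor.mk_smul (g : G) (x : Z × P) : Bor.mk G (g • x) = Bor.mk G x := Bor.mk_eq_iff.2 ⟨g, rfl⟩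

omit [TopologicalSpace G] [TopologicalSpace Z] [TopologicalSpace P] in
theorem Bor.mk_surjective : Surjective (Bor.mk G : Z × P → Bor G Z P) := Quot.mk_surjective

omit [TopologicalSpace G] in
theorem Bor.continuous_mk : Continuous (Bor.mk G : Z × P → Bor G Z P) := continuous_quot_mk

omit [TopologicalSpace G] in
theorem Bor.isQuotientMap_mk : IsQuotientMap (Bor.mk G : Z × P → Bor G Z P) :=
  isQuotientMap_quot_mk

/-- the action on a principal bundle is free -/
theorem Prin.free [Prin G P] {g : G} {u : P} (h : g • u = u) : g = 1 := by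
  obtain ⟨U, -, hu, -, τ, -, hτ⟩ := Prin.loc (G := G) u
  have := hτ g u hu
  rw [h] at this
  exact mul_eq_right.1 this.symm

theorem Prin.smul_inj [Prin G P] {g g' : G} {u : P} (h : g • u = g' • u) : g = g' := by
  have : (g'⁻¹ * g) • u = u := by rw [mul_smul, h, inv_smul_smul]
  exact (inv_mul_eq_one.1 (Prin.free this)).symm

/-- the projection to the base of the principal bundle -/
def Bor.base (G Z P : Type) [Group G] [MulAction G Z] [MulAction G P] :
    Bor G Z P → MulAction.orbitRel.Quotient G P :=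
  Quotient.map' Prod.snd (by rintro _ y ⟨h, rfl⟩; exact ⟨h, rfl⟩)

omit [TopologicalSpace G] in
theorem Bor.continuous_base : Continuous (Bor.base G Z P) := continuous_snd.quotient_map' _

/-- the local section given by a local trivialization -/
noncomputable def Bor.sec (τ : P → G) (b : Bor G Z P) : Z × P := (τ b.out.2)⁻¹ • b.out

omit [TopologicalSpace G] [TopologicalSpace Z] [TopologicalSpace P] in
theorem Bor.mk_sec (τ : P → G) (b : Bor G Z P) : Bor.mk G (Bor.sec τ b) = b :=
  (Bor.mk_smul _ _).trans (Quotient.out_eq' b)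

omit [TopologicalSpace G] [TopologicalSpace Z] [TopologicalSpace P] in
theorem Bor.sec_mk {U : Set P} {τ : P → G} (hτ : ∀ (h : G), ∀ u ∈ U, τ (h • u) = h * τ u)
    {x : Z × P} (hx : x.2 ∈ U) : Bor.sec τ (Bor.mk G x) = (τ x.2)⁻¹ • x := by
  obtain ⟨g, hg⟩ := Bor.mk_eq_iff.1 (Quotient.out_eq' (Bor.mk G x))
  rw [Bor.sec, ← hg, Prod.smul_snd, hτ g _ hx, mul_inv_rev, mul_smul, inv_smul_smul]

theorem Bor.continuousAt_sec [Prin G P] [ContinuousSMul G Z] {U : Set P} (hU : IsOpen U)
    {τ : P → G} (hc : ContinuousOn τ U) (hτ : ∀ (h : G), ∀ u ∈ U, τ (h • u) = h * τ u)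
    {x : Z × P} (hx : x.2 ∈ U) : ContinuousAt (Bor.sec τ) (Bor.mk G x) := by
  haveI : ContinuousSMul G P := Prin.cont
  haveI : IsTopologicalGroup G := Prin.grp P
  rw [← Bor.isOpenQuotientMap_mk.continuousAt_comp_iff]
  have h1 : ContinuousAt (fun y : Z × P => (τ y.2)⁻¹ • y) x :=
    ((hc.continuousAt (hU.mem_nhds hx)).comp continuousAt_snd).inv.smul continuousAt_id
  refine h1.congr ?_
  filter_upwards [(hU.preimage continuous_snd).mem_nhds hx] with y hy
  exact (Bor.sec_mk hτ hy).symm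

/-- local sections of the orbit map, defined over an open part of the base -/
theorem Bor.exists_sec [Prin G P] [ContinuousSMul G Z] (u : P) :
    ∃ s : Bor G Z P → Z × P, (∀ b, Bor.mk G (s b) = b) ∧ (∀ z, s (Bor.mk G (z, u)) = (z, u)) ∧
      ∀ᶠ v in nhds u, ∀ (g : G) z, ContinuousAt s (Bor.mk G (z, g • v)) := by
  haveI : IsTopologicalGroup G := Prin.grp P
  obtain ⟨U, hU, hu, hUi, τ, hc, hτ⟩ := Prin.loc (G := G) u
  have hτ' : ∀ (h : G), ∀ v ∈ U, τ (h • v) * (τ u)⁻¹ = h * (τ v * (τ u)⁻¹) := fun h v hv => by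
    rw [hτ h v hv, mul_assoc]
  refine ⟨Bor.sec fun v => τ v * (τ u)⁻¹, Bor.mk_sec _, fun z => ?_, ?_⟩
  · rw [Bor.sec_mk hτ' hu]; simp
  · filter_upwards [hU.mem_nhds hu] with v hv g z
    exact Bor.continuousAt_sec hU (hc.mul continuousOn_const) hτ' (hUi g v hv)

theorem Bor.t2Space [Prin G P] [T2Space P] [T2Space Z] [ContinuousSMul G Z] :
    T2Space (Bor G Z P) := by
  haveI := Prin.t2 (G := G) (P := P)
  refine ⟨fun b b' hne => ?_⟩
  by_cases h : Bor.base G Z P b = Bor.base G Z P b'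
  · obtain ⟨⟨z, u⟩, rfl⟩ := Bor.mk_surjective b
    obtain ⟨⟨z', u'⟩, rfl⟩ := Bor.mk_surjective b'
    obtain ⟨g, hg⟩ : ∃ g : G, g • u = u' := Quotient.exact' h.symm
    obtain ⟨s, hs, -, hc⟩ := Bor.exists_sec (G := G) (Z := Z) u
    have c1 := hc.self_of_nhds 1 z
    have c2 := hc.self_of_nhds g z'
    rw [one_smul] at c1
    rw [hg] at c2
    have hne' : s (Bor.mk G (z, u)) ≠ s (Bor.mk G (z', u')) := fun e => hne (by
      rw [← hs (Bor.mk G (z, u)), e, hs])
    obtain ⟨A, B, hA, hB, ha, hb, hAB⟩ := t2_separation hne'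
    exact ⟨interior (s ⁻¹' A), interior (s ⁻¹' B), isOpen_interior, isOpen_interior,
      mem_interior_iff_mem_nhds.2 (c1.preimage_mem_nhds (hA.mem_nhds ha)),
      mem_interior_iff_mem_nhds.2 (c2.preimage_mem_nhds (hB.mem_nhds hb)),
      (hAB.preimage s).mono interior_subset interior_subset⟩
  · exact separated_by_continuous Bor.continuous_base h

end aux

instance Bor.nice [Prin G P] [Nice P] [Nice Z] [ContinuousSMul G Z] : Nice (Bor G Z P) :=
  ⟨Bor.t2Space, Bor.isOpenQuotientMap_mk.locallyCompactSpace,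
    Bor.isQuotientMap_mk.secondCountableTopology Bor.isOpenQuotientMap_mk.isOpenMap⟩

/-- the fibre inclusions of `(Z × P) / G → P / G` are closed embeddings -/
theorem Bor.isClosedEmbedding_fibre [Prin G P] [Nice P] [Nice Z] [ContinuousSMul G Z] (u : P) :
    IsClosedEmbedding fun z : Z => Bor.mk G (z, u) := by
  haveI := Prin.t2 (G := G) (P := P)
  have hc : Continuous fun z : Z => Bor.mk G (z, u) :=
    Bor.continuous_mk.comp (continuous_id.prodMk continuous_const)
  obtain ⟨s, -, hs, hsc⟩ := Bor.exists_sec (G := G) (Z := Z) u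
  refine ⟨⟨isInducing_iff_nhds.2 fun z => le_antisymm (hc.tendsto z).le_comap fun A hA => ?_,
    fun z z' h => ?_⟩, ?_⟩
  · have c1 := hsc.self_of_nhds 1 z
    rw [one_smul] at c1
    have c2 := continuousAt_fst.comp c1
    refine Filter.mem_comap.2 ⟨(Prod.fst ∘ s) ⁻¹' A, c2.preimage_mem_nhds ?_, fun y hy => ?_⟩
    · rwa [comp_apply, hs]
    · rwa [mem_preimage, mem_preimage, comp_apply, hs] at hy
  · have := hs z
    rw [show Bor.mk G (z, u) = Bor.mk G (z', u) from h, hs] at this
    exact (congrArg Prod.fst this).symm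
  · have : range (fun z : Z => Bor.mk G (z, u)) = Bor.base G Z P ⁻¹' {Quotient.mk'' u} := by
      ext b
      refine ⟨?_, fun hb => ?_⟩
      · rintro ⟨z, rfl⟩; rfl
      · obtain ⟨⟨z, v⟩, rfl⟩ := Bor.mk_surjective b
        obtain ⟨g, hg⟩ : ∃ g : G, g • u = v := Quotient.exact' hb
        exact ⟨g⁻¹ • z, Bor.mk_eq_iff.2 ⟨g⁻¹, Prod.ext rfl (by rw [← hg]; exact inv_smul_smul g u)⟩⟩
    rw [this]
    exact isClosed_singleton.preimage Bor.continuous_base

section gen

/-! Maps that are equivariant along a surjective homomorphism. -/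

variable [TopologicalSpace Z'] [MulAction G' Z'] [TopologicalSpace P'] [MulAction G' P']
  {φ : G →* G'} {F : Z × P → Z' × P'} (hF : ∀ h x, F (h • x) = φ h • F x)

omit [TopologicalSpace G] [TopologicalSpace G'] [TopologicalSpace Z] [TopologicalSpace P]
  [TopologicalSpace Z'] [TopologicalSpace P'] in
@[simp] theorem Bor.map_mk (x : Z × P) : Bor.map φ F hF (Bor.mk G x) = Bor.mk G' (F x) := rfl

omit [TopologicalSpace G] [TopologicalSpace G'] in
theorem Bor.continuous_map' (h : Continuous F) : Continuous (Bor.map φ F hF) := h.quotient_map' _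

omit [TopologicalSpace G] [TopologicalSpace G'] [TopologicalSpace Z] [TopologicalSpace P]
  [TopologicalSpace Z'] [TopologicalSpace P'] in
theorem Bor.exists_of_map_eq (hφ : Surjective φ) {b : Bor G Z P} {y : Z' × P'}
    (h : Bor.map φ F hF b = Bor.mk G' y) : ∃ x, Bor.mk G x = b ∧ F x = y := by
  obtain ⟨x, rfl⟩ := Bor.mk_surjective b
  obtain ⟨g', hg⟩ := Bor.mk_eq_iff.1 h.symm
  obtain ⟨g, rfl⟩ := hφ g'
  exact ⟨g • x, Bor.mk_smul _ _, (hF g x).trans hg⟩

omit [TopologicalSpace G] [TopologicalSpace G'] [TopologicalSpace Z] [TopologicalSpace P]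
  [TopologicalSpace Z'] [TopologicalSpace P'] in
theorem Bor.preimage_image_map (hφ : Surjective φ) (C : Set (Bor G Z P)) :
    Bor.mk G' ⁻¹' (Bor.map φ F hF '' C) = F '' (Bor.mk G ⁻¹' C) := by
  ext y
  refine ⟨?_, ?_⟩
  · rintro ⟨b, hb, h⟩
    obtain ⟨x, rfl, rfl⟩ := Bor.exists_of_map_eq hF hφ h
    exact ⟨x, hb, rfl⟩
  · rintro ⟨x, hx, rfl⟩
    exact ⟨_, hx, rfl⟩

omit [TopologicalSpace G] [TopologicalSpace G'] [TopologicalSpace Z] [TopologicalSpace P]
  [TopologicalSpace Z'] [TopologicalSpace P'] in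
theorem Bor.injective_map' (hφ : Surjective φ) (h : Injective F) : Injective (Bor.map φ F hF) := by
  intro b b' e
  obtain ⟨x, rfl⟩ := Bor.mk_surjective b'
  obtain ⟨y, rfl, hy⟩ := Bor.exists_of_map_eq hF hφ e
  rw [h hy]

omit [TopologicalSpace G] [TopologicalSpace G'] [TopologicalSpace Z] [TopologicalSpace P]
  [TopologicalSpace Z'] [TopologicalSpace P'] in
theorem Bor.surjective_map' (h : Surjective F) : Surjective (Bor.map φ F hF) := fun b => by
  obtain ⟨y, rfl⟩ := Bor.mk_surjective b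
  obtain ⟨x, rfl⟩ := h y
  exact ⟨Bor.mk G x, rfl⟩

omit [TopologicalSpace G] [TopologicalSpace G'] [TopologicalSpace Z] [TopologicalSpace P]
  [TopologicalSpace Z'] [TopologicalSpace P'] in
theorem Bor.range_map' : range (Bor.map φ F hF) = Bor.mk G' '' range F := by
  ext b
  refine ⟨?_, ?_⟩
  · rintro ⟨a, rfl⟩
    obtain ⟨x, rfl⟩ := Bor.mk_surjective a
    exact ⟨F x, ⟨x, rfl⟩, rfl⟩
  · rintro ⟨_, ⟨x, rfl⟩, rfl⟩
    exact ⟨Bor.mk G x, rfl⟩

omit [TopologicalSpace G] [TopologicalSpace G'] in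
theorem Bor.isOpenMap_map' (hφ : Surjective φ) (h : IsOpenMap F) : IsOpenMap (Bor.map φ F hF) :=
  fun C hC => Bor.isQuotientMap_mk.isOpen_preimage.1 (by
    rw [Bor.preimage_image_map hF hφ]; exact h _ (hC.preimage Bor.continuous_mk))

omit [TopologicalSpace G] [TopologicalSpace G'] in
theorem Bor.isClosedMap_map' (hφ : Surjective φ) (h : IsClosedMap F) :
    IsClosedMap (Bor.map φ F hF) :=
  fun C hC => Bor.isQuotientMap_mk.isClosed_preimage.1 (by
    rw [Bor.preimage_image_map hF hφ]; exact h _ (hC.preimage Bor.continuous_mk))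

omit [TopologicalSpace G] [TopologicalSpace G'] in
theorem Bor.isOpenEmbedding_map' (hφ : Surjective φ) (h : IsOpenEmbedding F) :
    IsOpenEmbedding (Bor.map φ F hF) :=
  .of_continuous_injective_isOpenMap (Bor.continuous_map' hF h.continuous)
    (Bor.injective_map' hF hφ h.injective) (Bor.isOpenMap_map' hF hφ h.isOpenMap)

omit [TopologicalSpace G] [TopologicalSpace G'] in
theorem Bor.isClosedEmbedding_map' (hφ : Surjective φ) (h : IsClosedEmbedding F) :
    IsClosedEmbedding (Bor.map φ F hF) :=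
  .of_continuous_injective_isClosedMap (Bor.continuous_map' hF h.continuous)
    (Bor.injective_map' hF hφ h.injective) (Bor.isClosedMap_map' hF hφ h.isClosedMap)

omit [TopologicalSpace G] [TopologicalSpace G'] in
theorem Bor.isHomeomorph_map' (hφ : Surjective φ) (h : IsHomeomorph F) :
    IsHomeomorph (Bor.map φ F hF) :=
  ⟨Bor.continuous_map' hF h.continuous, Bor.isOpenMap_map' hF hφ h.isOpenMap,
    Bor.injective_map' hF hφ h.injective, Bor.surjective_map' hF h.surjective⟩

/-- compact sets lift along open surjections from locally compact spaces -/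
theorem exists_isCompact_lift {X Y : Type} [TopologicalSpace X] [TopologicalSpace Y]
    [LocallyCompactSpace X] {q : X → Y} (hq : IsOpenQuotientMap q) {K : Set Y} (hK : IsCompact K) :
    ∃ L, IsCompact L ∧ K ⊆ q '' L := by
  refine hK.induction_on ⟨∅, isCompact_empty, empty_subset _⟩
    (fun _ _ h ⟨L, hL, h'⟩ => ⟨L, hL, h.trans h'⟩)
    (fun _ _ ⟨L, hL, h⟩ ⟨L', hL', h'⟩ => ⟨L ∪ L', hL.union hL', by
      rw [image_union]; exact union_subset_union h h'⟩) fun y _ => ?_
  obtain ⟨x, rfl⟩ := hq.surjective y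
  obtain ⟨L, hL, hx⟩ := exists_compact_mem_nhds x
  exact ⟨q '' L, mem_nhdsWithin_of_mem_nhds (hq.isOpenMap.image_mem_nhds hx), L, hL, Subset.rfl⟩

omit [TopologicalSpace G] in
theorem Bor.isPr_map' [Prin G' P'] [Nice P'] [Nice Z'] [ContinuousSMul G' Z'] (hφ : Surjective φ)
    (h : IsPr F) : IsPr (Bor.map φ F hF) := by
  have hc := Bor.continuous_map' hF h.cont
  refine ⟨hc, fun K hK => ?_⟩
  obtain ⟨L, hL, hKL⟩ := exists_isCompact_lift (Bor.isOpenQuotientMap_mk (G := G')) hK
  refine ((h.pre L hL).image Bor.continuous_mk).of_isClosed_subset (hK.isClosed.preimage hc)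
    fun b hb => ?_
  obtain ⟨y, hy, e⟩ := hKL hb
  obtain ⟨x, rfl, rfl⟩ := Bor.exists_of_map_eq hF hφ e.symm
  exact ⟨x, hy, rfl⟩

end gen

section same

variable [TopologicalSpace Z'] [MulAction G Z'] [Prin G P] [Nice P] [Nice Z] [Nice Z']
  [ContinuousSMul G Z] [ContinuousSMul G Z'] {f : Z × P → Z'}
  (hf : ∀ (g : G) x, (f (g • x), (g • x).2) = (MonoidHom.id G) g • (f x, x.2))

/-! Maps over `P / G`: the induced map has the property as soon as `(z, u) ↦ (f (z, u), u)` has. -/

theorem Bor.continuous_map (h : Continuous f) :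
    Continuous (Bor.map (MonoidHom.id G) (fun x => (f x, x.2)) hf) :=
  Bor.continuous_map' hf (h.prodMk continuous_snd)

theorem Bor.isPr_map (h : IsPr fun x : Z × P => (f x, x.2)) :
    IsPr (Bor.map (MonoidHom.id G) (fun x => (f x, x.2)) hf) :=
  Bor.isPr_map' hf surjective_id h

theorem Bor.isOpenEmbedding_map (h : IsOpenEmbedding fun x : Z × P => (f x, x.2)) :
    IsOpenEmbedding (Bor.map (MonoidHom.id G) (fun x => (f x, x.2)) hf) :=
  Bor.isOpenEmbedding_map' hf surjective_id h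

theorem Bor.isClosedEmbedding_map (h : IsClosedEmbedding fun x : Z × P => (f x, x.2)) :
    IsClosedEmbedding (Bor.map (MonoidHom.id G) (fun x => (f x, x.2)) hf) :=
  Bor.isClosedEmbedding_map' hf surjective_id h

theorem Bor.isHomeomorph_map (h : IsHomeomorph fun x : Z × P => (f x, x.2)) :
    IsHomeomorph (Bor.map (MonoidHom.id G) (fun x => (f x, x.2)) hf) :=
  Bor.isHomeomorph_map' hf surjective_id h

end same

section sys

variable [Sys G] [TopologicalSpace Z'] [MulAction G Z'] [Nice Z] [Nice Z'] [ContinuousSMul G Z]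
  [ContinuousSMul G Z']

theorem continuous_binc (M : ℕ) : Continuous (binc G Z M) :=
  Bor.continuous_map' _ (continuous_fst.prodMk ((Sys.inc_closed M).continuous.comp continuous_snd))

theorem isClosedEmbedding_binc (M : ℕ) : IsClosedEmbedding (binc G Z M) :=
  Bor.isClosedEmbedding_map' _ surjective_id (IsClosedEmbedding.id.prodMap (Sys.inc_closed M))

theorem continuous_bpt (M : ℕ) : Continuous (bpt G Z M) :=
  Bor.continuous_map' _ (continuous_const.prodMk continuous_snd)

theorem continuous_smap {f : Z →[G] Z'} (hf : Continuous f) (M : ℕ) : Continuous (smap f M) :=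
  Bor.continuous_map' _ ((hf.comp continuous_fst).prodMk continuous_snd)

theorem isPr_smap {f : Z →[G] Z'} (hf : IsPr f) (M : ℕ) : IsPr (smap f M) :=
  Bor.isPr_map' _ surjective_id (hf.prodMap IsPr.id)

theorem isOpenEmbedding_smap {f : Z →[G] Z'} (hf : IsOpenEmbedding f) (M : ℕ) :
    IsOpenEmbedding (smap f M) :=
  Bor.isOpenEmbedding_map' _ surjective_id (hf.prodMap IsOpenEmbedding.id)

theorem isClosedEmbedding_smap {f : Z →[G] Z'} (hf : IsClosedEmbedding f) (M : ℕ) :
    IsClosedEmbedding (smap f M) :=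
  Bor.isClosedEmbedding_map' _ surjective_id (hf.prodMap IsClosedEmbedding.id)

omit [TopologicalSpace Z] [TopologicalSpace Z'] [Nice Z] [Nice Z'] [ContinuousSMul G Z]
  [ContinuousSMul G Z'] in
theorem range_smap (f : Z →[G] Z') (M : ℕ) : range (smap f M) = bset (range f) M := by
  ext b
  refine ⟨?_, ?_⟩
  · rintro ⟨a, rfl⟩
    obtain ⟨x, rfl⟩ := Bor.mk_surjective a
    exact ⟨(f x.1, x.2), ⟨x.1, rfl⟩, rfl⟩
  · rintro ⟨⟨_, u⟩, ⟨z, rfl⟩, rfl⟩
    exact ⟨Bor.mk G (z, u), rfl⟩

omit [TopologicalSpace Z] [TopologicalSpace Z'] [Nice Z] [Nice Z'] [ContinuousSMul G Z]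
  [ContinuousSMul G Z'] in
theorem preimage_bset (f : Z →[G] Z') {A : Set Z'} (hA : ∀ (g : G), ∀ z ∈ A, g • z ∈ A) (M : ℕ) :
    smap f M ⁻¹' bset A M = bset (f ⁻¹' A) M := by
  ext b
  obtain ⟨x, rfl⟩ := Bor.mk_surjective b
  refine ⟨?_, ?_⟩
  · rintro ⟨y, hy, e⟩
    obtain ⟨g, hg⟩ := Bor.mk_eq_iff.1 e
    have e1 : g • y.1 = f x.1 := congrArg Prod.fst hg
    exact ⟨x, show f x.1 ∈ A from e1 ▸ hA g _ hy, rfl⟩
  · rintro ⟨y, hy, e⟩
    exact ⟨(f y.1, y.2), hy, congrArg (smap f M) e⟩

/-- the fibres of `smap f M` are the fibres of `f` -/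
theorem isFib_smap {f : Z →[G] Z'} (hf : Continuous f) (M : ℕ) (z : Z') (u : Sys.P G M) :
    IsFib (smap f M) (Bor.mk G (z, u)) fun y : f ⁻¹' {z} => Bor.mk G (y.1, u) := by
  refine ⟨(Bor.isClosedEmbedding_fibre u).comp
    (isClosed_singleton.preimage hf).isClosedEmbedding_subtypeVal, ?_⟩
  ext b
  refine ⟨?_, fun hb => ?_⟩
  · rintro ⟨y, rfl⟩
    exact congrArg (fun w => Bor.mk G (w, u)) y.2
  · obtain ⟨x, rfl, e⟩ := Bor.exists_of_map_eq _ surjective_id hb
    exact ⟨⟨x.1, congrArg Prod.fst e⟩, congrArg (fun w => Bor.mk G (x.1, w)) (congrArg Prod.snd e).symm⟩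

end sys

end Vale.Agent.P291Z
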