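import Vale.Agent.P291Z.Fou0
import Vale.Agent.P291Z.Higgs
import Vale.Agent.P291Z.Nice0

/-!
# The stable locus and a generic fibre of the moment map
-/

namespace Vale.Agent.P291Z.Four

open Flav KN

variable {I E Φ : Type} {Q : Quiv I E} [Fintype Φ] [Fintype I] [Fintype E] {A : Flav Q Φ}

/-- The two families of mutually inverse maps between the stable locus and a generic fibre. -/
theorem exists_maps {ν : I → ℤ} (hν : A.Regular ν) : ∃ θ : I → ℝ, Gen Q.qd θ ∧
    ∃ (a : A.Zst ν × (Φ → ℝ) → Zlev A θ) (b : Zlev A θ × (Φ → ℝ) → A.Zst ν),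
      Continuous a ∧ Continuous b ∧ (∀ z t, b (a (z, t), t) = z) ∧ (∀ w t, a (b (w, t), t) = w) ∧
        ∀ (h : GG (Q.nn Φ)) z t, a (h • z, lg h + t) = h • a (z, t) := by
  obtain ⟨θ, h0, h1, h2⟩ := exists_psi hν
  exact ⟨θ, h0, fun x => ⟨psi' θ rotP x.1.1 x.2, ((h1 _ x.1.2).2 _).1⟩,
    fun x => ⟨psi' 0 unrotP x.1.1 x.2, ((h2 _ x.1.2).2 _).1⟩,
    (continuous_psi' continuous_rotP (continuous_subtype_val.comp continuous_fst)
      (fun x => (h1 _ x.1.2).1) continuous_snd).subtype_mk _,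
    (continuous_psi' continuous_unrotP (continuous_subtype_val.comp continuous_fst)
      (fun x => (h2 _ x.1.2).1) continuous_snd).subtype_mk _,
    fun z t => Subtype.ext ((h1 _ z.2).2 t).2, fun w t => Subtype.ext ((h2 _ w.2).2 t).2,
    fun h z t => Subtype.ext (psi'_smul (fun _ => rotP_smul) (h1 _ z.2).1 t h)⟩

theorem nice_Zst {ν : I → ℤ} (hν : A.Regular ν) : Nice (A.Zst ν) := by
  obtain ⟨θ, -, a, b, ha, hb, h1, h2, -⟩ := exists_maps hν
  exact Nice.of_homeomorph (Y := Zlev A θ) ⟨⟨fun z => a (z, 0), fun w => b (w, 0),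
    fun z => h1 z 0, fun w => h2 w 0⟩, by fun_prop, by fun_prop⟩

end Vale.Agent.P291Z.Four
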