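import Vale.Agent.P291Z.KN3

/-!
# Finitely many equivariant vectors span the vector spaces at all simple points
-/

set_option linter.unusedSectionVars false

namespace Vale.Agent.P291Z.KN

open Set Function Matrix Module Vale.Agent.P291.Hik

variable {I E : Type} {Q : QData I E} [Fintype I] [Fintype E]

/-- Continuous equivariant vectors. -/
def EqV {i : I} (φ : Q.Pt ℂ → Fin (Q.v i) → ℂ) : Prop :=
  (∀ g h : End Q, g * h = 1 → ∀ z, φ (act g h z) = g i *ᵥ φ z) ∧
    Continuous fun a : Ent Q → ℂ => φ (unval a)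

/-- The vectors given by paths of length at most `k`. -/
def pth (Q : QData I E) : ℕ → Set (Σ i, Q.Pt ℂ → Fin (Q.v i) → ℂ)
  | 0 => range fun p : Σ i, Fin (Q.w i) => ⟨p.1, fun z => z.i p.1 *ᵥ Pi.single p.2 1⟩
  | k + 1 => pth Q k ∪ ⋃ e, ((fun ψ => ⟨Q.t e, fun z => z.x e *ᵥ ψ z⟩) ''
      (Sigma.mk (Q.s e) ⁻¹' pth Q k) ∪
    (fun ψ => ⟨Q.s e, fun z => z.y e *ᵥ ψ z⟩) '' (Sigma.mk (Q.t e) ⁻¹' pth Q k))

theorem finite_pth (k : ℕ) : (pth Q k).Finite := by
  induction k with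
  | zero => exact finite_range _
  | succ k ih =>
    exact ih.union (finite_iUnion fun e => ((ih.preimage sigma_mk_injective.injOn).image _).union
      ((ih.preimage sigma_mk_injective.injOn).image _))

theorem eqV_pth (k : ℕ) : ∀ φ ∈ pth Q k, EqV φ.2 := by
  have h0 : Cont fun a : Ent Q → ℂ => unval a := cont_unval continuous_id
  induction k with
  | zero =>
    rintro _ ⟨p, rfl⟩
    exact ⟨fun g h _ z => (mulVec_mulVec (Pi.single p.2 1) (g p.1) (z.i p.1)).symm,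
      (h0.i _).matrix_mulVec continuous_const⟩
  | succ k ih =>
    rintro φ (h | h)
    · exact ih φ h
    · obtain ⟨e, ⟨ψ, hψ, rfl⟩ | ⟨ψ, hψ, rfl⟩⟩ := mem_iUnion.1 h
      · refine ⟨fun g g' hg z => ?_, (h0.x _).matrix_mulVec (ih ⟨_, ψ⟩ hψ).2⟩
        change (g _ * z.x e * g' _) *ᵥ ψ (act g g' z) = g _ *ᵥ (z.x e *ᵥ ψ z)
        rw [show ψ (act g g' z) = _ from (ih ⟨_, ψ⟩ hψ).1 g g' hg z, mulVec_mulVec, mulVec_mulVec,
          Matrix.mul_assoc, show g' _ * g _ = 1 from congrFun (End.mul_eq_one_comm hg) _,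
          Matrix.mul_one]
      · refine ⟨fun g g' hg z => ?_, (h0.y _).matrix_mulVec (ih ⟨_, ψ⟩ hψ).2⟩
        change (g _ * z.y e * g' _) *ᵥ ψ (act g g' z) = g _ *ᵥ (z.y e *ᵥ ψ z)
        rw [show ψ (act g g' z) = _ from (ih ⟨_, ψ⟩ hψ).1 g g' hg z, mulVec_mulVec, mulVec_mulVec,
          Matrix.mul_assoc, show g' _ * g _ = 1 from congrFun (End.mul_eq_one_comm hg) _,
          Matrix.mul_one]

/-- The span of the vectors. -/
noncomputable def spn (k : ℕ) (z : Q.Pt ℂ) (i : I) : Submodule ℂ (Fin (Q.v i) → ℂ) :=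
  Submodule.span ℂ ((fun ψ => ψ z) '' (Sigma.mk i ⁻¹' pth Q k))

theorem spn_le (k : ℕ) (z : Q.Pt ℂ) (i : I) : spn k z i ≤ spn (k + 1) z i :=
  Submodule.span_mono (image_mono fun _ h => Or.inl h)

theorem spn_zero_le (k : ℕ) (z : Q.Pt ℂ) (i : I) : spn 0 z i ≤ spn k z i := by
  induction k with
  | zero => exact le_rfl
  | succ k ih => exact ih.trans (spn_le k z i)

theorem spn_eq_top {z : Q.Pt ℂ} (hz : StR 0 z) {k : ℕ} (h : ∀ i, spn (k + 1) z i = spn k z i)
    (i : I) : spn k z i = ⊤ := by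
  by_contra h0
  have h1 := (hz (spn k z) fun e => ⟨fun u hu => ?_, fun u hu => ?_⟩).2 (fun i a => ?_) ⟨i, h0⟩
  · simp [pairR] at h1
  · rw [← h]
    refine (Submodule.span_le (p := (spn (k + 1) z _).comap (z.x e).mulVecLin)).2 ?_ hu
    rintro _ ⟨ψ, hψ, rfl⟩
    exact Submodule.subset_span ⟨_, Or.inr (mem_iUnion.2 ⟨e, Or.inl ⟨ψ, hψ, rfl⟩⟩), rfl⟩
  · rw [← h]
    refine (Submodule.span_le (p := (spn (k + 1) z _).comap (z.y e).mulVecLin)).2 ?_ hu
    rintro _ ⟨ψ, hψ, rfl⟩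
    exact Submodule.subset_span ⟨_, Or.inr (mem_iUnion.2 ⟨e, Or.inr ⟨ψ, hψ, rfl⟩⟩), rfl⟩
  · classical
    rw [← Finset.univ_sum_single a, mulVec_sum]
    refine Submodule.sum_mem _ fun l _ => ?_
    rw [← mul_one (a l), ← smul_eq_mul, Pi.single_smul, mulVec_smul]
    refine Submodule.smul_mem _ _ (spn_zero_le k z i (Submodule.subset_span ⟨_, ⟨⟨i, l⟩, rfl⟩, ?_⟩))
    congr 1

theorem spn_top {z : Q.Pt ℂ} (hz : StR 0 z) (i : I) : spn (∑ i, Q.v i + 1) z i = ⊤ := by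
  have h : ∀ k, (∀ i, spn k z i = ⊤) ∨ k ≤ ∑ i, finrank ℂ (spn k z i) := fun k => by
    induction k with
    | zero => exact Or.inr (Nat.zero_le _)
    | succ k ih =>
      rcases ih with ih | ih
      · exact Or.inl fun i => top_le_iff.1 (ih i ▸ spn_le k z i)
      · by_cases h1 : ∀ i, spn (k + 1) z i = spn k z i
        · exact Or.inl fun i => (h1 i).trans (spn_eq_top hz h1 i)
        · obtain ⟨j, hj⟩ := not_forall.1 h1
          exact Or.inr (ih.trans_lt (Finset.sum_lt_sum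
            (fun i _ => Submodule.finrank_mono (spn_le k z i)) ⟨j, Finset.mem_univ _,
              Submodule.finrank_lt_finrank_of_lt ((spn_le k z j).lt_of_ne' hj)⟩))
  refine ((h _).resolve_right fun h1 => ?_) i
  have h2 : ∑ i, finrank ℂ (spn (∑ i, Q.v i + 1) z i) ≤ ∑ i, Q.v i :=
    Finset.sum_le_sum fun i _ => finrank_le_v i _
  omega

/-- Equivariant matrices that are surjective at all simple points. -/
theorem exists_gens (Q : QData I E) :
    ∃ (L : ℕ) (c : Q.Pt ℂ → ∀ i, Matrix (Fin (Q.v i)) (Fin L) ℂ),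
      (∀ g h : End Q, g * h = 1 → ∀ z i, c (act g h z) i = g i * c z i) ∧
      (Continuous fun a : Ent Q → ℂ => c (unval a)) ∧
      ∀ z, StR 0 z → ∀ i, Surjective (c z i).mulVec := by
  have h0 := fun i => ((finite_pth (Q := Q) (∑ i, Q.v i + 1)).preimage
    (f := Sigma.mk i) sigma_mk_injective.injOn).fin_param
  choose n f _ hf using h0
  let φ : ∀ i, Fin (∑ i, n i) → Q.Pt ℂ → Fin (Q.v i) → ℂ := fun i m =>
    if h : m.1 < n i then f i ⟨m.1, h⟩ else 0
  have h1 : ∀ i m, EqV (φ i m) := fun i m => by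
    by_cases h : m.1 < n i
    · simp only [φ, dif_pos h]
      exact eqV_pth _ ⟨i, _⟩ ((hf i).subset (mem_range_self _))
    · simp only [φ, dif_neg h]
      exact ⟨fun g _ _ _ => (Matrix.mulVec_zero _).symm, continuous_const⟩
  refine ⟨∑ i, n i, fun z i => of fun a m => φ i m z a, fun g h hg z i => ?_,
    continuous_pi fun i => continuous_matrix fun a m => (continuous_apply a).comp (h1 i m).2,
    fun z hz i => ?_⟩
  · exact Matrix.ext fun a m => congrFun ((h1 i m).1 g h hg z) a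
  · rw [← coe_mulVecLin, ← LinearMap.range_eq_top, range_mulVecLin, eq_top_iff, ← spn_top hz i]
    refine Submodule.span_mono ?_
    rintro _ ⟨ψ, hψ, rfl⟩
    obtain ⟨m, rfl⟩ : ψ ∈ range (f i) := (hf i).symm ▸ hψ
    have h2 : n i ≤ ∑ i, n i := Finset.single_le_sum (fun _ _ => Nat.zero_le _) (Finset.mem_univ i)
    refine ⟨⟨m.1, m.2.trans_le h2⟩, ?_⟩
    funext a
    simp [φ]

end Vale.Agent.P291Z.KN
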