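import Vale.Agent.P291Z.Kir0
import Vale.Agent.P291Z.Kir1
import Vale.Agent.P291Z.KNB3

/-!
# The equivariant cohomology of the quiver variety is that of the stable locus
-/

set_option linter.unusedSectionVars false

namespace Vale.Agent.P291Z.Kir

open Set Function Topology Matrix

theorem exists_finite (G P : Type) [Group G] [TopologicalSpace G] [MulAction G P]
    [TopologicalSpace P] [hP : Prin G P] [CompactSpace (MulAction.orbitRel.Quotient G P)] :
    ∃ (k : ℕ) (lam : Fin k → P → ℝ) (τ : Fin k → P → G) (U : Fin k → Set P),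
      (∀ m, Continuous (lam m)) ∧ (∀ m (g : G) u, lam m (g • u) = lam m u) ∧
      (∀ u, ∃ m, lam m u ≠ 0) ∧ (∀ m, IsOpen (U m)) ∧ (∀ m, tsupport (lam m) ⊆ U m) ∧
      (∀ m, ContinuousOn (τ m) (U m)) ∧ ∀ m (g : G), ∀ u ∈ U m, τ m (g • u) = g * τ m u := by
  have := hP.t2
  have := hP.cont
  choose U h1 h2 h3 τ h4 h5 using hP.loc
  let π : P → MulAction.orbitRel.Quotient G P := Quotient.mk''
  have hπ : IsOpenQuotientMap π := MulAction.isOpenQuotientMap_quotientMk
  obtain ⟨t, ht⟩ := isCompact_univ.elim_finite_subcover (fun p => π '' U p)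
    (fun p => hπ.isOpenMap _ (h1 p)) fun x _ => by
      obtain ⟨p, rfl⟩ := hπ.surjective x
      exact mem_iUnion.2 ⟨p, p, h2 p, rfl⟩
  let e := t.equivFin.symm
  obtain ⟨f, hf⟩ := PartitionOfUnity.exists_isSubordinate isClosed_univ (fun m => π '' U (e m))
    (fun m => hπ.isOpenMap _ (h1 _)) fun x hx => by
      obtain ⟨p, hp, h⟩ := mem_iUnion₂.1 (ht hx)
      exact mem_iUnion.2 ⟨e.symm ⟨p, hp⟩, by rwa [e.apply_symm_apply]⟩
  refine ⟨_, fun m u => f m (π u), fun m => τ (e m), fun m => U (e m),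
    fun m => (f m).continuous.comp hπ.continuous,
    fun m g u => congrArg (f m) (Quotient.sound' ⟨g, rfl⟩),
    fun u => (f.exists_pos (mem_univ (π u))).imp fun _ h => h.ne', fun m => h1 _, fun m u hu => ?_,
    fun m => h4 _, fun m => h5 _⟩
  obtain ⟨u', h, h'⟩ := hf m (tsupport_comp_subset_preimage (f m) hπ.continuous hu)
  obtain ⟨g, rfl⟩ := Quotient.exact' h'.symm
  exact h3 _ g _ h

section prod

variable {J₁ J₂ : Type} [Fintype J₁] [Fintype J₂] {n₁ : J₁ → ℕ} {n₂ : J₂ → ℕ}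

theorem continuous_inrG : Continuous (inrG n₁ n₂) :=
  continuous_pi fun j => by
    rcases j with j | j
    exacts [continuous_const, continuous_apply j]

/-- The element with given components. -/
noncomputable def joinE {L : ℕ} (a : EE n₁ L) (u : EE n₂ L) : EE (Sum.elim n₁ n₂) L :=
  ⟨fun j => match j with
    | Sum.inl j => a.1 j
    | Sum.inr j => u.1 j, fun j => by
    rcases j with j | j
    exacts [a.2 j, u.2 j]⟩

theorem joinE_smul {L : ℕ} (g : GG (Sum.elim n₁ n₂)) (a : EE n₁ L) (u : EE n₂ L) :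
    joinE (fstG _ _ g • a) (sndG _ _ g • u) = g • joinE a u :=
  Subtype.ext (funext fun j => by rcases j with j | j <;> rfl)

theorem continuous_joinE {L : ℕ} : Continuous fun p : EE n₁ L × EE n₂ L => joinE p.1 p.2 := by
  refine Continuous.subtype_mk (continuous_pi fun j => ?_) _
  rcases j with j | j
  exacts [(continuous_row j).comp continuous_fst, (continuous_row j).comp continuous_snd]

variable {Z : Type} [TopologicalSpace Z] [MulAction (GG (Sum.elim n₁ n₂)) Z]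
  [ContinuousSMul (GG (Sum.elim n₁ n₂)) Z]

theorem exists_equivariant {L₀ : ℕ} {s₀ : Z → EE n₁ L₀} (hc : Continuous s₀)
    (hs : ∀ g : GG (Sum.elim n₁ n₂), sndG _ _ g = 1 → ∀ z, s₀ (g • z) = fstG _ _ g • s₀ z) (M : ℕ) :
    ∃ (L : ℕ) (h : M ≤ L) (a : Z × EE n₂ M → EE (Sum.elim n₁ n₂) L), Continuous a ∧
      (∀ (g : GG (Sum.elim n₁ n₂)) z u, a (g • z, sndG _ _ g • u) = g • a (z, u)) ∧
        ∀ x, sndE (a x) = pad h x.2 := by
  have : CompactSpace (MulAction.orbitRel.Quotient (GG n₂) (EE n₂ M)) := Sys.cpt (G := GG n₂) M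
  obtain ⟨k, lam, τ, U, h1, h2, h3, h4, h5, h6, h7⟩ := exists_finite (GG n₂) (EE n₂ M)
  let b : Fin k → Z × EE n₂ M → Mat n₁ fun _ => L₀ := fun m x =>
    (lam m x.2 : ℂ) • (s₀ (inrG n₁ n₂ (τ m x.2)⁻¹ • x.1)).1
  have : ContinuousSMul ℂ (Mat n₁ fun _ => L₀) :=
    inferInstanceAs (ContinuousSMul ℂ (∀ j, Matrix (Fin (n₁ j)) (Fin L₀) ℂ))
  have hb : ∀ m, Continuous (b m) := fun m => by
    have h8 : ContinuousOn (b m) (Prod.snd ⁻¹' U m) :=
      (Complex.continuous_ofReal.comp ((h1 m).comp continuous_snd)).continuousOn.smul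
        ((continuous_subtype_val.comp hc).comp_continuousOn ((continuous_inrG.comp_continuousOn
          ((h6 m).comp continuousOn_snd fun _ h => h).inv).smul continuousOn_fst))
    refine h8.continuous_of_tsupport_subset ((h4 m).preimage continuous_snd)
      (Subset.trans (closure_minimal (fun x hx => subset_tsupport (lam m) fun h => hx ?_)
        ((isClosed_tsupport (lam m)).preimage continuous_snd)) (preimage_mono (h5 m)))
    simp only [b, h, Complex.ofReal_zero, zero_smul]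
  have hb' : ∀ m (g : GG (Sum.elim n₁ n₂)) z u,
      b m (g • z, sndG _ _ g • u) = fstG _ _ g • b m (z, u) := fun m g z u => by
    by_cases h : lam m u = 0
    · simp only [b, h2, h, Complex.ofReal_zero, zero_smul, smul_zero]
    · have h8 := h7 m (sndG _ _ g) u (h5 m (subset_tsupport _ h))
      have h9 : inrG n₁ n₂ (sndG _ _ g * τ m u)⁻¹ • g • z =
          (inrG n₁ n₂ (sndG _ _ g * τ m u)⁻¹ * g * inrG n₁ n₂ (τ m u)) •
            inrG n₁ n₂ (τ m u)⁻¹ • z := by
        rw [smul_smul, smul_smul, map_inv _ (τ m u), mul_inv_cancel_right]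
      simp only [b, h2, h8]
      rw [h9, hs _ (by
        rw [map_mul, map_mul]
        change (sndG _ _ g * τ m u)⁻¹ * sndG _ _ g * τ m u = 1
        rw [mul_assoc, inv_mul_cancel]), map_mul, map_mul]
      change _ • (1 * fstG _ _ g * 1) • _ = _
      rw [one_mul, mul_one]
      exact funext fun j => (Matrix.mul_smul (fstG _ _ g j).1 (lam m u : ℂ)
        ((s₀ (inrG n₁ n₂ (τ m u)⁻¹ • z)).1 j)).symm
  let ι : Fin k → Fin L₀ → Fin (k * L₀) := fun m p => finProdFinEquiv (m, p)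
  have hι : ∀ m, Injective (ι m) := fun m p q e =>
    congrArg Prod.snd (finProdFinEquiv.injective e)
  let s : Z × EE n₂ M → EE n₁ (k * L₀) := fun x => ⟨fun j => ∑ m, b m x j * Pm (ι m), fun j => by
    obtain ⟨m, hm⟩ := h3 x.2
    refine surj_of_mul ((s₀ (inrG n₁ n₂ (τ m x.2)⁻¹ • x.1)).2 j) (Pm (ι m))ᵀ
      (Complex.ofReal_ne_zero.2 hm) ?_
    dsimp only
    rw [Matrix.sum_mul, Finset.sum_eq_single m (fun m' _ h => by
      rw [Matrix.mul_assoc, Pm_disj fun p q e => h (congrArg Prod.fst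
        (finProdFinEquiv.injective e)), Matrix.mul_zero]) (fun h => absurd (Finset.mem_univ _) h),
      Matrix.mul_assoc, Pm_self (hι m), Matrix.mul_one]
    rfl⟩
  have hs1 : Continuous s := Continuous.subtype_mk (continuous_pi fun j =>
    continuous_finsetSum _ fun m _ => ((continuous_apply j).comp (hb m)).matrix_mul
      continuous_const) _
  have hs2 : ∀ (g : GG (Sum.elim n₁ n₂)) z u, s (g • z, sndG _ _ g • u) = fstG _ _ g • s (z, u) :=
    fun g z u => Subtype.ext (funext fun j => by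
      change ∑ m, b m (g • z, sndG _ _ g • u) j * Pm (ι m) =
        (fstG _ _ g j).1 * ∑ m, b m (z, u) j * Pm (ι m)
      rw [Matrix.mul_sum]
      exact Finset.sum_congr rfl fun m _ => by
        rw [hb']
        exact Matrix.mul_assoc _ _ _)
  refine ⟨k * L₀ + M, Nat.le_add_left _ _, fun x => joinE (pad (Nat.le_add_right _ _) (s x))
    (pad (Nat.le_add_left _ _) x.2), continuous_joinE.comp
      (((continuous_pad (Nat.le_add_right _ _)).comp hs1).prodMk
      ((continuous_pad (Nat.le_add_left _ _)).comp continuous_snd)), fun g z u => ?_, fun _ => rfl⟩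
  dsimp only
  rw [← joinE_smul, hs2, pad_smul, pad_smul]

end prod

open Flav KN Four

variable {I E Φ : Type} {Q : Quiv I E} [Fintype Φ] [Fintype I] [Fintype E] {A : Flav Q Φ}
  {ν : I → ℤ}

theorem exists_gen_Zst (hν : A.Regular ν) : ∃ (L₀ : ℕ) (s₀ : A.Zst ν → EE Q.v L₀), Continuous s₀ ∧
    ∀ g : GG (Q.nn Φ), sndG _ _ g = 1 → ∀ z, s₀ (g • z) = fstG _ _ g • s₀ z := by
  obtain ⟨θ, hθ, a, -, ha, -, -, -, h⟩ := exists_maps hν
  obtain ⟨L, c, h1, h2, h3⟩ := exists_gens Q.qd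
  refine ⟨L, fun z => ⟨c (pt (a (z, 0)).1), h3 _ (hθ.stR_zero one_ne_zero fun ξ => by
    rw [one_mul, mu_pt]; exact (a (z, 0)).2 ξ)⟩, Continuous.subtype_mk ?_ _, fun g hg z => ?_⟩
  · have h4 : Continuous fun z : A.Zst ν => (a (z, 0)).1 := by fun_prop
    exact (h2.comp (cont_pt h4).val).congr fun z => congrArg c (unval_val _)
  · have h4 : Flav.fl Q Φ g = 1 := funext fun b =>
      (congrArg GeneralLinearGroup.det (congrFun hg b)).trans (map_one _)
    have h5 : lg g = 0 := funext fun b => by simp [lg, h4]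
    have h6 := h g z 0
    rw [h5, add_zero] at h6
    refine Subtype.ext (funext fun i => ?_)
    change c (pt (a (g • z, 0)).1) i = ga Q Φ g i * c (pt (a (z, 0)).1) i
    rw [h6, SubMulAction.val_smul, pt_smul, h4, inv_one, map_one, tw_one, h1 _ _ (ga_inv g)]

instance : ContinuousConstSMul (GG fun _ : Φ => 1) (A.XX ν) :=
  ⟨fun f => (continuous_const_smul (inrG Q.v _ f)).quotient_map' _⟩

theorem isOpenQuotientMap_XF (M : ℕ) : IsOpenQuotientMap fun x : A.Zst ν × EE (fun _ : Φ => 1) M =>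
    Bor.mk (GG fun _ : Φ => 1) (A.toX ν x.1, x.2) := by
  have h1 : IsOpenQuotientMap (A.toX ν) := MulAction.isOpenQuotientMap_quotientMk
  have := (inferInstance : Prin (GG fun _ : Φ => 1) (EE (fun _ : Φ => 1) M)).cont
  have h2 : IsOpenQuotientMap (Bor.mk (GG fun _ : Φ => 1) :
    A.XX ν × EE (fun _ : Φ => 1) M → _) := MulAction.isOpenQuotientMap_quotientMk
  exact h2.comp (h1.prodMap IsOpenQuotientMap.id)

/-- Sections up to stabilization. -/
theorem exists_section (hν : A.Regular ν) (M : ℕ) : ∃ (L : ℕ) (h : M ≤ L)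
    (σ : C(Bo (fun _ : Φ => 1) (A.XX ν) M, Bo (Q.nn Φ) (A.Zst ν) L)),
    (A.toXF ν L).comp σ = incTo _ _ h ∧
      ∀ c, Cp c → H.map (A.toXF ν M) (H.map σ (c L)) = c M := by
  have := nice_Zst hν
  obtain ⟨L₀, s₀, h1, h2⟩ := exists_gen_Zst hν
  obtain ⟨L, h, a, h3, h4, h5⟩ := exists_equivariant h1 h2 M
  let q : C(A.Zst ν × EE (fun _ : Φ => 1) M, Bo (fun _ : Φ => 1) (A.XX ν) M) :=
    ⟨_, (isOpenQuotientMap_XF M).continuous⟩
  have hq : IsQuotientMap q := (isOpenQuotientMap_XF (A := A) (ν := ν) M).isQuotientMap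
  let f : C(A.Zst ν × EE (fun _ : Φ => 1) M, Bo (Q.nn Φ) (A.Zst ν) L) :=
    ⟨fun x => Bor.mk _ (x.1, a x), continuous_quotient_mk'.comp (continuous_fst.prodMk h3)⟩
  have hf : FactorsThrough f q := fun x y e => by
    obtain ⟨g, hg⟩ := Bor.mk_eq_iff.1 e
    obtain ⟨k, hk⟩ := Quotient.exact' (show A.toX ν x.1 = A.toX ν (inrG Q.v _ g • y.1) from
      (congrArg Prod.fst hg).symm)
    refine Bor.mk_eq_iff.2 ⟨k.1 * inrG Q.v _ g, ?_⟩
    have h6 : (k.1 * inrG Q.v _ g) • y.1 = x.1 := (mul_smul _ _ _).trans hk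
    have h7 : sndG _ _ (k.1 * inrG Q.v _ g) • y.2 = x.2 := by
      rw [map_mul, show sndG _ _ k.1 = 1 from k.2, one_mul]
      exact congrArg Prod.snd hg
    exact Prod.ext h6 ((h4 _ y.1 y.2).symm.trans (congrArg a (Prod.ext h6 h7)))
  have h6 : ∀ x : A.Zst ν × EE (fun _ : Φ => 1) M,
      hq.lift f hf (q x) = Bor.mk _ (x.1, a x) :=
    fun x => congrArg (· x) (hq.lift_comp f hf)
  refine ⟨L, h, hq.lift f hf, ContinuousMap.ext fun x => ?_, fun c hc => ?_⟩
  · obtain ⟨x, rfl⟩ := hq.surjective x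
    rw [ContinuousMap.comp_apply, h6]
    exact congrArg (fun u => Bor.mk _ (A.toX ν x.1, u)) (h5 x)
  · rw [H.map_map, ← hc.ov ⟨fun x => a (x.1, sndE x.2), h3.comp (continuous_fst.prodMk
      (continuous_sndE.comp continuous_snd))⟩ fun g x => h4 g x.1 (sndE x.2)]
    exact congrArg (H.map · _) (cext fun x => h6 (x.1, sndE x.2))

variable (A ν) in
/-- The pull-back of families. -/
noncomputable def pbk : (∀ M, H (Bo (fun _ : Φ => 1) (A.XX ν) M)) →+*
    ∀ M, H (Bo (Q.nn Φ) (A.Zst ν) M) :=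
  RingHom.pi fun M => (H.map (A.toXF ν M)).comp (Pi.evalRingHom _ M)

theorem pbk_apply (d : ∀ M, H (Bo (fun _ : Φ => 1) (A.XX ν) M)) (M : ℕ) :
    pbk A ν d M = H.map (A.toXF ν M) (d M) := rfl

theorem pbk_deg {k : ℤ} {d : ∀ M, H (Bo (fun _ : Φ => 1) (A.XX ν) M)} (h : d ∈ HGdeg _ _ k) :
    pbk A ν d ∈ HGdeg _ _ k := fun M => ⟨by
  rw [pbk_apply, pbk_apply, ← (h M).1, H.map_map, H.map_map]
  exact congrArg (H.map · _) (cext fun _ => rfl), (h M).2.map _⟩

theorem pbk_inj (hν : A.Regular ν) {d d' : ∀ M, H (Bo (fun _ : Φ => 1) (A.XX ν) M)} (h : Cp d)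
    (h' : Cp d') (e : pbk A ν d = pbk A ν d') : d = d' := funext fun M => by
  obtain ⟨L, hL, σ, h1, -⟩ := exists_section hν M
  rw [← h.incTo hL, ← h'.incTo hL, ← h1, ← H.map_map, ← H.map_map]
  exact congrArg (H.map σ) (congrFun e L)

theorem pbk_surj (hν : A.Regular ν) {k : ℤ} {c : ∀ M, H (Bo (Q.nn Φ) (A.Zst ν) M)}
    (h : c ∈ HGdeg _ _ k) : ∃ d ∈ HGdeg _ _ k, pbk A ν d = c := by
  choose L hL σ h1 h2 using exists_section hν
  have hc : Cp c := fun M => (h M).1
  have h3 : ∀ M K (hK : L M ≤ K), H.map (incTo _ _ ((hL M).trans hK)) (H.map (σ K) (c (L K))) =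
      H.map (σ M) (c (L M)) := fun M K hK => by
    rw [← hc.incTo hK, ← h2 K c hc, H.map_map (σ M), H.map_map ((incTo _ _ hK).comp (σ M))]
    refine congrArg (H.map · _) ?_
    have h4 : (A.toXF ν K).comp (incTo _ _ hK) = (incTo _ _ hK).comp (A.toXF ν (L M)) :=
      cext fun _ => rfl
    rw [← ContinuousMap.comp_assoc, h4, ContinuousMap.comp_assoc, h1]
    exact cext fun x => congrArg (fun u => Bor.mk _ (x.1, u)) (pad_pad _ _ x.2).symm
  refine ⟨fun M => H.map (σ M) (c (L M)), fun M => ⟨?_, (h _).2.map _⟩, funext fun M => h2 M c hc⟩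
  dsimp only
  rw [← h3 M _ (le_max_left _ (L (M + 1))), ← h3 (M + 1) _ (le_max_right (L M) _), H.map_map,
    incTo_comp_inc]

theorem pbk_mem {d : ∀ M, H (Bo (fun _ : Φ => 1) (A.XX ν) M)} (h : d ∈ HG _ _) :
    pbk A ν d ∈ HG _ _ :=
  (Subring.closure_le (t := (HG _ _).comap (pbk A ν))).2 (fun _ hd =>
    let ⟨k, hk⟩ := mem_iUnion.1 hd; Subring.subset_closure (mem_iUnion.2 ⟨k, pbk_deg hk⟩)) h

variable (A ν) in
/-- The pull-back `H_F(X) → H_{G × F}(μ⁻¹(0)^st)`. -/
noncomputable def pbH : A.HX ν →+* HG (Q.nn Φ) (A.Zst ν) :=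
  ((pbk A ν).comp (HG _ _).subtype).codRestrict _ fun d => pbk_mem d.2

theorem pbH_apply (d : A.HX ν) (M : ℕ) : (pbH A ν d).1 M = H.map (A.toXF ν M) (d.1 M) := rfl

theorem pbH_bijective (hν : A.Regular ν) : Bijective (pbH A ν) := by
  refine ⟨fun d d' e => Subtype.ext (pbk_inj hν (cp_of_mem d.2) (cp_of_mem d'.2)
    (congrArg Subtype.val e)), fun c => ?_⟩
  obtain ⟨d, hd, e⟩ := (Subring.closure_le (t := (HG _ _).map (pbk A ν))).2 (fun _ hc =>
    let ⟨k, hk⟩ := mem_iUnion.1 hc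
    let ⟨d, hd, e⟩ := pbk_surj hν hk
    ⟨d, Subring.subset_closure (mem_iUnion.2 ⟨k, hd⟩), e⟩) c.2
  exact ⟨⟨d, hd⟩, Subtype.ext e⟩

theorem pbH_deg (hν : A.Regular ν) (k : ℤ) (d : A.HX ν) :
    (pbH A ν d).1 ∈ HGdeg _ _ k ↔ d.1 ∈ HGdeg _ _ k := by
  refine ⟨fun h => ?_, pbk_deg⟩
  obtain ⟨d', hd, e⟩ := pbk_surj hν h
  rwa [← pbk_inj hν (fun M => (hd M).1) (cp_of_mem d.2) e]

theorem toPt_deg {J : Type} {n : J → ℕ} (Z : Type) [TopologicalSpace Z] [MulAction (GG n) Z] {k : ℤ}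
    {r : ∀ M, H (Bo n Unit M)} (h : r ∈ HGdeg n Unit k) :
    (fun M => H.map (toPt n Z M) (r M)) ∈ HGdeg n Z k := fun M => ⟨by
  dsimp only
  rw [← (h M).1, H.map_map, H.map_map]
  exact congrArg (H.map · _) (ContinuousMap.ext fun x => Quotient.inductionOn' x fun _ => rfl),
    (h M).2.map _⟩

/-- The characteristic classes `H_G(pt) → H_G(Z)`. -/
noncomputable def chH {J : Type} (n : J → ℕ) (Z : Type) [TopologicalSpace Z] [MulAction (GG n) Z] :
    HG n Unit →+* HG n Z :=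
  ((RingHom.pi fun M => (H.map (toPt n Z M)).comp (Pi.evalRingHom _ M)).comp
    (HG n Unit).subtype).codRestrict _ fun d =>
    (Subring.closure_le (t := (HG n Z).comap
      (RingHom.pi fun M => (H.map (toPt n Z M)).comp (Pi.evalRingHom _ M)))).2 (fun _ hd =>
      let ⟨k, hk⟩ := mem_iUnion.1 hd
      Subring.subset_closure (mem_iUnion.2 ⟨k, toPt_deg Z hk⟩)) d.2

theorem chH_apply {J : Type} (n : J → ℕ) (Z : Type) [TopologicalSpace Z] [MulAction (GG n) Z]
    (r : HG n Unit) (M : ℕ) : (chH n Z r).1 M = H.map (toPt n Z M) (r.1 M) := rfl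

theorem isKirwan_iff (r : RR Q Φ) (c : A.HX ν) : A.IsKirwan ν r c ↔ pbH A ν c = chH _ _ r :=
  ⟨fun h => Subtype.ext (funext h), fun h M => congrFun (congrArg Subtype.val h) M⟩

/-- **The Kirwan map is well defined.** -/
theorem existsUnique_isKirwan (hν : A.Regular ν) (r : RR Q Φ) : ∃! c, A.IsKirwan ν r c := by
  simp only [isKirwan_iff]
  exact (pbH_bijective hν).existsUnique _

theorem pbH_phiH (hν : A.Regular ν) (r : RR Q Φ) : pbH A ν (A.phiH ν r) = chH _ _ r :=
  (isKirwan_iff r _).1 (Classical.epsilon_spec (existsUnique_isKirwan hν r).exists)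

end Vale.Agent.P291Z.Kir
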