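import Vale.Agent.P291Z.Gen1
import Vale.Agent.P291Z.FouG

/-!
# Descent along a finite stratification
-/

set_option linter.all false

namespace Vale.Agent.P291Z

open Set Function Topology Filter

variable {G : Type} [Group G] [TopologicalSpace G] [Sys G] {X : Type} [TopologicalSpace X]
  [MulAction G X] [Nice X] [ContinuousSMul G X]

theorem eres_id {f : X →[G] X} (e : ∀ x, f x = x) (β : EH G X) : eres f β = β := by
  have hf : IsHomeomorph f := by
    rw [show ⇑f = id from funext e]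
    exact IsHomeomorph.id
  conv_lhs => rw [← epush_id e β, eres_epush_homeo hf]

section cell

variable {ι α : Type} [Preorder α] {lam : X → ι} (hl : ∀ (g : G) x, lam (g • x) = lam x)

/-- a union of strata -/
def cellU (s : Set ι) : SubMulAction G X :=
  ⟨lam ⁻¹' s, fun g x h => by rwa [mem_preimage, hl]⟩

/-- a stratum inside a union of strata -/
def cellJ {C : Type} [MulAction G C] (c : C →[G] X) {s : Set ι} (h : ∀ y, lam (c y) ∈ s) :
    C →[G] cellU hl s := ⟨fun y => ⟨c y, h y⟩, fun g y => Subtype.ext (c.map_smul g y)⟩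

theorem isClosed_cellU {key : ι → α}
    (hu : ∀ x₀, ∀ᶠ x in 𝓝 x₀, lam x = lam x₀ ∨ key (lam x₀) < key (lam x)) {s : Set ι}
    (hs : ∀ μ ∈ s, ∀ ν ∈ range lam, key ν < key μ → ν ∈ s) : IsClosed (cellU hl s : Set X) :=
  ⟨isOpen_iff_mem_nhds.2 fun x hx => (hu x).mono fun y hy h =>
    hx (hy.elim (fun e => show lam x ∈ s from e ▸ h) (hs _ h _ ⟨x, rfl⟩))⟩

section step

variable {s : Set ι} {μ : ι} (hμ : μ ∉ s) (hs : IsClosed (cellU hl s : Set X))
  {C : Type} [TopologicalSpace C] [MulAction G C] [Nice C] [ContinuousSMul G C]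
  {c : C →[G] X} (hc : IsEmbedding c) (hr : range c = lam ⁻¹' {μ})
  (h : ∀ y, lam (c y) ∈ insert μ s)
include hμ hr

theorem range_cellJ : range (cellJ hl c h) =
    (range (sincl (show cellU hl s ≤ cellU hl (insert μ s) from fun _ h => Or.inr h)))ᶜ := by
  ext x
  constructor
  · rintro ⟨y, rfl⟩ ⟨z, hz⟩
    have h1 : lam (c y) = μ := hr.subset ⟨y, rfl⟩
    have h2 : lam z.1 ∈ s := z.2
    rw [show z.1 = c y from congrArg Subtype.val hz, h1] at h2
    exact hμ h2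
  · intro hx
    obtain ⟨y, hy⟩ := hr.superset (x.2.resolve_right fun h' => hx ⟨⟨x.1, h'⟩, rfl⟩)
    exact ⟨y, Subtype.ext hy⟩

include hs hc

theorem isOpenEmbedding_cellJ : IsOpenEmbedding (cellJ hl c h) :=
  ⟨hc.codRestrict _ h, by
    rw [range_cellJ hl hμ hr h]
    exact (isClosedEmbedding_sincl _ hs fun _ _ => Iff.rfl).isClosed_range.isOpen_compl⟩

theorem CQ.gy_cell [Nice (cellU hl (insert μ s))]
    (hs' : IsClosed (cellU hl (insert μ s) : Set X)) {Y : Type} [TopologicalSpace Y]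
    [MulAction G Y] [Nice Y] [ContinuousSMul G Y] {o : Y →[G] C} {O : Y →[G] X}
    (hO : IsClosedEmbedding O) (e : ∀ y, O y = c (o y)) {u : CQ G X} (hu : u.supp ⊆ range O)
    (z : EH G (cellU hl (insert μ s))) : gy O u (epush (cellU hl (insert μ s)).inclusion z) =
      gy o (pull hc.continuous u) (eres (cellJ hl c h) z) := by
  have h1 := isOpenEmbedding_cellJ hl hμ hs hc hr h
  have h2 : IsClosedEmbedding (cellU hl (insert μ s)).inclusion := hs'.isClosedEmbedding_subtypeVal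
  have h3 : IsClosedEmbedding ((cellJ hl c h).comp o) :=
    IsClosedEmbedding.of_comp h2.isEmbedding (by rwa [show ⇑O = _ from funext e] at hO)
  have h4 : IsClosedEmbedding o := IsClosedEmbedding.of_comp h1.isEmbedding h3
  have h5 : (cellU hl (insert μ s)).inclusion ⁻¹' range O ⊆ range ((cellJ hl c h).comp o) := by
    rintro x ⟨y, hy⟩
    exact ⟨y, Subtype.ext ((e y).symm.trans hy)⟩
  rw [gy_epush hO h3 (.of_isClosedEmbedding h2) (g := MulActionHom.id G) IsPr.id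
      (fun y => (e y).symm) h5 hu, epush_id fun _ => rfl,
    ← pull_pull h1.continuous h2.continuous hc.continuous fun _ => rfl,
    ← eres_gy h3 h4 h1 (g := MulActionHom.id G) IsOpenEmbedding.id (fun _ => rfl)
      (fun y ⟨x, hx⟩ => ⟨x, h1.injective hx⟩) (by
        rw [supp_pull]; exact (preimage_mono hu).trans h5), eres_id fun _ => rfl]

end step

variable {key : ι → α} (hu : ∀ x₀, ∀ᶠ x in 𝓝 x₀, lam x = lam x₀ ∨ key (lam x₀) < key (lam x))
  {B : Set ι} (hB : B.Finite) (hlB : ∀ x, lam x ∈ B)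
  {C Y : ι → Type} [∀ μ, TopologicalSpace (C μ)] [∀ μ, MulAction G (C μ)] [∀ μ, Nice (C μ)]
  [∀ μ, ContinuousSMul G (C μ)] [∀ μ, TopologicalSpace (Y μ)] [∀ μ, MulAction G (Y μ)]
  [∀ μ, Nice (Y μ)] [∀ μ, ContinuousSMul G (Y μ)] {c : ∀ μ, C μ →[G] X}
  (hc : ∀ μ ∈ B, IsEmbedding (c μ)) (hr : ∀ μ ∈ B, range (c μ) = lam ⁻¹' {μ})
  {o : ∀ μ, Y μ →[G] C μ} {O : ∀ μ, Y μ →[G] X} (hO : ∀ μ ∈ B, IsClosedEmbedding (O μ))
  (e : ∀ μ ∈ B, ∀ y, O μ y = c μ (o μ y)) {u : ι → CQ G X}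
  (hs : ∀ μ ∈ B, (u μ).supp ⊆ range (O μ))
include hu hB hlB hr hO e hs

open CQ

/-- a class whose localizations vanish outside `s` comes from the union of the strata in `s` -/
theorem cell_desc (s : Set ι) (h1 : ∀ μ ∈ s, ∀ ν ∈ B, key ν < key μ → ν ∈ s) (z : EH G X)
    (hi : ∀ μ (h : μ ∈ B), μ ∉ s → Injective (gy (o μ) (CQ.pull (hc μ h).continuous (u μ))))
    (h0 : ∀ μ ∈ B, μ ∉ s → gy (O μ) (u μ) z = 0) [Nice (cellU hl s)] :
    ∃ w, epush (cellU hl s).inclusion w = z := by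
  have hcl := fun s (h : ∀ μ ∈ s, ∀ ν ∈ B, key ν < key μ → ν ∈ s) =>
    isClosed_cellU hl hu (s := s) fun μ hμ ν ⟨x, hx⟩ => h μ hμ ν (hx ▸ hlB x)
  induction hn : (B \ s).ncard generalizing s with
  | zero =>
    have h2 : B ⊆ s := diff_eq_empty.1 ((ncard_eq_zero (hB.diff)).1 hn)
    exact ⟨_, epush_eres_homeo (isHomeomorph_iff_isEmbedding_surjective.2
      ⟨IsEmbedding.subtypeVal, fun x => ⟨⟨x, h2 (hlB x)⟩, rfl⟩⟩) z⟩
  | succ n ih =>
    obtain ⟨μ, ⟨hμ, hμ'⟩, hm⟩ := (hB.diff (t := s)).exists_minimalFor key _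
      (nonempty_of_ncard_ne_zero (by omega))
    have h2 : ∀ μ' ∈ insert μ s, ∀ ν ∈ B, key ν < key μ' → ν ∈ insert μ s := by
      rintro μ' (rfl | h) ν hν hk
      · exact Or.inr (not_not.1 fun h => hk.not_ge (hm ⟨hν, h⟩ hk.le))
      · exact Or.inr (h1 _ h _ hν hk)
    have h3 := hcl _ h1
    have h4 := hcl _ h2
    haveI := Nice.of_isLocallyClosed h4.isLocallyClosed
    obtain ⟨w, rfl⟩ := ih (insert μ s) h2 (fun ν hν h => hi ν hν fun h' => h (Or.inr h'))
      (fun ν hν h => h0 ν hν fun h' => h (Or.inr h')) (by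
        rw [← union_singleton, ← diff_diff,
          ncard_diff_singleton_of_mem (show μ ∈ B \ s from ⟨hμ, hμ'⟩), hn]; rfl)
    have h5 : ∀ y, lam (c μ y) ∈ insert μ s := fun y => Or.inl ((hr μ hμ).subset ⟨y, rfl⟩)
    have h6 := h0 μ hμ hμ'
    rw [gy_cell hl hμ' h3 (hc μ hμ) (hr μ hμ) h5 h4 (hO μ hμ) (e μ hμ) (hs μ hμ),
      map_eq_zero_iff _ (hi μ hμ hμ')] at h6
    have h7 := isClosedEmbedding_sincl
      (show cellU hl s ≤ cellU hl (insert μ s) from fun _ h => Or.inr h) h3 fun _ _ => Iff.rfl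
    obtain ⟨w', rfl⟩ := (exact_epush_eres h7
      (isOpenEmbedding_cellJ hl hμ' h3 (hc μ hμ) (hr μ hμ) h5)
      (range_cellJ hl hμ' (hr μ hμ) h5) w).1 h6
    exact ⟨w', (epush_epush (.of_isClosedEmbedding h7)
      (.of_isClosedEmbedding h4.isClosedEmbedding_subtypeVal) (fun _ => rfl) w').symm⟩

include hl

/-- **the leading term** -/
theorem cell_lead {l : ι} (hlB' : l ∈ B) (z : EH G X)
    (hi : ∀ μ (h : μ ∈ B), key l < key μ →
      Injective (gy (o μ) (CQ.pull (hc μ h).continuous (u μ))))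
    (h0 : ∀ μ ∈ B, key l < key μ → gy (O μ) (u μ) z = 0) :
    ∃ w, gy (O l) (u l) z = gy (o l) (CQ.pull (hc l hlB').continuous (u l)) w := by
  let s : Set ι := {ν | ν ≠ l ∧ ¬ key l < key ν}
  have h1 : ∀ μ, ¬ key l < key μ → ∀ ν, key ν < key μ → ν ∈ s := fun μ hμ ν h =>
    ⟨fun e => hμ (e ▸ h), fun h' => hμ (h'.trans h)⟩
  have h2 : ∀ μ ∈ insert l s, ∀ ν, key ν < key μ → ν ∈ insert l s := by
    rintro μ (rfl | h) ν hν
    · exact Or.inr (h1 _ (lt_irrefl _) ν hν)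
    · exact Or.inr (h1 _ h.2 ν hν)
  have h3 : ∀ μ ∉ insert l s, key l < key μ := fun μ h =>
    not_not.1 fun h' => h (or_iff_not_imp_left.2 fun e => ⟨e, h'⟩)
  have h4 := isClosed_cellU hl hu fun μ h ν _ => h2 μ h ν
  haveI := Nice.of_isLocallyClosed h4.isLocallyClosed
  obtain ⟨w, rfl⟩ := cell_desc hl hu hB hlB hc hr hO e hs (insert l s) (fun μ h ν _ => h2 μ h ν) z
    (fun μ h h' => hi μ h (h3 μ h')) fun μ h h' => h0 μ h (h3 μ h')
  exact ⟨_, gy_cell hl (fun h => h.1 rfl) (isClosed_cellU hl hu fun μ h ν _ => h1 μ h.2 ν)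
    (hc l hlB') (hr l hlB') (fun y => Or.inl ((hr l hlB').subset ⟨y, rfl⟩)) h4 (hO l hlB')
    (e l hlB') (hs l hlB') w⟩

/-- **injectivity** -/
theorem cell_inj (hi : ∀ μ (h : μ ∈ B), Injective (gy (o μ) (CQ.pull (hc μ h).continuous (u μ))))
    {z : EH G X} (h0 : ∀ μ ∈ B, gy (O μ) (u μ) z = 0) : z = 0 := by
  haveI : IsEmpty (cellU hl ∅) := ⟨fun x => x.2⟩
  haveI : Nice (cellU hl ∅) := Nice.of_isLocallyClosed (S := (cellU hl ∅ : Set X))
    (isClosed_cellU hl hu fun _ h => h.elim).isLocallyClosed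
  obtain ⟨w, rfl⟩ := cell_desc hl hu hB hlB hc hr hO e hs ∅ (fun _ h => h.elim) z
    (fun μ h _ => hi μ h) fun μ h _ => h0 μ h
  rw [(ENull.of_isEmpty (G := G) (X := cellU hl ∅)).subsingleton.elim w 0, map_zero]

end cell

theorem isClosedEmbedding_unit (o : Unit →[G] X) : IsClosedEmbedding o :=
  continuous_of_discreteTopology.isClosedEmbedding fun _ _ _ => rfl

namespace CQ

variable {Λ κ : Type} [Finite Λ] [LinearOrder κ] {lam : X → Λ} {key : Λ → κ}
  (hinv : ∀ (g : G) x, lam (g • x) = lam x)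
  (hkey : ∀ x₀, ∀ᶠ x in 𝓝 x₀, lam x = lam x₀ ∨ key (lam x₀) < key (lam x))
  {C : Λ → Type} [∀ l, TopologicalSpace (C l)] [∀ l, MulAction G (C l)] [∀ l, Nice (C l)]
  [∀ l, ContinuousSMul G (C l)] {j : ∀ l, C l →[G] X} (hj : ∀ l, IsEmbedding (j l))
  (hr : ∀ l, range (j l) = {x | lam x = l}) {o : Λ → Unit →[G] X} {p : ∀ l, Unit →[G] C l}
  (hp : ∀ l, j l (p l ()) = o l ()) {u : Λ → CQ G X} (hu : ∀ l, (u l).supp ⊆ range (o l))
  (hinj : ∀ l, Injective (gy (p l) (pull (hj l).continuous (u l))))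
include hinv hkey hr hp hu hinj

/-- **CELL**, leading term -/
theorem cell_lead {z : EH G X} {l : Λ} (hz : ∀ m, key l < key m → gy (o m) (u m) z = 0) :
    ∃ w, gy (o l) (u l) z = gy (p l) (pull (hj l).continuous (u l)) w :=
  P291Z.cell_lead (Y := fun _ => Unit) hinv hkey finite_univ (fun _ => trivial) (fun l _ => hj l)
    (fun l _ => hr l) (fun l _ => isClosedEmbedding_unit (o l)) (fun l _ _ => (hp l).symm)
    (fun l _ => hu l) trivial z (fun l _ _ => hinj l) fun m _ => hz m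

/-- **CELL**, injectivity -/
theorem cell_inj {z : EH G X} (hz : ∀ m, gy (o m) (u m) z = 0) : z = 0 :=
  P291Z.cell_inj (Y := fun _ => Unit) hinv hkey finite_univ (fun _ => trivial) (fun l _ => hj l)
    (fun l _ => hr l) (fun l _ => isClosedEmbedding_unit (o l)) (fun l _ _ => (hp l).symm)
    (fun l _ => hu l) (fun l _ => hinj l) fun m _ => hz m

end CQ

end Vale.Agent.P291Z
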