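import Vale.Agent.P291Z.Coul1

/-!
# Equivariance of the maps in the convolution diagram
-/

set_option linter.unusedSectionVars false

namespace Vale.Agent.P291Z.Flav

open Set Function Quiv

variable {I E Φ : Type} {Q : Quiv I E} [Fintype Φ] [Fintype I] [Fintype E] (A : Flav Q Φ)
  {n n' d d' : ℕ} {χ χ' : I → ℤ} {k k' : ℤ}

theorem shift_smul (hd : 2 * n' ≤ d') (h : GG (Sum.elim (Q.nn Φ) (Q.nn Φ)))
    (x : A.Vq n χ n' χ' d) : A.shift hd (h • x) = sndG _ _ h • A.shift hd x :=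
  Subtype.ext (Prod.ext (mulL_inv_smul h x.1.1.2 x.1.1.1.1.1.2) (funext fun k => by
    by_cases hk : k < d'
    · exact (if_pos hk).trans ((A.tr_smul h x.2.2 x.2.1 x.1.1.1.1.1.1.2.1 d _ k).trans
        (congrArg (A.rep (sndG _ _ h)) (if_pos hk).symm))
    · exact (if_neg hk).trans
        ((congrArg (A.rep (sndG _ _ h)) (if_neg hk)).trans (map_zero _)).symm))

theorem iota_smul (hd : 2 * n' ≤ d') (h : GG (Sum.elim (Q.nn Φ) (Q.nn Φ)))
    (x : A.Vq n χ n' χ' d) : A.iota hd (h • x) = h • A.iota hd x := by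
  have h1 : (A.iota hd (h • x)).1.1.2 = h • x.1.1.2 := rfl
  have h2 : (h • A.iota hd x).1.1.2 = h • x.1.1.2 := rfl
  have h3 : (A.iota hd (h • x)).1.1.1.1 = fstG _ _ h • x.1.1.1.1.1.1 := rfl
  have h4 : (h • A.iota hd x).1.1.1.1 = fstG _ _ h • x.1.1.1.1.1.1 := rfl
  have h5 : (A.iota hd (h • x)).1.1.1.2 = A.shift hd (h • x) := rfl
  have h6 : (h • A.iota hd x).1.1.1.2 = sndG _ _ h • A.shift hd x := rfl
  exact Subtype.ext (Subtype.ext (Prod.ext (Prod.ext (h3.trans h4.symm)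
    (h5.trans ((A.shift_smul hd h x).trans h6.symm))) (h1.trans h2.symm)))

theorem sig_smul (h : GG (Sum.elim (Q.nn Φ) (Q.nn Φ))) (x : A.Vp n χ n' χ' d d') :
    A.sig (h • x) = h • A.sig x :=
  funext fun k => (congrArg (fun y : A.NN => y - _)
    (A.tr_smul h x.2.2 x.2.1 x.1.1.1.1.2.1 d _ k)).trans
    (smul_sub (sndG _ _ h) (tr x.1.1.2 x.2.2 d x.1.1.1.1.1.2 k) _).symm

end Vale.Agent.P291Z.Flav
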