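import Vale.Agent.P291Z.T14

/-!
# Dimension bounds, the Leray-Hirsch theorem in high degrees
-/

namespace Vale.Agent.P291Z

open Topology Set Filter TopologicalSpace Function

variable {X Y Z U : Type} [TopologicalSpace X] [TopologicalSpace Y] [TopologicalSpace Z]
  [TopologicalSpace U]

/-- `X` locally injects continuously into `ℝ^D` -/
def HasDim (X : Type) [TopologicalSpace X] (D : ℕ) : Prop :=
  ∀ x : X, ∃ U ∈ 𝓝 x, ∃ f : X → Fin D → ℝ, ContinuousOn f U ∧ InjOn f U

theorem HasDim.at {D : ℕ} (h : HasDim Y D) {x : X} {W : Set X} (hW : W ∈ 𝓝 x) {f : X → Y}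
    (hf : ContinuousOn f W) (hi : InjOn f W) :
    ∃ U ∈ 𝓝 x, ∃ g : X → Fin D → ℝ, ContinuousOn g U ∧ InjOn g U := by
  obtain ⟨V, hV, g, hg, hg'⟩ := h (f x)
  exact ⟨W ∩ f ⁻¹' V, inter_mem hW (hf.continuousAt hW hV), g ∘ f,
    hg.comp (hf.mono inter_subset_left) fun _ h => h.2,
    hg'.comp (hi.mono inter_subset_left) fun _ h => h.2⟩

theorem HasDim.of_injective {D : ℕ} (h : HasDim Y D) {f : X → Y} (hf : Continuous f)
    (hi : Injective f) : HasDim X D :=
  fun _ => h.at univ_mem hf.continuousOn hi.injOn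

theorem HasDim.at_chart {D : ℕ} (h : HasDim Y D) {j : Y → X} (hj : IsOpenEmbedding j) (y : Y) :
    ∃ U ∈ 𝓝 (j y), ∃ g : X → Fin D → ℝ, ContinuousOn g U ∧ InjOn g U := by
  have : Nonempty Y := ⟨y⟩
  let e := hj.toOpenPartialHomeomorph j
  have hy : j y ∈ e.target := by simp [e]
  exact h.at (e.open_target.mem_nhds hy) e.continuousOn_symm e.symm.injOn

theorem hasDim_pi (D : ℕ) : HasDim (Fin D → ℝ) D :=
  fun _ => ⟨univ, univ_mem, id, continuousOn_id, injOn_id _⟩

theorem hasDim_real (V : Type) [AddCommGroup V] [Module ℝ V] [TopologicalSpace V]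
    [IsTopologicalAddGroup V] [ContinuousSMul ℝ V] [T2Space V] [FiniteDimensional ℝ V] {D : ℕ}
    (h : Module.finrank ℝ V ≤ D) : HasDim V D := by
  obtain ⟨f, hf⟩ := finrank_le_iff_exists_linearMap.1
    (show Module.finrank ℝ V ≤ Module.finrank ℝ (Fin D → ℝ) by simpa using h)
  exact (hasDim_pi D).of_injective f.continuous_of_finiteDimensional hf

theorem HasDim.mono {D D' : ℕ} (h : HasDim X D) (e : D ≤ D') : HasDim X D' := fun x => by
  obtain ⟨V, hV, f, hf, hi⟩ := h x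
  exact (hasDim_real (Fin D → ℝ) (by simpa using e)).at hV hf hi

theorem hasDim_complex (V : Type) [AddCommGroup V] [Module ℂ V] [TopologicalSpace V]
    [IsTopologicalAddGroup V] [ContinuousSMul ℂ V] [T2Space V] [FiniteDimensional ℂ V] {D : ℕ}
    (h : 2 * Module.finrank ℂ V ≤ D) : HasDim V D := by
  have e : V ≃L[ℂ] (Fin (Module.finrank ℂ V) → ℂ) := ContinuousLinearEquiv.ofFinrankEq (by simp)
  refine (hasDim_real (Fin (Module.finrank ℂ V) → ℂ) ?_).of_injective e.continuous e.injective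
  rw [Module.finrank_pi_fintype]
  simpa [mul_comm] using h

theorem HasDim.prod {D D' : ℕ} (h : HasDim X D) (h' : HasDim Y D') : HasDim (X × Y) (D + D') :=
  fun x => by
    obtain ⟨V, hV, f, hf, hi⟩ := h x.1
    obtain ⟨V', hV', f', hf', hi'⟩ := h' x.2
    exact (hasDim_real ((Fin D → ℝ) × (Fin D' → ℝ)) (by simp)).at (prod_mem_nhds hV hV')
      (hf.prodMap hf') (hi.prodMap hi')

theorem HasDim.locFin {D : ℕ} (h : HasDim X D) : Soft.LocFin (univ : Set X) := fun x _ => by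
  obtain ⟨V, hV, f, hf⟩ := h x
  exact ⟨V, hV, D, f, hf⟩

theorem hasDim_of_isEmpty [IsEmpty X] (D : ℕ) : HasDim X D := fun x => isEmptyElim x

/-- **Lawson-Spanier lemma in high degrees** -/
theorem Soft.exactOn_of_hasDim {R : Type*} [CommRing R] {K : Type*} [AddCommGroup K] [Module R K]
    [T3Space X] (S : Soft R X K) {D : ℕ} (hX : HasDim X D) {n : ℤ}
    (hs : ∀ x m, n - D - 1 ≤ m → m ≤ n → S.StalkExact x m) {A : Set X} (hA : IsCompact A) :
    S.ExactOn A n := by
  classical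
  have ex : ∀ x : X, ∃ C ∈ 𝓝 x, IsClosed C ∧ ∀ B ⊆ C, IsCompact B →
      S.ExactOn B n ∧ S.ExactOn B (n - 1) := fun x => by
    obtain ⟨N, hN, f, hf, hi⟩ := hX x
    obtain ⟨C, hC, hCc, hCs⟩ := exists_mem_nhds_isClosed_subset hN
    exact ⟨C, hC, hCc, fun B hB hc =>
      ⟨S.exactOn_of_inj D B hc f (hf.mono (hB.trans hCs)) (hi.mono (hB.trans hCs)) n
        fun y _ m h1 h2 => hs y m (by omega) h2,
      S.exactOn_of_inj D B hc f (hf.mono (hB.trans hCs)) (hi.mono (hB.trans hCs)) (n - 1)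
        fun y _ m h1 h2 => hs y m (by omega) (by omega)⟩⟩
  choose C hC hCc hCe using ex
  obtain ⟨t, -, ht⟩ := hA.elim_nhds_subcover C fun x _ => hC x
  have key : ∀ s : Finset X, S.ExactOn (A ∩ ⋃ x ∈ s, C x) n := fun s => by
    induction s using Finset.induction_on with
    | empty => simpa using S.exactOn_empty n
    | insert y s _ ih =>
      have c1 : IsCompact (A ∩ C y) := hA.inter_right (hCc y)
      have c2 : IsCompact (A ∩ ⋃ x ∈ s, C x) :=
        hA.inter_right (isClosed_biUnion_finset fun x _ => hCc x)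
      rw [Finset.set_biUnion_insert, inter_union_distrib_left]
      exact S.exactOn_union (hCe y _ inter_subset_right c1).1 ih
        (hCe y _ (inter_subset_left.trans inter_subset_right) (c1.inter c2)).2
        (Soft.sep_compact c1 c2)
  have := key t
  rwa [inter_eq_left.2 ht] at this

namespace LHData

variable {E B : Type} [TopologicalSpace E] [TopologicalSpace B] {ι : Type*} {p : E → B}
  {t : ι → Coch E} {d : ι → ℤ} (D : LHData p t d) [T2Space B] [LocallyCompactSpace B]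

theorem map_surj_of {n : ℤ} (h1 : ∀ A, IsCompact A → (Soft.cone D.isMap).ExactOn A n)
    (h0 : ∀ A, IsCompact A → (Soft.cone D.isMap).ExactOn A (n - 1)) {c : Hc E}
    (hc : c ∈ Hc.deg E n) : ∃ a : ι →₀ Hc B, (∀ j, a j ∈ Hc.deg B (n - d j)) ∧ D.map a = c := by
  obtain ⟨b, hb, hd, rfl⟩ := hc
  obtain ⟨a, h1, h2, -, h3, c, h4, h5, -, h6⟩ := Soft.surj_compact D.isMap isOpen_univ
    (fun A _ => h1 A) (fun A _ => h0 A)
    (b := b) ⟨hd, Fam.prop_of_isCompact D.cont hb.1⟩ (isCompact_asSoft_supp _ _ hb.1)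
    (subset_univ _) ((asSoft_vanOn_univ _ _).2 (supp_eq_empty.1 hb.2))
  have hz : ∀ j, a j ∈ Zc B := fun j => ⟨isCompact_supp_of_subset h2
    ((supp_subset_asSoft continuous_id _ _).trans (Soft.supp_subset_fs _ d a j)),
    supp_eq_empty.2 ((asSoft_vanOn_univ _ _).1 ((Soft.fs_vanOn _ d).1 h3 j))⟩
  refine ⟨a.mapRange cls cls_zero, fun j => cls_mem_deg ?_, ?_⟩
  · have := (h1 j).1
    rwa [sub_zero] at this
  · rw [D.map_cls hz]
    exact (cls_eq_of_Bc ⟨c, isCompact_supp_of_prop _ _ h4.2 h5,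
      supp_eq_empty.2 ((asSoft_vanOn_univ _ _).1 h6)⟩).symm

theorem map_inj_of {n : ℤ} (e1 : ∀ A, IsCompact A → (Soft.cone D.isMap).ExactOn A (n - 1))
    (e0 : ∀ A, IsCompact A → (Soft.cone D.isMap).ExactOn A (n - 1 - 1)) {a : ι →₀ Hc B}
    (ha : ∀ j, a j ∈ Hc.deg B (n - d j)) (h : D.map a = 0) : a = 0 := by
  classical
  have ex : ∀ j, ∃ b ∈ Zc B, IsDeg (n - d j) b ∧ cls b = a j ∧ (a j = 0 → b = 0) := fun j => by
    by_cases hj : a j = 0
    · exact ⟨0, (Zc B).zero_mem, isDeg_zero _, by rw [hj, cls_zero], fun _ => rfl⟩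
    · obtain ⟨b, h1, h2, h3⟩ := ha j
      exact ⟨b, h1, h2, h3, fun h => absurd h hj⟩
  choose b k1 k2 k3 k4 using ex
  let b' : ι →₀ Coch B := Finsupp.onFinset a.support b fun j hj =>
    Finsupp.mem_support_iff.2 fun h => hj (k4 j h)
  have e : b'.mapRange cls cls_zero = a := Finsupp.ext k3
  rw [← e, D.map_cls k1, cls_eq_zero (D.lh_Zc k1)] at h
  obtain ⟨c, h1, h2, h3⟩ := Bc.exists_deg h (D.lh_deg (a := b') k2)
  obtain ⟨a', -, h4, -, h5⟩ := Soft.inj_compact D.isMap isOpen_univ (n := n)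
    (fun A _ => e1 A) (fun A _ => e0 A) (a := b')
    (fun j => ⟨by rw [sub_zero]; exact k2 j, trivial⟩)
    ((b'.support.isCompact_biUnion fun j _ => isCompact_asSoft_supp continuous_id _
      (k1 j).1).of_isClosed_subset (Soft.isClosed_supp _ _) (Soft.fs_supp _ d b'))
    (subset_univ _) ((Soft.fs_vanOn _ d).2 fun j => (asSoft_vanOn_univ _ _).2
      (supp_eq_empty.1 (k1 j).2)) (c := c) ⟨h1, Fam.prop_of_isCompact D.cont h2⟩
    (isCompact_asSoft_supp _ _ h2) (subset_univ _) ((asSoft_vanOn_univ _ _).2 h3)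
  exact Finsupp.ext fun j => by
    rw [← k3 j]
    exact cls_of_mem_Bc ⟨a' j, isCompact_supp_of_subset h4
      ((supp_subset_asSoft continuous_id _ _).trans (Soft.supp_subset_fs _ d a' j)),
      supp_eq_empty.2 ((asSoft_vanOn_univ _ _).1 ((Soft.fs_vanOn _ d).1 h5 j))⟩

variable [MetrizableSpace E] [LocallyCompactSpace E] {F : B → Type} [∀ x, TopologicalSpace (F x)]
  {i : ∀ x, F x → E} (hi : ∀ x, IsFib p x (i x)) {N : ℕ} (hB : HasDim B N) {k : ℤ}
  (hs : ∀ x n, k ≤ n → ∀ c ∈ Hc.deg (F x) n,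
    c ∈ Submodule.span ℂ (range fun j => cls (pull (i x) (t j))))
  (hl : ∀ x n, k ≤ n → LinearIndepOn ℂ (fun j => cls (pull (i x) (t j))) {j | d j = n})
include hi hB hs hl

theorem cone_exact_high {n : ℤ} (hn : k + N + 1 ≤ n) (A : Set B) (hA : IsCompact A) :
    (Soft.cone D.isMap).ExactOn A n :=
  Soft.exactOn_of_hasDim _ hB (fun x m h1 _ => (Soft.exactOn_singleton _).1
    (Soft.cone_exactOn D.isMap (D.stalk_surj (hi x) (hs x m (by omega)))
      (D.stalk_inj (hi x) (hl x _ (by omega))))) hA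

/-- **Leray-Hirsch in high degrees**, surjectivity -/
theorem map_surj_high {n : ℤ} (hn : k + N + 2 ≤ n) {c : Hc E} (hc : c ∈ Hc.deg E n) :
    ∃ a : ι →₀ Hc B, (∀ j, a j ∈ Hc.deg B (n - d j)) ∧ D.map a = c :=
  D.map_surj_of (D.cone_exact_high hi hB hs hl (by omega))
    (D.cone_exact_high hi hB hs hl (by omega)) hc

/-- **Leray-Hirsch in high degrees**, injectivity -/
theorem map_inj_high {n : ℤ} (hn : k + N + 3 ≤ n) {a : ι →₀ Hc B}
    (ha : ∀ j, a j ∈ Hc.deg B (n - d j)) (h : D.map a = 0) : a = 0 :=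
  D.map_inj_of (D.cone_exact_high hi hB hs hl (by omega))
    (D.cone_exact_high hi hB hs hl (by omega)) ha h

end LHData

/-- no cohomology with compact supports in degrees greater than `a` -/
def Top (X : Type) [TopologicalSpace X] (a : ℤ) : Prop := ∀ n, a < n → ∀ c ∈ Hc.deg X n, c = 0

theorem Top.mono {a b : ℤ} (h : Top X a) (e : a ≤ b) : Top X b :=
  fun n hn => h n (e.trans_lt hn)

theorem Top.of_subsingleton (h : Subsingleton (Hc X)) (a : ℤ) : Top X a :=
  fun _ _ _ _ => Subsingleton.elim _ _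

theorem Top.of_isEmpty [IsEmpty X] (a : ℤ) : Top X a := fun _ _ c _ => by
  obtain ⟨b, -, rfl⟩ := cls_surj c
  rw [Subsingleton.elim b 0, cls_zero]

theorem IsGen.top {d : ℤ} {t : Coch X} (h : IsGen d t) : Top X d :=
  fun _ hn _ hc => h.eq_zero hn.ne' hc

theorem Top.of_homeomorph {a : ℤ} (h : Top Y a) (e : X ≃ₜ Y) : Top X a := fun n hn c hc => by
  have := h n hn _ (Hc.pull_deg (IsPr.of_homeomorph e.symm) hc)
  exact (Hc.equiv e.symm).injective (by rw [Hc.equiv_apply, this, map_zero])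

theorem Top.of_isHomeomorph {a : ℤ} (h : Top Y a) {e : X → Y} (he : IsHomeomorph e) : Top X a :=
  h.of_homeomorph (he.homeomorph e)

theorem Top.of_fib {E B : Type} [TopologicalSpace E] [TopologicalSpace B] [T2Space B]
    [LocallyCompactSpace B] [MetrizableSpace E] [LocallyCompactSpace E] {F : B → Type}
    [∀ x, TopologicalSpace (F x)] {i : ∀ x, F x → E} {p : E → B} (hp : Continuous p)
    (hi : ∀ x, IsFib p x (i x)) {N : ℕ} (hB : HasDim B N) {a : ℤ} (h : ∀ x, Top (F x) a) :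
    Top E (a + N + 2) := fun n hn c hc => by
  have D : LHData p (Empty.elim : Empty → Coch E) Empty.elim :=
    ⟨hp, fun j => j.elim, fun j => j.elim, fun j => j.elim, fun j => j.elim⟩
  obtain ⟨a, -, rfl⟩ := D.map_surj_high hi hB (k := a + 1) (fun x n hn c hc => by
    rw [h x n (by omega) c hc]; exact Submodule.zero_mem _)
    (fun x n _ => linearIndependent_empty_type.linearIndepOn _) (by omega) hc
  rw [Subsingleton.elim a 0, map_zero]

theorem HasDim.top [MetrizableSpace X] [LocallyCompactSpace X] {N : ℕ} (h : HasDim X N) :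
    Top X (N + 2) := by
  have := Top.of_fib (F := fun _ : X => Unit) (i := fun x _ => x) continuous_id
    (fun x => ⟨(continuous_const.isClosedEmbedding (fun _ _ _ => rfl)), by
      ext y; simp [eq_comm]⟩) h fun _ => (isGen_one acyc_of_subsingleton).top
  rwa [zero_add] at this

theorem Top.prod [T2Space X] [LocallyCompactSpace X] [MetrizableSpace Z] [LocallyCompactSpace Z]
    {p₁ : Z → X} {p₂ : Z → Y} (h : IsHomeomorph fun z => (p₁ z, p₂ z)) {a b : ℤ} (h₁ : Top X a)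
    (h₂ : Top Y b) : Top Z (a + b) := fun n hn c hc => by
  rw [← Hc.comp_of_mem hc]
  refine Hc.cross_induction h (P := fun c => Hc.comp n c = 0) (map_zero _)
    (fun _ _ h h' => by rw [map_add, h, h', add_zero]) (fun c c' => ?_) c
  refine Hc.induction_deg (P := fun c => Hc.comp n (Hc.cross _ c c') = 0) c (by simp)
    (fun _ _ h h' => by rw [map_add, LinearMap.add_apply, map_add, h, h', add_zero]) fun k => ?_
  refine Hc.induction_deg (P := fun c' => Hc.comp n (Hc.cross _ (Hc.comp k c) c') = 0) c'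
    (by simp) (fun _ _ h h' => by rw [map_add, map_add, h, h', add_zero]) fun l => ?_
  by_cases hk : a < k
  · rw [h₁ k hk _ (Hc.comp_mem k c)]; simp
  by_cases hl : b < l
  · rw [h₂ l hl _ (Hc.comp_mem l c')]; simp
  exact Hc.comp_of_ne (Hc.cross_deg _ (Hc.comp_mem k c) (Hc.comp_mem l c')) (by omega)

/-- homogeneous elements in the image of a graded map have homogeneous preimages -/
theorem Hc.exists_deg_of_range {f : Hc X →ₗ[ℂ] Hc Y} {r : ℤ}
    (hf : ∀ k, ∀ c ∈ Hc.deg X k, f c ∈ Hc.deg Y (k + r)) {k : ℤ} {c : Hc X}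
    (hc : f c ∈ Hc.deg Y (k + r)) : ∃ c' ∈ Hc.deg X k, f c' = f c :=
  ⟨Hc.comp k c, Hc.comp_mem k c, by rw [← Hc.comp_map hf, Hc.comp_of_mem hc]⟩

section les

variable [MetrizableSpace X] [LocallyCompactSpace X] {i : Z → X} (hi : IsClosedEmbedding i)
  {j : U → X} (hj : IsOpenEmbedding j) (hc : range j = (range i)ᶜ)
include hi hj hc

theorem Hc.exists_push_deg {n : ℤ} {c : Hc X} (h : c ∈ Hc.deg X n)
    (e : Hc.pull (IsPr.of_isClosedEmbedding hi) c = 0) : ∃ c' ∈ Hc.deg U n, Hc.push hj c' = c := by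
  obtain ⟨c', rfl⟩ := (Hc.exact_push_pull hi hj hc c).1 e
  exact Hc.exists_deg_of_range (r := 0) (fun k c h => by rw [add_zero]; exact Hc.push_deg hj h)
    (by rwa [add_zero])

theorem Hc.exists_pull_deg {n : ℤ} {c : Hc Z} (h : c ∈ Hc.deg Z n) (e : Hc.conn hi hj hc c = 0) :
    ∃ c' ∈ Hc.deg X n, Hc.pull (IsPr.of_isClosedEmbedding hi) c' = c := by
  obtain ⟨c', rfl⟩ := (Hc.exact_pull_conn hi hj hc c).1 e
  exact Hc.exists_deg_of_range (r := 0) (fun k c h => by rw [add_zero]; exact Hc.pull_deg _ h)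
    (by rwa [add_zero])

theorem Hc.exists_conn_deg {n : ℤ} {c : Hc U} (h : c ∈ Hc.deg U n) (e : Hc.push hj c = 0) :
    ∃ c' ∈ Hc.deg Z (n - 1), Hc.conn hi hj hc c' = c := by
  obtain ⟨c', rfl⟩ := (Hc.exact_conn_push hi hj hc c).1 e
  exact Hc.exists_deg_of_range (r := 1) (fun k c h => Hc.conn_deg hi hj hc h)
    (by rwa [sub_add_cancel])

theorem Top.open_closed {a : ℤ} (h : Top U a) (h' : Top Z a) : Top X a := fun n hn c h1 => by
  obtain ⟨c', h2, rfl⟩ := Hc.exists_push_deg hi hj hc h1 (h' n hn _ (Hc.pull_deg _ h1))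
  rw [h n hn c' h2, map_zero]

theorem Top.push_surj {a n : ℤ} (h : Top Z a) (hn : a < n) {c : Hc X} (h1 : c ∈ Hc.deg X n) :
    ∃ c' ∈ Hc.deg U n, Hc.push hj c' = c :=
  Hc.exists_push_deg hi hj hc h1 (h n hn _ (Hc.pull_deg _ h1))

theorem Top.push_inj {a n : ℤ} (h : Top Z a) (hn : a + 1 < n) {c : Hc U} (h1 : c ∈ Hc.deg U n)
    (e : Hc.push hj c = 0) : c = 0 := by
  obtain ⟨c', h2, rfl⟩ := Hc.exists_conn_deg hi hj hc h1 e
  rw [h _ (by omega) c' h2, map_zero]

end les

end Vale.Agent.P291Z
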