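import Vale.Agent.P291Z.Lat.L8
import Vale.Agent.P291Z.Lat.L7
import Vale.Agent.P291Z.TSys

/-!
# The groups `An` as equivariant Borel-Moore homology groups of one truncation
-/

set_option linter.all false

namespace Vale.Agent.P291Z

open Set Function Topology Quiv Lt

theorem exists_seq {X : ℕ → Type} [∀ d, Zero (X d)] {a : ℕ} (g : ∀ d, X (d + 1) → X d)
    (hg : ∀ d, a ≤ d → Bijective (g d)) {d₀ : ℕ} (h : a ≤ d₀) (z : X d₀) :
    ∃ F : ∀ d, X d, F d₀ = z ∧ ∀ d, a ≤ d → g d (F (d + 1)) = F d := by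
  induction d₀, h using Nat.le_induction with
  | base =>
    let F : ∀ d, a ≤ d → X d := fun d h =>
      Nat.leRec (motive := fun d _ => X d) z (fun d hd x => surjInv (hg d hd).2 x) h
    refine ⟨fun d => if h : a ≤ d then F d h else 0, (dif_pos le_rfl).trans
      (Nat.leRec_self _ _), fun d hd => ?_⟩
    beta_reduce
    rw [dif_pos hd, dif_pos (hd.trans d.le_succ)]
    exact (congrArg (g d) (Nat.leRec_succ _ _ hd)).trans (surjInv_eq _ _)
  | succ d hd ih =>
    obtain ⟨F, h1, h2⟩ := ih (g d z)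
    exact ⟨F, (hg d hd).1 ((h2 d hd).trans h1), h2⟩

theorem seq_induction {P : ℕ → Prop} {a d₀ : ℕ} (h : a ≤ d₀) (h0 : P d₀)
    (hP : ∀ d, a ≤ d → (P (d + 1) ↔ P d)) : ∀ d, a ≤ d → P d := by
  have key : ∀ d, a ≤ d → (P d ↔ P a) := fun d hd => by
    induction d, hd using Nat.le_induction with
    | base => rfl
    | succ d hd ih => exact (hP d hd).trans ih
  exact fun d hd => (key d hd).2 ((key d₀ h).1 h0)

theorem EH.mem_deg_of_inj {G G' Z Z' : Type} [Group G] [TopologicalSpace G] [Sys G] [Group G']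
    [TopologicalSpace G'] [Sys G'] [TopologicalSpace Z] [MulAction G Z] [Nice Z]
    [ContinuousSMul G Z] [TopologicalSpace Z'] [MulAction G' Z'] [Nice Z'] [ContinuousSMul G' Z']
    {φ : EH G Z →ₗ[ℂ] EH G' Z'} {c : ℤ} (hi : Injective φ)
    (h : ∀ k, ∀ β ∈ EH.deg G Z k, φ β ∈ EH.deg G' Z' (k + c)) {k : ℤ} {β : EH G Z}
    (hβ : φ β ∈ EH.deg G' Z' (k + c)) : β ∈ EH.deg G Z k := by
  rw [← hi ((EH.comp_map h k β).symm.trans (EH.comp_of_mem hβ))]
  exact EH.comp_mem k β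

/-- base change for the Gysin map of a section -/
theorem egys_eul_epush_sq {G X Y X' Y' W : Type} [Group G] [TopologicalSpace G] [Sys G]
    [TopologicalSpace X] [MulAction G X] [Nice X] [ContinuousSMul G X]
    [TopologicalSpace Y] [MulAction G Y] [Nice Y] [ContinuousSMul G Y]
    [TopologicalSpace X'] [MulAction G X'] [Nice X'] [ContinuousSMul G X']
    [TopologicalSpace Y'] [MulAction G Y'] [Nice Y'] [ContinuousSMul G Y']
    [AddCommGroup W] [Module ℂ W] [TopologicalSpace W] [DistribMulAction G W] {r : ℕ}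
    (hW : IsRep G W r) {i : Y →[G] X} (hi : IsClosedEmbedding i) {i' : Y' →[G] X'}
    (hi' : IsClosedEmbedding i') {f : X' →[G] X} (hf : IsPr f) {g : Y' →[G] Y} (hg : IsPr g)
    (hsq : ∀ y, f (i' y) = i (g y)) {σ : X →[G] W} (hσ : Continuous σ) {σ' : X' →[G] W}
    (e : ∀ x, σ (f x) = σ' x) (hr : range i = σ ⁻¹' {0}) (hr' : σ' ⁻¹' {0} ⊆ range i')
    (β : EH G X') : egys i (eul σ) (epush f β) = epush g (egys i' (eul σ') β) := by
  obtain rfl : σ.comp f = σ' := MulActionHom.ext e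
  have h0 : f ⁻¹' range i ⊆ range i' := hr ▸ hr'
  have h1 : IsCoc (range i) r (eul σ) := hr ▸ isCoc_eul hW hσ
  rw [egys_epush hi hi' hf hg hsq h0 h1, egys_congr hi' ((h1.pull (range_inv _) hf.cont).mono h0)
    ((isCoc_eul hW (σ := σ.comp f) (hσ.comp hf.cont)).mono hr') fun M =>
      (eul_pull hW hσ hf.cont M).mono (bset_mono hr' M)]

theorem Flav.Cap_iff {X : Type} [TopologicalSpace X] [Nice X] {c : H X} {β β' : BM X} :
    Cap c β β' ↔ cap c β = β' := by
  have key : ∀ t : Zs X, Gys id t.1 β β' ↔ cap (H.mk t) β = β' := fun t => by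
    rw [Gys_iff IsClosedEmbedding.id t.2 (by simp), gys_id_eq_cap t.2, hcls_val]
  refine ⟨fun h => ?_, fun h t ht => (key t).2 (ht ▸ h)⟩
  obtain ⟨t, rfl⟩ := H.mk_surj c
  exact (key t).1 (h t rfl)

namespace Flav

variable {I E Φ : Type} {Q : Quiv I E} [Fintype Φ] [Fintype I] [Fintype E] {A : Flav Q Φ}
  {n : ℕ} {χ : I → ℤ} {d : ℕ} {k : ℤ}

theorem dimN_nonneg : 0 ≤ Q.dimN := by unfold Quiv.dimN; positivity

theorem toNat_dimN : (Q.dimN.toNat : ℤ) = Q.dimN := Int.toNat_of_nonneg dimN_nonneg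

variable (A n χ d)

/-- the Gysin map from the truncation `d + 1` to the truncation `d` -/
noncomputable def gD : EH (GG (Q.nn Φ)) (A.RS n χ (d + 1)) →ₗ[ℂ] EH (GG (Q.nn Φ)) (A.RS n χ d) :=
  egys (A.incDE n χ d) (eul (A.secE n χ (d + 1) d))

theorem isCoc_gD : IsCoc (range (A.incDE n χ d)) Q.dimN.toNat (eul (A.secE n χ (d + 1) d)) := by
  rw [range_incDE]
  exact isCoc_eul A.isRep_NN (A.continuous_secE _ _ _ _)

variable {A n χ d}

theorem gD_apply (β : EH (GG (Q.nn Φ)) (A.RS n χ (d + 1))) (M : ℕ) : (A.gD n χ d β).1 M =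
    gys (smap (A.incDE n χ d) M) (eul (A.secE n χ (d + 1) d) M) (β.1 M) :=
  egys_apply (A.isClosedEmbedding_incDE n χ d) (A.isCoc_gD n χ d) β M

theorem gD_deg {β : EH (GG (Q.nn Φ)) (A.RS n χ (d + 1))} (h : β ∈ EH.deg _ _ k) :
    A.gD n χ d β ∈ EH.deg _ _ (k - 2 * Q.dimN) := by
  have := egys_deg (A.isClosedEmbedding_incDE n χ d) (A.isCoc_gD n χ d) h
  rwa [toNat_dimN] at this

theorem gD_smul (r : HS (GG (Q.nn Φ)) Unit) (β : EH (GG (Q.nn Φ)) (A.RS n χ (d + 1))) :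
    A.gD n χ d (r • β) = r • A.gD n χ d β :=
  egys_smul (A.isClosedEmbedding_incDE n χ d) (A.isCoc_gD n χ d) r β

theorem gD_bijective (hd : 2 * n ≤ d) : Bijective (A.gD n χ d) :=
  egys_bijective (A.isClosedEmbedding_incDE n χ d) (A.isCoc_gD n χ d)
    (cgys_eul_bijective A.isRep_NN (A.isHomeomorph_dropE χ hd) (A.dropE_incDE χ hd)
      fun x => x.2.2.1 d le_rfl)

theorem Gys_incD_iff {β : EH (GG (Q.nn Φ)) (A.RS n χ (d + 1))} {β' : EH (GG (Q.nn Φ)) (A.RS n χ d)} :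
    (∀ M, Gys (A.incD M) (euler (fun x : A.RS n χ (d + 1) × EE _ M => x.1.1.2 d) fun _ _ => rfl)
      (β.1 M) (β'.1 M)) ↔ A.gD n χ d β = β' := by
  have key := fun M => Gys_iff (isClosedEmbedding_smap (A.isClosedEmbedding_incDE n χ d) M)
    ((A.isCoc_gD n χ d).isCo M).cocycle ((A.isCoc_gD n χ d).isCo M).supp
    (β := β.1 M) (β' := β'.1 M)
  exact ⟨fun h => EH.ext fun M => (gD_apply β M).trans ((key M).1 (h M)),
    fun h M => (key M).2 ((gD_apply β M).symm.trans (by rw [h]))⟩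

theorem incDE_val (x : A.RS n χ d) : (A.incDE n χ d x).1 = x.1 := Subtype.coe_mk x.1 _

theorem incNE_incDE (x : A.RS n χ d) :
    A.incNE n χ (d + 1) (A.incDE n χ d x) = A.incDE (n + 1) χ d (A.incNE n χ d x) :=
  Subtype.ext (((A.incNE_val n χ (d + 1) _).trans (incDE_val x)).trans
    ((incDE_val _).trans (A.incNE_val n χ d x)).symm)

theorem secE_incNE (j : ℕ) (x : A.RS n χ d) :
    A.secE (n + 1) χ d j (A.incNE n χ d x) = A.secE n χ d j x :=
  congrArg (fun y : Q.Lat × (ℕ → A.NN) => y.2 j) (A.incNE_val n χ d x)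

theorem gD_epush_incNE (β : EH (GG (Q.nn Φ)) (A.RS n χ (d + 1))) :
    A.gD (n + 1) χ d (epush (A.incNE n χ (d + 1)) β) = epush (A.incNE n χ d) (A.gD n χ d β) :=
  egys_eul_epush_sq A.isRep_NN (A.isClosedEmbedding_incDE _ χ d) (A.isClosedEmbedding_incDE n χ d)
    (IsPr.of_isClosedEmbedding (A.isClosedEmbedding_incNE n χ (d + 1)))
    (IsPr.of_isClosedEmbedding (A.isClosedEmbedding_incNE n χ d)) incNE_incDE
    (A.continuous_secE _ _ _ _) (secE_incNE d) (A.range_incDE _ _ _) (A.range_incDE _ _ _).ge β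

/-- the class at the truncation `d` -/
noncomputable def An.at (d : ℕ) (hd : 2 * n ≤ d) :
    A.An n χ k →ₗ[ℂ] EH (GG (Q.nn Φ)) (A.RS n χ d) where
  toFun β := EH.mk (β.1 d) (isFam_iff.1 ((β.2 d).2 hd).1)
  map_add' _ _ := rfl
  map_smul' _ _ := rfl

theorem An.at_val (hd : 2 * n ≤ d) (β : A.An n χ k) : (An.at d hd β).1 = β.1 d := rfl

theorem An.at_deg (hd : 2 * n ≤ d) (β : A.An n χ k) :
    An.at d hd β ∈ EH.deg _ _ (k + 2 * Q.idx χ + 2 * d * Q.dimN) :=
  isFam_iff.1 ((β.2 d).2 hd).1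

theorem An.gD_at (hd : 2 * n ≤ d) (β : A.An n χ k) :
    A.gD n χ d (An.at (d + 1) (hd.trans d.le_succ) β) = An.at d hd β :=
  Gys_incD_iff.1 ((β.2 d).2 hd).2

theorem An.at_injective (hd : 2 * n ≤ d) : Injective (An.at d hd : A.An n χ k → _) := by
  rw [injective_iff_map_eq_zero]
  intro β h
  have key := seq_induction (P := fun d => ∀ hd : 2 * n ≤ d, An.at d hd β = 0) hd (fun _ => h)
    fun d hd => ⟨fun h1 _ => by rw [← An.gD_at hd, h1, map_zero], fun h1 _ =>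
      (gD_bijective hd).1 ((An.gD_at hd β).trans ((h1 hd).trans (map_zero _).symm))⟩
  refine Subtype.ext (funext fun d => ?_)
  rcases lt_or_ge d (2 * n) with h1 | h1
  · exact (β.2 d).1 h1
  · exact congrArg Subtype.val (key d h1 h1)

theorem An.exists_at (hd : 2 * n ≤ d) {z : EH (GG (Q.nn Φ)) (A.RS n χ d)}
    (hz : z ∈ EH.deg _ _ (k + 2 * Q.idx χ + 2 * d * Q.dimN)) :
    ∃ β : A.An n χ k, An.at d hd β = z := by
  obtain ⟨F, h1, h2⟩ := exists_seq (X := fun d => EH (GG (Q.nn Φ)) (A.RS n χ d))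
    (fun d => A.gD n χ d) (fun d hd => gD_bijective hd) hd z
  have key := seq_induction (P := fun d => F d ∈ EH.deg _ _ (k + 2 * Q.idx χ + 2 * d * Q.dimN))
    hd (h1.symm ▸ hz) fun d hd => by
      have e : k + 2 * Q.idx χ + 2 * d * Q.dimN =
          k + 2 * Q.idx χ + 2 * (d + 1 : ℕ) * Q.dimN + -(2 * Q.dimN) := by push_cast; ring
      rw [← h2 d hd, e]
      exact ⟨gD_deg, EH.mem_deg_of_inj (gD_bijective hd).1 fun _ _ => gD_deg⟩
  have e : ∀ d, 2 * n ≤ d → (if d < 2 * n then 0 else (F d).1) = (F d).1 :=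
    fun d hd => if_neg (not_lt.2 hd)
  refine ⟨⟨fun d => if d < 2 * n then 0 else (F d).1, fun d => ⟨fun h => if_pos h, fun hd => ?_⟩⟩,
    Subtype.ext ((e d hd).trans (congrArg Subtype.val h1))⟩
  have key2 : ∀ a b, a = (F d).1 → b = (F (d + 1)).1 →
      IsFam (k + 2 * Q.idx χ + 2 * d * Q.dimN) a ∧ ∀ M, Gys (A.incD M)
        (euler (fun x : A.RS n χ (d + 1) × EE _ M => x.1.1.2 d) fun _ _ => rfl) (b M) (a M) := by
    rintro _ _ rfl rfl
    exact ⟨isFam_iff.2 (key d hd), Gys_incD_iff.2 (h2 d hd)⟩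
  exact key2 _ _ (e d hd) (e (d + 1) (hd.trans d.le_succ))

variable (A χ k) in
/-- `An` is the equivariant homology of one truncation -/
noncomputable def anE (hd : 2 * n ≤ d) : A.An n χ k ≃ₗ[ℂ]
    EH.deg (GG (Q.nn Φ)) (A.RS n χ d) (k + 2 * Q.idx χ + 2 * d * Q.dimN) :=
  LinearEquiv.ofBijective ((An.at d hd).codRestrict _ (An.at_deg hd))
    ⟨fun _ _ h => An.at_injective hd (congrArg Subtype.val h),
      fun z => (An.exists_at hd z.2).imp fun _ h => Subtype.ext h⟩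

theorem anE_val (hd : 2 * n ≤ d) (β : A.An n χ k) : (A.anE χ k hd β).1 = An.at d hd β := rfl

theorem at_anE_symm (hd : 2 * n ≤ d) (z) : An.at d hd ((A.anE χ k hd).symm z) = z.1 :=
  congrArg Subtype.val ((A.anE χ k hd).apply_symm_apply z)

theorem le_of_succ (hd : 2 * (n + 1) ≤ d) : 2 * n ≤ d := by omega

theorem epush_at_iff (hd : 2 * (n + 1) ≤ d) {β : A.An n χ k} {β' : A.An (n + 1) χ k} :
    epush (A.incNE n χ (d + 1)) (An.at (d + 1) ((le_of_succ hd).trans d.le_succ) β) =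
      An.at (d + 1) (hd.trans d.le_succ) β' ↔
    epush (A.incNE n χ d) (An.at d (le_of_succ hd) β) = An.at d hd β' := by
  exact (gD_bijective hd).1.eq_iff.symm.trans (Eq.congr ((gD_epush_incNE _).trans
    (congrArg _ (An.gD_at (le_of_succ hd) β))) (An.gD_at hd β'))

/-- the relation defining the direct limit -/
theorem push_incN_iff (hd : 2 * (n + 1) ≤ d) {β : A.An n χ k} {β' : A.An (n + 1) χ k} :
    (∀ d M, 2 * (n + 1) ≤ d → Push (A.incN M) (β.1 d M) (β'.1 d M)) ↔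
      epush (A.incNE n χ d) (An.at d (le_of_succ hd) β) = An.at d hd β' := by
  have hp := fun d => IsPr.of_isClosedEmbedding (A.isClosedEmbedding_incNE n χ d)
  refine ⟨fun h => EH.ext fun M => (epush_apply (hp d) _ M).trans
    ((Push_iff (isPr_smap (hp d) M)).1 (h d M hd)), fun h d' M hd' => ?_⟩
  have key := seq_induction (P := fun d => ∀ hd : 2 * (n + 1) ≤ d,
    epush (A.incNE n χ d) (An.at d (le_of_succ hd) β) = An.at d hd β') hd (fun _ => h) fun d hd =>
      ⟨fun h1 _ => (epush_at_iff hd).1 (h1 _), fun h1 _ => (epush_at_iff hd).2 (h1 _)⟩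
  exact (Push_iff (isPr_smap (hp d') M)).2
    ((epush_apply (hp d') (An.at d' (le_of_succ hd') β) M).symm.trans
      (congrArg (fun z : EH _ _ => z.1 M) (key d' hd' hd')))

theorem cls_eq_of_push (hd : 2 * (n + 1) ≤ d) {β : A.An n χ k} {β' : A.An (n + 1) χ k}
    (h : epush (A.incNE n χ d) (An.at d (le_of_succ hd) β) = An.at d hd β') : cls β = cls β' :=
  (Submodule.Quotient.eq _).2 (Submodule.subset_span
    ⟨n, χ, k, β, β', (push_incN_iff hd).2 h, rfl⟩)

/-- the transition map of the direct limit -/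
noncomputable def An.up : A.An n χ k →ₗ[ℂ] A.An (n + 1) χ k :=
  (A.anE χ k (d := 2 * (n + 1)) le_rfl).symm.toLinearMap ∘ₗ
    ((epush (A.incNE n χ _) ∘ₗ An.at (2 * (n + 1)) (le_of_succ le_rfl)).codRestrict _ fun β =>
      epush_deg (IsPr.of_isClosedEmbedding (A.isClosedEmbedding_incNE n χ _)) (An.at_deg _ β))

theorem An.at_up (hd : 2 * (n + 1) ≤ d) (β : A.An n χ k) :
    An.at d hd (An.up β) = epush (A.incNE n χ d) (An.at d (le_of_succ hd) β) :=
  ((push_incN_iff hd).1 ((push_incN_iff (β := β) (β' := An.up β) le_rfl).2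
    (at_anE_symm le_rfl ⟨_, epush_deg (IsPr.of_isClosedEmbedding
      (A.isClosedEmbedding_incNE n χ _)) (An.at_deg _ β)⟩).symm)).symm

theorem push_incN_iff_up {β : A.An n χ k} {β' : A.An (n + 1) χ k} :
    (∀ d M, 2 * (n + 1) ≤ d → Push (A.incN M) (β.1 d M) (β'.1 d M)) ↔ An.up β = β' := by
  exact (push_incN_iff le_rfl).trans ((congrArg (· = _) (An.at_up le_rfl β)).to_iff.symm.trans
    (An.at_injective le_rfl).eq_iff)

theorem cls_up (β : A.An n χ k) : cls (An.up β) = cls β :=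
  (cls_eq_of_push le_rfl (An.at_up le_rfl β).symm).symm

/-! ### the base point -/

theorem RS.eq_of_zero (x y : A.RS 0 0 0) : x = y := by
  have key : ∀ x : A.RS 0 0 0, x.1.1 = lat 1 := fun x => by
    have h := qbd_iff.1 (RS.qbd x)
    rw [Nat.cast_zero, neg_zero, Lt.tp_zero, one_smul, mulL_one] at h
    exact le_antisymm h.2 h.1
  exact RS.ext ((key x).trans (key y).symm) fun k hk => absurd hk (Nat.not_lt_zero k)

theorem isHomeomorph_toUnit : IsHomeomorph (toUnit (GG (Q.nn Φ)) (A.RS 0 0 0)) := by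
  have x₀ : A.RS 0 0 0 := ⟨(lat 1, 0), rel_one_iff.2 ⟨qbd_one, ch_one⟩, fun _ _ => rfl,
    QL.pres_one_iff.2 (ge_co_poly 0 _)⟩
  exact isHomeomorph_iff_exists_inverse.2 ⟨continuous_const, fun _ => x₀,
    fun x => RS.eq_of_zero _ _, fun _ => rfl, continuous_const⟩

theorem capRel_iff {r : RR Q Φ} {β : A.An 0 0 k} : CapRel r β ↔
    epush (toUnit _ _) (An.at 0 le_rfl β) = (show HS (GG (Q.nn Φ)) Unit from r) • fundE (Q.nn Φ) := by
  have hp := IsPr.of_isHomeomorph (isHomeomorph_toUnit (A := A))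
  have e : ∀ M, ((show HS (GG (Q.nn Φ)) Unit from r) • fundE (Q.nn Φ)).1 M =
      cap (r.1 M) (fund _ M) := fun M => by
    rw [EH.smul_apply, H.map_id fun x => by
      obtain ⟨y, rfl⟩ := Bor.mk_surjective x
      rfl]
    rfl
  refine ⟨fun h => EH.ext fun M => ?_, fun h M => ⟨_, (Push_iff (isPr_smap hp M)).2 rfl,
    Cap_iff.2 ?_⟩⟩
  · obtain ⟨b, h1, h2⟩ := h M
    rw [e, Cap_iff.1 h2, epush_apply hp]
    exact (Push_iff (isPr_smap hp M)).1 h1
  · rw [← e, ← h, epush_apply hp]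
    rfl

theorem idx_zero : Q.idx 0 = 0 := by simp [Quiv.idx]

theorem exists_capRel {r : RR Q Φ} (hr : r.1 ∈ HGdeg _ _ k) :
    ∃! β : A.An 0 0 (-k), CapRel r β := by
  have he := isHomeomorph_toUnit (A := A)
  have h1 := eres_deg he.isOpenEmbedding (EH.smul_deg (r := r) hr (fundE_deg (Q.nn Φ)))
  obtain ⟨β, hβ⟩ := An.exists_at (A := A) (n := 0) (χ := 0) (k := -k) (d := 0) le_rfl
    (by simpa [idx_zero] using h1)
  refine ⟨β, capRel_iff.2 (by rw [hβ, epush_eres_homeo he]), fun β' h => An.at_injective le_rfl ?_⟩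
  rw [hβ, ← capRel_iff.1 h, eres_epush_homeo he]

end Flav

end Vale.Agent.P291Z
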