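import Vale.Agent.P291Z.Wt0
import Vale.Agent.P291Z.Lat.L9
import Vale.Agent.P291Z.CAn

/-!
# Torus actions on the spaces of the convolution diagram
-/

set_option linter.all false

namespace Vale.Agent.P291Z

open Set Function Topology Quiv QL Lt

section prod

variable {J J' : Type} [Fintype J] [Fintype J'] {n : J → ℕ} {n' : J' → ℕ} {Z Z' : Type}

theorem fstG_toG (t : Tc (Sum.elim n n')) : fstG n n' (toG _ t) = toG n (fstT n n' t) := rfl

theorem sndG_toG (t : Tc (Sum.elim n n')) : sndG n n' (toG _ t) = toG n' (sndT n n' t) := rfl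

noncomputable instance [MulAction (GG n) Z] [MulAction (GG n') Z'] :
    MulAction (Tc (Sum.elim n n')) (Pr n n' Z Z') := tAct _ _

instance [MulAction (GG n) Z] [MulAction (GG n') Z'] :
    IsScalarTower (Tc (Sum.elim n n')) (GG (Sum.elim n n')) (Pr n n' Z Z') := tTower _ _

noncomputable instance [AddCommGroup Z] [DistribMulAction (GG n') Z] :
    DistribMulAction (Tc (Sum.elim n n')) (Snd n n' Z) := tDAct _ _

instance [AddCommGroup Z] [DistribMulAction (GG n') Z] :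
    IsScalarTower (Tc (Sum.elim n n')) (GG (Sum.elim n n')) (Snd n n' Z) := tTower _ _

theorem Pr.fst_smulT [TopologicalSpace Z] [MulAction (GG n) Z] [MulAction (GG n') Z'] [MulAction (Tc n) Z]
    [IsScalarTower (Tc n) (GG n) Z] (t : Tc (Sum.elim n n')) (x : Pr n n' Z Z') :
    (t • x).1 = fstT n n' t • x.1 := (smulT_eq Z (fstT n n' t) x.1).symm

theorem Pr.snd_smulT [TopologicalSpace Z'] [MulAction (GG n) Z] [MulAction (GG n') Z'] [MulAction (Tc n') Z']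
    [IsScalarTower (Tc n') (GG n') Z'] (t : Tc (Sum.elim n n')) (x : Pr n n' Z Z') :
    (t • x).2 = sndT n n' t • x.2 := (smulT_eq Z' (sndT n n' t) x.2).symm

end prod

variable {I E Φ : Type} {Q : Quiv I E} [Fintype Φ] [Fintype I]

section lat

variable {n : ℕ} {χ : I → ℤ}

noncomputable instance : MulAction (GG (Q.nn Φ)) (BL Q n) where
  smul g L := ⟨g • L.1, L.2.smul g⟩
  one_smul _ := Subtype.ext (one_smul _ _)
  mul_smul _ _ _ := Subtype.ext (mul_smul _ _ _)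

instance : ContinuousSMul (GG (Q.nn Φ)) (BL Q n) :=
  ⟨(continuous_smul_lat continuous_fst (continuous_subtype_val.comp continuous_snd)
    fun x => x.2.2).subtype_mk _⟩

noncomputable instance : MulAction (Tc (Q.nn Φ)) (BL Q n) := tAct _ _

instance : IsScalarTower (Tc (Q.nn Φ)) (GG (Q.nn Φ)) (BL Q n) := tTower _ _

noncomputable instance : MulAction (Tc (Q.nn Φ)) (Gr Q n χ) := tAct _ _

instance : IsScalarTower (Tc (Q.nn Φ)) (GG (Q.nn Φ)) (Gr Q n χ) := tTower _ _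

noncomputable instance : DistribMulAction (Tc (Sum.elim (Q.nn Φ) (Q.nn Φ))) (WW Q Φ n) := tDAct _ _

instance : IsScalarTower (Tc (Sum.elim (Q.nn Φ) (Q.nn Φ))) (GG (Sum.elim (Q.nn Φ) (Q.nn Φ)))
    (WW Q Φ n) := tTower _ _

theorem BL.val_smul (g : GG (Q.nn Φ)) (L : BL Q n) : (g • L).1 = g • L.1 := rfl

theorem BL.val_smulT (t : Tc (Q.nn Φ)) (L : BL Q n) : (t • L).1 = toG _ t • L.1 := rfl

theorem Gr.val_smulT (t : Tc (Q.nn Φ)) (L : Gr Q n χ) : (t • L).1 = toG _ t • L.1 := rfl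

end lat

namespace Flav

variable [Fintype E] {A : Flav Q Φ} {n : ℕ} {χ : I → ℤ} {n' : ℕ} {χ' : I → ℤ} {d d' : ℕ}

noncomputable instance : MulAction (Tc (Q.nn Φ)) (A.RS n χ d) := tAct _ _

instance : IsScalarTower (Tc (Q.nn Φ)) (GG (Q.nn Φ)) (A.RS n χ d) := tTower _ _

noncomputable instance : MulAction (Tc (Q.nn Φ)) (A.R2 n χ n' χ' d) := tAct _ _

instance : IsScalarTower (Tc (Q.nn Φ)) (GG (Q.nn Φ)) (A.R2 n χ n' χ' d) := tTower _ _

theorem RS.smulT (t : Tc (Q.nn Φ)) (x : A.RS n χ d) : t • x = toG _ t • x := rfl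

theorem R2.smulT (t : Tc (Q.nn Φ)) (x : A.R2 n χ n' χ' d) : t • x = toG _ t • x := rfl

section bundles

variable {Z : Type} [MulAction (GG (Q.nn Φ)) Z] {ℓ : Z → Q.Lat}
  {hℓ : ∀ (g : GG (Q.nn Φ)) z, ℓ (g • z) = g • ℓ z} {Z' : Type} [MulAction (GG (Q.nn Φ)) Z'] {m : ℕ}

noncomputable instance : MulAction (Tc (Sum.elim (Q.nn Φ) (Q.nn Φ))) (VO ℓ hℓ Z' m) := tAct _ _

instance : IsScalarTower (Tc (Sum.elim (Q.nn Φ) (Q.nn Φ))) (GG (Sum.elim (Q.nn Φ) (Q.nn Φ)))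
    (VO ℓ hℓ Z' m) := tTower _ _

instance [TopologicalSpace Z] [TopologicalSpace Z'] [ContinuousSMul (GG (Q.nn Φ)) Z]
    [ContinuousSMul (GG (Q.nn Φ)) Z'] :
    ContinuousSMul (Tc (Sum.elim (Q.nn Φ) (Q.nn Φ))) (VV ℓ hℓ Z' m) :=
  ⟨Continuous.smul (M := GG (Sum.elim (Q.nn Φ) (Q.nn Φ))) (X := VV ℓ hℓ Z' m)
    ((continuous_toG _).comp continuous_fst) continuous_snd⟩

theorem VO.smulT (t : Tc (Sum.elim (Q.nn Φ) (Q.nn Φ))) (x : VO ℓ hℓ Z' m) :
    t • x = toG _ t • x := rfl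

theorem VV.smulT (t : Tc (Sum.elim (Q.nn Φ) (Q.nn Φ))) (x : VV ℓ hℓ Z' m) :
    t • x = toG _ t • x := rfl

end bundles

end Flav

end Vale.Agent.P291Z
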