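import Vale.Agent.P291Z.EH1

/-!
# Pull-back along vector bundles
-/

set_option linter.all false

namespace Vale.Agent.P291Z

open Set Function Topology Matrix

section thom

variable {G Z W : Type} [Group G] [TopologicalSpace G] [Sys G] [TopologicalSpace Z] [MulAction G Z]
  [Nice Z] [ContinuousSMul G Z] [AddCommGroup W] [Module ℂ W] [TopologicalSpace W]
  [DistribMulAction G W] (V : SubMulAction G (Z × W)) (h0 : ∀ z, (z, 0) ∈ V) [Nice V]
  [ContinuousSMul G V]

/-- the pull-back to the total space of a vector bundle -/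
noncomputable def ethom : EH G Z →ₗ[ℂ] EH G V :=
  Classical.epsilon fun φ => ∀ β, egys (zs V h0) (tho V) (φ β) = β

variable {V} {r s : ℕ} (hW : IsRep G W s) (hV : IsSubVB V r)
include hW hV

theorem egys_tho_bijective : Bijective (egys (zs V h0) (tho V)) :=
  egys_bijective (IsSubVB.isClosedEmbedding_zs hW h0) (isCoc_tho hW hV h0)
    (cgys_tho_bijective hW hV h0)

theorem egys_ethom (β : EH G Z) : egys (zs V h0) (tho V) (ethom V h0 β) = β :=
  Classical.epsilon_spec
    (p := fun φ : EH G Z →ₗ[ℂ] EH G V => ∀ β, egys (zs V h0) (tho V) (φ β) = β)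
    ⟨(LinearEquiv.ofBijective _ (egys_tho_bijective h0 hW hV)).symm.toLinearMap,
      (LinearEquiv.ofBijective _ (egys_tho_bijective h0 hW hV)).apply_symm_apply⟩ β

theorem ethom_egys (β : EH G V) : ethom V h0 (egys (zs V h0) (tho V) β) = β :=
  (egys_tho_bijective h0 hW hV).1 (egys_ethom h0 hW hV _)

theorem ethom_bijective : Bijective (ethom V h0) :=
  ⟨LeftInverse.injective (egys_ethom h0 hW hV), RightInverse.surjective (ethom_egys h0 hW hV)⟩

theorem ethom_deg {k : ℤ} {β : EH G Z} (h : β ∈ EH.deg G Z k) :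
    ethom V h0 β ∈ EH.deg G V (k + 2 * r) := by
  have h1 := EH.comp_map (φ := egys (zs V h0) (tho V)) (c := -(2 * r)) (fun k β hβ =>
    (sub_eq_add_neg k (2 * r)) ▸ egys_deg (IsSubVB.isClosedEmbedding_zs hW h0)
      (isCoc_tho hW hV h0) hβ) (k + 2 * r) (ethom V h0 β)
  rw [egys_ethom h0 hW hV, add_neg_cancel_right, EH.comp_of_mem h] at h1
  rw [(egys_tho_bijective h0 hW hV).1 ((egys_ethom h0 hW hV β).trans h1)]
  exact EH.comp_mem _ _

theorem ethom_smul (c : HS G Unit) (β : EH G Z) : ethom V h0 (c • β) = c • ethom V h0 β :=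
  (egys_tho_bijective h0 hW hV).1 (by
    rw [egys_smul (IsSubVB.isClosedEmbedding_zs hW h0) (isCoc_tho hW hV h0), egys_ethom h0 hW hV,
      egys_ethom h0 hW hV])

end thom

end Vale.Agent.P291Z
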