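import Vale.Agent.P291Z.T12

set_option linter.all false

/-!
# Poincare duality
-/

namespace Vale.Agent.P291Z

open Topology Set Filter TopologicalSpace

variable {X Y : Type} [TopologicalSpace X] [TopologicalSpace Y]

/-- locally vanishing cochains -/
noncomputable def NullC (Y : Type) [TopologicalSpace Y] : Submodule ℂ (Coch Y) := ⨅ x, Van x

theorem mem_NullC {a : Coch Y} : a ∈ NullC Y ↔ ∀ x, a ∈ Van x := Submodule.mem_iInf _

/-- functionals which kill the locally vanishing cochains -/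
abbrev DualC (Y : Type) [TopologicalSpace Y] : Type := (NullC Y).dualAnnihilator

theorem DualC.null (φ : DualC Y) {a : Coch Y} (h : ∀ x, a ∈ Van x) : φ.1 a = 0 :=
  (Submodule.mem_dualAnnihilator _).1 φ.2 a (mem_NullC.2 h)

/-- the transpose of an operator which does not increase supports -/
noncomputable def dm (f : Coch Y →ₗ[ℂ] Coch Y) (hf : ∀ x a, a ∈ Van x → f a ∈ Van x) :
    DualC Y →ₗ[ℂ] DualC Y :=
  f.dualMap.restrict fun φ hφ => (Submodule.mem_dualAnnihilator _).2 fun a ha =>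
    DualC.null ⟨φ, hφ⟩ fun x => hf x a (mem_NullC.1 ha x)

theorem dm_apply (f : Coch Y →ₗ[ℂ] Coch Y) (hf : ∀ x a, a ∈ Van x → f a ∈ Van x) (φ : DualC Y)
    (a : Coch Y) : (dm f hf φ).1 a = φ.1 (f a) := rfl

/-- `φ` kills all cochains with compact support in `U` -/
def Kills (φ : DualC Y) (U : Set Y) : Prop := ∀ a, IsCompact (supp a) → supp a ⊆ U → φ.1 a = 0

theorem Kills.mono {φ : DualC Y} {U V : Set Y} (h : Kills φ V) (hUV : U ⊆ V) : Kills φ U :=
  fun a h1 h2 => h a h1 (h2.trans hUV)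

theorem Kills.dm {φ : DualC Y} {U : Set Y} (h : Kills φ U) (f : Coch Y →ₗ[ℂ] Coch Y)
    (hf : ∀ x a, a ∈ Van x → f a ∈ Van x) : Kills (dm f hf φ) U := fun a h1 h2 =>
  have : supp (f a) ⊆ supp a := fun x hx => by_contra fun h' => hf x a h' hx
  h _ (isCompact_supp_of_subset h1 this) (this.trans h2)

/-- functionals which vanish near `x` -/
def VanD (x : Y) : Submodule ℂ (DualC Y) where
  carrier := {φ | ∃ U ∈ 𝓝 x, Kills φ U}
  zero_mem' := ⟨univ, univ_mem, fun _ _ _ => rfl⟩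
  add_mem' := by
    rintro φ ψ ⟨U, hU, h⟩ ⟨V, hV, h'⟩
    exact ⟨U ∩ V, inter_mem hU hV, fun a h1 h2 => by
      rw [Submodule.coe_add, LinearMap.add_apply, h a h1 (h2.trans inter_subset_left),
        h' a h1 (h2.trans inter_subset_right), add_zero]⟩
  smul_mem' := by
    rintro c φ ⟨U, hU, h⟩
    exact ⟨U, hU, fun a h1 h2 => by
      rw [Submodule.coe_smul, LinearMap.smul_apply, h a h1 h2, smul_zero]⟩

/-- functionals which live in degree `k` -/
def degD (Y : Type) [TopologicalSpace Y] (k : ℤ) : Submodule ℂ (DualC Y) where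
  carrier := {φ | ∀ a j, IsDeg j a → j ≠ k → φ.1 a = 0}
  zero_mem' := fun _ _ _ _ => rfl
  add_mem' := fun {φ ψ} h h' a j h1 h2 => by
    rw [Submodule.coe_add, LinearMap.add_apply, h a j h1 h2, h' a j h1 h2, add_zero]
  smul_mem' := fun c φ h a j h1 h2 => by
    rw [Submodule.coe_smul, LinearMap.smul_apply, h a j h1 h2, smul_zero]

theorem degD_comp {k : ℤ} {φ : DualC Y} (h : φ ∈ degD Y k) (a : Coch Y) :
    φ.1 (comp k a) = φ.1 a :=
  a.induction_comp (P := fun b => φ.1 (comp k b) = φ.1 b) (by simp)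
    (fun b c hb hc => by simp only [map_add, hb, hc]) fun j => by
      by_cases hj : j = k
      · rw [hj, (isDeg_comp k a).comp_eq]
      · rw [(isDeg_comp j a).comp_ne (Ne.symm hj), map_zero, h _ j (isDeg_comp j a) hj]

omit [TopologicalSpace Y] in
theorem par_δ_par (a : Coch Y) : par (δ (par a)) = -δ a := by rw [δ_par, map_neg, par_par]

omit [TopologicalSpace Y] in
theorem comp_par (k : ℤ) (a : Coch Y) : comp k (par a) = par (comp k a) := Coch.ext fun l => by
  rw [comp_val, par_val, par_val, comp_val]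
  split_ifs <;> simp

/-- **the dual complex** -/
noncomputable def dualSoft (Y : Type) [TopologicalSpace Y] (n : ℤ) : Soft ℂ Y (DualC Y) where
  δ := dm (par ∘ₗ δ) fun _ _ h => Van.par (Van.δ h)
  deg m := degD Y (n - m)
  Van := VanD
  cut S := dm (cut S) fun _ _ h => Van.cut h S
  δ_deg m φ h a j h1 h2 := h _ (j + 1) h1.δ.par (by omega)
  δδ φ x := ⟨univ, univ_mem, fun a _ _ => by
    show φ.1 (par (δ (par (δ a)))) = 0
    rw [par_δ_par, δ_δ, neg_zero, map_zero]⟩
  δ_van _ _ := fun ⟨U, hU, h⟩ => ⟨U, hU, h.dm _ _⟩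
  van_open _ := isOpen_iff_mem_nhds.2 fun _ ⟨U, hU, h⟩ =>
    mem_of_superset (eventually_mem_nhds_iff.2 hU) fun _ hy => ⟨U, hy, h⟩
  cut_deg S m φ h a j h1 h2 := h _ j (h1.cut S) h2
  cut_van _ _ _ := fun ⟨U, hU, h⟩ => ⟨U, hU, h.dm _ _⟩
  cut_in S x φ hS := ⟨interior S, interior_mem_nhds.2 hS, fun a _ h2 => by
    show φ.1 a - φ.1 (cut S a) = 0
    rw [← map_sub]
    refine φ.null fun y => ?_
    by_cases hy : y ∈ supp a
    · exact cut_in (mem_interior_iff_mem_nhds.1 (h2 hy)) a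
    · exact (Van y).sub_mem hy (Van.cut hy S)⟩
  cut_out S x φ hS := ⟨interior Sᶜ, interior_mem_nhds.2 hS, fun a _ h2 => by
    refine φ.null fun y => ?_
    by_cases hy : y ∈ supp a
    · exact cut_out (mem_interior_iff_mem_nhds.1 (h2 hy)) a
    · exact Van.cut hy S⟩

theorem dualSoft_δ (n : ℤ) (φ : DualC Y) (a : Coch Y) :
    ((dualSoft Y n).δ φ).1 a = φ.1 (par (δ a)) := rfl

theorem kills_of_van [T2Space Y] [LocallyCompactSpace Y] {φ : DualC Y} {a : Coch Y}
    (ha : IsCompact (supp a)) (h : ∀ x ∈ supp a, φ ∈ VanD x) : φ.1 a = 0 := by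
  have key : ∃ U, IsOpen U ∧ supp a ⊆ U ∧ Kills φ U := by
    refine ha.induction_on (p := fun s => ∃ U, IsOpen U ∧ s ⊆ U ∧ Kills φ U) ?_ ?_ ?_ ?_
    · exact ⟨∅, isOpen_empty, subset_rfl, fun b _ hb => φ.null fun x hx => hb hx⟩
    · rintro s t hst ⟨U, h1, h2, h3⟩
      exact ⟨U, h1, hst.trans h2, h3⟩
    · rintro s t ⟨U, h1, h2, h3⟩ ⟨V, h1', h2', h3'⟩
      refine ⟨U ∪ V, h1.union h1', union_subset_union h2 h2', fun b hb hs => ?_⟩
      obtain ⟨K₁, K₂, c₁, c₂, s₁, s₂, e⟩ := hb.binary_compact_cover h1 h1' hs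
      obtain ⟨N, h4, h5, h6⟩ := exists_cut_compact c₁ h1 s₁ b
      have h7 : supp (b - cut N b) ⊆ K₂ := fun y hy => by_contra fun hy' => h6 y (by
        by_cases hb' : y ∈ supp b
        · exact Or.inl ((e ▸ hb' : y ∈ K₁ ∪ K₂).resolve_right hy')
        · exact Or.inr hb') hy
      rw [← sub_add_cancel b (cut N b), map_add, h3 _ h4 (h5.trans inter_subset_left),
        h3' _ (isCompact_supp_of_subset c₂ h7) (h7.trans s₂), add_zero]
    · intro x hx
      obtain ⟨U, hU, h1⟩ := h x hx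
      exact ⟨interior U, mem_nhdsWithin_of_mem_nhds (interior_mem_nhds.2 hU), interior U,
        isOpen_interior, subset_rfl, h1.mono interior_subset⟩
  obtain ⟨U, -, h1, h2⟩ := key
  exact h2 a ha h1

/-- extension of a functional on a submodule which contains the locally vanishing cochains -/
theorem exists_dualC (W : Submodule ℂ (Coch Y)) (g : W →ₗ[ℂ] ℂ) (k : ℤ)
    (hW : ∀ a, (∀ x, a ∈ Van x) → ∃ h : a ∈ W, g ⟨a, h⟩ = 0) :
    ∃ φ ∈ degD Y k, ∀ a (h : comp k a ∈ W), φ.1 a = g ⟨_, h⟩ := by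
  obtain ⟨f, hf⟩ := g.exists_extend
  have e : ∀ a (h : a ∈ W), f a = g ⟨a, h⟩ := fun a h => LinearMap.congr_fun hf ⟨a, h⟩
  refine ⟨⟨f ∘ₗ comp k, (Submodule.mem_dualAnnihilator _).2 fun a ha => ?_⟩,
    fun a j h1 h2 => ?_, fun a h => e _ h⟩
  · obtain ⟨h1, h2⟩ := hW _ fun x => Van.comp (mem_NullC.1 ha x) k
    exact (e _ h1).trans h2
  · show f (comp k a) = 0
    rw [h1.comp_ne (Ne.symm h2), map_zero]

theorem dualSoft_glue [T2Space Y] [LocallyCompactSpace Y] (n : ℤ) : (dualSoft Y n).Glue := by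
  intro m A φ hc hm hn hd hs
  have diff : ∀ j k, j ≤ k → ∀ a, IsCompact (supp a) → supp a ⊆ A j → (φ k).1 a = (φ j).1 a := by
    intro j k hjk a h1 h2
    induction k, hjk using Nat.le_induction with
    | base => rfl
    | succ k hk ih =>
      rw [← ih, ← sub_eq_zero]
      exact kills_of_van (φ := φ (k + 1) - φ k) h1 fun x hx => hs k x (hm hk (h2 hx))
  have ex : ∀ a : (Fam.cpt Y).coch, ∃ j, supp a.1 ⊆ A j := fun a => by
    refine IsCompact.induction_on (p := fun s => ∃ j, s ⊆ A j) a.2 ⟨0, empty_subset _⟩ ?_ ?_ ?_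
    · rintro s t hst ⟨j, h⟩
      exact ⟨j, hst.trans h⟩
    · rintro s t ⟨j, h⟩ ⟨k, h'⟩
      exact ⟨max j k, union_subset (h.trans (hm (le_max_left _ _)))
        (h'.trans (hm (le_max_right _ _)))⟩
    · intro x _
      obtain ⟨j, hj⟩ := hn x
      exact ⟨A j, mem_nhdsWithin_of_mem_nhds hj, j, subset_rfl⟩
  choose J hJ using ex
  have val : ∀ a : (Fam.cpt Y).coch, ∀ k, supp a.1 ⊆ A k → (φ (J a)).1 a = (φ k).1 a :=
    fun a k hk => by
      rw [← diff _ _ (le_max_left (J a) k) a a.2 (hJ a), diff _ _ (le_max_right (J a) k) a a.2 hk]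
  let g : (Fam.cpt Y).coch →ₗ[ℂ] ℂ := ⟨⟨fun a => (φ (J a)).1 a, fun a b => by
      have h1 := (hJ a).trans (hm (le_max_left (J a) (J b)))
      have h2 := (hJ b).trans (hm (le_max_right (J a) (J b)))
      rw [val a _ h1, val b _ h2, val (a + b) _ ((supp_add _ _).trans (union_subset h1 h2)),
        Submodule.coe_add, map_add]⟩, fun c a => by
      show (φ (J (c • a))).1 (c • a : (Fam.cpt Y).coch) = c • (φ (J a)).1 a
      rw [val (c • a) _ ((supp_smul c _).trans (hJ a)), Submodule.coe_smul, map_smul]⟩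
  obtain ⟨ψ, h1, h2⟩ := exists_dualC _ g (n - m) fun a ha =>
    ⟨(Fam.cpt Y).coch_of_null ha, DualC.null _ ha⟩
  refine ⟨ψ, h1, fun k x hx => ?_⟩
  obtain ⟨k', hk'⟩ := hn x
  have h3 : ψ - φ (max k k') ∈ VanD x := ⟨A k', hk', fun a h4 h5 => by
    have h6 : comp (n - m) a ∈ (Fam.cpt Y).coch := isCompact_supp_of_subset h4 (supp_comp _ a)
    rw [Submodule.coe_sub, LinearMap.sub_apply, h2 a h6, sub_eq_zero, ← degD_comp (hd _) a]
    exact val ⟨_, h6⟩ _ ((supp_comp _ a).trans (h5.trans (hm (le_max_right _ _))))⟩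
  have h4 : ∀ j, k ≤ j → φ j - φ k ∈ VanD x := fun j hj => by
    induction j, hj using Nat.le_induction with
    | base => rw [sub_self]; exact Submodule.zero_mem _
    | succ j hj ih =>
      have := (VanD x).add_mem (hs j x (hm hj hx)) ih
      rwa [sub_add_sub_cancel] at this
  have := (VanD x).add_mem h3 (h4 _ (le_max_left k k'))
  rwa [sub_add_sub_cancel] at this

/-- a functional which kills the cocycles with compact support in `U` is a coboundary on `U` -/
theorem exists_dual_prim {n m : ℤ} {φ : DualC Y} (hφ : φ ∈ (dualSoft Y n).deg m) {U : Set Y}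
    (h : ∀ b ∈ Zc Y, supp b ⊆ U → φ.1 b = 0) :
    ∃ φ' ∈ (dualSoft Y n).deg (m - 1), Kills (φ - (dualSoft Y n).δ φ') U := by
  let C := ((Fam.cpt Y).inf (Fam.sub U)).coch
  let f : C →ₗ[ℂ] Coch Y ⧸ NullC Y := (NullC Y).mkQ ∘ₗ par ∘ₗ δ ∘ₗ C.subtype
  have h1 : φ.1 ∘ₗ C.subtype ∈ (LinearMap.ker f).dualAnnihilator :=
    (Submodule.mem_dualAnnihilator _).2 fun b hb => h b.1 ⟨b.2.1, supp_eq_empty.2 fun x => by
      have := Van.par (mem_NullC.1 ((Submodule.Quotient.mk_eq_zero _).1 hb) x)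
      exact par_par (δ b.1) ▸ this⟩ b.2.2
  rw [← LinearMap.range_dualMap_eq_dualAnnihilator_ker] at h1
  obtain ⟨g, hg⟩ := h1
  obtain ⟨φ', h2, h3⟩ := exists_dualC ⊤ (g ∘ₗ (NullC Y).mkQ ∘ₗ Submodule.subtype ⊤) (n - (m - 1))
    fun a ha => ⟨trivial, by
      show g (Submodule.Quotient.mk a) = 0
      rw [(Submodule.Quotient.mk_eq_zero _).2 (mem_NullC.2 ha), map_zero]⟩
  refine ⟨φ', h2, fun b h4 h5 => ?_⟩
  rw [Submodule.coe_sub, LinearMap.sub_apply, dualSoft_δ, h3 _ trivial, sub_eq_zero,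
    ← degD_comp hφ b]
  refine (LinearMap.congr_fun hg ⟨comp (n - m) b, isCompact_supp_of_subset h4 (supp_comp _ b),
    (supp_comp _ b).trans h5⟩).symm.trans ?_
  show g (Submodule.Quotient.mk (par (δ (comp (n - m) b)))) =
    g (Submodule.Quotient.mk (comp (n - (m - 1)) (par (δ b))))
  rw [comp_par, ← comp_δ, show n - (m - 1) = n - m + 1 by ring]

theorem BM.IsDeg.comp {k : ℤ} {β : BM Y} (h : BM.IsDeg k β) (c : Hc Y) : β (Hc.comp k c) = β c :=
  Hc.induction_deg (P := fun c => β (Hc.comp k c) = β c) c (by simp)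
    (fun b c hb hc => by simp only [map_add, hb, hc]) fun j => by
      by_cases hj : j = k
      · rw [hj, Hc.comp_of_mem (Hc.comp_mem k c)]
      · rw [Hc.comp_of_ne (Hc.comp_mem j c) (Ne.symm hj), map_zero,
          BM.isDeg_iff.1 h j hj _ (Hc.comp_mem j c)]

theorem BM.exists_dualC {k : ℤ} {β : BM Y} (h : BM.IsDeg k β) :
    ∃ φ ∈ degD Y k, ∀ a ∈ Zc Y, φ.1 a = β (cls a) := by
  obtain ⟨φ, h1, h2⟩ := P291Z.exists_dualC (Zc Y) (β ∘ₗ clsL (Zc Y) LinearMap.id fun _ h => h) k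
    fun a ha => ⟨Bc_le_Zc (mem_Bc_of_null ha), by
      show β (cls a) = 0
      rw [cls_of_mem_Bc (mem_Bc_of_null ha), map_zero]⟩
  refine ⟨φ, h1, fun a ha => (h2 a (Zc.comp ha k)).trans ?_⟩
  show β (cls (P291Z.comp k a)) = _
  rw [← Hc.comp_cls k ha, h.comp]

/-- the cap product with `Λ` -/
noncomputable def capD (Λ : DualC Y) : Coch Y →ₗ[ℂ] DualC Y where
  toFun a := dm (LinearMap.mulRight ℂ a) (fun _ _ h => Van.mul_right h a) Λ
  map_add' a b := Subtype.ext (LinearMap.ext fun c => by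
    show Λ.1 (c * (a + b)) = Λ.1 (c * a) + Λ.1 (c * b)
    rw [mul_add, map_add])
  map_smul' z a := Subtype.ext (LinearMap.ext fun c => by
    show Λ.1 (c * (z • a)) = z • Λ.1 (c * a)
    rw [mul_smul_comm, map_smul])

theorem capD_apply (Λ : DualC Y) (a b : Coch Y) : (capD Λ a).1 b = Λ.1 (b * a) := rfl

/-- **the duality map**: cap product with a Borel-Moore class -/
noncomputable def pd (β : BM Y) : H Y →ₗ[ℂ] BM Y := LinearMap.llcomp ℂ _ _ _ β ∘ₗ Hc.act

theorem pd_apply (β : BM Y) (h : H Y) (c : Hc Y) : pd β h c = β (Hc.act h c) := rfl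

theorem pd_one (β : BM Y) : pd β 1 = β := LinearMap.ext fun c => by rw [pd_apply, Hc.act_one]

theorem pd_mul (β : BM Y) (h h' : H Y) : pd β (h * h') = pd (pd β h') h :=
  LinearMap.ext fun c => by rw [pd_apply, pd_apply, pd_apply, Hc.act_mul]

theorem pd_deg {n m : ℤ} {β : BM Y} (hβ : BM.IsDeg n β) {h : H Y} (hh : H.IsDeg m h) :
    BM.IsDeg (n - m) (pd β h) := BM.isDeg_iff.2 fun j hj c hc =>
  BM.isDeg_iff.1 hβ (j + m) (by omega) _ (Hc.act_deg hh hc)

theorem gys_id_iff {t : Coch Y} (ht : supp (δ t) = ∅) {β β' : BM Y} :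
    Gys id t β β' ↔ β' = pd β (hcls t) :=
  ⟨fun H => BM.ext_ev fun a ha => by
    have := H a ha.1 (by rw [ha.2]; exact empty_disjoint _)
    rw [pull_id] at this
    rw [this, ev_eq, ev_eq, pd_apply, Hc.act_cls ht ha], fun H a h1 h2 => by
    have ha : a ∈ Zc Y := ⟨h1, by rwa [range_id, disjoint_univ] at h2⟩
    rw [pull_id, H, ev_eq, ev_eq, pd_apply, Hc.act_cls ht ha]⟩

/-- near `x` the cohomology with compact supports is generated by one class of degree `n`, on which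
`β` does not vanish -/
def LocOri (n : ℤ) (β : BM Y) (x : Y) : Prop :=
  ∀ U ∈ 𝓝 x, ∃ W ∈ 𝓝 x, W ⊆ U ∧ ∃ b ∈ Zc Y, IsDeg n b ∧ supp b ⊆ W ∧ β (cls b) ≠ 0 ∧
    ∀ b' ∈ Zc Y, supp b' ⊆ W → ∃ (z : ℂ) (c : Coch Y), IsCompact (supp c) ∧ supp c ⊆ U ∧
      ∀ y, b' - z • b - δ c ∈ Van y

section core

variable {n : ℤ} {β : BM Y} {Λ : DualC Y} (hΛ : Λ ∈ degD Y n)
  (hβ : ∀ a ∈ Zc Y, Λ.1 a = β (cls a))
include hβ

theorem lam_Bc {a : Coch Y} (ha : a ∈ Bc Y) : Λ.1 a = 0 := by
  rw [hβ a (Bc_le_Zc ha), cls_of_mem_Bc ha, map_zero]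

include hΛ

theorem capD_isMap :
    (asSoft continuous_id (Fam.all Y)).IsMap (dualSoft Y n) 0 (capD Λ) where
  deg m a ha b j h1 h2 := hΛ _ (j + m) (h1.mul ha.1) (by omega)
  van x a ha := ⟨(supp a)ᶜ, (isClosed_supp a).isOpen_compl.mem_nhds (vanB_id.1 ha),
    fun b _ h2 => Λ.null fun y => by
      by_cases hy : y ∈ supp b
      · exact Van.mul_left (h2 hy) b
      · exact Van.mul_right hy a⟩
  comm a x := ⟨univ, univ_mem, fun b h1 _ => by
    show Λ.1 (par (δ b) * a) - Λ.1 (b * δ a) = 0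
    rw [← map_sub, show par (δ b) * a - b * δ a = -δ (par b * a) by
      rw [δ_mul, δ_par, par_par]; noncomm_ring, map_neg, lam_Bc hβ (δ_mem_Bc
        (isCompact_supp_of_subset h1 ((supp_mul _ _).trans
          (inter_subset_left.trans (supp_par b))))), neg_zero]⟩

theorem capD_stalk_surj {x : Y} (hx : LocOri n β x) (m : ℤ) :
    Soft.SurjOn (asSoft continuous_id (Fam.all Y)) (dualSoft Y n) 0 (capD Λ) {x} m := by
  intro φ hφ hd
  obtain ⟨U, hU, h1⟩ := hd x rfl
  obtain ⟨W, hW, -, b, h2, h3, -, h4, h5⟩ := hx U hU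
  let z₀ := φ.1 b / β (cls b)
  have hz : IsDeg m (z₀ • (1 : Coch Y)) := by
    by_cases hm : m = 0
    · rw [hm]; exact isDeg_one.smul _
    · rw [show z₀ = 0 from by
        simp only [z₀]; rw [hφ b n h3 (by omega), zero_div], zero_smul]
      exact isDeg_zero _
  have hd' : capD Λ (z₀ • 1) ∈ (dualSoft Y n).deg m := by
    have := (capD_isMap hΛ hβ).deg m _ ⟨hz, trivial⟩
    rwa [add_zero] at this
  obtain ⟨φ', h6, h7⟩ := exists_dual_prim (Submodule.sub_mem _ hφ hd') (U := W) fun b' h8 h9 => by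
    obtain ⟨z, c, h10, h11, h12⟩ := h5 b' h8 h9
    have h13 : φ.1 (δ c) = 0 := by
      have := h1 (par c) (isCompact_supp_of_subset h10 (supp_par c)) ((supp_par c).trans h11)
      rwa [dualSoft_δ, par_δ_par, map_neg, neg_eq_zero] at this
    rw [show b' = b' - z • b - δ c + z • b + δ c by abel, map_add, map_add, DualC.null _ h12,
      zero_add, map_smul, Submodule.coe_sub, LinearMap.sub_apply, LinearMap.sub_apply, capD_apply,
      capD_apply, mul_smul_comm, mul_smul_comm, mul_one, mul_one, map_smul, map_smul, h13,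
      lam_Bc hβ (δ_mem_Bc h10), hβ b h2, smul_eq_mul z₀, div_mul_cancel₀ _ h4]
    simp
  refine ⟨z₀ • 1, ⟨hz.cast (sub_zero m).symm, trivial⟩, ?_, φ', h6, ?_⟩
  · rintro _ rfl
    rw [asSoft_δ, map_smul, δ_one_eq_zero, smul_zero]
    exact Submodule.zero_mem _
  · rintro _ rfl
    exact ⟨W, hW, h7⟩

omit hΛ in
theorem capD_stalk_inj {x : Y} (hx : LocOri n β x) (m : ℤ) :
    Soft.InjOn' (asSoft continuous_id (Fam.all Y)) (dualSoft Y n) 0 (capD Λ) {x} m := by
  intro a ha hd φ hφ e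
  obtain ⟨U, hU, h1⟩ := e x rfl
  have h0 := local_cocycle (vanB_id.1 (hd x rfl))
  obtain ⟨W, hW, hWU, b, h2, h3, h6, h4, -⟩ := hx _ (inter_mem hU (eventually_van h0))
  have h7 := h1 b h2.1 (h6.trans (hWU.trans inter_subset_left))
  rw [Submodule.coe_sub, LinearMap.sub_apply, dualSoft_δ, capD_apply,
    φ.null fun y => Van.par (supp_eq_empty.1 h2.2 y), sub_zero,
    show b * a = b * (a - a.1 [x] • 1) + a.1 [x] • b by
      rw [mul_sub, mul_smul_comm, mul_one, sub_add_cancel], map_add,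
    lam_Bc hβ (Zc.mul_cobound h2 fun y hy => (hWU (h6 hy)).2), zero_add, map_smul, hβ b h2,
    smul_eq_zero, or_iff_left h4] at h7
  rw [h7, zero_smul, sub_zero] at h0
  refine ⟨coneOp x a, ⟨coneOp_deg x ha.1, trivial⟩, ?_⟩
  rintro _ rfl
  exact vanB_id.2 h0

end core

/-- **Poincare duality** -/
theorem pd_bijective [T2Space Y] [LocallyCompactSpace Y] [SigmaCompactSpace Y] {n : ℤ} {β : BM Y}
    (hβ : BM.IsDeg n β) (hloc : ∀ x, LocOri n β x) (hfin : Soft.LocFin (univ : Set Y)) :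
    Function.Bijective (pd β) := by
  obtain ⟨Λ, hΛ, hΛβ⟩ := BM.exists_dualC hβ
  have hM := capD_isMap hΛ hΛβ
  have hex : ∀ m, (Soft.cone hM).ExactOn univ m := fun m =>
    have := Soft.cone_exactOn_of_locFin hM hfin (fun x _ => capD_stalk_surj hΛ hΛβ (hloc x))
      fun x _ => capD_stalk_inj hΛβ (hloc x)
    Soft.exact_univ _ (Soft.cone_glue hM (asSoft_glue _ _ (Fam.local_all _)) (dualSoft_glue n))
      (fun A hA => this A (subset_univ _) hA _) fun A hA => this A (subset_univ _) hA _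
  have surj : ∀ k, ∀ β' : BM Y, BM.IsDeg k β' → ∃ h, H.IsDeg (n - k) h ∧ pd β h = β' := by
    intro k β' hk
    obtain ⟨φ, h1, h2⟩ := BM.exists_dualC hk
    obtain ⟨a, h3, h4, φ', h5, h6⟩ := Soft.surjOn_of_cone hM (hex (n - k)) φ
      (by show φ ∈ degD Y (n - (n - k)); rwa [sub_sub_cancel]) fun x _ =>
        ⟨univ, univ_mem, fun c hc _ => by
          rw [dualSoft_δ, ← neg_neg (par (δ c)), ← δ_par, map_neg]
          have := δ_mem_Bc (isCompact_supp_of_subset hc (supp_par c))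
          rw [h2 _ (Bc_le_Zc this), cls_of_mem_Bc this, map_zero, neg_zero]⟩
    have ha : supp (δ a) = ∅ := supp_eq_empty.2 ((asSoft_vanOn_univ _ _).1 h4)
    refine ⟨hcls a, hcls_isDeg (IsDeg.cast h3.1 (sub_zero _)), Hc.hom_ext fun b hb => ?_⟩
    have := kills_of_van hb.1 fun x _ => h6 x trivial
    rw [Submodule.coe_sub, Submodule.coe_sub, LinearMap.sub_apply, LinearMap.sub_apply, dualSoft_δ,
      capD_apply, φ'.null fun y => Van.par (supp_eq_empty.1 hb.2 y), sub_zero, sub_eq_zero,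
      h2 b hb, hΛβ _ (mul_Zc hb ha)] at this
    rw [pd_apply, Hc.act_cls ha hb, this]
  have hc : ∀ (β' : BM Y) k, BM.IsDeg k (β' ∘ₗ Hc.comp k) := fun β' k =>
    BM.isDeg_iff.2 fun j hj c hc => by
      rw [LinearMap.comp_apply, Hc.comp_of_ne hc (Ne.symm hj), map_zero]
  refine ⟨(injective_iff_map_eq_zero _).2 fun h h0 => H.ext_comp fun m => ?_, fun β' => ?_⟩
  · obtain ⟨a, ha, h1, h2⟩ := H.isDeg_iff.1 (H.isDeg_comp m h)
    have h3 : pd β (H.comp m h) = 0 := by
      refine LinearMap.ext fun c => ?_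
      rw [← (pd_deg hβ (H.isDeg_comp m h)).comp c]
      have key : ∀ h' : H Y, pd β h' (Hc.comp (n - m) c) =
          pd β (H.comp m h') (Hc.comp (n - m) c) := fun h' =>
        H.induction_deg (P := fun h' => pd β h' (Hc.comp (n - m) c) =
          pd β (H.comp m h') (Hc.comp (n - m) c)) h' (by simp)
          (fun a b ha hb => by simp only [map_add, LinearMap.add_apply, ha, hb]) fun j => by
            by_cases hj : j = m
            · rw [hj, (H.isDeg_comp m h').comp_eq]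
            · rw [(H.isDeg_comp j h').comp_ne (Ne.symm hj), map_zero, LinearMap.zero_apply]
              exact BM.isDeg_iff.1 (pd_deg hβ (H.isDeg_comp j h')) (n - m) (by omega) _
                (Hc.comp_mem _ c)
      rw [← key, h0]
      rfl
    have hd : capD Λ a ∈ (dualSoft Y n).deg m := by
      have := hM.deg m a ⟨h1, trivial⟩
      rwa [add_zero] at this
    obtain ⟨φ', h4, h5⟩ := exists_dual_prim hd (U := univ) fun b hb _ => by
      rw [capD_apply, hΛβ _ (mul_Zc hb ha), ← Hc.act_cls ha hb, ← pd_apply, h2, h3]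
      rfl
    obtain ⟨a', -, h6⟩ := Soft.injOn_of_cone hM (n := m) (hex _) a
      ⟨h1.cast (sub_zero m).symm, trivial⟩ ((asSoft_vanOn_univ _ _).2 (supp_eq_empty.1 ha)) φ' h4
      fun x _ => ⟨univ, univ_mem, h5⟩
    rw [map_zero, ← h2, hcls_eq_zero ha]
    exact ⟨a', supp_eq_empty.2 ((asSoft_vanOn_univ _ _).1 h6)⟩
  · choose g hg1 hg2 using fun k => surj k _ (hc β' k)
    refine ⟨∑ k ∈ Finset.range (n + 1).toNat, g k, LinearMap.ext fun c => ?_⟩
    obtain ⟨N, hN⟩ := Hc.exists_sum_comp c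
    conv_rhs => rw [← hN (N + (n + 1).toNat) (by omega), map_sum]
    rw [map_sum, LinearMap.sum_apply, ← Finset.sum_subset (Finset.range_subset_range.2
      (show (n + 1).toNat ≤ N + (n + 1).toNat by omega)) fun k _ hk => ?_]
    · exact Finset.sum_congr rfl fun k _ => by rw [hg2]; rfl
    · have := LinearMap.congr_fun (hg2 k) c
      rw [(hg1 k).eq_zero (by rw [Finset.mem_range] at hk; omega), map_zero] at this
      exact this.symm

/-! ### charts -/

variable {V : Type} [NormedAddCommGroup V] [NormedSpace ℝ V] [FiniteDimensional ℝ V]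

theorem locOri_of_chart [T2Space Y] [LocallyCompactSpace Y] {β : BM Y} {j : V → Y}
    (hj : IsOpenEmbedding j) (h : (Hc.push hj).dualMap β ≠ 0) (v : V) :
    LocOri (Module.finrank ℝ V) β (j v) := by
  haveI := FiniteDimensional.proper_real V
  intro U hU
  obtain ⟨ε, hε, hb⟩ := Metric.mem_nhds_iff.1 (hj.continuous.continuousAt hU)
  have he : IsOpenEmbedding (OpenPartialHomeomorph.univBall v ε : V → V) :=
    OpenPartialHomeomorph.to_isOpenEmbedding _ (OpenPartialHomeomorph.univBall_source v ε)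
  set e : V → V := ⇑(OpenPartialHomeomorph.univBall v ε) with he'
  have hr : range e = Metric.ball v ε := by
    rw [← OpenPartialHomeomorph.univBall_target v hε,
      ← OpenPartialHomeomorph.image_source_eq_target, OpenPartialHomeomorph.univBall_source,
      image_univ]
  obtain ⟨t, ht, hs⟩ := exists_isGen V
  have ht' := ht.pull (Homeomorph.subRight v).isHomeomorph
  set t' := pull (Homeomorph.subRight v) t
  have hs' : supp t' ⊆ range e := fun w hw => by
    have : w - v = 0 := hs (supp_pull (Homeomorph.subRight v).continuous t hw)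
    rw [hr, sub_eq_zero.1 this]
    exact Metric.mem_ball_self hε
  have hp := Hc.push_cls he ht'.mem hs'
  have hg : IsGen (Module.finrank ℝ V) (pull e t') := ht.of_ne (pull_open_Zc he ht'.mem hs')
    (ht'.deg.pull e) fun h0 => ht'.ne (by rw [← hp, h0, map_zero])
  have hj' := hj.comp he
  obtain ⟨b, h1, h2, h3, h4⟩ := exists_ext_open hj' hg.mem hg.deg
  have h3' : supp b ⊆ range (j ∘ e) := h3.trans (image_subset_range _ _)
  have hU' : range (j ∘ e) ⊆ U := by
    rintro _ ⟨w, rfl⟩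
    exact hb (hr ▸ mem_range_self w)
  refine ⟨range (j ∘ e), hj'.isOpen_range.mem_nhds ⟨0, congrArg j
    (OpenPartialHomeomorph.univBall_apply_zero v ε)⟩, hU', b, h1, h2, h3', fun h0 => h ?_,
    fun b' h5 h6 => ?_⟩
  · refine LinearMap.ext fun c => ?_
    obtain ⟨z, rfl⟩ := ht'.span c
    rw [map_smul, LinearMap.dualMap_apply, ← hp, Hc.push_push, ← cls_eq_of_null h4,
      Hc.push_cls hj' h1 h3', h0, smul_zero]
    rfl
  · obtain ⟨z, hz⟩ := hg.span (cls (pull (j ∘ e) b'))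
    obtain ⟨c, h7, h8, h9⟩ := exists_prim_open hj' ((Zc Y).sub_mem h5 ((Zc Y).smul_mem z h1))
      ((supp_sub _ _).trans (union_subset h6 ((supp_smul z b).trans h3'))) (by
        have := pull_open_Zc hj' h1 h3'
        rw [map_sub, map_smul, ← cls_eq_iff (pull_open_Zc hj' h5 h6) ((Zc V).smul_mem z this),
          cls_smul z this, hz, cls_eq_of_null h4])
    exact ⟨z, c, h7, h8.trans hU', h9⟩

theorem locFin_of_charts (h : ∀ x : Y, ∃ j : V → Y, IsOpenEmbedding j ∧ x ∈ range j) :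
    Soft.LocFin (univ : Set Y) := fun x _ => by
  obtain ⟨j, hj, hx⟩ := h x
  obtain ⟨r, hr⟩ := (Taut.of_isOpenEmbedding hj).retr.resolve_left (not_isEmpty_of_nonempty V)
  let e : V ≃L[ℝ] (Fin (Module.finrank ℝ V) → ℝ) :=
    ContinuousLinearEquiv.ofFinrankEq (by simp)
  refine ⟨range j, hj.isOpen_range.mem_nhds hx, _, e ∘ r, ?_, ?_⟩
  · rintro _ ⟨v, rfl⟩
    exact (e.continuous.continuousAt.comp (hr.cont v)).continuousWithinAt
  · rintro _ ⟨v, rfl⟩ _ ⟨w, rfl⟩ hvw
    have := e.injective hvw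
    rw [hr.left, hr.left] at this
    rw [this]

/-- **Poincare duality** for a manifold with an orientation class -/
theorem pd_bijective_of_charts [T2Space Y] [LocallyCompactSpace Y] [SigmaCompactSpace Y]
    {β : BM Y} (hβ : BM.IsDeg (Module.finrank ℝ V) β)
    (h : ∀ x : Y, ∃ (j : V → Y) (hj : IsOpenEmbedding j), x ∈ range j ∧
      (Hc.push hj).dualMap β ≠ 0) : Function.Bijective (pd β) :=
  pd_bijective hβ (fun x => by
    obtain ⟨j, hj, ⟨v, rfl⟩, h1⟩ := h x
    exact locOri_of_chart hj h1 v) (locFin_of_charts fun x => by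
    obtain ⟨j, hj, h1, -⟩ := h x
    exact ⟨j, hj, h1⟩)

end Vale.Agent.P291Z
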