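import Vale.Agent.P291Z.EH1
import Vale.Agent.P291Z.T13

/-!
# Poincare duality for families from levelwise Poincare duality
-/

set_option linter.all false

namespace Vale.Agent.P291Z

open Set Function Topology

section level

variable {X : Type} [TopologicalSpace X]

theorem cap_eq_pd (h : H X) (β : BM X) : cap h β = pd β h := rfl

theorem pd_comp {n : ℤ} {β : BM X} (hβ : BM.IsDeg n β) (m : ℤ) (h : H X) :
    pd β (H.comp m h) = (Hc.comp (n - m)).dualMap (pd β h) := by
  refine H.induction_deg (P := fun h => pd β (H.comp m h) = (Hc.comp (n - m)).dualMap (pd β h)) h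
    (by simp only [map_zero]) (fun b c hb hc => by simp only [map_add, hb, hc]) fun k => ?_
  have h1 := pd_deg hβ (H.isDeg_comp k h)
  by_cases hk : m = k
  · subst hk
    rw [(H.isDeg_comp m h).comp_eq]
    exact LinearMap.ext fun c => (h1.comp c).symm
  · rw [(H.isDeg_comp k h).comp_ne hk, map_zero]
    exact LinearMap.ext fun c =>
      (BM.isDeg_iff.1 h1 (n - m) (by omega) _ (Hc.comp_mem _ c)).symm

theorem isDeg_of_pd {n m : ℤ} {β : BM X} (hβ : BM.IsDeg n β) (hi : Injective (pd β)) {h : H X}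
    (hh : BM.IsDeg (n - m) (pd β h)) : H.IsDeg m h := by
  have : H.comp m h = h := hi ((pd_comp hβ m h).trans (LinearMap.ext fun c => hh.comp c))
  exact this ▸ H.isDeg_comp m h

end level

variable {G Z : Type} [Group G] [TopologicalSpace G] [Sys G] [TopologicalSpace Z] [MulAction G Z]
  [Nice Z] [ContinuousSMul G Z]

theorem eact_add (c c' : HS G Z) (β : EH G Z) :
    eact (c + c').1 β = eact c.1 β + eact c'.1 β :=
  EH.ext fun M => by
    show _ = (eact c.1 β).1 M + (eact c'.1 β).1 M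
    rw [eact_apply, eact_apply, eact_apply]
    exact map_add (pd (β.1 M)) (c.1 M) (c'.1 M)

theorem eact_zero (β : EH G Z) : eact (0 : HS G Z).1 β = 0 :=
  EH.ext fun M => by
    rw [eact_apply]
    exact map_zero (pd (β.1 M))

/-- homogeneous classes have homogeneous Poincare duals -/
theorem exists_eact_of_level {o : EH G Z} {D : ℤ} (ho : o ∈ EH.deg G Z D)
    (h : ∀ M, Bijective (pd (o.1 M))) {k : ℤ} {β : EH G Z} (hβ : β ∈ EH.deg G Z k) :
    ∃ c : HS G Z, c.1 ∈ HSdeg G Z (D - k) ∧ eact c.1 o = β := by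
  choose c hc using fun M => (h M).2 (β.1 M)
  have h1 : c ∈ HSdeg G Z (D - k) := fun M => ⟨(h M).1 (by
      have := gys_cap (i := bincC G Z M) (isClosedEmbedding_binc M) (isCo_ecol M) (c (M + 1))
        (o.1 (M + 1))
      rw [cap_eq_pd, cap_eq_pd, hc] at this
      rw [hc, ← EH.compat β M, ← EH.compat o M]
      exact this.symm),
    isDeg_of_pd (β := o.1 M) (mem_FamS_iff.1 ho M).2 (h M).1 (by
      rw [hc, show D + 2 * Sys.dim G M - (D - k) = k + 2 * Sys.dim G M by ring]
      exact (mem_FamS_iff.1 hβ M).2)⟩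
  refine ⟨⟨c, Subring.subset_closure (mem_iUnion.2 ⟨_, h1⟩)⟩, h1, EH.ext fun M => ?_⟩
  exact (eact_apply (⟨c, Subring.subset_closure (mem_iUnion.2 ⟨_, h1⟩)⟩ : HS G Z) o M).trans (hc M)

theorem eact_bijective_of_level {o : EH G Z} {D : ℤ} (ho : o ∈ EH.deg G Z D)
    (h : ∀ M, Bijective (pd (o.1 M))) : Bijective fun c : HS G Z => eact c.1 o := by
  refine ⟨fun c c' e => Subtype.ext (funext fun M => (h M).1 ?_), fun β => ?_⟩
  · have := congrArg (fun γ : EH G Z => γ.1 M) e
    simp only [eact_apply] at this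
    exact this
  · refine EH.induction (P := fun β => ∃ c : HS G Z, eact c.1 o = β) β ⟨0, eact_zero o⟩ ?_
      fun k a ha => ?_
    · rintro _ _ ⟨c, rfl⟩ ⟨c', rfl⟩
      exact ⟨c + c', eact_add c c' o⟩
    · obtain ⟨c, -, hc⟩ := exists_eact_of_level ho h ha
      exact ⟨c, hc⟩

theorem eact_deg_iff_of_level {o : EH G Z} {D : ℤ} (ho : o ∈ EH.deg G Z D)
    (h : ∀ M, Bijective (pd (o.1 M))) {j : ℤ} {c : HS G Z} :
    eact c.1 o ∈ EH.deg G Z (D - j) ↔ c.1 ∈ HSdeg G Z j := by
  refine ⟨fun hc => ?_, fun hc => eact_deg hc ho⟩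
  obtain ⟨c', h1, h2⟩ := exists_eact_of_level ho h hc
  rw [← (eact_bijective_of_level ho h).1 h2]
  rwa [sub_sub_cancel] at h1

end Vale.Agent.P291Z
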