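import Vale.Agent.P291Z.Ind1
import Vale.Agent.P291Z.IndA
import Vale.Agent.P291Z.IndP
import Vale.Agent.P291Z.GLSys

/-!
# The induction isomorphism and Poincare duality for families
-/

set_option linter.unusedSectionVars false

namespace Vale.Agent.P291Z

open Set Function Topology Matrix

section comm

variable {G G' : Type} [Group G] [TopologicalSpace G] [Sys G] [Group G'] [TopologicalSpace G']
  [Sys G'] {X Y Z' : Type} [TopologicalSpace X] [MulAction G X] [Nice X] [ContinuousSMul G X]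
  [TopologicalSpace Y] [MulAction G Y] [Nice Y] [ContinuousSMul G Y]
  [TopologicalSpace Z'] [MulAction G' Z'] [Nice Z'] [ContinuousSMul G' Z']

theorem comm_cext {j : Y →[G] X} (hj : IsOpenEmbedding j) :
    Seq.Comm (EL.gc G Y) (EL.gc G X) fun M => cext (smap j M) := fun M c =>
  EL.hc_eq_of_dual fun β => LinearMap.congr_fun
    (EL.lev_res (isLev_smap hj.continuous) (isOpenEmbedding_smap hj) M β) c

theorem comm_cgys {i : Y →[G] X} (hi : IsClosedEmbedding i) {d : ℕ} {t : ∀ M, Coch (Bq G X M)}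
    (ht : IsCoc (range i) d t) :
    Seq.Comm (EL.gc G Y) (EL.gc G X) fun M => cgys (smap i M) (t M) := fun M c => by
  have hl := isLev_smap hi.continuous
  have hs : ∀ M, supp (t M) ⊆ range (smap i M) := fun M => range_smap i M ▸ ht.supp M
  have h1 := hl.col M
  have h2 := range_smap i M ▸ ht.compat M
  have := cgys_comm (isClosedEmbedding_smap hi (M + 1)) (isClosedEmbedding_binc M)
    (isClosedEmbedding_smap hi M) (isClosedEmbedding_binc M) (hl.comm M) (hl.cart M)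
    (ht.cocycle _) (hs _) (ecol_cocycle M) (supp_ecol M) (ht.deg _) c
  rwa [cgys_congr (isClosedEmbedding_binc M) (h1.cocycle (ecol_cocycle M))
    (h1.supp_subset (supp_ecol M)) (ecol_cocycle M) (supp_ecol M) h1,
    cgys_congr (isClosedEmbedding_smap hi M) (h2.cocycle (ht.cocycle M)) (h2.supp_subset (hs M))
    (ht.cocycle M) (hs M) h2] at this

theorem step_gc (c : ℤ) : Step (fun M => c + 2 * Sys.dim G M) (EL.gc G X) := fun M k x hx => by
  have := EL.gc_deg M _ x hx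
  rwa [← add_assoc, ← EL.dim_succ, add_assoc] at this

/-- maps of families which are levelwise bijective in a growing range of degrees -/
theorem EH.bijective_of_level {Φ : EH G' Z' →ₗ[ℂ] EH G X}
    {ψ : ∀ M, Hc (Bq G X M) →ₗ[ℂ] Hc (Bq G' Z' M)}
    (hΦ : ∀ β M, (Φ β).1 M = (ψ M).dualMap (β.1 M)) (h : Seq.Comm (EL.gc G X) (EL.gc G' Z') ψ)
    {c : ℤ} (hs : Shift (fun M => c + 2 * Sys.dim G M) (fun M => 0 + 2 * Sys.dim G' M) ψ)
    (H : ∀ k, ∃ L, ∀ M, L ≤ M → (∀ x ∈ Hc.deg _ (k + (c + 2 * Sys.dim G M)), ψ M x = 0 → x = 0) ∧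
      ∀ y ∈ Hc.deg _ (k + (0 + 2 * Sys.dim G' M)), ∃ x, ψ M x = y) : Bijective Φ := by
  refine ⟨fun β β' e => Subtype.ext (h.eq_of_surjective (h.map_surjective_deg (step_gc 0)
    fun k => (H k).imp fun L hL M hM => (hL M hM).2) (EH.compat β) (EH.compat β') fun M => by
      rw [← hΦ, ← hΦ, e]), fun β => ?_⟩
  induction β using EH.induction with
  | h0 => exact ⟨0, map_zero _⟩
  | hadd a b ha hb =>
    obtain ⟨a, rfl⟩ := ha
    obtain ⟨b, rfl⟩ := hb
    exact ⟨a + b, map_add _ _ _⟩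
  | h k β hβ =>
    obtain ⟨γ, h1, h2, h3⟩ := exists_fam_of_injective (step_gc 0) h hs
      (h.map_injective_deg (step_gc c) hs fun k => (H k).imp fun L hL M hM => (hL M hM).1)
      (k := k - c) (EH.compat β) fun M => by
        have := EL.deg_isDeg hβ M
        rwa [← sub_add_cancel k c, add_assoc] at this
    exact ⟨EH.mk γ (mem_FamS_iff.2 fun M => ⟨h1 M, zero_add (2 * Sys.dim G' M) ▸ h2 M⟩),
      EH.ext fun M => (hΦ _ M).trans (h3 M)⟩

variable {G₁ G₂ Z₁ Z₂ : Type} [Group G₁] [TopologicalSpace G₁] [Sys G₁] [Group G₂]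
  [TopologicalSpace G₂] [Sys G₂] [TopologicalSpace Z₁] [MulAction G₁ Z₁] [Nice Z₁]
  [ContinuousSMul G₁ Z₁] [TopologicalSpace Z₂] [MulAction G₂ Z₂] [Nice Z₂] [ContinuousSMul G₂ Z₂]
  {p₁ : ∀ M, Bq G X M → Bq G₁ Z₁ M} {p₂ : ∀ M, Bq G X M → Bq G₂ Z₂ M} (hp : IsProd p₁ p₂)

theorem comm_slant (β : EH G₂ Z₂) :
    Seq.Comm (EL.gc G X) (EL.gc G₁ Z₁) fun M => slant (hp.homeo M) (β.1 M) := fun M c => by
  induction c using Hc.cross_induction (hp.homeo M) with
  | h0 => simp only [map_zero]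
  | hadd a b ha hb => simp only [map_add, ha, hb]
  | hc c c' =>
    rw [← EL.gc_cross hp, slant_cross, slant_cross, map_smul, ← EH.compat β M, EL.gys_gc]

end comm

theorem slant_deg {X X₁ X₂ : Type} [TopologicalSpace X] [TopologicalSpace X₁] [TopologicalSpace X₂]
    [Nice X] [Nice X₁] [Nice X₂] {p₁ : X → X₁} {p₂ : X → X₂}
    (hp : IsHomeomorph fun x => (p₁ x, p₂ x)) {l : ℤ} {β : BM X₂} (hβ : BM.IsDeg l β) {k : ℤ}
    {c : Hc X} (hc : c ∈ Hc.deg X (k + l)) : slant hp β c ∈ Hc.deg X₁ k := by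
  refine Hc.mem_deg_iff.2 (Hc.ext_comp fun j => ?_)
  rcases eq_or_ne j k with rfl | h
  · exact Hc.comp_of_mem (Hc.comp_mem _ _)
  · rw [Hc.comp_of_ne (Hc.comp_mem _ _) h]
    refine EL.hc_eq_of_dual fun γ => ?_
    have := BM.isDeg_iff.1 ((BM.isDeg_comp j γ).cross hp hβ) _ (by omega) c hc
    rw [← slant_dual hp] at this
    exact (map_zero γ).trans this.symm

theorem compactSpace_bq {G : Type} [Group G] [TopologicalSpace G] [Sys G] {M : ℕ} :
    CompactSpace (Bq G Unit M) := by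
  let f : MulAction.orbitRel.Quotient G (Sys.P G M) → Bq G Unit M :=
    Quotient.map' (fun u => ((), u)) (by rintro _ y ⟨h, rfl⟩; exact ⟨h, rfl⟩)
  have hf : Continuous f := Continuous.quotient_map' (by fun_prop) _
  refine Surjective.compactSpace hf fun x => ?_
  obtain ⟨x, rfl⟩ := Bor.mk_surjective x
  exact ⟨Quotient.mk'' x.2, rfl⟩

section fund

variable {J : Type} [Fintype J] {n : J → ℕ} {M : ℕ}

/-- a normalized class does not vanish on the classes of points -/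
theorem exists_point_class {β : BM (Bo n Unit M)} (h : ev β
    (euler (fun _ => (0 : Mat n fun j => M - n j)) fun g _ => (smul_zero g).symm) = 1)
    (u : EE n M) : ∃ c ∈ Zc _, supp c ⊆ {Bor.mk (GG n) ((), u)} ∧ β (cls c) ≠ 0 := by
  obtain ⟨F⟩ := nonempty_frame u
  have hW := isRep_Mat n fun j => M - n j
  have hc : Continuous fun x : Unit × EE n M => F.col x.2 := F.continuous_col.comp continuous_snd
  have : CompactSpace (Bo n Unit M) := compactSpace_bq
  have h1 := euler_cocycle hW (fun g x => F.col_smul g x.2) hc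
  refine ⟨_, Zc_of_compact h1, (supp_euler hW _ hc).trans ?_, ?_⟩
  · rintro _ ⟨x, hx, rfl⟩
    obtain ⟨g, hg⟩ := F.exists_of_col hx
    exact Bor.mk_eq_iff.2 ⟨g, Prod.ext rfl hg⟩
  · rw [(cls_eq_iff_hcls h1 (euler_cocycle hW (fun g _ => (smul_zero g).symm) continuous_const)).2
      (hcls_euler hW _ hc _ continuous_const), ← ev_eq, h]
    exact one_ne_zero

theorem nonempty_EE {β : BM (Bo n Unit M)} (h : ev β
    (euler (fun _ => (0 : Mat n fun j => M - n j)) fun g _ => (smul_zero g).symm) = 1) :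
    Nonempty (EE n M) := by
  by_contra! H
  have : IsEmpty (Bo n Unit M) := ⟨fun x => by
    obtain ⟨x, -⟩ := Bor.mk_surjective x
    exact H.false x.2⟩
  rw [ev_eq, Top.of_isEmpty _ _ (sub_one_lt _) _ (cls_mem_deg (isDeg_euler (isRep_Mat n _) _)),
    map_zero] at h
  exact zero_ne_one h

end fund

section ind

variable {J₂ : Type} [Fintype J₂] {n₂ : J₂ → ℕ} {G G₁ : Type} [Group G] [TopologicalSpace G] [Sys G]
  [Group G₁] [TopologicalSpace G₁] [Sys G₁] (S : SysProd G G₁ (GG n₂))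
  {Z B W P : Type} [TopologicalSpace Z] [MulAction G₁ Z] [Nice Z] [ContinuousSMul G₁ Z]
  [TopologicalSpace B] [MulAction G B] [Nice B] [ContinuousSMul G B]
  [AddCommGroup W] [Module ℂ W] [TopologicalSpace W] [DistribMulAction G W]
  [TopologicalSpace P] [MulAction G P] [Nice P] [ContinuousSMul G P]
  {b : B → Z} (hb : ∀ (g : G) y, b (g • y) = S.π₁ g • b y)
  (V : SubMulAction G (B × W)) (h0 : ∀ y, (y, 0) ∈ V) [Nice V] [ContinuousSMul G V] (j : P →[G] V)

theorem ind_bijective {o : EH (GG n₂) Unit} (ho : o ∈ EH.deg _ _ 0)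
    (hn : ∀ M, (∀ i, n₂ i ≤ M) → ev (X := Bo n₂ Unit M) (o.1 M)
      (euler (fun _ => (0 : Mat n₂ fun j => M - n₂ j)) fun g _ => (smul_zero g).symm) = 1)
    (hbh : IsHomeomorph b) {D : ℕ} (hD : HasDim Z D) {D' : ℕ → ℕ}
    (hD' : ∀ M, HasDim (Bq G₁ Unit M) (D' M)) (hD'' : ∀ M, (D' M : ℤ) ≤ 2 * Sys.dim G₁ M ∨
      IsEmpty (Sys.P G₁ M)) {r s : ℕ} (hW : IsRep G W s)
    (hV : IsSubVB V r) (hj : IsOpenEmbedding j) (hf : IndFib S V j) :
    Bijective (eres j ∘ₗ ethom V h0 ∘ₗ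
      (S.cross hb (b₂ := fun _ => ()) fun _ _ => rfl).flip o) := by
  have hp := S.isProd hb (b₂ := fun _ => ()) (fun _ _ => rfl) (isHomeomorph_unit hbh)
  have hz := IsSubVB.isClosedEmbedding_zs hW h0
  have ht := isCoc_tho hW hV h0
  let E := fun M => LinearEquiv.ofBijective _ (cgys_tho_bijective hW hV h0 M)
  refine EH.bijective_of_level (ψ := fun M => slant (hp.homeo M) (o.1 M) ∘ₗ
    (E M).symm.toLinearMap ∘ₗ cext (smap j M)) (fun β M => ?_)
    ((comm_slant hp o).comp ((Seq.Comm.symm (φ := E) (comm_cgys hz ht)).comp (comm_cext hj)))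
    (c := 2 * r) (fun M k c hc => ?_) fun k => ?_
  · have h1 := congrArg (fun x => x.1 M) (egys_ethom h0 hW hV
      (S.cross hb (b₂ := fun _ => ()) (fun _ _ => rfl) β o))
    simp only [egys_apply hz ht] at h1
    rw [SysProd.cross, lcross_apply hp, ← slant_dual (hp.homeo M)] at h1
    rw [LinearMap.comp_apply, eres_apply hj]
    refine LinearMap.ext fun c => ?_
    have h2 := LinearMap.congr_fun h1 ((E M).symm (cext (smap j M) c))
    rw [gys_apply] at h2
    exact (congrArg _ ((E M).apply_symm_apply _).symm).trans h2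
  · beta_reduce at hc ⊢
    obtain ⟨c', h1⟩ := (E M).surjective (cext (smap j M) c)
    obtain ⟨c'', h2, h3⟩ := Hc.exists_deg_of_range (f := cgys (smap (zs V h0) M) (tho V M))
      (fun k c => cgys_deg _ (ht.deg M)) (k := k + 2 * Sys.dim G M) (c := c') (by
        have := cext_deg (smap j M) hc
        rwa [← h1, add_comm (2 * r : ℤ), ← add_assoc] at this)
    have h4 : (E M).symm (cext (smap j M) c) = c'' := (E M).symm_apply_eq.2 (h1.symm.trans h3.symm)
    refine slant_deg (c := (E M).symm (cext (smap j M) c)) (hp.homeo M)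
      (EL.deg_isDeg ho M) ?_
    rw [h4, show k + (0 + 2 * Sys.dim G₁ M) + (0 + 2 * Sys.dim (GG n₂) M) = k + 2 * Sys.dim G M by
      rw [hp.dim]; ring]
    exact h2
  · refine ⟨(∑ i, n₂ i) + D + 7 + k.natAbs, fun M hM => ?_⟩
    have hn₂ : ∀ i, n₂ i ≤ M := fun i =>
      (Finset.single_le_sum (fun _ _ => Nat.zero_le _) (Finset.mem_univ i)).trans (by omega)
    rcases hD'' M with h | h
    · obtain ⟨c₀, h1, h2, h3⟩ := exists_point_class (hn M hn₂) (nonempty_EE (hn M hn₂)).some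
      have h4 := ind_level S hb h0 hbh hW hV hj hf (zero_add (2 * dimB n₂ M) ▸ EL.deg_isDeg ho M)
        h1 h2 h3 (hD.bor (hD' M)) (θ := (E M).symm.toLinearMap) (E M).symm_apply_apply
        (m := k + (2 * r + 2 * Sys.dim G M)) (by
          rw [hp.dim]
          show _ ≤ _ + (_ + 2 * (_ + dimB n₂ M))
          generalize ∑ i, n₂ i = N at hM
          push_cast
          omega)
      refine ⟨h4.1, fun y hy => h4.2 y ?_⟩
      convert hy using 2
      rw [hp.dim]
      show _ + (_ + 2 * (_ + dimB n₂ M)) - _ = _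
      ring
    · have e1 : IsEmpty (Bq G P M) := ⟨fun x => by
        obtain ⟨x, -⟩ := Bor.mk_surjective x
        exact h.false (S.e₁ M x.2)⟩
      have e2 : IsEmpty (Bq G₁ Z M) := ⟨fun x => by
        obtain ⟨x, -⟩ := Bor.mk_surjective x
        exact h.false x.2⟩
      exact ⟨fun x hx _ => Top.of_isEmpty _ _ (sub_one_lt _) x hx,
        fun y hy => ⟨0, (map_zero _).trans (Top.of_isEmpty _ _ (sub_one_lt _) y hy).symm⟩⟩

end ind

theorem EH.mem_deg_of_injective {G G' Z Z' : Type} [Group G] [TopologicalSpace G] [Sys G] [Group G']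
    [TopologicalSpace G'] [Sys G'] [TopologicalSpace Z] [MulAction G Z] [Nice Z]
    [ContinuousSMul G Z] [TopologicalSpace Z'] [MulAction G' Z'] [Nice Z'] [ContinuousSMul G' Z']
    {φ : EH G Z →ₗ[ℂ] EH G' Z'} (hφ : Injective φ) {c : ℤ}
    (h : ∀ k, ∀ β ∈ EH.deg G Z k, φ β ∈ EH.deg G' Z' (k + c)) {k : ℤ} {β : EH G Z}
    (hβ : φ β ∈ EH.deg G' Z' (k + c)) : β ∈ EH.deg G Z k := by
  rw [hφ ((EH.comp_of_mem hβ).symm.trans (EH.comp_map h k β))]
  exact EH.comp_mem _ _

/-- the Euler cocycle on a transversal slice -/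
theorem isGen_euler {G Z W P : Type} [Group G] [TopologicalSpace G] [TopologicalSpace Z]
    [MulAction G Z] [AddCommGroup W] [Module ℂ W] [TopologicalSpace W] [DistribMulAction G W]
    [TopologicalSpace P] [MulAction G P] [Prin G P] [ContinuousSMul G Z] [Nice P] [Nice Z] {s : ℕ}
    (hW : IsRep G W s) {σ : Z × P → W} (hσ : ∀ (h : G) x, σ (h • x) = h • σ x) (hc : Continuous σ)
    {h : (Fin s → ℂ) → Z × P} (hh : Continuous h) (ℓ : (Fin s → ℂ) ≃L[ℂ] W)
    {ρ : (Fin s → ℂ) → ℝ} (hρ : Continuous ρ) (hpos : ∀ w, 0 < ρ w)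
    (e : ∀ w, σ (h w) = ℓ (ρ w • w)) :
    IsGen (2 * s) (pull (fun w => Bor.mk G (h w)) (euler σ hσ)) := by
  have hV := isSubVB_top (Z := Z) hW
  have h0 := isGen_thom_fibre hW hV (ContinuousLinearEquiv.refl ℂ _) (z := (h 0).1) (h 0).2
    (ψ := ℓ.toLinearMap) ℓ.injective fun w => ⟨fun _ => ℓ.surjective w, fun _ => trivial⟩
  let H : unitInterval × (Fin s → ℂ) → Bor G (⊤ : SubMulAction G (Z × W)) P := fun x => Bor.mk G
    (⟨((h (x.1.1 • x.2)).1, ℓ ((1 - x.1.1 + x.1.1 * ρ x.2) • x.2)), trivial⟩, (h (x.1.1 • x.2)).2)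
  have hH : Continuous H := Bor.continuous_mk.comp
    (Continuous.prodMk (Continuous.subtype_mk (by fun_prop) _) (by fun_prop))
  have hs : ∀ x, H x ∈ supp (thom ⊤ P) → x.2 = 0 := fun x hx => by
    have h1 := mk_mem_vzero.1 (supp_thom hW hV hx)
    refine (smul_eq_zero.1 (ℓ.map_eq_zero_iff.1 h1)).resolve_left (ne_of_gt ?_)
    rcases x.1.2.1.eq_or_lt with h2 | h2
    · rw [← h2]
      norm_num
    · have := mul_pos h2 (hpos x.2)
      linarith [x.1.2.2]
  have h1 : ∀ w, H (1, w) = vsec σ hσ (Bor.mk G (h w)) := fun w => by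
    simp only [H, Icc.coe_one, one_smul, sub_self, zero_add, one_mul, ← e]
    rfl
  have h2 := cls_pull_eq_of_homotopy hH (thom_cocycle hW hV)
    ((isCompact_univ.prod (isCompact_singleton (x := 0))).of_isClosed_subset
      ((isClosed_supp _).preimage hH) fun x hx => ⟨trivial, hs x hx⟩)
    (f := fun w => Bor.mk G (⟨((h 0).1, ℓ w), trivial⟩, (h 0).2)) (fun w => by simp [H]) h1
  have h3 := Bor.continuous_mk (G := G).comp hh
  refine h0.of_ne ⟨(isCompact_singleton (x := 0)).of_isClosed_subset (isClosed_supp _)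
    fun w hw => hs (1, w) ?_, cocycle_pull h3 (euler_cocycle hW hσ hc)⟩
    ((isDeg_euler hW hσ).pull _) ?_
  · rw [h1]
    exact supp_pull (continuous_vsec hσ hc) _ (supp_pull h3 _ hw)
  · rw [euler_eq, pull_pull]
    exact h2.symm.trans_ne h0.ne

section pd

variable {J : Type} [Fintype J] {n : J → ℕ} {X Z W : Type}
  [AddCommGroup X] [Module ℂ X] [TopologicalSpace X] [DistribMulAction (GG n) X]
  [TopologicalSpace Z] [MulAction (GG n) Z] [Nice Z] [ContinuousSMul (GG n) Z]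
  [AddCommGroup W] [Module ℂ W] [TopologicalSpace W] [DistribMulAction (GG n) W]
  {o : EH (GG n) Unit} (ho : o ∈ EH.deg _ _ 0)
  (hn : ∀ M, (∀ i, n i ≤ M) → ev (X := Bo n Unit M) (o.1 M)
    (euler (fun _ => (0 : Mat n fun j => M - n j)) fun g _ => (smul_zero g).symm) = 1)
include ho hn

/-- the fundamental class of a representation -/
theorem exists_fund_rep {r : ℕ} (hX : IsRep (GG n) X r) [Nice X] [ContinuousSMul (GG n) X] :
    ∃ ξ ∈ EH.deg (GG n) X (2 * r), ∀ M (u : EE n M) (F : Frame u),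
      (Hc.push (F.isOpenEmbedding_chart X)).dualMap (ξ.1 M) ≠ 0 := by
  let s : Unit →[GG n] X := ⟨fun _ => 0, fun g _ => (smul_zero g).symm⟩
  have hs : IsClosedEmbedding s := LeftInverse.isClosedEmbedding (f := fun _ => ())
    (fun _ => rfl) continuous_const continuous_const
  have ht : IsCoc (range s) r (eul (MulActionHom.id (GG n) : X →[GG n] X)) :=
    (isCoc_eul hX continuous_id).mono fun x hx => mem_range.2 ⟨(), hx.symm⟩
  have hb := egys_bijective hs ht (cgys_eul_bijective hX (p := toUnit _ X)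
    (Homeomorph.uniqueProd Unit X).symm.isHomeomorph (fun _ => rfl) fun _ => rfl)
  obtain ⟨ξ, hξ⟩ := hb.2 o
  refine ⟨ξ, EH.mem_deg_of_injective hb.1 (c := -(2 * r)) (fun k β hβ => egys_deg hs ht hβ)
    (by rwa [hξ, add_neg_cancel]), fun M u F => ?_⟩
  obtain ⟨c, h1, h2, h3⟩ := exists_point_class (hn M (le_of_EE u)) u
  have hs' := isClosedEmbedding_smap hs M
  have h4 : supp (eul (MulActionHom.id (GG n) : X →[GG n] X) M) ⊆ range (smap s M) :=
    range_smap s M ▸ ht.supp M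
  have h5 : ∀ x, bpt (GG n) X M (smap s M x) = x := fun x => by
    obtain ⟨x, rfl⟩ := Bor.mk_surjective x
    rfl
  have h6 := prop_of_section hs'.continuous h5 (isClosed_supp _) h4
  refine push_dual_ne_zero _ (pull_mul_Zc (continuous_bpt M) (ht.cocycle M) h6 h1)
    (fun x hx => ?_) ?_
  · obtain ⟨y, rfl⟩ := h4 (supp_mul _ _ hx).2
    have h7 := h2 (supp_pull (continuous_bpt M) _ (supp_mul _ _ hx).1)
    rw [h5] at h7
    exact ⟨_, (F.chart_zero X 0).trans (h7 ▸ rfl)⟩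
  · rw [← Hc.pullMul_cls (continuous_bpt M) (ht.cocycle M) h6 h1,
      ← Hc.gys_eq_pullMul _ hs' h5 _ h4, ← cgys_eq, ← gys_apply, ← egys_apply hs ht, hξ]
    exact h3

theorem pd_zero_set' {r s : ℕ} (hX : IsRep (GG n) X r) (hW : IsRep (GG n) W s) {μ : X →[GG n] W}
    (hμ : Continuous μ) {i : Z →[GG n] X} (hi : IsEmbedding i) {U : Set X} (hU : IsOpen U)
    (hr : range i = U ∩ μ ⁻¹' {0})
    (hsub : ∀ z, ∃ (d : ℕ) (e : OpenPartialHomeomorph X ((Fin d → ℂ) × W)), d + s = r ∧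
      i z ∈ e.source ∧ ∀ x ∈ e.source, (e x).2 = μ x) :
    ∃ o ∈ EH.deg (GG n) Z (2 * r - 2 * s), ∀ M, Bijective (pd (o.1 M)) := by
  have := hX.nice
  have := hX.cont
  have := hW.nice
  obtain ⟨ξ, hξ, hξ'⟩ := exists_fund_rep ho hn hX
  have hE : Euc X r := ⟨hX.lin.some.toHomeomorph⟩
  let Z₀ : SubMulAction (GG n) X := ⟨μ ⁻¹' {0}, fun g x hx =>
    (μ.map_smul g x).trans ((congrArg (g • ·) hx).trans (smul_zero g))⟩
  have hZ₀ : IsClosed (Z₀ : Set X) := isClosed_singleton.preimage hμ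
  have : Nice Z₀ := Nice.of_isLocallyClosed hZ₀.isLocallyClosed
  let k : Z₀ →[GG n] X := ⟨Subtype.val, fun _ _ => rfl⟩
  have hk : IsClosedEmbedding k := hZ₀.isClosedEmbedding_subtypeVal
  let i₀ : Z →[GG n] Z₀ := ⟨fun z => ⟨i z, (hr.subset ⟨z, rfl⟩).2⟩,
    fun g z => Subtype.ext (i.map_smul g z)⟩
  have hi₀ : IsOpenEmbedding i₀ := ⟨hi.codRestrict _ _, by
    have : range i₀ = Subtype.val ⁻¹' U := by
      refine Subset.antisymm (by rintro _ ⟨z, rfl⟩; exact (hr.subset ⟨z, rfl⟩).1) fun x hx => ?_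
      obtain ⟨z, hz⟩ := hr.superset ⟨hx, x.2⟩
      exact ⟨z, Subtype.ext hz⟩
    exact this ▸ hU.preimage continuous_subtype_val⟩
  have ht : IsCoc (range k) s (eul μ) := (isCoc_eul hW hμ).mono fun x hx =>
    mem_range.2 ⟨⟨x, hx⟩, rfl⟩
  have hd := eres_deg hi₀ (egys_deg hk ht hξ)
  refine ⟨_, hd, fun M => pd_bijective (EL.deg_isDeg hd M) (fun x => ?_)
    ((hE.hasDim.of_injective hi.continuous hi.injective).bor (hasDim_BG' n M)).locFin⟩
  obtain ⟨⟨z, u⟩, rfl⟩ := Bor.mk_surjective x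
  obtain ⟨F⟩ := nonempty_frame u
  obtain ⟨d, e, hds, hz, he⟩ := hsub z
  obtain ⟨ℓ⟩ := hW.lin
  have hz0 : (e (i z)).2 = 0 := (he _ hz).trans (hr.subset ⟨z, rfl⟩).2
  obtain ⟨W₁, hW₁, W₂, hW₂, hWW⟩ := mem_nhds_prod_iff.1 (show e.target ∩ e.symm ⁻¹' U ∈
      𝓝 ((e (i z)).1, (e (i z)).2) from (e.isOpen_inter_preimage_symm hU).mem_nhds
    ⟨e.map_source hz, by rw [mem_preimage, e.left_inv hz]; exact (hr.subset ⟨z, rfl⟩).1⟩)
  obtain ⟨η, hη, hη₁, hη₀⟩ := (euc_pi d).exists_chart hW₁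
  obtain ⟨ε, hε, hε'⟩ := exists_ball_chart (x := (0 : Fin s → ℂ))
    (ℓ.symm.continuous.continuousAt.preimage_mem_nhds (by rwa [map_zero, ← hz0]))
  have hm : ∀ x : (Fin d → ℂ) × (Fin s → ℂ),
      Prod.map η (ℓ.symm ∘ rad ε) x ∈ e.target ∩ e.symm ⁻¹' U := fun x =>
    hWW ⟨hη₁ ⟨_, rfl⟩, hε' (by simpa using norm_rad_le hε x.2)⟩
  let εX : (Fin d → ℂ) × (Fin s → ℂ) → X := e.symm ∘ Prod.map η (ℓ.symm ∘ rad ε)
  have hεX : IsOpenEmbedding εX := e.symm.isOpenEmbedding_restrict.comp (.of_comp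
    (codRestrict _ e.target fun x => (hm x).1) e.open_target.isOpenEmbedding_subtypeVal
    (hη.prodMap (ℓ.symm.toHomeomorph.isOpenEmbedding.comp (isOpenEmbedding_rad hε))))
  have hμX : ∀ x, μ (εX x) = ℓ.symm (rad ε x.2) := fun x =>
    (he _ (e.map_target (hm x).1)).symm.trans (congrArg Prod.snd (e.right_inv (hm x).1))
  have hμ0 : ∀ x, μ (εX x) = 0 → x.2 = 0 := fun x hx => (isOpenEmbedding_rad hε).injective
    ((ℓ.symm.map_eq_zero_iff.1 ((hμX x).symm.trans hx)).trans rad_zero.symm)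
  choose εZ hεZ using fun a : Fin d → ℂ => hr.superset
    (⟨(hm (a, 0)).2, (hμX (a, 0)).trans (by rw [rad_zero, map_zero])⟩ : εX (a, 0) ∈ U ∩ μ ⁻¹' {0})
  have hε₀ : IsOpenEmbedding (i₀ ∘ εZ) := ⟨.of_comp (g := Subtype.val)
    (continuous_induced_rng.2 ((hεX.continuous.comp (.prodMk_left 0)).congr
      fun a => (hεZ a).symm)) continuous_subtype_val (by
      rw [show Subtype.val ∘ i₀ ∘ εZ = εX ∘ fun a => (a, 0) from funext hεZ]
      exact hεX.isEmbedding.comp (isEmbedding_prodMkLeft 0)), by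
    have : range (i₀ ∘ εZ) = Subtype.val ⁻¹' range εX := by
      refine Subset.antisymm (by rintro _ ⟨a, rfl⟩; exact ⟨_, (hεZ a).symm⟩) ?_
      rintro x ⟨⟨a, w⟩, hx⟩
      obtain rfl : w = 0 := hμ0 (a, w) (hx ▸ x.2)
      exact ⟨a, Subtype.ext ((hεZ a).trans hx)⟩
    exact this ▸ hεX.isOpen_range.preimage continuous_subtype_val⟩
  have hcZ := (F.isOpenEmbedding_chart Z).comp (IsOpenEmbedding.id.prodMap (.of_comp εZ hi₀ hε₀))
  have hM := euc_Mat (n := n) fun j => M - n j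
  have hEZ := hM.prod (euc_pi d)
  have hpt : (F.chart Z ∘ Prod.map id εZ) (0, 0) = Bor.mk (GG n) (z, u) := by
    rw [← F.chart_zero Z z]
    refine congrArg (fun z => F.chart Z (0, z)) (hi.injective ((hεZ 0).trans ?_))
    simp only [εX, Function.comp_apply, Prod.map_apply, hη₀, rad_zero, map_zero, ← hz0]
    exact e.left_inv hz
  rw [← hpt, show 2 * (r : ℤ) - 2 * s + 2 * Sys.dim (GG n) M =
    2 * (∑ j, n j * (M - n j) + d : ℕ) by
      rw [show Sys.dim (GG n) M = _ from dimB_eq (le_of_EE u), ← hds]; push_cast; ring]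
  refine hEZ.locOri hcZ ?_ _
  have hX' := (IsOpenEmbedding.id (X := Mat n fun j => M - n j).prodMap hεX).comp
    (Homeomorph.prodAssoc _ _ _).isOpenEmbedding
  have hcX := (F.isOpenEmbedding_chart X).comp hX'
  have hk' := isClosedEmbedding_smap hk M
  have hs : supp (eul μ M) ⊆ range (smap k M) := range_smap k M ▸ ht.supp M
  have hi' : IsClosedEmbedding fun y : (Mat n fun j => M - n j) × (Fin d → ℂ) =>
      (y, (0 : Fin s → ℂ)) := LeftInverse.isClosedEmbedding (f := Prod.fst) (fun _ => rfl)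
    continuous_fst (by fun_prop)
  have h1 := cocycle_pull hcX.continuous (ht.cocycle M)
  have h2 := (supp_pull hcX.continuous (eul μ M)).trans (show _ ⊆ range fun y => (y, 0) from
    fun x hx => ⟨x.1, Prod.ext rfl (hμ0 (x.1.2, x.2) ((mk_mem_zset fun h x => μ.map_smul h x.1).1
      (supp_euler hW _ (hμ.comp continuous_fst) hx))).symm⟩)
  have h3 := prop_of_section (p := Prod.fst) hi'.continuous (fun _ => rfl) (isClosed_supp _) h2
  have h4 : Bijective (Hc.gys hi' h1 h2) := by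
    rw [Hc.gys_eq_pullMul continuous_fst hi' (fun _ => rfl) h1 h2 h3]
    refine Hc.pullMul_bijective_of_isGen _ isFib_fst _ _ ((ht.deg M).pull _) (by positivity)
      fun y => ?_
    rw [pull_pull]
    exact isGen_euler hW _ (hμ.comp continuous_fst) (h := fun w => (εX (y.2, w), F.pt y.1))
      ((hεX.continuous.comp (.prodMk_right _)).prodMk continuous_const) ℓ.symm
      (continuous_rad_coef ε) (rad_coef_pos hε) fun w => hμX (y.2, w)
  obtain ⟨c, hc⟩ := DFunLike.ne_iff.1 ((hM.prod hE).exists_ne_zero (hEZ.prod (euc_pi s)) _ hX'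
    (hξ' M u F))
  obtain ⟨c, rfl⟩ := h4.2 c
  refine DFunLike.ne_iff.2 ⟨c, ?_⟩
  have hi₀' := isOpenEmbedding_smap hi₀ M
  rw [LinearMap.dualMap_apply, Hc.push_gys_sq hk' hi' hcX (hi₀'.comp hcZ)
    (fun y => congrArg (fun x => F.chart X (y.1, x)) (hεZ y.2).symm) (ht.cocycle M) hs] at hc
  rwa [LinearMap.dualMap_apply, eres_apply hi₀, res_apply, egys_apply hk ht, gys_apply,
    cext_eq hi₀', cgys_eq hk' (ht.cocycle M) hs, Hc.push_push]

end pd

end Vale.Agent.P291Z
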