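import Vale.Agent.P291Z.TSys
import Vale.Agent.P291Z.Ind2

/-!
# Pull-back along vector bundles, induction isomorphism, Poincare duality for families
-/

set_option linter.unusedSectionVars false

namespace Vale.Agent.P291Z

open Set Function Topology Matrix

section ind

variable {J₂ : Type} [Fintype J₂] {n₂ : J₂ → ℕ} {G G₁ : Type} [Group G] [TopologicalSpace G] [Sys G]
  [Group G₁] [TopologicalSpace G₁] [Sys G₁] (S : SysProd G G₁ (GG n₂))
  {Z B W P : Type} [TopologicalSpace Z] [MulAction G₁ Z] [Nice Z] [ContinuousSMul G₁ Z]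
  [TopologicalSpace B] [MulAction G B] [Nice B] [ContinuousSMul G B]
  [AddCommGroup W] [Module ℂ W] [TopologicalSpace W] [DistribMulAction G W]
  [TopologicalSpace P] [MulAction G P] [Nice P] [ContinuousSMul G P]
  {b : B → Z} (hb : ∀ (g : G) y, b (g • y) = S.π₁ g • b y)
  (V : SubMulAction G (B × W)) (h0 : ∀ y, (y, 0) ∈ V) [Nice V] [ContinuousSMul G V] (j : P →[G] V)

/-- the smooth pull-back `q^*` -/
noncomputable def qstar : EH G₁ Z →ₗ[ℂ] EH G P :=
  eres j ∘ₗ ethom V h0 ∘ₗ (S.cross hb (b₂ := fun _ => ()) fun _ _ => rfl).flip (fundE n₂)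

/-- **Induction isomorphism** `H^{G₁}(Z) ≅ H^{G₁ × G₂}(P)`. -/
theorem qstar_bijective (hbh : IsHomeomorph b) {D : ℕ} (hD : HasDim Z D) {D' : ℕ → ℕ}
    (hD' : ∀ M, HasDim (Bq G₁ Unit M) (D' M)) (hD'' : ∀ M, (D' M : ℤ) ≤ 2 * Sys.dim G₁ M ∨
      IsEmpty (Sys.P G₁ M)) {r s : ℕ} (hW : IsRep G W s)
    (hV : IsSubVB V r) (hj : IsOpenEmbedding j) (hf : IndFib S V j) :
    Bijective (qstar S hb V h0 j) :=
  ind_bijective S hb V h0 j (fund_isFam : fundE n₂ ∈ EH.deg _ _ 0) (fund_norm n₂) hbh hD hD' hD''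
    hW hV hj hf

end ind

theorem hasDim_BG {J : Type} [Fintype J] (n : J → ℕ) (M : ℕ) :
    HasDim (Bq (GG n) Unit M) (2 * dimB n M).toNat := hasDim_BG' n M

/-- the same for `G₁ = GG n₁` -/
theorem qstar_bijective' {J₁ J₂ : Type} [Fintype J₁] [Fintype J₂] {n₁ : J₁ → ℕ} {n₂ : J₂ → ℕ}
    {G : Type} [Group G] [TopologicalSpace G] [Sys G] (S : SysProd G (GG n₁) (GG n₂))
    {Z B W P : Type} [TopologicalSpace Z] [MulAction (GG n₁) Z] [Nice Z] [ContinuousSMul (GG n₁) Z]
    [TopologicalSpace B] [MulAction G B] [Nice B] [ContinuousSMul G B]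
    [AddCommGroup W] [Module ℂ W] [TopologicalSpace W] [DistribMulAction G W]
    [TopologicalSpace P] [MulAction G P] [Nice P] [ContinuousSMul G P]
    {b : B → Z} (hb : ∀ (g : G) y, b (g • y) = S.π₁ g • b y)
    (V : SubMulAction G (B × W)) (h0 : ∀ y, (y, 0) ∈ V) [Nice V] [ContinuousSMul G V]
    (j : P →[G] V) (hbh : IsHomeomorph b) {D : ℕ} (hD : HasDim Z D) {r s : ℕ} (hW : IsRep G W s)
    (hV : IsSubVB V r) (hj : IsOpenEmbedding j) (hf : IndFib S V j) :
    Bijective (qstar S hb V h0 j) :=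
  qstar_bijective S hb V h0 j hbh hD (hasDim_BG n₁) (fun M => by
    rcases isEmpty_or_nonempty (EE n₁ M) with h | ⟨⟨u⟩⟩
    · exact Or.inr h
    · refine Or.inl (Int.toNat_of_nonneg ?_).le
      rw [dimB_eq (le_of_EE u)]
      positivity) hW hV hj hf

section pd

variable {J : Type} [Fintype J] {n : J → ℕ} {X Z W W' : Type}
  [AddCommGroup X] [Module ℂ X] [TopologicalSpace X] [DistribMulAction (GG n) X]
  [TopologicalSpace Z] [MulAction (GG n) Z] [Nice Z] [ContinuousSMul (GG n) Z]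
  [AddCommGroup W] [Module ℂ W] [TopologicalSpace W] [DistribMulAction (GG n) W]

/-- **Poincare duality** for an invariant open part `Z` of the zero set of an equivariant map
`μ : X → W` of representations that is locally a projection along `Z`. -/
theorem pd_zero_set {r s : ℕ} (hX : IsRep (GG n) X r) (hW : IsRep (GG n) W s) {μ : X →[GG n] W}
    (hμ : Continuous μ) {i : Z →[GG n] X} (hi : IsEmbedding i) {U : Set X} (hU : IsOpen U)
    (hr : range i = U ∩ μ ⁻¹' {0})
    (hsub : ∀ z, ∃ (d : ℕ) (e : OpenPartialHomeomorph X ((Fin d → ℂ) × W)), d + s = r ∧ i z ∈ e.source ∧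
      ∀ x ∈ e.source, (e x).2 = μ x) :
    ∃ (D : ℤ) (o : EH (GG n) Z), o ∈ EH.deg (GG n) Z D ∧
      Bijective (fun c : HS (GG n) Z => eact c.1 o) := by
  obtain ⟨o, h1, h2⟩ := pd_zero_set' (o := fundE n) fund_isFam (fund_norm n) hX hW hμ
    hi hU hr hsub
  exact ⟨_, o, h1, eact_bijective_of_level h1 h2⟩

end pd

end Vale.Agent.P291Z
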