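import Vale.Agent.P291Z.Vcl
import Vale.Agent.P291Z.Ind

/-!
# Generic base change statements for the convolution product
-/

set_option linter.all false

namespace Vale.Agent.P291Z

open Set Function Topology

variable {G : Type} [Group G] [TopologicalSpace G] [Sys G]

section shear

variable {X Z W : Type} [TopologicalSpace X] [MulAction G X] [Nice X]
  [ContinuousSMul G X] [TopologicalSpace Z] [MulAction G Z] [Nice Z] [ContinuousSMul G Z]
  [AddCommGroup W] [Module ℂ W] [TopologicalSpace W] [DistribMulAction G W] {r : ℕ}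

theorem continuous_smap_family {T : Type} [TopologicalSpace T] {F : T → X →[G] Z}
    (hF : Continuous fun x : T × X => F x.1 x.2) (M : ℕ) :
    Continuous fun x : T × Bq G X M => smap (F x.1) M x.2 := by
  refine (IsOpenQuotientMap.id.prodMap
    (Bor.isOpenQuotientMap_mk (G := G) (Z := X) (P := Sys.P G M))).isQuotientMap.continuous_iff.2 ?_
  exact Bor.continuous_mk.comp
    ((hF.comp (continuous_fst.prodMk continuous_snd.fst)).prodMk continuous_snd.snd)

/-- an equivariant isotopy acts trivially -/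
theorem epush_isotopy {F F' : unitInterval → X →[G] X} (hF : Continuous fun x : unitInterval × X => F x.1 x.2)
    (hF' : Continuous fun x : unitInterval × X => F' x.1 x.2) (h : ∀ t x, F' t (F t x) = x)
    (h' : ∀ t x, F t (F' t x) = x) (h0 : ∀ x, F 0 x = x) (β : EH G X) : epush (F 1) β = β := by
  have hp : IsPr (F 1) := IsPr.of_homeomorph
    ⟨⟨F 1, F' 1, h 1, h' 1⟩, hF.comp (Continuous.prodMk_right 1),
      hF'.comp (Continuous.prodMk_right 1)⟩
  refine EH.ext fun M => ?_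
  have k : ∀ {F F' : unitInterval → X →[G] X}, (∀ t x, F' t (F t x) = x) → ∀ x : unitInterval × Bq G X M,
      (x.1, smap (F' x.1) M (smap (F x.1) M x.2)) = x := fun h x =>
    Prod.ext rfl (congrFun ((smap_comp (h := MulActionHom.id G) (fun y => (h x.1 y).symm) M).trans
      (smap_id (fun _ => rfl) M)) x.2)
  have hh : IsPr fun x : unitInterval × Bq G X M => smap (F x.1) M x.2 :=
    isPr_snd.comp (IsPr.of_homeomorph (X := unitInterval × Bq G X M) ⟨⟨fun x => (x.1, smap (F x.1) M x.2),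
      fun x => (x.1, smap (F' x.1) M x.2), k h, k h'⟩,
      continuous_fst.prodMk (continuous_smap_family hF M),
      continuous_fst.prodMk (continuous_smap_family hF' M)⟩)
  refine LinearMap.ext fun c => ?_
  rw [epush_apply hp, push_apply, cpull_eq (isPr_smap hp M), ← Hc.pull_eq_of_homotopy hh IsPr.id
    (isPr_smap hp M) (fun x => congrFun (smap_id h0 M) x) fun _ => rfl, Hc.pull_id _ fun _ => rfl]

/-- **Shear**: the Gysin maps of the graph of a section and of the zero section agree. -/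
theorem IsTE.shear {p : X →[G] Z} {κ : X →[G] W} {s : Z →[G] X} (h : IsTE p κ s)
    (hW : IsRep G W r) {g : Z →[G] X} (hg : Continuous g) (e : ∀ z, p (g z) = z) {κ' : X →[G] W}
    (e' : ∀ x, κ' x = κ x - κ (g (p x))) : egys g (eul κ') = egys s (eul κ) := by
  haveI := hW.continuousAdd
  haveI := hW.comm
  obtain ⟨L⟩ := hW.lin
  haveI : ContinuousSMul ℂ W := L.toHomeomorph.isInducing.continuousSMul continuous_id
    fun {_ _} => L.map_smul _ _
  let ε := h.homeo.homeomorph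
  have hε : ∀ y, p (ε.symm y) = y.1 ∧ κ (ε.symm y) = y.2 := fun y =>
    Prod.ext_iff.1 (ε.apply_symm_apply y)
  let F : ℝ → X →[G] X := fun t => ⟨fun x => ε.symm (p x, κ x + (t : ℂ) • κ (g (p x))),
    fun a x => h.ext (by simp only [id, map_smul, hε]) (by
      simp only [id, map_smul, hε, smul_add, smul_comm a])⟩
  have h1 : ∀ t x, p (F t x) = p x := fun t x => (hε _).1
  have h2 : ∀ (t : ℝ) x, κ (F t x) = κ x + (t : ℂ) • κ (g (p x)) := fun t x => (hε _).2
  have h3 : Continuous fun x : ℝ × X => F x.1 x.2 :=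
    ε.symm.continuous.comp ((h.cont_p.comp continuous_snd).prodMk
      ((h.cont_k.comp continuous_snd).add ((Complex.continuous_ofReal.comp continuous_fst).smul
        ((h.cont_k.comp (hg.comp h.cont_p)).comp continuous_snd))))
  have h4 : ∀ t t' x, t + t' = 0 → F t (F t' x) = x := fun t t' x e =>
    h.ext (by rw [h1, h1]) (by
      rw [h2, h2, h1, add_assoc, ← add_smul, ← Complex.ofReal_add, add_comm t', e,
        Complex.ofReal_zero, zero_smul, add_zero])
  have h5 : ∀ β, epush (F 1) β = β := epush_isotopy (F := fun t => F t) (F' := fun t => F (-t))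
    (h3.comp (f := fun x : unitInterval × X => (x.1.1, x.2)) (by fun_prop))
    (h3.comp (f := fun x : unitInterval × X => (-x.1.1, x.2)) (by fun_prop))
    (fun t x => h4 _ _ _ (neg_add_cancel _)) (fun t x => h4 _ _ _ (add_neg_cancel _))
    fun x => h.ext (h1 _ _) (by simp [h2])
  have h6 : ∀ x, κ' (F 1 x) = κ x := fun x => by simp [e', h1, h2]
  have hp : IsHomeomorph (F 1) := Homeomorph.isHomeomorph
    ⟨⟨F 1, F (-1), fun x => h4 _ _ _ (neg_add_cancel _), fun x => h4 _ _ _ (add_neg_cancel _)⟩,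
      h3.comp (Continuous.prodMk_right 1), h3.comp (Continuous.prodMk_right (-1))⟩
  have h7 : ∀ z, F 1 (s z) = g z := fun z => h.ext (by rw [h1, h.ps, e]) (by simp [h2, h.ps, h.ks])
  have h' : IsTE p κ' g := ⟨?_, e, fun z => by rw [e', e, sub_self]⟩
  · refine LinearMap.ext fun β => ?_
    rw [← h5 β, egys_epush (h'.isClosedEmbedding hW) (h.isClosedEmbedding hW)
      (IsPr.of_isHomeomorph hp) (g := MulActionHom.id G) IsPr.id h7
      (h'.cart h (f := MulActionHom.id G) (h1 1) LinearMap.id bijective_id h6) (h'.isCoc hW), epush_id fun _ => rfl,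
      h'.egys_pull h (f := MulActionHom.id G) (h1 1) LinearMap.id (fun _ _ => rfl) bijective_id h6 hW hW hp.continuous, h5]
  · have : (fun x => (p x, κ' x)) = (fun x => (p x, κ x)) ∘ hp.homeomorph.symm := funext fun x => by
      obtain ⟨y, rfl⟩ := hp.homeomorph.surjective x
      rw [comp_apply, Homeomorph.symm_apply_apply]
      exact Prod.ext (h1 _ _) (h6 _)
    exact this ▸ h.homeo.comp hp.homeomorph.symm.isHomeomorph

end shear

section thom

variable {Z Z' W : Type} [TopologicalSpace Z] [MulAction G Z] [Nice Z] [ContinuousSMul G Z]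
  [TopologicalSpace Z'] [MulAction G Z'] [Nice Z'] [ContinuousSMul G Z']
  [AddCommGroup W] [Module ℂ W] [TopologicalSpace W] [DistribMulAction G W]

/-- the projection of a vector bundle -/
def vpr (V : SubMulAction G (Z × W)) : V →[G] Z := ⟨fun v => v.1.1, fun _ _ => rfl⟩

theorem continuous_vpr (V : SubMulAction G (Z × W)) : Continuous (vpr V) :=
  continuous_subtype_val.fst

variable {V : SubMulAction G (Z × W)} (h0 : ∀ z, (z, 0) ∈ V) [Nice V] [ContinuousSMul G V]
  {V' : SubMulAction G (Z' × W)} (h0' : ∀ z, (z, 0) ∈ V') [Nice V'] [ContinuousSMul G V']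
  {r s : ℕ} (hW : IsRep G W s) (hV : IsSubVB V r) (hV' : IsSubVB V' r) {f : Z' →[G] Z}
  {F : V' →[G] V} (hF : ∀ v, (F v).1 = (f v.1.1, v.1.2))
include hF

theorem zs_sq (z : Z') : F (zs V' h0' z) = zs V h0 (f z) := Subtype.ext (hF _)

theorem zs_cart : F ⁻¹' range (zs V h0) ⊆ range (zs V' h0') := by
  rintro v ⟨z, hz⟩
  exact ⟨v.1.1, Subtype.ext (Prod.ext rfl
    (congrArg Prod.snd ((congrArg Subtype.val hz).trans (hF v)) :))⟩

include hW hV hV'

include h0 in
theorem egys_pull_tho (hf : Continuous f) :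
    egys (zs V' h0') (fun M => pull (smap F M) (tho V M)) = egys (zs V' h0') (tho V') :=
  egys_congr (IsSubVB.isClosedEmbedding_zs hW h0')
    (((isCoc_tho hW hV h0).pull (smul_mem_range _) (Continuous.subtype_mk (((hf.comp
      (continuous_vpr V')).prodMk continuous_subtype_val.snd).congr fun v => (hF v).symm) _)).mono
      (zs_cart h0 h0' hF)) (isCoc_tho hW hV' h0') (tho_pull hW hV' hV h0' hf hF)

/-- base change of the Thom isomorphism for Gysin maps -/
theorem egys_ethom_base (hFc : IsClosedEmbedding F) (hf : IsClosedEmbedding f) {d : ℕ}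
    {u : ∀ M, Coch (Bq G Z M)} (hu : IsCoc (range f) d u) (hr : vpr V ⁻¹' range f ⊆ range F)
    (β : EH G Z) : egys F (fun M => pull (smap (vpr V) M) (u M)) (ethom V h0 β) =
      ethom V' h0' (egys f u β) := by
  refine (egys_tho_bijective h0' hW hV').1 ?_
  rw [egys_ethom h0' hW hV', ← egys_pull_tho h0 h0' hW hV hV' hF hf.continuous,
    egys_comm hFc (IsSubVB.isClosedEmbedding_zs hW h0) hf (IsSubVB.isClosedEmbedding_zs hW h0')
      (zs_sq h0 h0' hF) (zs_cart h0 h0' hF)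
      ((hu.pull (smul_mem_range f) (continuous_vpr V)).mono hr) (isCoc_tho hW hV h0),
    egys_ethom h0 hW hV]
  congr 2
  funext M
  rw [pull_pull, smap_comp (h := MulActionHom.id G) (fun _ => rfl), smap_id fun _ => rfl, pull_id]

/-- base change of the Thom isomorphism for proper maps -/
theorem epush_ethom (hFp : IsPr F) (hf : IsPr f) (β : EH G Z') :
    epush F (ethom V' h0' β) = ethom V h0 (epush f β) := by
  refine (egys_tho_bijective h0 hW hV).1 ?_
  rw [egys_ethom h0 hW hV, egys_epush (IsSubVB.isClosedEmbedding_zs hW h0)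
    (IsSubVB.isClosedEmbedding_zs hW h0') hFp hf (zs_sq h0 h0' hF) (zs_cart h0 h0' hF)
    (isCoc_tho hW hV h0), egys_pull_tho h0 h0' hW hV hV' hF hf.cont, egys_ethom h0' hW hV']

/-- base change of the Thom isomorphism for open embeddings -/
theorem eres_ethom (hFo : IsOpenEmbedding F) (hf : IsOpenEmbedding f) (β : EH G Z) :
    eres F (ethom V h0 β) = ethom V' h0' (eres f β) := by
  refine (egys_tho_bijective h0' hW hV').1 ?_
  rw [egys_ethom h0' hW hV', ← egys_pull_tho h0 h0' hW hV hV' hF hf.continuous,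
    ← eres_egys (IsSubVB.isClosedEmbedding_zs hW h0) (IsSubVB.isClosedEmbedding_zs hW h0') hFo hf
      (zs_sq h0 h0' hF) (zs_cart h0 h0' hF) (isCoc_tho hW hV h0), egys_ethom h0 hW hV]

end thom

theorem isCoc_one' {X : Type} [TopologicalSpace X] [MulAction G X] :
    IsCoc (G := G) (univ : Set X) 0 fun _ => 1 where
  cocycle _ := cocycle_one
  deg _ := isDeg_one
  supp M x _ := by
    obtain ⟨y, rfl⟩ := Bor.mk_surjective x
    exact ⟨y, trivial, rfl⟩
  compat M := by rw [map_one]; exact Cohom.refl _ _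

theorem egys_id_one {X : Type} [TopologicalSpace X] [MulAction G X] [Nice X] [ContinuousSMul G X]
    (β : EH G X) : egys (MulActionHom.id G) (fun _ => 1) β = β := EH.ext fun M => by
  rw [egys_apply (i := MulActionHom.id G) IsClosedEmbedding.id
    (isCoc_one'.mono fun x _ => mem_range_self x), smap_id fun _ => rfl, gys_id_eq_cap cocycle_one, hcls_one,
    cap_one]

section cross

variable {G₁ G₂ : Type} [Group G₁] [TopologicalSpace G₁] [Sys G₁] [Group G₂] [TopologicalSpace G₂]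
  [Sys G₂] (S : SysProd G G₁ G₂) {B Z₁ Z₂ : Type} [TopologicalSpace B] [MulAction G B]
  [TopologicalSpace Z₁] [MulAction G₁ Z₁] [TopologicalSpace Z₂] [MulAction G₂ Z₂]
  [Nice B] [ContinuousSMul G B] [Nice Z₁] [ContinuousSMul G₁ Z₁] [Nice Z₂]
  [ContinuousSMul G₂ Z₂] {W W' : Type} [AddCommGroup W] [Module ℂ W] [TopologicalSpace W]
  [DistribMulAction G W] [AddCommGroup W'] [Module ℂ W'] [TopologicalSpace W'] {r : ℕ}
  {b₁ : B → Z₁} (hb₁ : ∀ (g : G) y, b₁ (g • y) = S.π₁ g • b₁ y) {b₂ : B → Z₂}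
  (hb₂ : ∀ (g : G) y, b₂ (g • y) = S.π₂ g • b₂ y) (hW : IsRep G W r) {σ : B →[G] W}
  (hσ : Continuous σ) (L : W →ₗ[ℂ] W') (hL : Bijective L)

theorem zset_eul {σ : B →[G] W} (M : ℕ) :
    zset G (fun x : B × Sys.P G M => σ x.1) = bset (σ ⁻¹' {0}) M := rfl

include hW hσ hL

theorem SysProd.eul_p₁ [DistribMulAction G₁ W'] (hW' : IsRep G₁ W' r) (hb : Continuous b₁)
    (hLe : ∀ (g : G) w, L (g • w) = S.π₁ g • L w) {σ' : Z₁ →[G₁] W'} (hσ' : Continuous σ')
    (e : ∀ y, L (σ y) = σ' (b₁ y)) :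
    Coh (σ ⁻¹' {0}) (fun M => pull (S.p₁ b₁ hb₁ M) (eul σ' M)) (eul σ) := fun M =>
  euler_pull hW hW' S.π₁ _ ((hb.comp continuous_fst).prodMk ((S.continuous_e₁ M).comp continuous_snd))
    _ (hσ.comp continuous_fst) _ (hσ'.comp continuous_fst) (fun _ => L)
    ((hW.continuous_lin hW' L).comp continuous_snd) (fun _ => hL) (fun g _ w => hLe g w)
    fun x => e x.1

theorem SysProd.eul_p₂ [DistribMulAction G₂ W'] (hW' : IsRep G₂ W' r) (hb : Continuous b₂)
    (hLe : ∀ (g : G) w, L (g • w) = S.π₂ g • L w) {σ' : Z₂ →[G₂] W'} (hσ' : Continuous σ')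
    (e : ∀ y, L (σ y) = σ' (b₂ y)) :
    Coh (σ ⁻¹' {0}) (fun M => pull (S.p₂ b₂ hb₂ M) (eul σ' M)) (eul σ) := fun M =>
  euler_pull hW hW' S.π₂ _ ((hb.comp continuous_fst).prodMk ((S.continuous_e₂ M).comp continuous_snd))
    _ (hσ.comp continuous_fst) _ (hσ'.comp continuous_fst) (fun _ => L)
    ((hW.continuous_lin hW' L).comp continuous_snd) (fun _ => hL) (fun g _ w => hLe g w)
    fun x => e x.1

variable {B' Z' : Type} [TopologicalSpace B'] [MulAction G B'] [Nice B'] [ContinuousSMul G B']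
  [TopologicalSpace Z'] [Nice Z'] (hb : IsHomeomorph fun y => (b₁ y, b₂ y)) {f : B' →[G] B}
  (hf : IsClosedEmbedding f) (hr : σ ⁻¹' {0} ⊆ range f)
include hb hf hr

/-- Gysin maps in the first factor of a cross product -/
theorem SysProd.egys_cross₁ [DistribMulAction G₁ W'] (hW' : IsRep G₁ W' r)
    (hLe : ∀ (g : G) w, L (g • w) = S.π₁ g • L w) {σ' : Z₁ →[G₁] W'} (hσ' : Continuous σ')
    (e : ∀ y, L (σ y) = σ' (b₁ y)) [MulAction G₁ Z'] [ContinuousSMul G₁ Z'] {c₁ : B' → Z'}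
    (hc₁ : ∀ (g : G) y, c₁ (g • y) = S.π₁ g • c₁ y) {c₂ : B' → Z₂}
    (hc₂ : ∀ (g : G) y, c₂ (g • y) = S.π₂ g • c₂ y) (hc : IsHomeomorph fun y => (c₁ y, c₂ y))
    {f₁ : Z' →[G₁] Z₁} (hf₁ : IsClosedEmbedding f₁) (hr₁ : σ' ⁻¹' {0} ⊆ range f₁)
    (h₁ : ∀ y, b₁ (f y) = f₁ (c₁ y)) (h₂ : ∀ y, b₂ (f y) = c₂ y) (β₁ : EH G₁ Z₁) (β₂ : EH G₂ Z₂) :
    egys f (eul σ) (S.cross hb₁ hb₂ β₁ β₂) = S.cross hc₁ hc₂ (egys f₁ (eul σ') β₁) β₂ := by
  have := S.egys_cross hb₁ hb₂ hb hc₁ hc₂ hc (f₂ := MulActionHom.id G₂) h₁ h₂ hf₁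
    IsClosedEmbedding.id ((isCoc_eul hW' hσ').mono hr₁) (isCoc_one'.mono fun x _ => mem_range_self x) β₁ β₂
  simp only [map_one, mul_one, egys_id_one] at this
  rw [← this, egys_congr hf ((S.isCoc₁ hb₁ hb (smul_mem_zero σ') (isCoc_eul hW' hσ')).mono
    fun y hy => hr (hL.1 (((e y).trans hy).trans (map_zero L).symm)))
    ((isCoc_eul hW hσ).mono hr)
    ((S.eul_p₁ hb₁ hW hσ L hL hW' hb.continuous.fst hLe hσ' e).mono hr)]

/-- Gysin maps in the second factor of a cross product -/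
theorem SysProd.egys_cross₂ [DistribMulAction G₂ W'] (hW' : IsRep G₂ W' r)
    (hLe : ∀ (g : G) w, L (g • w) = S.π₂ g • L w) {σ' : Z₂ →[G₂] W'} (hσ' : Continuous σ')
    (e : ∀ y, L (σ y) = σ' (b₂ y)) [MulAction G₂ Z'] [ContinuousSMul G₂ Z'] {c₁ : B' → Z₁}
    (hc₁ : ∀ (g : G) y, c₁ (g • y) = S.π₁ g • c₁ y) {c₂ : B' → Z'}
    (hc₂ : ∀ (g : G) y, c₂ (g • y) = S.π₂ g • c₂ y) (hc : IsHomeomorph fun y => (c₁ y, c₂ y))
    {f₂ : Z' →[G₂] Z₂} (hf₂ : IsClosedEmbedding f₂) (hr₂ : σ' ⁻¹' {0} ⊆ range f₂)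
    (h₁ : ∀ y, b₁ (f y) = c₁ y) (h₂ : ∀ y, b₂ (f y) = f₂ (c₂ y)) (β₁ : EH G₁ Z₁) (β₂ : EH G₂ Z₂) :
    egys f (eul σ) (S.cross hb₁ hb₂ β₁ β₂) = S.cross hc₁ hc₂ β₁ (egys f₂ (eul σ') β₂) := by
  have := S.egys_cross hb₁ hb₂ hb hc₁ hc₂ hc (f₁ := MulActionHom.id G₁) h₁ h₂
    IsClosedEmbedding.id hf₂ (isCoc_one'.mono fun x _ => mem_range_self x) ((isCoc_eul hW' hσ').mono hr₂) β₁ β₂
  simp only [map_one, one_mul, egys_id_one] at this
  rw [← this, egys_congr hf ((S.isCoc₂ hb₂ hb (smul_mem_zero σ') (isCoc_eul hW' hσ')).mono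
    fun y hy => hr (hL.1 (((e y).trans hy).trans (map_zero L).symm)))
    ((isCoc_eul hW hσ).mono hr)
    ((S.eul_p₂ hb₂ hW hσ L hL hW' hb.continuous.snd hLe hσ' e).mono hr)]

end cross

end Vale.Agent.P291Z
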