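import Vale.Agent.P291Z.Conv0
import Vale.Agent.P291Z.CAn

/-!
# The pull-back along the bundle of frames
-/

set_option linter.all false

namespace Vale.Agent.P291Z

open Set Function Topology Quiv Lt

/-- closed embeddings under base change along embeddings -/
theorem isClosedEmbedding_of_cart {X X' Y Y' : Type} [TopologicalSpace X] [TopologicalSpace X']
    [TopologicalSpace Y] [TopologicalSpace Y'] {F : X' → X} (hF : IsClosedEmbedding F) {i : Y → X}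
    (hi : IsEmbedding i) {i' : Y' → X'} (hi' : IsEmbedding i') {g : Y' → Y}
    (e : ∀ y, i (g y) = F (i' y)) (h : ∀ x y, F x = i y → x ∈ range i') : IsClosedEmbedding g := by
  refine ⟨hi.of_comp_iff.1 ((show F ∘ i' = i ∘ g from funext fun y => (e y).symm) ▸
    hF.isEmbedding.comp hi'), ?_⟩
  have : range g = i ⁻¹' range F := by
    refine Subset.antisymm ?_ ?_
    · rintro _ ⟨y, rfl⟩
      exact ⟨_, (e y).symm⟩
    · rintro y ⟨x, hx⟩
      obtain ⟨z, rfl⟩ := h x y hx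
      exact ⟨z, hi.injective ((e z).trans hx)⟩
  exact this ▸ hF.isClosed_range.preimage hi.continuous

section gen

variable {G : Type} [Group G] [TopologicalSpace G] [Sys G] {X Y Y' Z W W' U : Type}
  [TopologicalSpace X] [MulAction G X] [Nice X] [ContinuousSMul G X]
  [TopologicalSpace Y] [MulAction G Y] [Nice Y] [ContinuousSMul G Y]
  [TopologicalSpace Y'] [MulAction G Y'] [Nice Y'] [ContinuousSMul G Y']
  [TopologicalSpace Z] [MulAction G Z] [Nice Z] [ContinuousSMul G Z]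
  [AddCommGroup W] [Module ℂ W] [TopologicalSpace W] [DistribMulAction G W]
  [AddCommGroup W'] [Module ℂ W'] [TopologicalSpace W'] [DistribMulAction G W']
  [AddCommGroup U] [Module ℂ U] [TopologicalSpace U] [DistribMulAction G U] {r r' s : ℕ}

/-- Gysin maps of two sections commute -/
theorem egys_eul_comm (hW : IsRep G W r) (hW' : IsRep G W' r') {i : Y →[G] X}
    (hi : IsClosedEmbedding i) {j : Y' →[G] X} (hj : IsClosedEmbedding j) {i' : Z →[G] Y'}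
    (hi' : IsClosedEmbedding i') {j' : Z →[G] Y} (hj' : IsClosedEmbedding j')
    (hsq : ∀ z, i (j' z) = j (i' z)) {σ : X →[G] W} (hσ : Continuous σ) {τ : X →[G] W'}
    (hτ : Continuous τ) {σ' : Y' →[G] W} (e : ∀ y, σ' y = σ (j y)) {τ' : Y →[G] W'}
    (e' : ∀ y, τ' y = τ (i y)) (h₁ : σ ⁻¹' {0} ⊆ range i) (h₂ : range j = τ ⁻¹' {0})
    (h₃ : σ' ⁻¹' {0} ⊆ range i') (h₄ : τ' ⁻¹' {0} ⊆ range j') (β : EH G X) :
    egys j' (eul τ') (egys i (eul σ) β) = egys i' (eul σ') (egys j (eul τ) β) := by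
  rw [← egys_pull_eul hW' hτ hi.continuous e' hj' h₄, ← egys_pull_eul hW hσ hj.continuous e hi' h₃]
  exact egys_comm hi hj hi' hj' hsq (fun y hy => h₄ ((e' y).trans (h₂.subset hy)))
    ((isCoc_eul hW hσ).mono h₁) ((isCoc_eul hW' hτ).mono h₂.superset) β

/-- the zero set of a section on a trivial bundle which is a graph over the zero set of a section
on the base -/
theorem IsTE.egys_graph {p : X →[G] Z} {κ : X →[G] W} {s₀ : Z →[G] X} (h : IsTE p κ s₀)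
    (hW : IsRep G W r) (hW' : IsRep G W' r') (hU : IsRep G U s) {τ : Z →[G] W} (hτ : Continuous τ)
    {i : Y →[G] Z} (hi : IsClosedEmbedding i) {σ : Z →[G] W'} (hσ : Continuous σ)
    (h0 : σ ⁻¹' {0} ⊆ range i) {k : Y →[G] X} (e : ∀ y, p (k y) = i y)
    (e' : ∀ y, κ (k y) = τ (i y)) {ρ : X →[G] U} (hρ : Continuous ρ) (L : U →ₗ[ℂ] W' × W)
    (hL : ∀ (g : G) u, L (g • u) = g • L u) (hb : Bijective L)
    (eL : ∀ x, L (ρ x) = (σ (p x), κ x - τ (p x))) (β : EH G X) :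
    egys k (eul ρ) β = egys i (eul σ) (egys s₀ (eul κ) β) := by
  haveI := hW.nice
  let ε := h.homeo.homeomorph
  have hε : ∀ y, p (ε.symm y) = y.1 ∧ κ (ε.symm y) = y.2 := fun y =>
    Prod.ext_iff.1 (ε.apply_symm_apply y)
  let g : Z →[G] X := ⟨fun z => ε.symm (z, τ z), fun a z =>
    h.ext (by simp only [id, map_smul, hε]) (by simp only [id, map_smul, hε])⟩
  have h1 : ∀ z, p (g z) = z := fun z => (hε _).1
  have h2 : ∀ z, κ (g z) = τ z := fun z => (hε _).2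
  have h3 : Continuous g := ε.symm.continuous.comp (continuous_id.prodMk hτ)
  have h4 : IsClosedEmbedding g := LeftInverse.isClosedEmbedding h1 h.cont_p h3
  have h5 : ∀ y, k y = g (i y) := fun y => h.ext (by rw [e, h1]) (by rw [e', h2])
  let κ' : X →[G] W := ⟨fun x => κ x - τ (p x), fun a x => by simp only [id, map_smul, smul_sub]⟩
  have h6 : Continuous fun x => L (ρ x) := (hU.continuous_lin (hW'.prod hW) L).comp hρ
  have h7 : κ' ⁻¹' {0} ⊆ range g := fun x hx =>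
    ⟨p x, h.ext (h1 _) ((h2 _).trans (sub_eq_zero.1 hx).symm)⟩
  rw [← h.shear hW h3 h1 (κ' := κ') fun x => by rw [h2]; rfl, egys_eul_egys_eul hW' hW hi h4 h5
    (σ := σ.comp p) (hσ.comp h.cont_p) (fun z => (congrArg σ (h1 z)).symm) h0
    (h6.snd.congr fun x => congrArg Prod.snd (eL x)) h7,
    egys_eul_congr hU (hW'.prod hW) hρ (σ' := eprod (σ.comp p) κ') L hL hb (fun x => (eL x).symm)
      (funext h5 ▸ h4.comp hi) fun x hx => ?_]
  have h8 := (eL x).symm.trans ((congrArg L hx).trans (map_zero L))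
  obtain ⟨z, rfl⟩ := h7 (a := x) (congrArg Prod.snd h8)
  obtain ⟨y, rfl⟩ := h0 (a := z) ((congrArg σ (h1 z)).symm.trans (congrArg Prod.fst h8))
  exact ⟨y, h5 y⟩

end gen

section pr

variable {J J' : Type} (n : J → ℕ) (n' : J' → ℕ)

/-- `Z` with a product of two groups acting through the first factor. -/
def Fst (_ : J → ℕ) (_ : J' → ℕ) (Z : Type) : Type := Z

instance {Z : Type} [h : TopologicalSpace Z] : TopologicalSpace (Fst n n' Z) := h

instance {Z : Type} [h : AddCommGroup Z] : AddCommGroup (Fst n n' Z) := h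

instance {Z : Type} [AddCommGroup Z] [h : Module ℂ Z] : Module ℂ (Fst n n' Z) := h

noncomputable instance {Z : Type} [AddCommGroup Z] [DistribMulAction (GG n) Z] :
    DistribMulAction (GG (Sum.elim n n')) (Fst n n' Z) :=
  DistribMulAction.compHom Z (fstG n n')

variable [Fintype J] [Fintype J'] {n n'}

theorem IsRep.fst {W : Type} [AddCommGroup W] [Module ℂ W] [TopologicalSpace W]
    [DistribMulAction (GG n) W] {r : ℕ} (h : IsRep (GG n) W r) :
    IsRep (GG (Sum.elim n n')) (Fst n n' W) r := h.compHom _ (continuous_fstG n n')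

variable {Z Z' Y Y' W : Type} [TopologicalSpace Z] [MulAction (GG n) Z] [TopologicalSpace Z']
  [MulAction (GG n') Z'] [TopologicalSpace Y] [MulAction (GG n) Y] [TopologicalSpace Y']
  [MulAction (GG n') Y'] [AddCommGroup W] [Module ℂ W] [TopologicalSpace W] {r : ℕ}

/-- the product of two equivariant maps -/
noncomputable def prMap (f : Y →[GG n] Z) (f' : Y' →[GG n'] Z') :
    Pr n n' Y Y' →[GG (Sum.elim n n')] Pr n n' Z Z' where
  toFun y := (f y.1, f' y.2)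
  map_smul' _ y := Prod.ext (f.map_smul _ y.1) (f'.map_smul _ y.2)

variable (Z') in
/-- a section that depends on the first factor -/
noncomputable def fstS [DistribMulAction (GG n) W] (σ : Z →[GG n] W) :
    Pr n n' Z Z' →[GG (Sum.elim n n')] Fst n n' W where
  toFun y := σ y.1
  map_smul' _ y := σ.map_smul _ y.1

variable (Z) in
/-- a section that depends on the second factor -/
noncomputable def sndS [DistribMulAction (GG n') W] (σ : Z' →[GG n'] W) :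
    Pr n n' Z Z' →[GG (Sum.elim n n')] Snd n n' W where
  toFun y := σ y.2
  map_smul' _ y := σ.map_smul _ y.2

variable [Nice Z] [ContinuousSMul (GG n) Z] [Nice Z'] [ContinuousSMul (GG n') Z'] [Nice Y]
  [ContinuousSMul (GG n) Y] [Nice Y'] [ContinuousSMul (GG n') Y']

/-- the cross product -/
noncomputable def crs :
    EH (GG n) Z →ₗ[ℂ] EH (GG n') Z' →ₗ[ℂ] EH (GG (Sum.elim n n')) (Pr n n' Z Z') :=
  (sumProd n n').cross (B := Pr n n' Z Z') (b₁ := fun y => y.1) (fun _ _ => rfl)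
    (b₂ := fun y => y.2) fun _ _ => rfl

theorem isHomeomorph_Pr : IsHomeomorph fun y : Pr n n' Z Z' => (y.1, y.2) := IsHomeomorph.id

theorem crossG_iff {β : EH (GG n) Z} {β' : EH (GG n') Z'} {M : ℕ} {b} :
    CrossG (β.1 M) (β'.1 M) b ↔ (crs β β').1 M = b :=
  (Cross_iff ((sumProd n n').isHomeomorph (B := Pr n n' Z Z') (fun _ _ => rfl) (fun _ _ => rfl)
    isHomeomorph_Pr M)).trans
    (Eq.congr_left ((sumProd n n').cross_apply _ _ isHomeomorph_Pr β β' M).symm)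

theorem crs_deg {k l : ℤ} {β : EH (GG n) Z} {β' : EH (GG n') Z'} (h : β ∈ EH.deg _ _ k)
    (h' : β' ∈ EH.deg _ _ l) : crs β β' ∈ EH.deg _ _ (k + l) :=
  (sumProd n n').cross_deg _ _ isHomeomorph_Pr h h'

theorem egys_crs₁ [DistribMulAction (GG n) W] (hW : IsRep (GG n) W r) {σ : Z →[GG n] W}
    (hσ : Continuous σ) {f : Y →[GG n] Z} (hf : IsClosedEmbedding f) (hr : σ ⁻¹' {0} ⊆ range f)
    (β : EH (GG n) Z) (β' : EH (GG n') Z') :
    egys (prMap f (MulActionHom.id _)) (eul (fstS Z' σ)) (crs β β') = crs (egys f (eul σ) β) β' :=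
  (sumProd n n').egys_cross₁ _ _ (W' := W) hW.fst (σ := fstS Z' σ) (hσ.comp continuous_fst)
    LinearMap.id
    bijective_id isHomeomorph_Pr (f := prMap f (MulActionHom.id _)) (hf.prodMap IsClosedEmbedding.id)
    (fun y hy => (hr hy).elim fun z hz => ⟨(z, y.2), Prod.ext hz rfl⟩) hW (fun _ _ => rfl) hσ
    (fun _ => rfl) _ _ isHomeomorph_Pr hf hr (fun _ => rfl) (fun _ => rfl) β β'

theorem egys_crs₂ [DistribMulAction (GG n') W] (hW : IsRep (GG n') W r) {σ : Z' →[GG n'] W}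
    (hσ : Continuous σ) {f : Y' →[GG n'] Z'} (hf : IsClosedEmbedding f) (hr : σ ⁻¹' {0} ⊆ range f)
    (β : EH (GG n) Z) (β' : EH (GG n') Z') :
    egys (prMap (MulActionHom.id _) f) (eul (sndS Z σ)) (crs β β') = crs β (egys f (eul σ) β') :=
  (sumProd n n').egys_cross₂ _ _ (W' := W) hW.snd (σ := sndS Z σ) (hσ.comp continuous_snd)
    LinearMap.id
    bijective_id isHomeomorph_Pr (f := prMap (MulActionHom.id _) f) (IsClosedEmbedding.id.prodMap hf)
    (fun y hy => (hr hy).elim fun z hz => ⟨(y.1, z), Prod.ext rfl hz⟩) hW (fun _ _ => rfl) hσ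
    (fun _ => rfl) _ _ isHomeomorph_Pr hf hr (fun _ => rfl) (fun _ => rfl) β β'

theorem epush_crs {f : Y →[GG n] Z} (hf : IsPr f) {f' : Y' →[GG n'] Z'} (hf' : IsPr f')
    (β : EH (GG n) Y) (β' : EH (GG n') Y') :
    epush (prMap f f') (crs β β') = crs (epush f β) (epush f' β') :=
  (sumProd n n').epush_cross _ _ isHomeomorph_Pr _ _ isHomeomorph_Pr (fun _ => rfl) (fun _ => rfl)
    hf hf' β β'

end pr

namespace Flav

variable {I E Φ : Type} {Q : Quiv I E} [Fintype Φ] [Fintype I] [Fintype E]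
  {Z : Type} [MulAction (GG (Q.nn Φ)) Z] {ℓ : Z → Q.Lat}
  (hℓ : ∀ (g : GG (Q.nn Φ)) z, ℓ (g • z) = g • ℓ z) (Z' : Type) [MulAction (GG (Q.nn Φ)) Z'] (m : ℕ)
  {Y : Type} [MulAction (GG (Q.nn Φ)) Y] {ℓ₁ : Y → Q.Lat}
  (hℓ₁ : ∀ (g : GG (Q.nn Φ)) z, ℓ₁ (g • z) = g • ℓ₁ z) {Y' : Type} [MulAction (GG (Q.nn Φ)) Y']

theorem zero_mem_VV (y : Pr (Q.nn Φ) (Q.nn Φ) Z Z') : (y, 0) ∈ VV ℓ hℓ Z' m := lat_laur_zero_le _

/-- the projection of the bundle of frames -/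
noncomputable def voP : VO ℓ hℓ Z' m →[GG (Sum.elim (Q.nn Φ) (Q.nn Φ))] Pr (Q.nn Φ) (Q.nn Φ) Z Z' where
  toFun x := x.1.1.1
  map_smul' _ _ := rfl

variable {Z'} (f : Y →[GG (Q.nn Φ)] Z) (f' : Y' →[GG (Q.nn Φ)] Z') (e : ∀ y, ℓ (f y) = ℓ₁ y)

/-- base change -/
noncomputable def vvMap : VV ℓ₁ hℓ₁ Y' m →[GG (Sum.elim (Q.nn Φ) (Q.nn Φ))] VV ℓ hℓ Z' m where
  toFun x := ⟨(prMap f f' x.1.1, x.1.2), le_of_le_of_eq x.2 (e _).symm⟩
  map_smul' g x := Subtype.ext (Prod.ext ((prMap f f').map_smul g x.1.1) rfl)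

/-- base change -/
noncomputable def voMap : VO ℓ₁ hℓ₁ Y' m →[GG (Sum.elim (Q.nn Φ) (Q.nn Φ))] VO ℓ hℓ Z' m where
  toFun x := ⟨vvMap hℓ m hℓ₁ f f' e x.1, x.2.1.trans (e _).symm, x.2.2⟩
  map_smul' g x := Subtype.ext ((vvMap hℓ m hℓ₁ f f' e).map_smul g x.1)

theorem mem_range_vvMap {x : VV ℓ hℓ Z' m} (h : x.1.1 ∈ range (prMap f f')) :
    x ∈ range (vvMap hℓ m hℓ₁ f f' e) := by
  obtain ⟨⟨_, w⟩, hx⟩ := x
  obtain ⟨y, rfl⟩ := h
  exact ⟨⟨(y, w), le_of_le_of_eq hx (e _)⟩, rfl⟩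

theorem mem_range_voMap {x : VO ℓ hℓ Z' m} (h : x.1.1.1 ∈ range (prMap f f')) :
    x ∈ range (voMap hℓ m hℓ₁ f f' e) := by
  obtain ⟨x, hx⟩ := x
  obtain ⟨y, rfl⟩ := mem_range_vvMap hℓ m hℓ₁ f f' e h
  exact ⟨⟨y, hx.1.trans (e _), hx.2⟩, rfl⟩

variable [TopologicalSpace Z] [TopologicalSpace Z'] [TopologicalSpace Y] [TopologicalSpace Y']

theorem continuous_voP : Continuous (voP hℓ Z' m) := VO.isEmbedding_val.continuous.fst

variable {f f'}

theorem continuous_voMap (hf : Continuous f) (hf' : Continuous f') :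
    Continuous (voMap hℓ m hℓ₁ f f' e) :=
  VO.isEmbedding_val.continuous_iff.2
    (((hf.comp VO.continuous_fst).prodMk (hf'.comp VO.continuous_snd)).prodMk VO.continuous_w)

theorem isClosedEmbedding_vvMap (hf : IsClosedEmbedding f) (hf' : IsClosedEmbedding f') :
    IsClosedEmbedding (vvMap hℓ m hℓ₁ f f' e) :=
  isClosedEmbedding_of_cart ((hf.prodMap hf').prodMap (IsClosedEmbedding.id (X := WW Q Φ m)))
    IsEmbedding.subtypeVal IsEmbedding.subtypeVal (fun _ => rfl) fun x y h =>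
      ⟨⟨x, le_of_le_of_eq (h.symm ▸ y.2 : (Prod.map (Prod.map f f') id x) ∈ VV ℓ hℓ Z' m) (e _)⟩, rfl⟩

theorem isClosedEmbedding_voMap (hf : IsClosedEmbedding f) (hf' : IsClosedEmbedding f') :
    IsClosedEmbedding (voMap hℓ m hℓ₁ f f' e) :=
  isClosedEmbedding_of_cart (isClosedEmbedding_vvMap hℓ m hℓ₁ e hf hf')
    IsEmbedding.subtypeVal IsEmbedding.subtypeVal (fun _ => rfl) fun x y h => by
      obtain ⟨_, hy⟩ := y
      subst h
      exact ⟨⟨x, hy.1.trans (e _), hy.2⟩, rfl⟩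

/-- a trivial bundle in the second factor -/
theorem isTE_voMap {W : Type} [AddCommGroup W] [Module ℂ W] [TopologicalSpace W]
    [DistribMulAction (GG (Q.nn Φ)) W] {p : Y' →[GG (Q.nn Φ)] Z'} {κ : Y' →[GG (Q.nn Φ)] W}
    {s : Z' →[GG (Q.nn Φ)] Y'} (h : IsTE p κ s) :
    IsTE (voMap hℓ m hℓ (MulActionHom.id _) p fun _ => rfl) ((sndS Z κ).comp (voP hℓ Y' m))
      (voMap hℓ m hℓ (MulActionHom.id _) s fun _ => rfl) := by
  let ε := h.homeo.homeomorph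
  have hε : ∀ y, p (ε.symm y) = y.1 ∧ κ (ε.symm y) = y.2 := fun y =>
    Prod.ext_iff.1 (ε.apply_symm_apply y)
  refine ⟨isHomeomorph_iff_exists_inverse.2 ⟨(continuous_voMap hℓ m hℓ _ continuous_id
    h.homeo.continuous.fst).prodMk (h.homeo.continuous.snd.comp VO.continuous_snd),
    fun x => ⟨⟨((x.1.1.1.1.1, ε.symm (x.1.1.1.1.2, x.2)), x.1.1.1.2), x.1.1.2⟩, x.1.2⟩,
    fun x => ?_, fun x => ?_, VO.isEmbedding_val.continuous_iff.2 ?_⟩, fun x => ?_, fun x => h.ks _⟩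
  · exact Subtype.ext (Subtype.ext (Prod.ext (Prod.ext rfl (ε.symm_apply_apply _)) rfl))
  · exact Prod.ext (Subtype.ext (Subtype.ext (Prod.ext (Prod.ext rfl (hε _).1) rfl))) (hε _).2
  · exact ((VO.continuous_fst.comp continuous_fst).prodMk (ε.symm.continuous.comp
      ((VO.continuous_snd.comp continuous_fst).prodMk continuous_snd))).prodMk
      (VO.continuous_w.comp continuous_fst)
  · exact Subtype.ext (Subtype.ext (Prod.ext (Prod.ext rfl (h.ps _)) rfl))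

variable [Nice Z] [ContinuousSMul (GG (Q.nn Φ)) Z] [Nice Z'] [ContinuousSMul (GG (Q.nn Φ)) Z']
  [Nice Y] [ContinuousSMul (GG (Q.nn Φ)) Y] [Nice Y'] [ContinuousSMul (GG (Q.nn Φ)) Y']
  [Nice (VV ℓ hℓ Z' m)] [Nice (VO ℓ hℓ Z' m)] [Nice (VV ℓ₁ hℓ₁ Y' m)] [Nice (VO ℓ₁ hℓ₁ Y' m)]

variable (Z') in
/-- the pull-back `p^*` along the bundle of frames -/
noncomputable def pst : EH (GG (Sum.elim (Q.nn Φ) (Q.nn Φ))) (Pr (Q.nn Φ) (Q.nn Φ) Z Z') →ₗ[ℂ]
    EH (GG (Sum.elim (Q.nn Φ) (Q.nn Φ))) (VO ℓ hℓ Z' m) :=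
  eres (voE hℓ Z' m) ∘ₗ ethom (VV ℓ hℓ Z' m) (zero_mem_VV hℓ Z' m)

variable {m} {χ : I → ℤ} (hc : Continuous ℓ) (hr : ∀ z, Quiv.Rel m χ (lat 1) (ℓ z))
include hc hr

theorem pullV_iff {β : EH (GG (Sum.elim (Q.nn Φ) (Q.nn Φ))) (Pr (Q.nn Φ) (Q.nn Φ) Z Z')} {M : ℕ}
    {γ} : PullV ℓ hℓ (β.1 M) γ ↔ (pst hℓ Z' m β).1 M = γ := by
  have hV := isSubVB_VV hℓ Z' hc hr
  have h0 := zero_mem_VV hℓ Z' m
  have hz := IsSubVB.isClosedEmbedding_zs (isRep_WW m) h0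
  have ht := isCoc_tho (isRep_WW m) hV h0
  have ho := isOpenEmbedding_voE hℓ Z' hc hr
  have h1 : gys (smap (zs _ h0) M) (tho _ M) ((ethom _ h0 β).1 M) = β.1 M := by
    rw [← egys_apply hz ht, egys_ethom h0 (isRep_WW m) hV]
  have h2 : (pst hℓ Z' m β).1 M = res (smap (voE hℓ Z' m) M) ((ethom _ h0 β).1 M) :=
    eres_apply ho _ M
  have h3 := fun a b => Gys_iff (isClosedEmbedding_smap hz M) (ht.isCo M).cocycle (ht.isCo M).supp
    (β := a) (β' := b)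
  have h4 := fun a b => Res_iff (isOpenEmbedding_smap ho M) (β := a) (β' := b)
  rw [h2]
  refine ⟨?_, fun h => ⟨_, (h3 _ _).2 h1, (h4 _ _).2 h⟩⟩
  rintro ⟨b, hb, hb'⟩
  rw [LinearMap.dualMap_injective_of_surjective (cgys_tho_bijective (isRep_WW m) hV h0 M).2
    (h1.trans ((h3 _ _).1 hb).symm)]
  exact (h4 _ _).1 hb'

theorem pst_deg {k : ℤ} {β} (h : β ∈ EH.deg _ _ k) :
    pst hℓ Z' m β ∈ EH.deg _ _ (k + 2 * rkV Q Φ m χ) :=
  eres_deg (isOpenEmbedding_voE hℓ Z' hc hr)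
    (ethom_deg _ (isRep_WW m) (isSubVB_VV hℓ Z' hc hr) h)

theorem pst_smul (c : HS (GG (Sum.elim (Q.nn Φ) (Q.nn Φ))) Unit) (β) : pst hℓ Z' m (c • β) = c • pst hℓ Z' m β :=
  (congrArg (eres _) (ethom_smul _ (isRep_WW m) (isSubVB_VV hℓ Z' hc hr) c β)).trans
    (eres_smul (isOpenEmbedding_voE hℓ Z' hc hr) c _)

variable (hf : IsClosedEmbedding f) (hf' : IsClosedEmbedding f')
include hf hf'

/-- `p^*` commutes with Gysin maps -/
theorem egys_pst {d : ℕ} {u} (hu : IsCoc (range (prMap f f')) d u) (β) :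
    egys (voMap hℓ m hℓ₁ f f' e) (fun M => pull (smap (voP hℓ Z' m) M) (u M)) (pst hℓ Z' m β) =
      pst hℓ₁ Y' m (egys (prMap f f') u β) := by
  have hc₁ : Continuous ℓ₁ := (hc.comp hf.continuous).congr e
  have hr₁ : ∀ z, Quiv.Rel m χ (lat 1) (ℓ₁ z) := fun z => e z ▸ hr (f z)
  have h1 : vpr (VV ℓ hℓ Z' m) ⁻¹' range (prMap f f') ⊆ range (vvMap hℓ m hℓ₁ f f' e) :=
    fun x hx => mem_range_vvMap hℓ m hℓ₁ f f' e hx
  have h2 := isClosedEmbedding_vvMap hℓ m hℓ₁ e hf hf'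
  change _ = eres _ (ethom _ _ _)
  rw [← egys_ethom_base (zero_mem_VV hℓ Z' m) (zero_mem_VV hℓ₁ Y' m) (isRep_WW m)
    (isSubVB_VV hℓ Z' hc hr) (isSubVB_VV hℓ₁ Y' hc₁ hr₁) (fun _ => rfl) h2 (hf.prodMap hf') hu h1,
    eres_egys h2 (isClosedEmbedding_voMap hℓ m hℓ₁ e hf hf') (isOpenEmbedding_voE hℓ Z' hc hr)
      (isOpenEmbedding_voE hℓ₁ Y' hc₁ hr₁) (fun _ => rfl) ?_
      ((hu.pull (smul_mem_range _) (continuous_vpr _)).mono h1)]
  · simp only [pull_pull, smap_comp (f := voE hℓ Z' m) (g := vpr (VV ℓ hℓ Z' m))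
      (h := voP hℓ Z' m) fun _ => rfl]
    rfl
  · rintro x ⟨y, hy⟩
    exact mem_range_voMap hℓ m hℓ₁ f f' e ⟨y.1.1, congrArg (fun v => v.1.1) hy⟩

theorem egys_eul_pst {W : Type} [AddCommGroup W] [Module ℂ W] [TopologicalSpace W]
    [DistribMulAction (GG (Sum.elim (Q.nn Φ) (Q.nn Φ))) W] {r : ℕ}
    (hW : IsRep (GG (Sum.elim (Q.nn Φ) (Q.nn Φ))) W r)
    {σ : Pr (Q.nn Φ) (Q.nn Φ) Z Z' →[GG (Sum.elim (Q.nn Φ) (Q.nn Φ))] W} (hσ : Continuous σ)
    (h0 : σ ⁻¹' {0} ⊆ range (prMap f f')) (β) :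
    egys (voMap hℓ m hℓ₁ f f' e) (eul (σ.comp (voP hℓ Z' m))) (pst hℓ Z' m β) =
      pst hℓ₁ Y' m (egys (prMap f f') (eul σ) β) := by
  rw [← egys_pst hℓ hℓ₁ e hc hr hf hf' ((isCoc_eul hW hσ).mono h0), egys_pull_eul hW hσ
    (continuous_voP hℓ m) (σ' := σ.comp (voP hℓ Z' m)) (fun _ => rfl) (isClosedEmbedding_voMap hℓ m hℓ₁ e hf hf')
    fun x hx => mem_range_voMap hℓ m hℓ₁ f f' e (h0 hx)]

/-- `p^*` commutes with push-forward along closed embeddings -/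
theorem epush_pst (β) : epush (voMap hℓ m hℓ₁ f f' e) (pst hℓ₁ Y' m β) =
    pst hℓ Z' m (epush (prMap f f') β) := by
  have hc₁ : Continuous ℓ₁ := (hc.comp hf.continuous).congr e
  have hr₁ : ∀ z, Quiv.Rel m χ (lat 1) (ℓ₁ z) := fun z => e z ▸ hr (f z)
  have h2 := IsPr.of_isClosedEmbedding (isClosedEmbedding_vvMap hℓ m hℓ₁ e hf hf')
  refine Eq.trans (eres_epush (isOpenEmbedding_voE hℓ Z' hc hr)
    (isOpenEmbedding_voE hℓ₁ Y' hc₁ hr₁) h2
    (IsPr.of_isClosedEmbedding (isClosedEmbedding_voMap hℓ m hℓ₁ e hf hf')) (fun _ => rfl) ?_ _).symm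
    (congrArg (eres _) (epush_ethom (zero_mem_VV hℓ Z' m) (zero_mem_VV hℓ₁ Y' m) (isRep_WW m)
      (isSubVB_VV hℓ Z' hc hr) (isSubVB_VV hℓ₁ Y' hc₁ hr₁) (f := prMap f f') (fun _ => rfl) h2
      (IsPr.of_isClosedEmbedding (hf.prodMap hf')) β))
  rintro x ⟨⟨_, hy⟩, rfl⟩
  exact ⟨⟨x, hy.1.trans (e _), hy.2⟩, rfl⟩

end Flav

end Vale.Agent.P291Z
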