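import Vale.Agent.P291Z.EH2
import Vale.Agent.P291Z.Avg

/-!
# Pull-back to trivial bundles, fundamental classes of representations
-/

set_option linter.all false

namespace Vale.Agent.P291Z

open Set Function Topology

variable {G : Type} [Group G] [TopologicalSpace G] [Sys G]

theorem Sys.isTopologicalGroup (G : Type) [Group G] [TopologicalSpace G] [Sys G] :
    IsTopologicalGroup G := Prin.grp (Sys.P G 0)

instance unitContinuousSMul {G : Type} [Group G] [TopologicalSpace G] : ContinuousSMul G Unit :=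
  ⟨continuous_const⟩

/-- the product of two equivariant maps -/
def eprod {X Y Y' : Type} [MulAction G X] [MulAction G Y] [MulAction G Y'] (σ : X →[G] Y)
    (τ : X →[G] Y') : X →[G] Y × Y' :=
  ⟨fun x => (σ x, τ x), fun g x => Prod.ext (σ.map_smul g x) (τ.map_smul g x)⟩

/-- an equivariant linear map as an equivariant map -/
def elin {V W : Type} [AddCommGroup V] [Module ℂ V] [DistribMulAction G V] [AddCommGroup W]
    [Module ℂ W] [DistribMulAction G W] (L : V →ₗ[ℂ] W) (h : ∀ (g : G) v, L (g • v) = g • L v) :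
    V →[G] W := ⟨L, h⟩

section gen

variable {G' : Type} [Group G'] [TopologicalSpace G'] [Sys G'] {Z Z' : Type} [TopologicalSpace Z]
  [MulAction G Z] [Nice Z] [ContinuousSMul G Z] [TopologicalSpace Z'] [MulAction G' Z'] [Nice Z']
  [ContinuousSMul G' Z']

theorem EH.deg_of_injective {φ : EH G Z →ₗ[ℂ] EH G' Z'} {c : ℤ}
    (h : ∀ k, ∀ β ∈ EH.deg G Z k, φ β ∈ EH.deg G' Z' (k + c)) (hi : Injective φ) {k : ℤ}
    {β : EH G Z} (hβ : φ β ∈ EH.deg G' Z' (k + c)) : β ∈ EH.deg G Z k := by
  rw [← hi ((EH.comp_map h k β).symm.trans (EH.comp_of_mem hβ))]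
  exact EH.comp_mem k β

end gen

section eul

variable {X Y Z W W' U C : Type} [TopologicalSpace X] [MulAction G X] [Nice X]
  [ContinuousSMul G X] [TopologicalSpace Y] [MulAction G Y] [Nice Y] [ContinuousSMul G Y]
  [TopologicalSpace Z] [MulAction G Z] [Nice Z] [ContinuousSMul G Z]
  [AddCommGroup W] [Module ℂ W] [TopologicalSpace W] [DistribMulAction G W]
  [AddCommGroup W'] [Module ℂ W'] [TopologicalSpace W'] [DistribMulAction G W']
  [AddCommGroup U] [Module ℂ U] [TopologicalSpace U] [DistribMulAction G U]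
  [AddCommGroup C] [Module ℂ C] [TopologicalSpace C] [DistribMulAction G C] {r r' s t : ℕ}

theorem smul_mem_zero (σ : X →[G] W) (g : G) (z : X) (hz : z ∈ σ ⁻¹' {0}) :
    g • z ∈ σ ⁻¹' {0} := by
  rw [mem_preimage, σ.map_smul, show σ z = 0 from hz, smul_zero]
  rfl

theorem smul_mem_range (i : Y →[G] X) (g : G) (z : X) (hz : z ∈ range i) : g • z ∈ range i := by
  obtain ⟨y, rfl⟩ := hz
  exact ⟨g • y, i.map_smul g y⟩

theorem Coh.mono {A B : Set X} (h : A ⊆ B) {s t : ∀ M, Coch (Bq G X M)} (hc : Coh A s t) :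
    Coh B s t := fun M => (hc M).mono (bset_mono h M)

theorem Coh.symm {A : Set X} {s t : ∀ M, Coch (Bq G X M)} (hc : Coh A s t) : Coh A t s :=
  fun M => (hc M).symm

theorem Coh.trans {A : Set X} {s t u : ∀ M, Coch (Bq G X M)} (hc : Coh A s t) (h : Coh A t u) :
    Coh A s u := fun M => (hc M).trans (h M)

/-- Gysin maps of Euler cocycles of pulled back sections -/
theorem egys_pull_eul (hW : IsRep G W r) {σ : X →[G] W} (hσ : Continuous σ) {f : Y →[G] X}
    (hf : Continuous f) {σ' : Y →[G] W} (e : ∀ y, σ' y = σ (f y)) {i : Z →[G] Y}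
    (hi : IsClosedEmbedding i) (h : σ' ⁻¹' {0} ⊆ range i) :
    egys i (fun M => pull (smap f M) (eul σ M)) = egys i (eul σ') := by
  obtain rfl : σ' = σ.comp f := MulActionHom.ext e
  exact egys_congr hi (((isCoc_eul hW hσ).pull (smul_mem_zero σ) hf).mono h)
    ((isCoc_eul hW (σ := σ.comp f) (hσ.comp hf)).mono h) ((eul_pull hW hσ hf).mono h)

/-- change of the section by an equivariant linear isomorphism -/
theorem egys_eul_congr (hW : IsRep G W r) (hW' : IsRep G W' r') {σ : X →[G] W}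
    (hσ : Continuous σ) {σ' : X →[G] W'} (L : W →ₗ[ℂ] W') (hL : ∀ (g : G) w, L (g • w) = g • L w)
    (hb : Bijective L) (e : ∀ x, σ' x = L (σ x)) {i : Y →[G] X} (hi : IsClosedEmbedding i)
    (h : σ ⁻¹' {0} ⊆ range i) : egys i (eul σ) = egys i (eul σ') := by
  obtain rfl : r = r' := hW.finrank_eq'.symm.trans
    ((LinearEquiv.ofBijective L hb).finrank_eq.trans hW'.finrank_eq')
  have hc := hW.continuous_lin hW' L
  exact egys_congr hi ((isCoc_eul hW hσ).mono h)
    ((isCoc_eul hW' ((hc.comp hσ).congr fun x => (e x).symm)).mono fun x hx =>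
      h (hb.1 (((e x).symm.trans hx).trans (map_zero L).symm)))
    ((eul_iso hW hW' hσ (fun _ => L) (hc.comp continuous_snd) (fun _ => hb)
      (fun g _ w => hL g w) fun x => (e x).symm).mono h)

/-- composition of Gysin maps of Euler cocycles -/
theorem egys_eul_egys_eul (hW : IsRep G W r) (hW' : IsRep G W' r') {i : Z →[G] Y}
    (hi : IsClosedEmbedding i) {j : Y →[G] X} (hj : IsClosedEmbedding j) {k : Z →[G] X}
    (e : ∀ z, k z = j (i z)) {σ : X →[G] W} (hσ : Continuous σ) {σ' : Y →[G] W}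
    (e' : ∀ y, σ' y = σ (j y)) (h : σ' ⁻¹' {0} ⊆ range i) {τ : X →[G] W'} (hτ : Continuous τ)
    (h' : τ ⁻¹' {0} ⊆ range j) (β : EH G X) :
    egys i (eul σ') (egys j (eul τ) β) = egys k (eul (eprod σ τ)) β := by
  have hk : IsClosedEmbedding k := by
    rw [show ⇑k = j ∘ i from funext e]
    exact hj.comp hi
  have h1 : σ ⁻¹' {0} ∩ τ ⁻¹' {0} ⊆ range k := fun x hx => by
    obtain ⟨y, rfl⟩ := h' hx.2
    obtain ⟨z, rfl⟩ := h (a := y) ((e' y).trans hx.1)
    exact ⟨z, e z⟩
  have h2 : eprod σ τ ⁻¹' {0} ⊆ range k := fun x hx =>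
    h1 ⟨congrArg Prod.fst hx, congrArg Prod.snd hx⟩
  rw [← egys_pull_eul hW hσ hj.continuous e' hi h, egys_egys hi hj e (smul_mem_zero σ)
    (fun y hy => h ((e' y).trans hy)) (isCoc_eul hW hσ) ((isCoc_eul hW' hτ).mono h'),
    egys_congr hk ((isCoc_eul (hW.prod hW') (σ := eprod σ τ) (hσ.prodMk hτ)).mono h2)
      (((isCoc_eul hW hσ).mul (smul_mem_zero σ) (isCoc_eul hW' hτ)).mono h1)
      ((eul_prod hW hW' hσ hτ fun _ => rfl).mono h2)]

theorem egys_id_eul (hW : IsRep G W r) {σ : X →[G] W} (hσ : Continuous σ) {i : X →[G] X}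
    (e : ∀ x, i x = x) (β : EH G X) : egys i (eul σ) β = eu hW • β := by
  have hi : IsClosedEmbedding i := by
    rw [show ⇑i = id from funext e]
    exact IsClosedEmbedding.id
  rw [← epush_egys_eul hW hσ hi (fun x _ => ⟨x, e x⟩), epush_id e]

/-- excess intersection: the section has a component that vanishes identically -/
theorem egys_eul_zero_prod (hC : IsRep G C t) (hW : IsRep G W r) {σ : X →[G] W}
    (hσ : Continuous σ) {i : Y →[G] X} (hi : IsClosedEmbedding i) (h : σ ⁻¹' {0} ⊆ range i)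
    (β : EH G X) : egys i (eul (eprod (zeroH G X C) σ)) β = eu hC • egys i (eul σ) β := by
  rw [← egys_eul_egys_eul hC hW (i := MulActionHom.id G) IsClosedEmbedding.id hi (fun _ => rfl)
    (σ := zeroH G X C) continuous_const (σ' := zeroH G Y C) (fun _ => rfl) (fun y _ => ⟨y, rfl⟩)
    hσ h, egys_id_eul hC (σ := zeroH G Y C) continuous_const fun _ => rfl]

variable [CompactSpace G]

/-- **Excess intersection formula**: the section `σ'` takes values in a subrepresentation `W` of
`U` with quotient `C`. -/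
theorem egys_eul_excess (hW : IsRep G W r) (hU : IsRep G U s) (hC : IsRep G C t) {ι : W →[G] U}
    (hι : IsLinearMap ℂ ι) (hinj : Injective ι) {c : U →[G] C} (hc : IsLinearMap ℂ c)
    (hs : Surjective c) (hex : ∀ u, c u = 0 ↔ u ∈ range ι) {σ : X →[G] W} (hσ : Continuous σ)
    {σ' : X →[G] U} (e : ∀ x, σ' x = ι (σ x)) {i : Y →[G] X} (hi : IsClosedEmbedding i)
    (h : σ ⁻¹' {0} ⊆ range i) (β : EH G X) :
    egys i (eul σ') β = eu hC • egys i (eul σ) β := by
  haveI := Sys.isTopologicalGroup G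
  obtain ⟨π, h1, h2, h3⟩ := hW.exists_split hU hι.mk' ι.map_smul hinj hc.mk' hs hex
  have h4 : Continuous σ' :=
    ((hW.continuous_lin hU hι.mk').comp hσ).congr fun x => (e x).symm
  rw [← egys_eul_zero_prod hC hW hσ hi h, egys_eul_congr hU (hC.prod hW) h4
    (σ' := eprod (zeroH G X C) σ) (hc.mk'.prod π) (fun g w => Prod.ext (c.map_smul g w) (h1 g w))
    (Prod.swap_bijective.comp h3) (fun x => ?_) hi fun x hx =>
      h (hinj (((e x).symm.trans hx).trans hι.map_zero.symm))]
  rw [e]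
  exact Prod.ext ((hex _).2 ⟨_, rfl⟩).symm (h2 _).symm

/-- composition of Gysin maps for an extension `W → U → C` of representations -/
theorem egys_eul_ext (hW : IsRep G W r) (hU : IsRep G U s) (hC : IsRep G C t) {ι : W →[G] U}
    (hι : IsLinearMap ℂ ι) (hinj : Injective ι) {c : U →[G] C} (hc : IsLinearMap ℂ c)
    (hs : Surjective c) (hex : ∀ u, c u = 0 ↔ u ∈ range ι) {i : Z →[G] Y}
    (hi : IsClosedEmbedding i) {j : Y →[G] X} (hj : IsClosedEmbedding j) {k : Z →[G] X}
    (e : ∀ z, k z = j (i z)) {σ : X →[G] U} (hσ : Continuous σ) {σ' : Y →[G] W}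
    (e' : ∀ y, ι (σ' y) = σ (j y)) (h : σ' ⁻¹' {0} ⊆ range i) {τ : X →[G] C}
    (e'' : ∀ x, τ x = c (σ x)) (h' : τ ⁻¹' {0} ⊆ range j) (β : EH G X) :
    egys i (eul σ') (egys j (eul τ) β) = egys k (eul σ) β := by
  haveI := Sys.isTopologicalGroup G
  obtain ⟨π, h1, h2, h3⟩ := hW.exists_split hU hι.mk' ι.map_smul hinj hc.mk' hs hex
  have hk : IsClosedEmbedding k := by
    rw [show ⇑k = j ∘ i from funext e]
    exact hj.comp hi
  rw [egys_eul_egys_eul hW hC hi hj e (σ := (elin π h1).comp σ)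
    ((hU.continuous_lin hW π).comp hσ) (fun y => ?_) h
    (((hU.continuous_lin hC hc.mk').comp hσ).congr fun x => (e'' x).symm) h',
    ← egys_eul_congr hU (hW.prod hC) hσ (π.prod hc.mk')
      (fun g w => Prod.ext (h1 g w) (c.map_smul g w)) h3 (fun x => Prod.ext rfl (e'' x)) hk
      fun x hx => ?_]
  · obtain ⟨y, rfl⟩ := h' (a := x) ((e'' x).trans ((congrArg c hx).trans hc.map_zero))
    obtain ⟨z, rfl⟩ := h (a := y) (hinj (((e' y).trans hx).trans hι.map_zero.symm))
    exact ⟨z, e z⟩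
  · exact (h2 _).symm.trans (congrArg π (e' y))

theorem eu_ext (hW : IsRep G W r) (hU : IsRep G U s) (hC : IsRep G C t) {ι : W →[G] U}
    (hι : IsLinearMap ℂ ι) (hinj : Injective ι) {c : U →[G] C} (hc : IsLinearMap ℂ c)
    (hs : Surjective c) (hex : ∀ u, c u = 0 ↔ u ∈ range ι) : eu hU = eu hW * eu hC := by
  haveI := Sys.isTopologicalGroup G
  obtain ⟨π, h1, h2, h3⟩ := hW.exists_split hU hι.mk' ι.map_smul hinj hc.mk' hs hex
  obtain rfl : s = r + t := hU.finrank_eq'.symm.trans
    ((LinearEquiv.ofBijective _ h3).finrank_eq.trans (hW.prod hC).finrank_eq')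
  rw [← eu_prod hW hC]
  exact eu_congr hU _ (LinearEquiv.ofBijective _ h3)
    fun g w => Prod.ext (h1 g w) (c.map_smul g w)

end eul

section triv

variable {X Z W X' Z' W' C : Type} [TopologicalSpace X] [MulAction G X] [Nice X]
  [ContinuousSMul G X] [TopologicalSpace Z] [MulAction G Z] [Nice Z] [ContinuousSMul G Z]
  [TopologicalSpace X'] [MulAction G X'] [Nice X'] [ContinuousSMul G X']
  [TopologicalSpace Z'] [MulAction G Z'] [Nice Z'] [ContinuousSMul G Z']
  [AddCommGroup W] [Module ℂ W] [TopologicalSpace W] [DistribMulAction G W]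
  [AddCommGroup W'] [Module ℂ W'] [TopologicalSpace W'] [DistribMulAction G W']
  [AddCommGroup C] [Module ℂ C] [TopologicalSpace C] [DistribMulAction G C] {r r' t : ℕ}

/-- `X ≅ Z × W` through `p` and `κ`, with zero section `s` -/
structure IsTE (p : X →[G] Z) (κ : X →[G] W) (s : Z →[G] X) : Prop where
  homeo : IsHomeomorph fun x => (p x, κ x)
  ps : ∀ z, p (s z) = z
  ks : ∀ z, κ (s z) = 0

/-- the pull-back to the total space of a trivial bundle -/
noncomputable def tpull (s : Z →[G] X) (κ : X →[G] W) : EH G Z →ₗ[ℂ] EH G X :=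
  Classical.epsilon fun φ => ∀ β, egys s (eul κ) (φ β) = β

namespace IsTE

variable {p : X →[G] Z} {κ : X →[G] W} {s : Z →[G] X} (h : IsTE p κ s)
include h

theorem cont_p : Continuous p := h.homeo.continuous.fst

theorem cont_k : Continuous κ := h.homeo.continuous.snd

theorem ext {x y : X} (e : p x = p y) (e' : κ x = κ y) : x = y := h.homeo.injective (Prod.ext e e')

theorem range_eq : range s = κ ⁻¹' {0} := by
  refine Subset.antisymm ?_ fun x hx => ⟨p x, h.ext (h.ps _) ((h.ks _).trans hx.symm)⟩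
  rintro _ ⟨z, rfl⟩
  exact h.ks z

theorem isClosedEmbedding (hW : IsRep G W r) : IsClosedEmbedding s := by
  haveI := hW.nice
  have hc : Continuous s := h.homeo.isInducing.continuous_iff.2
    ((continuous_id.prodMk continuous_const).congr fun z => (Prod.ext (h.ps z) (h.ks z)).symm)
  refine ⟨LeftInverse.isEmbedding h.ps h.cont_p hc, ?_⟩
  rw [h.range_eq]
  exact isClosed_singleton.preimage h.cont_k

theorem isCoc (hW : IsRep G W r) : IsCoc (range s) r (eul κ) :=
  (isCoc_eul hW h.cont_k).mono h.range_eq.superset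

theorem egys_bijective (hW : IsRep G W r) : Bijective (egys s (eul κ)) :=
  P291Z.egys_bijective (h.isClosedEmbedding hW) (h.isCoc hW)
    (cgys_eul_bijective hW h.homeo h.ps h.ks)

theorem egys_tpull (hW : IsRep G W r) (β : EH G Z) : egys s (eul κ) (tpull s κ β) = β :=
  Classical.epsilon_spec (p := fun φ : EH G Z →ₗ[ℂ] EH G X => ∀ β, egys s (eul κ) (φ β) = β)
    ⟨(LinearEquiv.ofBijective _ (h.egys_bijective hW)).symm.toLinearMap,
      (LinearEquiv.ofBijective _ (h.egys_bijective hW)).apply_symm_apply⟩ β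

theorem tpull_egys (hW : IsRep G W r) (β : EH G X) : tpull s κ (egys s (eul κ) β) = β :=
  (h.egys_bijective hW).1 (h.egys_tpull hW _)

theorem eq_tpull (hW : IsRep G W r) {β : EH G Z} {γ : EH G X} (e : egys s (eul κ) γ = β) :
    γ = tpull s κ β := e ▸ (h.tpull_egys hW γ).symm

theorem tpull_bijective (hW : IsRep G W r) : Bijective (tpull s κ) :=
  ⟨LeftInverse.injective (h.egys_tpull hW), RightInverse.surjective (h.tpull_egys hW)⟩

theorem tpull_smul (hW : IsRep G W r) (c : HS G Unit) (β : EH G Z) :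
    tpull s κ (c • β) = c • tpull s κ β :=
  (h.eq_tpull hW (by rw [egys_smul (h.isClosedEmbedding hW) (h.isCoc hW), h.egys_tpull hW])).symm

theorem tpull_deg (hW : IsRep G W r) {k : ℤ} {β : EH G Z} (hβ : β ∈ EH.deg G Z k) :
    tpull s κ β ∈ EH.deg G X (k + 2 * r) :=
  EH.deg_of_injective (c := -(2 * r))
    (fun _ _ hγ => egys_deg (h.isClosedEmbedding hW) (h.isCoc hW) hγ) (h.egys_bijective hW).1
    (by rwa [h.egys_tpull hW, add_neg_cancel_right])

/-- the push-forward along the zero section -/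
theorem epush_zero (hW : IsRep G W r) (β : EH G Z) : epush s β = eu hW • tpull s κ β := by
  rw [← epush_egys_eul hW h.cont_k (h.isClosedEmbedding hW) h.range_eq.superset, h.egys_tpull hW]

variable {p' : X' →[G] Z'} {κ' : X' →[G] W'} {s' : Z' →[G] X'} (h' : IsTE p' κ' s')
  {F : X' →[G] X} {f : Z' →[G] Z} (e : ∀ x, p (F x) = f (p' x)) (L : W' →ₗ[ℂ] W)
  (hL : ∀ (g : G) w, L (g • w) = g • L w) (hb : Bijective L) (e' : ∀ x, κ (F x) = L (κ' x))
include h' e e'

theorem sq (z : Z') : F (s' z) = s (f z) :=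
  h.ext (by rw [e, h'.ps, h.ps]) (by rw [e', h'.ks, h.ks, map_zero])

include hb

theorem cart : F ⁻¹' range s ⊆ range s' := by
  rw [h.range_eq, h'.range_eq]
  exact fun x hx => hb.1 (((e' x).symm.trans hx).trans (map_zero L).symm)

include hL

theorem egys_pull (hW : IsRep G W r) (hW' : IsRep G W' r') (hF : Continuous F) :
    egys s' (fun M => pull (smap F M) (eul κ M)) = egys s' (eul κ') := by
  rw [egys_pull_eul hW h.cont_k hF (σ' := κ.comp F) (fun _ => rfl) (h'.isClosedEmbedding hW')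
    (fun x hx => h.cart h' e L hb e' (h.range_eq.superset hx)),
    ← egys_eul_congr hW' hW h'.cont_k L hL hb e' (h'.isClosedEmbedding hW') h'.range_eq.superset]

/-- base change for proper maps -/
theorem epush_tpull (hW : IsRep G W r) (hW' : IsRep G W' r') (hF : IsPr F) (hf : IsPr f)
    (β : EH G Z') : epush F (tpull s' κ' β) = tpull s κ (epush f β) :=
  h.eq_tpull hW (by
    rw [egys_epush (h.isClosedEmbedding hW) (h'.isClosedEmbedding hW') hF hf (h.sq h' e L e')
      (h.cart h' e L hb e') (h.isCoc hW), h.egys_pull h' e L hL hb e' hW hW' hF.cont,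
      h'.egys_tpull hW'])

/-- base change for open embeddings -/
theorem eres_tpull (hW : IsRep G W r) (hW' : IsRep G W' r') (hF : IsOpenEmbedding F)
    (hf : IsOpenEmbedding f) (β : EH G Z) : eres F (tpull s κ β) = tpull s' κ' (eres f β) :=
  h'.eq_tpull hW' (by
    rw [← h.egys_pull h' e L hL hb e' hW hW' hF.continuous,
      ← eres_egys (h.isClosedEmbedding hW) (h'.isClosedEmbedding hW') hF hf (h.sq h' e L e')
      (h.cart h' e L hb e') (h.isCoc hW), h.egys_tpull hW])

/-- base change for Gysin maps -/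
theorem egys_tpull_base (hW : IsRep G W r) (hW' : IsRep G W' r') (hF : IsClosedEmbedding F)
    (hf : IsClosedEmbedding f) {d : ℕ} {u : ∀ M, Coch (Bq G Z M)} (hu : IsCoc (range f) d u)
    (hr : p ⁻¹' range f ⊆ range F) (β : EH G Z) :
    egys F (fun M => pull (smap p M) (u M)) (tpull s κ β) = tpull s' κ' (egys f u β) :=
  h'.eq_tpull hW' (by
    rw [← h.egys_pull h' e L hL hb e' hW hW' hF.continuous,
      egys_comm hF (h.isClosedEmbedding hW) hf (h'.isClosedEmbedding hW') (h.sq h' e L e')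
        (h.cart h' e L hb e') ((hu.pull (smul_mem_range f) h.cont_p).mono hr) (h.isCoc hW),
      h.egys_tpull hW]
    congr 2
    funext M
    rw [pull_pull, show smap p M ∘ smap s M = id from funext fun b => by
      obtain ⟨x, rfl⟩ := Bor.mk_surjective b
      exact congrArg (Bor.mk G) (Prod.ext (h.ps _) rfl), pull_id])

end IsTE

variable [CompactSpace G] {p : X →[G] Z} {κ : X →[G] W} {s : Z →[G] X} {p' : X' →[G] Z}
  {κ' : X' →[G] W'} {s' : Z →[G] X'}

/-- Gysin pull-back to a subbundle -/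
theorem IsTE.egys_sub (h : IsTE p κ s) (h' : IsTE p' κ' s') (hW : IsRep G W r)
    (hW' : IsRep G W' r') (hC : IsRep G C t) {ι : W' →[G] W} (hι : IsLinearMap ℂ ι)
    (hinj : Injective ι) {c : W →[G] C} (hc : IsLinearMap ℂ c) (hs : Surjective c)
    (hex : ∀ u, c u = 0 ↔ u ∈ range ι) {j : X' →[G] X} (hj : IsClosedEmbedding j)
    (e : ∀ x, p (j x) = p' x) (e' : ∀ x, κ (j x) = ι (κ' x)) {τ : X →[G] C}
    (e'' : ∀ x, τ x = c (κ x)) (hτ : τ ⁻¹' {0} ⊆ range j) (β : EH G Z) :
    egys j (eul τ) (tpull s κ β) = tpull s' κ' β :=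
  h'.eq_tpull hW' (by
    rw [egys_eul_ext hW' hW hC hι hinj hc hs hex (h'.isClosedEmbedding hW') hj (k := s)
      (fun z => h.ext (by rw [e, h.ps, h'.ps]) (by rw [e', h.ks, h'.ks, hι.map_zero])) h.cont_k
      (fun y => (e' y).symm) h'.range_eq.superset e'' hτ, h.egys_tpull hW])

end triv

section vcl

variable (V : Type) [AddCommGroup V] [Module ℂ V] [TopologicalSpace V] [DistribMulAction G V]
  [Nice V] [ContinuousSMul G V]

/-- the pull-back from the point to a representation; `vcl V o` is the fundamental class of `V` if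
`o` is the fundamental class of the point -/
noncomputable def vcl : EH G Unit →ₗ[ℂ] EH G V := tpull (zeroH G Unit V) (MulActionHom.id G)

theorem isTE_rep : IsTE (toUnit G V) (MulActionHom.id G) (zeroH G Unit V) :=
  ⟨(Homeomorph.uniqueProd Unit V).symm.isHomeomorph, fun _ => rfl, fun _ => rfl⟩

variable {V} {V' C U K : Type} [AddCommGroup V'] [Module ℂ V'] [TopologicalSpace V']
  [DistribMulAction G V'] [Nice V'] [ContinuousSMul G V'] [AddCommGroup C] [Module ℂ C]
  [TopologicalSpace C] [DistribMulAction G C] [AddCommGroup U] [Module ℂ U]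
  [TopologicalSpace U] [DistribMulAction G U] [AddCommGroup K] [Module ℂ K]
  [TopologicalSpace K] [DistribMulAction G K] {r r' s t u : ℕ} (hV : IsRep G V r)
include hV

theorem egys_zero_vcl (o : EH G Unit) :
    egys (zeroH G Unit V) (eul (MulActionHom.id G)) (vcl V o) = o := (isTE_rep V).egys_tpull hV o

theorem vcl_bijective : Bijective (vcl (G := G) V) := (isTE_rep V).tpull_bijective hV

theorem vcl_smul (c : HS G Unit) (o : EH G Unit) : vcl V (c • o) = c • vcl V o :=
  (isTE_rep V).tpull_smul hV c o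

theorem vcl_deg {k : ℤ} {o : EH G Unit} (h : o ∈ EH.deg G Unit k) :
    vcl V o ∈ EH.deg G V (k + 2 * r) := (isTE_rep V).tpull_deg hV h

theorem epush_zero_eq (o : EH G Unit) : epush (zeroH G Unit V) o = eu hV • vcl V o :=
  (isTE_rep V).epush_zero hV o

/-- `EH G V` is free of rank one -/
theorem vcl_free {S : Type} (ψ : S → HS G Unit) {o : EH G Unit}
    (ho : Bijective fun a => ψ a • o) : Bijective fun a => ψ a • vcl V o := by
  rw [show (fun a => ψ a • vcl V o) = vcl V ∘ fun a => ψ a • o from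
    funext fun a => (vcl_smul hV _ o).symm]
  exact (vcl_bijective hV).comp ho

theorem IsRep.isClosedEmbedding_lin (hV' : IsRep G V' r') {j : V' →[G] V} (hj : IsLinearMap ℂ j)
    (hi : Injective j) : IsClosedEmbedding j := by
  obtain ⟨e⟩ := hV.lin
  obtain ⟨e'⟩ := hV'.lin
  have := LinearMap.isClosedEmbedding_of_injective (f := e.toLinearEquiv.toLinearMap ∘ₗ hj.mk' ∘ₗ
    e'.symm.toLinearEquiv.toLinearMap)
    (LinearMap.ker_eq_bot.2 (e.injective.comp (hi.comp e'.symm.injective)))
  have h2 := e.symm.toHomeomorph.isClosedEmbedding.comp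
    (this.comp e'.toHomeomorph.isClosedEmbedding)
  rwa [show _ ∘ _ = ⇑j from funext fun v => by simp] at h2

theorem IsRep.isHomeomorph_lin (hV' : IsRep G V' r') {j : V' →[G] V} (hj : IsLinearMap ℂ j)
    (hb : Bijective j) : IsHomeomorph j :=
  isHomeomorph_iff_isEmbedding_surjective.2
    ⟨(hV.isClosedEmbedding_lin hV' hj hb.1).isEmbedding, hb.2⟩

theorem epush_vcl_equiv (hV' : IsRep G V' r') {j : V' →[G] V} (hj : IsLinearMap ℂ j)
    (hb : Bijective j) (o : EH G Unit) : epush j (vcl V' o) = vcl V o := by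
  rw [vcl, (isTE_rep V).epush_tpull (isTE_rep V') (f := MulActionHom.id G) (fun _ => rfl) hj.mk'
    j.map_smul hb (fun _ => rfl) hV hV' (.of_isHomeomorph (hV.isHomeomorph_lin hV' hj hb)) IsPr.id,
    epush_id fun _ => rfl]
  rfl

theorem eres_vcl_equiv (hV' : IsRep G V' r') {j : V' →[G] V} (hj : IsLinearMap ℂ j)
    (hb : Bijective j) (o : EH G Unit) : eres j (vcl V o) = vcl V' o := by
  rw [← epush_vcl_equiv hV hV' hj hb, eres_epush_homeo (hV.isHomeomorph_lin hV' hj hb)]

variable [CompactSpace G] (hV' : IsRep G V' r') (hC : IsRep G C t) {j : V' →[G] V}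
  (hj : IsLinearMap ℂ j) (hi : Injective j) {κ : V →[G] C} (hκ : IsLinearMap ℂ κ)
  (hs : Surjective κ) (hex : ∀ v, κ v = 0 ↔ v ∈ range j)
include hV' hC hj hi hκ hs hex

/-- `V' → V → C` is a short exact sequence of representations -/
theorem egys_vcl (o : EH G Unit) : egys j (eul κ) (vcl V o) = vcl V' o :=
  (isTE_rep V).egys_sub (isTE_rep V') hV hV' hC hj hi hκ hs hex
    (hV.isClosedEmbedding_lin hV' hj hi) (fun _ => rfl) (fun _ => rfl) (fun _ => rfl)
    (fun v hv => (hex v).1 hv) o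

theorem epush_vcl (o : EH G Unit) : epush j (vcl V' o) = eu hC • vcl V o := by
  rw [← egys_vcl hV hV' hC hj hi hκ hs hex, epush_egys_eul hC (hV.continuous_lin hC hκ.mk')
    (hV.isClosedEmbedding_lin hV' hj hi) fun v hv => (hex v).1 hv]

/-- excess formula for a linear section `σ = ι ∘ κ : V → U` with kernel `V'`, image `C` and
cokernel `K` -/
theorem egys_vcl_excess (hU : IsRep G U s) (hK : IsRep G K u) {ι : C →[G] U}
    (hι : IsLinearMap ℂ ι) (hinj : Injective ι) {c : U →[G] K} (hc : IsLinearMap ℂ c)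
    (hcs : Surjective c) (hex' : ∀ u, c u = 0 ↔ u ∈ range ι) {σ : V →[G] U}
    (e : ∀ v, σ v = ι (κ v)) (o : EH G Unit) : egys j (eul σ) (vcl V o) = eu hK • vcl V' o := by
  rw [egys_eul_excess hC hU hK hι hinj hc hcs hex' (hV.continuous_lin hC hκ.mk') e
    (hV.isClosedEmbedding_lin hV' hj hi) (fun v hv => (hex v).1 hv),
    egys_vcl hV hV' hC hj hi hκ hs hex]

end vcl

end Vale.Agent.P291Z
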