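import Vale.Agent.P291Z.IndA
import Vale.Agent.P291Z.FouG
import Vale.Agent.P291Z.TSys
import Vale.Agent.P291Z.Vcl

/-!
# Fundamental classes of representations of the torus
-/

set_option linter.all false

namespace Vale.Agent.P291Z

open Set Function Topology

section subrep

variable {G U : Type} [Group G] [AddCommGroup U] [Module ℂ U] [DistribMulAction G U]

/-- an invariant subspace as a representation -/
def SubRep (S : Submodule ℂ U) (_ : ∀ (g : G), ∀ u ∈ S, g • u ∈ S) : Type := S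

variable {S : Submodule ℂ U} {hS : ∀ (g : G), ∀ u ∈ S, g • u ∈ S}

instance : AddCommGroup (SubRep S hS) := inferInstanceAs (AddCommGroup S)

instance : Module ℂ (SubRep S hS) := inferInstanceAs (Module ℂ S)

instance [TopologicalSpace U] : TopologicalSpace (SubRep S hS) :=
  inferInstanceAs (TopologicalSpace S)

instance : DistribMulAction G (SubRep S hS) where
  smul g x := ⟨g • x.1, hS g _ x.2⟩
  one_smul x := Subtype.ext (one_smul G x.1)
  mul_smul g h x := Subtype.ext (mul_smul g h x.1)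
  smul_zero g := Subtype.ext (smul_zero g)
  smul_add g x y := Subtype.ext (smul_add g x.1 y.1)

variable (S hS) in
/-- the inclusion -/
def SubRep.incl : SubRep S hS →[G] U := ⟨fun x => x.1, fun _ _ => rfl⟩

theorem SubRep.isLinearMap_incl : IsLinearMap ℂ (SubRep.incl S hS) := ⟨fun _ _ => rfl, fun _ _ => rfl⟩

theorem SubRep.incl_injective : Injective (SubRep.incl S hS) := Subtype.val_injective

theorem SubRep.mem_range_incl {u : U} : u ∈ range (SubRep.incl S hS) ↔ u ∈ S :=
  ⟨fun ⟨x, hx⟩ => hx ▸ x.2, fun h => ⟨⟨u, h⟩, rfl⟩⟩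

theorem IsRep.subRep [TopologicalSpace G] [TopologicalSpace U] {s : ℕ} (hU : IsRep G U s)
    (S : Submodule ℂ U) (hS : ∀ (g : G), ∀ u ∈ S, g • u ∈ S) :
    IsRep G (SubRep S hS) (Module.finrank ℂ S) := by
  haveI := hU.comm
  haveI := hU.cont
  obtain ⟨e⟩ := hU.lin
  exact ⟨⟨(e.submoduleMap S).trans (ContinuousLinearEquiv.ofFinrankEq
    ((e.toLinearEquiv.finrank_map_eq S).trans (Module.finrank_fin_fun ℂ).symm))⟩,
    ⟨fun g c x => Subtype.ext (smul_comm g c x.1)⟩,
    ⟨(continuous_fst.smul (continuous_subtype_val.comp continuous_snd)).subtype_mk _⟩⟩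

end subrep

section lev

variable {G G' X Y X' Y' : Type} [Group G] [TopologicalSpace G] [Sys G] [Group G']
  [TopologicalSpace G'] [Sys G'] [TopologicalSpace X] [MulAction G X] [Nice X] [ContinuousSMul G X]
  [TopologicalSpace Y] [MulAction G Y] [Nice Y] [ContinuousSMul G Y]
  [TopologicalSpace X'] [MulAction G' X'] [Nice X'] [ContinuousSMul G' X']
  [TopologicalSpace Y'] [MulAction G' Y'] [Nice Y'] [ContinuousSMul G' Y']
  {FX : ∀ M, Bq G X M → Bq G' X' M} {FY : ∀ M, Bq G Y M → Bq G' Y' M} {c : ℤ}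
  (hX : IsLev FX c) (hY : IsLev FY c) (pX : ∀ M, IsPr (FX M)) (pY : ∀ M, IsPr (FY M))
  {i : Y →[G] X} {i' : Y' →[G'] X'} (hsq : ∀ M y, FX M (smap i M y) = smap i' M (FY M y))
include hX hY pX pY hsq

theorem lpush_epush (hi : IsPr i) (hi' : IsPr i') (β : EH G Y) :
    lpush FX (epush i β) = epush i' (lpush FY β) := EH.ext fun M => by
  rw [lpush_apply hX pX, epush_apply hi, epush_apply hi', lpush_apply hY pY,
    push_push (isPr_smap hi M) (pX M), push_push (pY M) (isPr_smap hi' M),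
    show FX M ∘ smap i M = smap i' M ∘ FY M from funext (hsq M)]

theorem egys_lpush (hi : IsClosedEmbedding i) (hi' : IsClosedEmbedding i')
    (hr : ∀ M, FX M ⁻¹' range (smap i' M) ⊆ range (smap i M)) {d : ℕ} {t : ∀ M, Coch (Bq G X M)}
    {t' : ∀ M, Coch (Bq G' X' M)} (ht : IsCoc (range i) d t) (ht' : IsCoc (range i') d t')
    (hc : ∀ M, Cohom (range (smap i M)) (pull (FX M) (t' M)) (t M)) (β : EH G X) :
    egys i' t' (lpush FX β) = lpush FY (egys i t β) := EH.ext fun M => by
  rw [egys_apply hi' ht', lpush_apply hX pX, lpush_apply hY pY, egys_apply hi ht,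
    gys_push (isClosedEmbedding_smap hi' M) (isClosedEmbedding_smap hi M) (pX M) (pY M) (hsq M)
      (hr M) (ht'.cocycle M) (ht'.isCo M).supp,
    gys_congr (isClosedEmbedding_smap hi M) ((hc M).cocycle (ht.cocycle M))
      ((hc M).supp_subset (ht.isCo M).supp) (ht.cocycle M) (ht.isCo M).supp (hc M)]

end lev

variable {J : Type} [Fintype J] {n : J → ℕ}

section

variable (n) (V : Type) [AddCommGroup V] [DistribMulAction (Tc n) V]

/-- the origin -/
noncomputable def orig : Unit →[Tc n] V where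
  toFun _ := 0
  map_smul' t _ := (smul_zero t).symm

/-- the identity -/
noncomputable def idm : V →[Tc n] V := MulActionHom.id (Tc n)

variable [Module ℂ V] [TopologicalSpace V] [Nice V] [ContinuousSMul (Tc n) V]

/-- the fundamental class of a representation -/
noncomputable def fcl : EH (Tc n) V :=
  Classical.epsilon fun β => egys (orig n V) (eul (idm n V)) β = fundT n

end

variable {V V' U X : Type} [AddCommGroup V] [DistribMulAction (Tc n) V] [Module ℂ V]
  [TopologicalSpace V] [Nice V] [ContinuousSMul (Tc n) V]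
  [AddCommGroup V'] [DistribMulAction (Tc n) V'] [Module ℂ V']
  [TopologicalSpace V'] [Nice V'] [ContinuousSMul (Tc n) V']
  [AddCommGroup U] [DistribMulAction (Tc n) U] [Module ℂ U]
  [TopologicalSpace U] [Nice U] [ContinuousSMul (Tc n) U] {r r' s : ℕ}

theorem egys_fcl (hV : IsRep (Tc n) V r) :
    egys (orig n V) (eul (idm n V)) (fcl n V) = fundT n :=
  Classical.epsilon_spec (p := fun β => egys (orig n V) (eul (idm n V)) β = fundT n)
    ⟨_, egys_zero_vcl hV _⟩

theorem fcl_eq (hV : IsRep (Tc n) V r) : fcl n V = vcl V (fundT n) :=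
  (isTE_rep V).eq_tpull hV (egys_fcl hV)

theorem eq_fcl (hV : IsRep (Tc n) V r) {β : EH (Tc n) V}
    (h : egys (orig n V) (eul (idm n V)) β = fundT n) : β = fcl n V :=
  ((isTE_rep V).eq_tpull hV h).trans (fcl_eq hV).symm

theorem fcl_deg (hV : IsRep (Tc n) V r) : fcl n V ∈ EH.deg (Tc n) V (2 * r) := by
  have := vcl_deg hV (fundT_deg n)
  rwa [zero_add, ← fcl_eq hV] at this

theorem fcl_free (hV : IsRep (Tc n) V r) : Bijective fun p : SP n => p • fcl n V := by
  rw [fcl_eq hV]
  exact vcl_free hV (psiT n) (fundT_free n)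

theorem smul_deg_of_free {Z : Type} [TopologicalSpace Z] [MulAction (Tc n) Z] [Nice Z]
    [ContinuousSMul (Tc n) Z] {o : EH (Tc n) Z} {D : ℤ} (ho : o ∈ EH.deg (Tc n) Z D)
    (hi : Injective fun p : SP n => p • o) {p : SP n} {k : ℤ} :
    p • o ∈ EH.deg (Tc n) Z k ↔ p = 0 ∨ ∃ d : ℕ, k = D - 2 * d ∧ p.IsHomogeneous d := by
  have h1 : ∀ (d : ℕ) (q : SP n), q.IsHomogeneous d → q • o ∈ EH.deg (Tc n) Z (D - 2 * d) :=
    fun d q hq => EH.smul_deg (psiT_deg.2 hq) ho
  refine ⟨fun h => ?_, ?_⟩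
  · have h2 := EH.comp_of_mem h
    conv_lhs at h2 => rw [← p.sum_homogeneousComponent, Finset.sum_smul, map_sum]
    by_cases hk : ∃ d : ℕ, k = D - 2 * d
    · obtain ⟨d, rfl⟩ := hk
      rw [Finset.sum_eq_single d (fun e _ he => EH.comp_of_ne
        (h1 e _ (MvPolynomial.homogeneousComponent_isHomogeneous e p)) (by omega)) (fun hd => by
          rw [MvPolynomial.homogeneousComponent_eq_zero _ _ (by simpa using hd), zero_smul,
            map_zero]), EH.comp_of_mem (h1 d _ (MvPolynomial.homogeneousComponent_isHomogeneous d p))]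
        at h2
      exact Or.inr ⟨d, rfl, hi h2 ▸ MvPolynomial.homogeneousComponent_isHomogeneous d p⟩
    · rw [Finset.sum_eq_zero fun e _ => EH.comp_of_ne
        (h1 e _ (MvPolynomial.homogeneousComponent_isHomogeneous e p)) fun h => hk ⟨e, h⟩] at h2
      exact Or.inl (hi (h2.symm.trans (zero_smul _ o).symm))
  · rintro (rfl | ⟨d, rfl, h⟩)
    · rw [zero_smul]
      exact zero_mem _
    · exact h1 d p h

theorem smul_fcl_deg (hV : IsRep (Tc n) V r) {p : SP n} {k : ℤ} :
    p • fcl n V ∈ EH.deg (Tc n) V k ↔ p = 0 ∨ ∃ d : ℕ, k = 2 * r - 2 * d ∧ p.IsHomogeneous d :=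
  smul_deg_of_free (fcl_deg hV) (fcl_free hV).1

theorem isLinearMap_of_eq {A B : Type} [AddCommGroup A] [Module ℂ A] [AddCommGroup B] [Module ℂ B]
    {f : A → B} {l : A →ₗ[ℂ] B} (h : ∀ x, f x = l x) : IsLinearMap ℂ f :=
  (show f = l from funext h) ▸ l.isLinear

/-- Gysin pull-back to the kernel of a surjective equivariant linear map -/
theorem egys_fcl_ker (hV : IsRep (Tc n) V r) (hV' : IsRep (Tc n) V' r') (hU : IsRep (Tc n) U s)
    {j : V' →[Tc n] V} {κ : V →[Tc n] U} (jl : V' →ₗ[ℂ] V) (hj : ∀ x, j x = jl x)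
    (κl : V →ₗ[ℂ] U) (hκ : ∀ x, κ x = κl x) (hi : Injective jl) (he : Function.Exact jl κl)
    (hs : Surjective κl) : egys j (eul κ) (fcl n V) = fcl n V' := by
  have e₁ : ⇑j = jl := funext hj
  have e₂ : ⇑κ = κl := funext hκ
  rw [fcl_eq hV, fcl_eq hV']
  exact egys_vcl hV hV' hU (isLinearMap_of_eq hj) (e₁ ▸ hi) (isLinearMap_of_eq hκ) (e₂ ▸ hs)
    (by rw [e₁, e₂]; exact he) _

theorem epush_fcl (hV : IsRep (Tc n) V r) (hV' : IsRep (Tc n) V' r') (hU : IsRep (Tc n) U s)
    {j : V' →[Tc n] V} (jl : V' →ₗ[ℂ] V) (hj : ∀ x, j x = jl x) (κl : V →ₗ[ℂ] U)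
    (hκ : ∀ (t : Tc n) x, κl (t • x) = t • κl x) (hi : Injective jl) (he : Function.Exact jl κl)
    (hs : Surjective κl) : epush j (fcl n V') = eu hU • fcl n V := by
  have e₁ : ⇑j = jl := funext hj
  rw [fcl_eq hV, fcl_eq hV']
  exact epush_vcl hV hV' hU (isLinearMap_of_eq hj) (e₁ ▸ hi) (κ := elin κl hκ) κl.isLinear hs
    (by rw [e₁]; exact he) _

theorem epush_fcl_equiv (hV : IsRep (Tc n) V r) (hV' : IsRep (Tc n) V' r) {j : V' →[Tc n] V}
    (jl : V' →ₗ[ℂ] V) (hj : ∀ x, j x = jl x) (hb : Bijective jl) :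
    epush j (fcl n V') = fcl n V := by
  rw [fcl_eq hV, fcl_eq hV']
  exact epush_vcl_equiv hV hV' (isLinearMap_of_eq hj) ((show ⇑j = jl from funext hj) ▸ hb) _

/-- excess formula: `C` is the cokernel of `κ` -/
theorem egys_fcl_excess {C : Type} [AddCommGroup C] [DistribMulAction (Tc n) C] [Module ℂ C]
    [TopologicalSpace C] {c : ℕ} (hV : IsRep (Tc n) V r) (hV' : IsRep (Tc n) V' r')
    (hU : IsRep (Tc n) U s) (hC : IsRep (Tc n) C c)
    {j : V' →[Tc n] V} {κ : V →[Tc n] U} (jl : V' →ₗ[ℂ] V) (hj : ∀ x, j x = jl x)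
    (κl : V →ₗ[ℂ] U) (hκ : ∀ x, κ x = κl x) (hi : Injective jl) (he : Function.Exact jl κl)
    (π : U →ₗ[ℂ] C) (hπ : ∀ (t : Tc n) x, π (t • x) = t • π x) (he' : Function.Exact κl π)
    (hs : Surjective π) : egys j (eul κ) (fcl n V) = eu hC • fcl n V' := by
  have e₁ : ⇑j = jl := funext hj
  have hS : ∀ (t : Tc n), ∀ u ∈ LinearMap.range κl, t • u ∈ LinearMap.range κl := by
    rintro t _ ⟨v, rfl⟩
    exact ⟨t • v, by rw [← hκ, ← hκ, κ.map_smul]⟩
  rw [fcl_eq hV, fcl_eq hV']
  exact egys_vcl_excess hV hV' (hU.subRep _ hS) (isLinearMap_of_eq hj) (e₁ ▸ hi)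
    (κ := ⟨fun v => ⟨κl v, v, rfl⟩, fun t v => Subtype.ext
      ((hκ _).symm.trans ((κ.map_smul t v).trans (congrArg (t • ·) (hκ v))))⟩)
    ⟨fun a b => Subtype.ext (κl.map_add a b), fun a b => Subtype.ext (κl.map_smul a b)⟩
    (fun ⟨_, v, hv⟩ => ⟨v, Subtype.ext hv⟩)
    (fun v => Subtype.ext_iff.trans (by rw [e₁]; exact he v)) hU hC SubRep.isLinearMap_incl
    SubRep.incl_injective (c := elin π hπ) π.isLinear hs
    (fun u => (he' u).trans (SubRep.mem_range_incl (hS := hS)).symm) hκ _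

theorem lpush_wmap_fundT (w : Wy n) :
    lpush (wmap w (id : Unit → Unit) fun _ _ => rfl) (fundT n) = Wy.sgn w • fundT n :=
  wact_resT w (fundE n)

theorem lpush_wmap_vcl (hV : IsRep (Tc n) V r) (hV' : IsRep (Tc n) V' r) (w : Wy n)
    (f : V' →ₗ[ℂ] V) (hf : ∀ (t : Tc n) z, f (t • z) = wT w t • f z) (hb : Bijective f)
    (o : EH (Tc n) Unit) : lpush (wmap w f hf) (vcl V' o) =
      vcl V (lpush (wmap w (id : Unit → Unit) fun _ _ => rfl) o) := by
  have hc := hV'.continuous_lin hV f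
  have hp : IsPr f := IsPr.of_isHomeomorph (isHomeomorph_iff_exists_inverse.2 ⟨hc,
    (LinearEquiv.ofBijective f hb).symm, (LinearEquiv.ofBijective f hb).symm_apply_apply,
    (LinearEquiv.ofBijective f hb).apply_symm_apply, hV.continuous_lin hV' _⟩)
  have hz : ∀ M, range (smap (zeroH (Tc n) Unit V') M) =
      zset (Tc n) fun x : V' × Sys.P (Tc n) M => x.1 := fun M => by
    rw [range_smap, (isTE_rep V').range_eq]
    rfl
  refine (isTE_rep V).eq_tpull hV ?_
  rw [egys_lpush (isLev_wmap w hf hc) (isLev_wmap w (fun _ _ => rfl) continuous_id)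
    (isPr_wmap w hf hp) (isPr_wmap w _ IsPr.id) (fun M y => ?_)
    ((isTE_rep V').isClosedEmbedding hV') ((isTE_rep V).isClosedEmbedding hV) (fun M x hx => ?_)
    ((isTE_rep V').isCoc hV') ((isTE_rep V).isCoc hV) (fun M => ?_), egys_zero_vcl hV']
  · obtain ⟨y, rfl⟩ := Bor.mk_surjective y
    exact congrArg (Bor.mk _) (Prod.ext (map_zero f) rfl)
  · obtain ⟨x, rfl⟩ := Bor.mk_surjective x
    rw [range_smap, (isTE_rep V).range_eq] at hx
    rw [hz]
    exact ⟨x, hb.1 (((mk_mem_zset (σ := fun x : V × Sys.P (Tc n) M => x.1)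
      fun _ _ => rfl).1 hx).trans (map_zero f).symm), rfl⟩
  · rw [hz]
    exact euler_pull hV' hV (wT w) _ ((hc.comp continuous_fst).prodMk
      ((TS.continuous_wS w).comp continuous_snd)) _ continuous_fst _ continuous_fst (fun _ => f)
      (hc.comp continuous_snd) (fun _ => hb) (fun t _ z => hf t z) fun _ => rfl

theorem lpush_wmap_fcl (hV : IsRep (Tc n) V r) (hV' : IsRep (Tc n) V' r) (w : Wy n)
    (f : V' →ₗ[ℂ] V) (hf : ∀ (t : Tc n) z, f (t • z) = wT w t • f z) (hb : Bijective f) :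
    lpush (wmap w f hf) (fcl n V') = Wy.sgn w • fcl n V := by
  rw [fcl_eq hV, fcl_eq hV', lpush_wmap_vcl hV hV' w f hf hb, lpush_wmap_fundT, map_smul]

section wmap

variable {X Y X' Y' : Type} [TopologicalSpace X] [MulAction (Tc n) X] [Nice X]
  [ContinuousSMul (Tc n) X] [TopologicalSpace Y] [MulAction (Tc n) Y] [Nice Y]
  [ContinuousSMul (Tc n) Y] [TopologicalSpace X'] [MulAction (Tc n) X'] [Nice X']
  [ContinuousSMul (Tc n) X'] [TopologicalSpace Y'] [MulAction (Tc n) Y'] [Nice Y']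
  [ContinuousSMul (Tc n) Y']

theorem lpush_wmap_epush (w : Wy n) {f : X → X'} (hf : ∀ (t : Tc n) z, f (t • z) = wT w t • f z)
    {g : Y → Y'} (hg : ∀ (t : Tc n) z, g (t • z) = wT w t • g z) (hfp : IsPr f) (hgp : IsPr g)
    {i : Y →[Tc n] X} {i' : Y' →[Tc n] X'} (hi : IsPr i) (hi' : IsPr i')
    (h : ∀ y, f (i y) = i' (g y)) (β : EH (Tc n) Y) :
    lpush (wmap w f hf) (epush i β) = epush i' (lpush (wmap w g hg) β) :=
  lpush_epush (isLev_wmap w hf hfp.cont) (isLev_wmap w hg hgp.cont) (isPr_wmap w hf hfp)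
    (isPr_wmap w hg hgp) (fun M y => by
      obtain ⟨y, rfl⟩ := Bor.mk_surjective y
      exact congrArg (Bor.mk _) (Prod.ext (h y.1) rfl)) hi hi' β

end wmap

section cover

variable {G X ι : Type} [Group G] [TopologicalSpace G] [Sys G] [TopologicalSpace X] [MulAction G X]
  [Nice X] [ContinuousSMul G X] [Fintype ι]

/-- the preimage of an invariant set -/
def spre {Y : Type} [MulAction G Y] (f : Y →[G] X) (O : SubMulAction G X) : SubMulAction G Y where
  carrier := f ⁻¹' O
  smul_mem' g y h := by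
    show f (g • y) ∈ O
    rw [f.map_smul]
    exact O.smul_mem g h

/-- the complement of an invariant set -/
def scompl (O : SubMulAction G X) : SubMulAction G X where
  carrier := (O : Set X)ᶜ
  smul_mem' g x h h' := h (by
    have := O.smul_mem g⁻¹ h'
    rwa [inv_smul_smul] at this)

theorem kill_of_cover_list (O : ι → SubMulAction G X) (hO : ∀ i, IsOpen (O i : Set X))
    (e : ι → HS G Unit) (he : ∀ i (Y : Type) [TopologicalSpace Y] [MulAction G Y] [Nice Y]
      [ContinuousSMul G Y] (f : Y →[G] O i), Continuous f → ∀ β : EH G Y, e i • β = 0)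
    (l : List ι) : ∀ (Y : Type) [TopologicalSpace Y] [MulAction G Y] [Nice Y]
      [ContinuousSMul G Y] (f : Y →[G] X), Continuous f → (∀ y, ∃ i ∈ l, f y ∈ O i) →
        ∀ β : EH G Y, (l.map e).prod • β = 0 := by
  induction l using List.reverseRecOn with
  | nil =>
    intro Y _ _ _ _ f _ h β
    haveI : IsEmpty Y := ⟨fun y => by simpa using h y⟩
    exact (ENull.of_isEmpty (G := G) (X := Y)).subsingleton.elim _ _
  | append_singleton l i ih =>
    intro Y _ _ _ _ f hf h β
    have h1 : IsOpen (spre f (O i) : Set Y) := (hO i).preimage hf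
    have h2 : IsClosed (scompl (spre f (O i)) : Set Y) := h1.isClosed_compl
    haveI := Nice.of_isLocallyClosed h1.isLocallyClosed
    haveI := Nice.of_isLocallyClosed h2.isLocallyClosed
    rw [List.map_append, List.prod_append, List.map_singleton, List.prod_singleton]
    refine kill_of_open_closed (i := (scompl (spre f (O i))).inclusion)
      h2.isClosedEmbedding_subtypeVal (j := (spre f (O i)).inclusion)
      h1.isOpenEmbedding_subtypeVal ?_
      (he i _ ⟨fun y => ⟨f y.1, y.2⟩, fun g y => Subtype.ext (f.map_smul g y.1)⟩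
        ((hf.comp continuous_subtype_val).subtype_mk _))
      (ih _ (f.comp (scompl (spre f (O i))).inclusion) (hf.comp continuous_subtype_val)
        fun y => ?_) β
    · exact Subtype.range_val.trans ((compl_compl _).symm.trans
        (congrArg compl Subtype.range_val.symm))
    · obtain ⟨k, hk, hy⟩ := h y.1
      rcases List.mem_append.1 hk with hk | hk
      · exact ⟨k, hk, hy⟩
      · obtain rfl := List.mem_singleton.1 hk
        exact (y.2 hy).elim

/-- a finite cover by invariant open sets whose locally closed invariant parts are killed -/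
theorem kill_of_cover (O : ι → SubMulAction G X) (hO : ∀ i, IsOpen (O i : Set X))
    (hc : ∀ x, ∃ i, x ∈ O i) {W : ι → Type} [∀ i, AddCommGroup (W i)] [∀ i, Module ℂ (W i)]
    [∀ i, TopologicalSpace (W i)] [∀ i, DistribMulAction G (W i)] {r : ι → ℕ}
    (hW : ∀ i, IsRep G (W i) (r i)) (σ : ∀ i, O i →[G] W i) (hσ : ∀ i, Continuous (σ i))
    (h0 : ∀ i x, σ i x ≠ 0) (β : EH G X) :
    (Finset.univ.toList.map fun i => eu (hW i)).prod • β = 0 :=
  kill_of_cover_list O hO _ (fun i _ _ _ _ _ f hf =>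
    eu_smul_eq_zero (hW i) (σ := (σ i).comp f) ((hσ i).comp hf) fun _ => h0 i _) _ X
    (MulActionHom.id G) continuous_id (fun x => by
      obtain ⟨i, hi⟩ := hc x
      exact ⟨i, by simp, hi⟩) β

end cover

section thom

variable {Z W : Type} [TopologicalSpace Z] [MulAction (Tc n) Z] [Nice Z] [ContinuousSMul (Tc n) Z]
  [AddCommGroup W] [Module ℂ W] [TopologicalSpace W] [DistribMulAction (Tc n) W]
  {B : SubMulAction (Tc n) (V × W)} (h0 : ∀ z, (z, 0) ∈ B) [Nice B] [ContinuousSMul (Tc n) B]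

/-- the fibre over the origin of a vector bundle `B` over a representation `V` -/
theorem epush_fcl_fibre (hV : IsRep (Tc n) V r) (hW : IsRep (Tc n) W s) (hB : IsSubVB B r')
    (hV' : IsRep (Tc n) V' r') {j : V' →[Tc n] B} (jl : V' →ₗ[ℂ] W)
    (hj : ∀ x, (j x).1 = (0, jl x)) (hi : Injective jl) :
    epush j (fcl n V') = eu hV • ethom B h0 (fcl n V) := by
  haveI := hW.nice
  haveI := hW.cont
  haveI := hW.finite
  let π : B →[Tc n] V := ⟨fun b => b.1.1, fun _ _ => rfl⟩
  have hπ : Continuous π := continuous_fst.comp continuous_subtype_val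
  have hjc : IsClosedEmbedding j := by
    have h1 := (hV.prod hW).nice
    have h2 := (hV.prod hW).cont
    have h3 := (hV.prod hW).isClosedEmbedding_lin hV' (j := B.inclusion.comp j)
      (isLinearMap_of_eq (l := (0 : V' →ₗ[ℂ] V).prod jl) hj)
      fun a b h => hi (congrArg Prod.snd ((hj a).symm.trans (Eq.trans h (hj b))))
    exact hB.closed.isClosedEmbedding_subtypeVal.of_comp_iff.1 h3
  have hr : π ⁻¹' {0} ⊆ range j := by
    rintro ⟨⟨v, w⟩, hw⟩ h
    obtain rfl : v = 0 := h
    obtain ⟨S, h1, h2⟩ := hB.fibre 0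
    have h3 : LinearMap.range jl = S := by
      refine Submodule.eq_of_le_of_finrank_eq ?_ ?_
      · rintro _ ⟨a, rfl⟩
        exact (h2 _).1 (hj a ▸ (j a).2)
      · rw [h1, LinearMap.finrank_range_of_inj hi, hV'.finrank_eq']
    obtain ⟨a, rfl⟩ : w ∈ LinearMap.range jl := h3 ▸ (h2 w).1 hw
    exact ⟨a, Subtype.ext (hj a)⟩
  have hz := IsSubVB.isClosedEmbedding_zs hW h0
  have ho := (isTE_rep V).isClosedEmbedding hV
  have ho' := (isTE_rep V').isClosedEmbedding hV'
  have h4 : j ⁻¹' range (zs B h0) ⊆ range (orig n V') := by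
    rintro x ⟨v, hv⟩
    exact ⟨(), hi ((map_zero jl).trans
      (congrArg Prod.snd ((congrArg Subtype.val hv).trans (hj x))))⟩
  rw [← epush_egys_eul hV hπ hjc hr]
  refine congrArg _ (eq_fcl hV' ?_).symm
  rw [← egys_congr (i := orig n V') (t' := eul (idm n V')) ho' (((isCoc_tho hW hB h0).pull (smul_mem_range _)
      hjc.continuous).mono h4) ((isTE_rep V').isCoc hV') fun M => ?_,
    egys_comm hjc hz (i' := orig n V) ho (j' := orig n V') ho' (fun _ => Subtype.ext ((hj _).trans
      (Prod.ext rfl (map_zero jl)))) h4 ((isCoc_eul hV hπ).mono hr) (isCoc_tho hW hB h0),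
    egys_ethom h0 hW hB, egys_pull_eul hV hπ hz.continuous (σ' := idm n V) (fun _ => rfl) (i := orig n V) ho
      (isTE_rep V).range_eq.superset, egys_fcl hV]
  rw [show range (orig n V') = _ from (isTE_rep V').range_eq]
  exact thom_pull_eq_euler hV' hW (MonoidHom.id _) hB (isTE_rep V').homeo _
    ((hjc.continuous.comp continuous_fst).prodMk continuous_snd)
    fun _ u => ⟨(0, u), jl, hi, fun x _ => ⟨hj x, rfl⟩⟩

end thom

end Vale.Agent.P291Z
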