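import Vale.Agent.P291Z.Gen2
import Vale.Agent.P291Z.Fcl

/-!
# Complements of coordinate hyperplanes
-/

set_option linter.all false

namespace Vale.Agent.P291Z

open Set Function Topology Filter

section gen

variable {G : Type} [Group G] [TopologicalSpace G] [Sys G] {X Z U : Type} [TopologicalSpace X]
  [MulAction G X] [Nice X] [ContinuousSMul G X] [TopologicalSpace Z] [MulAction G Z] [Nice Z]
  [ContinuousSMul G Z] [TopologicalSpace U] [MulAction G U] [Nice U] [ContinuousSMul G U]
  {S : Type} [CommRing S]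

/-- `o` generates `EH G X` and has the annihilator `I` -/
structure IsCyc (ψ : S →+* HS G Unit) (o : EH G X) (I : Ideal S) : Prop where
  gen : ∀ β, ∃ a, ψ a • o = β
  ann : ∀ a, ψ a • o = 0 ↔ a ∈ I

variable {ψ : S →+* HS G Unit} {o : EH G X} {I : Ideal S}

theorem IsCyc.of_bijective (h : Bijective fun a => ψ a • o) : IsCyc ψ o ⊥ :=
  ⟨h.2, fun a => ⟨fun e => h.1 (e.trans (by simp only [map_zero, zero_smul])), by
    rintro rfl
    rw [map_zero, zero_smul]⟩⟩

theorem IsCyc.eres_homeo (h : IsCyc ψ o I) {j : U →[G] X} (hj : IsHomeomorph j) :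
    IsCyc ψ (eres j o) I where
  gen β := (h.gen (epush j β)).imp fun a e => by
    rw [← eres_smul hj.isOpenEmbedding, e, eres_epush_homeo hj]
  ann a := by
    rw [← eres_smul hj.isOpenEmbedding, ← h.ann,
      map_eq_zero_iff _ (LeftInverse.injective (epush_eres_homeo hj))]

/-- removing the zero section of a trivial bundle whose Euler class is regular -/
theorem IsCyc.eres {W : Type} [AddCommGroup W] [Module ℂ W] [TopologicalSpace W]
    [DistribMulAction G W] {r : ℕ} (h : IsCyc ψ o I) {p : X →[G] Z} {κ : X →[G] W}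
    {s : Z →[G] X} (hT : IsTE p κ s) (hW : IsRep G W r) {j : U →[G] X} (hj : IsOpenEmbedding j)
    (hc : range j = (range s)ᶜ) {l : S} (hl : eu hW = ψ l) (hr : ∀ a, l * a ∈ I → a ∈ I) :
    IsCyc ψ (eres j o) (I ⊔ Ideal.span {l}) := by
  have hs := hT.isClosedEmbedding hW
  have h1 : ∀ γ, ∃ a, ψ a • o = tpull s κ γ ∧ epush s γ = ψ (l * a) • o := fun γ =>
    (h.gen _).imp fun a e => ⟨e, by rw [hT.epush_zero hW, hl, map_mul, mul_smul, e]⟩
  refine ⟨fun β => ?_, fun a => ?_⟩
  · obtain ⟨c, h2, h3⟩ := h1 (ebdy s j β)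
    rw [(exact_ebdy_epush hs hj hc).apply_apply_eq_zero, eq_comm, h.ann] at h3
    rw [(h.ann c).2 (hr c h3), eq_comm, map_eq_zero_iff _ (hT.tpull_bijective hW).1] at h2
    obtain ⟨γ, rfl⟩ := (exact_eres_ebdy hs hj hc β).1 h2
    exact (h.gen γ).imp fun a e => by rw [← eres_smul hj, e]
  · rw [← eres_smul hj, exact_epush_eres hs hj hc, sup_comm, Ideal.mem_span_singleton_sup]
    constructor
    · rintro ⟨γ, e⟩
      obtain ⟨c, -, h3⟩ := h1 γ
      refine ⟨c, a - l * c, (h.ann _).1 ?_, by ring⟩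
      rw [map_sub, sub_smul, ← e, h3, sub_self]
    · rintro ⟨c, b, hb, rfl⟩
      obtain ⟨γ, e⟩ := (hT.tpull_bijective hW).2 (ψ c • o)
      exact ⟨γ, by rw [hT.epush_zero hW, e, map_add, add_smul, (h.ann b).2 hb, add_zero, hl,
        mul_comm, map_mul, mul_smul]⟩

variable {ι : Type} {W : ι → Type} [∀ i, AddCommGroup (W i)] [∀ i, Module ℂ (W i)]
  [∀ i, TopologicalSpace (W i)] [∀ i, DistribMulAction G (W i)] {r : ι → ℕ}

/-- the points whose coordinates in `s` do not vanish -/
def nzU (κ : ∀ i, X →[G] W i) (s : Set ι) : SubMulAction G X :=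
  ⟨{x | ∀ i ∈ s, κ i x ≠ 0}, fun g x h i hi => by
    rw [map_smul, Ne, smul_eq_zero_iff_eq]
    exact h i hi⟩

/-- independent coordinates: `m i x w` is `x` with the `i`-th coordinate replaced by `w` -/
structure IsCoord (κ : ∀ i, X →[G] W i) (m : ∀ i, X → W i → X) : Prop where
  cont : ∀ i, Continuous (κ i)
  cont' : ∀ i, Continuous fun y : X × W i => m i y.1 y.2
  smul : ∀ i (g : G) x w, m i (g • x) (g • w) = g • m i x w
  self : ∀ i x w, κ i (m i x w) = w
  ne : ∀ i j x w, j ≠ i → κ j (m i x w) = κ j x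
  eta : ∀ i x, m i x (κ i x) = x
  idem : ∀ i x w w', m i (m i x w) w' = m i x w'

theorem IsCyc.eres_coord (hW : ∀ i, IsRep G (W i) (r i)) {κ : ∀ i, X →[G] W i}
    {m : ∀ i, X → W i → X} (hm : IsCoord κ m) (h : IsCyc ψ o I) {l : ι → S}
    (hl : ∀ i, eu (hW i) = ψ (l i))
    (hr : ∀ (s : Finset ι), ∀ i ∉ s, ∀ a, l i * a ∈ I ⊔ Ideal.span (l '' s) →
      a ∈ I ⊔ Ideal.span (l '' s)) (s : Finset ι) {j : U →[G] X} (hj : IsOpenEmbedding j)
    (e : ∀ x, x ∈ range j ↔ ∀ i ∈ s, κ i x ≠ 0) :
    IsCyc ψ (P291Z.eres j o) (I ⊔ Ideal.span (l '' s)) := by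
  classical
  induction s using Finset.induction_on generalizing U with
  | empty =>
    rw [Finset.coe_empty, image_empty, Ideal.span_empty, sup_bot_eq]
    exact h.eres_homeo (isHomeomorph_iff_isEmbedding_surjective.2
      ⟨hj.isEmbedding, fun x => (e x).2 fun _ h => absurd h (Finset.notMem_empty _)⟩)
  | insert i s hi ih =>
    haveI := fun i => (hW i).nice
    have h1 : IsOpen (nzU κ (s : Set ι) : Set X) := by
      rw [show (nzU κ (s : Set ι) : Set X) = ⋂ k ∈ s, κ k ⁻¹' {0}ᶜ from Set.ext fun x => by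
        simp only [mem_iInter]; rfl]
      exact isOpen_biInter_finset fun k _ => isOpen_compl_singleton.preimage (hm.cont k)
    haveI := Nice.of_isLocallyClosed h1.isLocallyClosed
    have h2 := ih (j := (nzU κ (s : Set ι)).inclusion) h1.isOpenEmbedding_subtypeVal
      fun x => ⟨fun ⟨y, hy⟩ => hy ▸ y.2, fun hx => ⟨⟨x, hx⟩, rfl⟩⟩
    let κ' : nzU κ (s : Set ι) →[G] W i := (κ i).comp (nzU κ (s : Set ι)).inclusion
    have h3 : Continuous κ' := (hm.cont i).comp continuous_subtype_val
    let Z : SubMulAction G (nzU κ (s : Set ι)) := ⟨κ' ⁻¹' {0}, fun g x => smul_mem_zero κ' g x⟩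
    haveI : Nice Z := Nice.of_isLocallyClosed (isClosed_singleton.preimage h3).isLocallyClosed
    have h4 : ∀ (x : nzU κ (s : Set ι)) w, m i x.1 w ∈ nzU κ (s : Set ι) := fun x w k hk => by
      rw [hm.ne i k _ _ fun e => hi (e ▸ hk)]
      exact x.2 k hk
    let p : nzU κ (s : Set ι) →[G] Z := ⟨fun x => ⟨⟨m i x.1 0, h4 x 0⟩, hm.self i _ _⟩,
      fun g x => Subtype.ext (Subtype.ext (by
        show m i (g • x.1) 0 = g • m i x.1 0
        rw [← hm.smul, smul_zero]))⟩
    have h5 : IsTE p κ' Z.inclusion := ⟨isHomeomorph_iff_exists_inverse.2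
      ⟨(((hm.cont' i).comp (continuous_subtype_val.prodMk continuous_const)).subtype_mk
        _ |>.subtype_mk _).prodMk h3, fun y => ⟨m i y.1.1.1 y.2, h4 _ _⟩,
        fun x => Subtype.ext ((hm.idem i _ _ _).trans (hm.eta i _)),
        fun y => Prod.ext (Subtype.ext (Subtype.ext ((hm.idem i _ _ _).trans (by
          rw [← show κ i y.1.1.1 = 0 from y.1.2, hm.eta])))) (hm.self i _ _),
        ((hm.cont' i).comp ((continuous_subtype_val.comp (continuous_subtype_val.comp
          continuous_fst)).prodMk continuous_snd)).subtype_mk _⟩,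
      fun z => Subtype.ext (Subtype.ext (by
        show m i z.1.1 0 = z.1.1
        rw [← show κ i z.1.1 = 0 from z.2, hm.eta])), fun z => z.2⟩
    let j' : U →[G] nzU κ (s : Set ι) := ⟨fun u => ⟨j u, fun k hk =>
      (e _).1 ⟨u, rfl⟩ k (Finset.mem_insert_of_mem hk)⟩, fun g u => Subtype.ext (j.map_smul g u)⟩
    have h6 : IsOpenEmbedding j' := IsOpenEmbedding.of_comp _ h1.isOpenEmbedding_subtypeVal hj
    have h7 := h2.eres h5 (hW i) h6 (by
      rw [h5.range_eq]
      refine Set.ext fun x => ⟨?_, fun hx => ?_⟩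
      · rintro ⟨u, rfl⟩
        exact (e _).1 ⟨u, rfl⟩ i (Finset.mem_insert_self i s)
      · obtain ⟨u, hu⟩ := (e x.1).2 fun k hk => by
          rcases Finset.mem_insert.1 hk with rfl | hk
          · exact hx
          · exact x.2 k hk
        exact ⟨u, Subtype.ext hu⟩) (hl i) (hr s i hi)
    rwa [eres_eres h6 h1.isOpenEmbedding_subtypeVal (h := j) fun _ => rfl, sup_assoc,
      ← Ideal.span_union, union_singleton, ← image_insert_eq, ← Finset.coe_insert] at h7

end gen

section alg

open MvPolynomial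

variable {σ ι R : Type} [CommRing R] {u v : ι → σ} (hv : Injective v) (huv : ∀ i j, u i ≠ v j)

open Classical in
/-- identification of the variables `v i` with `u i` for `i ∈ s` -/
noncomputable def idv (u v : ι → σ) (s : Set ι) (k : σ) : σ :=
  if h : ∃ i ∈ s, v i = k then u h.choose else k

include huv in
theorem idv_u (s : Set ι) (i : ι) : idv u v s (u i) = u i :=
  dif_neg fun ⟨j, _, e⟩ => huv i j e.symm

include hv

theorem idv_v {s : Set ι} {i : ι} (hi : i ∈ s) : idv u v s (v i) = u i := by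
  have h : ∃ j ∈ s, v j = v i := ⟨i, hi, rfl⟩
  rw [idv, dif_pos h, hv h.choose_spec.2]

theorem idv_v' {s : Set ι} {i : ι} (hi : i ∉ s) : idv u v s (v i) = v i :=
  dif_neg fun ⟨j, hj, e⟩ => hi (hv e ▸ hj)

include huv

theorem mem_span_X_sub_X {s : Set ι} {a : MvPolynomial σ R} :
    a ∈ Ideal.span ((fun i => X (u i) - X (v i)) '' s) ↔ rename (idv u v s) a = 0 := by
  refine ⟨fun h => (Ideal.span_le (I := RingHom.ker (rename (R := R) (idv u v s)))).2 ?_ h,
    fun h => ?_⟩
  · rintro _ ⟨i, hi, rfl⟩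
    show rename _ _ = 0
    rw [map_sub, rename_X, rename_X, idv_u huv, idv_v hv hi, sub_self]
  · rw [← neg_mem_iff, ← zero_sub, ← h]
    clear h
    induction a using MvPolynomial.induction_on with
    | C c => rw [rename_C, sub_self]; exact zero_mem _
    | add p q hp hq => rw [map_add, add_sub_add_comm]; exact add_mem hp hq
    | mul_X p k hp =>
      rw [map_mul, rename_X, show rename (idv u v s) p * X (idv u v s k) - p * X k =
        (rename (idv u v s) p - p) * X (idv u v s k) + p * (X (idv u v s k) - X k) by ring]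
      refine add_mem (Ideal.mul_mem_right _ _ hp) (Ideal.mul_mem_left _ _ ?_)
      by_cases hk : ∃ i ∈ s, v i = k
      · obtain ⟨i, hi, rfl⟩ := hk
        rw [idv_v hv hi]
        exact Ideal.subset_span ⟨i, hi, rfl⟩
      · rw [idv, dif_neg hk, sub_self]
        exact zero_mem _

theorem regular_X_sub_X [IsDomain R] {s : Set ι} {i : ι} (hi : i ∉ s) {a : MvPolynomial σ R}
    (h : (X (u i) - X (v i)) * a ∈ Ideal.span ((fun i => X (u i) - X (v i)) '' s)) :
    a ∈ Ideal.span ((fun i => X (u i) - X (v i)) '' s) := by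
  rw [mem_span_X_sub_X hv huv] at h ⊢
  rw [map_mul, map_sub, rename_X, rename_X, idv_u huv, idv_v' hv hi] at h
  exact (mul_eq_zero.1 h).resolve_left (sub_ne_zero.2 fun e => huv i i (X_injective e))

end alg

section T

variable {J : Type} [Fintype J] {n : J → ℕ} {V X U ι : Type} [AddCommGroup V] [Module ℂ V]
  [TopologicalSpace V] [DistribMulAction (Tc n) V] [Fintype ι] {r : ℕ} (hV : IsRep (Tc n) V r)
  (b : Module.Basis ι ℂ V) (χ : ι → Bx n → ℤ) (hb : ∀ (t : Tc n) p, t • b p = chr n (χ p) t • b p)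
  [TopologicalSpace X] [MulAction (Tc n) X] [Nice X] [ContinuousSMul (Tc n) X]
  [TopologicalSpace U] [MulAction (Tc n) U] [Nice U] [ContinuousSMul (Tc n) U]
include hV hb

theorem repr_smul_wt (t : Tc n) (x : V) (p : ι) :
    b.repr (t • x) p = chr n (χ p) t * b.repr x p := by
  haveI := hV.comm
  have : b.coord p ∘ₗ DistribMulAction.toLinearMap ℂ V t = chr n (χ p) t • b.coord p :=
    b.ext fun q => by
      classical
      show b.repr (t • b q) p = chr n (χ p) t * b.repr (b q) p
      rw [hb, map_smul, Finsupp.smul_apply, b.repr_self, Finsupp.single_apply, smul_eq_mul]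
      split_ifs with h
      · rw [h]
      · rw [mul_zero, mul_zero]
  exact DFunLike.congr_fun this x

theorem wt_mem (p : ι) (t : Tc n) (x : V) (hx : x ∈ Submodule.span ℂ {b p}) :
    t • x ∈ Submodule.span ℂ {b p} := by
  haveI := hV.comm
  obtain ⟨c, rfl⟩ := Submodule.mem_span_singleton.1 hx
  rw [smul_comm, hb, smul_smul]
  exact Submodule.smul_mem _ _ (Submodule.mem_span_singleton_self _)

theorem eu_wt (p : ι) : eu (hV.subRep _ (wt_mem hV b χ hb p)) = psiT n (linf n (χ p)) := by
  let e : Module.Basis Unit ℂ (SubRep _ (wt_mem hV b χ hb p)) := (Module.Basis.singleton Unit ℂ).map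
    (LinearEquiv.toSpanNonzeroSingleton ℂ V (b p) (b.ne_zero p))
  have he : (e ()).1 = b p := by
    show (Module.Basis.singleton Unit ℂ) () • b p = b p
    rw [Module.Basis.singleton_apply, one_smul]
  rw [eu_weights _ e (fun _ => χ p) fun t _ => Subtype.ext (by
    show t • (e ()).1 = chr n (χ p) t • (e ()).1
    rw [he, hb]), Fintype.prod_unique]

/-- `X ≅ Z × V`; remove the coordinate hyperplanes of `V` -/
theorem IsCyc.eres_wt {Z : Type} [TopologicalSpace Z] [MulAction (Tc n) Z] {p : X →[Tc n] Z}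
    {κ : X →[Tc n] V} (hX : IsHomeomorph fun x => (p x, κ x)) {o : EH (Tc n) X} {I : Ideal (SP n)}
    (h : IsCyc (psiT n : SP n →+* HS (Tc n) Unit) o I)
    (hr : ∀ (s : Finset ι), ∀ i ∉ s, ∀ a,
      linf n (χ i) * a ∈ I ⊔ Ideal.span ((fun i => linf n (χ i)) '' s) →
        a ∈ I ⊔ Ideal.span ((fun i => linf n (χ i)) '' s)) (s : Finset ι) {j : U →[Tc n] X}
    (hj : IsOpenEmbedding j) (e : ∀ x, x ∈ range j ↔ ∀ i ∈ s, b.repr (κ x) i ≠ 0) :
    IsCyc (psiT n : SP n →+* HS (Tc n) Unit) (P291Z.eres j o)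
      (I ⊔ Ideal.span ((fun i => linf n (χ i)) '' s)) := by
  classical
  haveI := hV.comm
  haveI := hV.continuousAdd
  haveI := hV.continuousSMul
  let E := hX.homeomorph _
  have h1 : ∀ y, p (E.symm y) = y.1 := fun y => congrArg Prod.fst (E.apply_symm_apply y)
  have h2 : ∀ y, κ (E.symm y) = y.2 := fun y => congrArg Prod.snd (E.apply_symm_apply y)
  have h3 : ∀ {x y}, p x = p y → κ x = κ y → x = y := fun e e' => hX.injective (Prod.ext e e')
  have h4 : ∀ i, Continuous fun x => b.repr x i • b i := fun i =>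
    hV.continuous_lin hV ((b.coord i).smulRight (b i))
  have hp : Continuous p := hX.continuous.fst
  have hκ : Continuous κ := hX.continuous.snd
  let k : ∀ i, X →[Tc n] SubRep _ (wt_mem hV b χ hb i) := fun i =>
    ⟨fun x => ⟨b.repr (κ x) i • b i, Submodule.smul_mem _ _ (Submodule.mem_span_singleton_self _)⟩,
      fun t x => Subtype.ext (by
        show b.repr (κ (t • x)) i • b i = t • b.repr (κ x) i • b i
        rw [map_smul, repr_smul_wt hV b χ hb, smul_comm t, hb, smul_smul, mul_comm])⟩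
  have h5 : ∀ i (w : SubRep _ (wt_mem hV b χ hb i)) q,
      b.repr w.1 q • b q = if q = i then w.1 else 0 := fun i w q => by
    obtain ⟨c, hc⟩ := Submodule.mem_span_singleton.1 w.2
    rw [← hc, map_smul, b.repr_self, Finsupp.smul_apply, Finsupp.single_apply]
    by_cases hq : q = i
    · rw [if_pos hq, if_pos hq.symm, smul_eq_mul, mul_one, hq]
    · rw [if_neg hq, if_neg (Ne.symm hq), smul_zero, zero_smul]
  have h6 : ∀ i x q, b.repr (κ x + -(k i x).1) q • b q = if q = i then 0 else (k q x).1 :=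
    fun i x q => by
    rw [map_add, map_neg, Finsupp.add_apply, Finsupp.neg_apply, add_smul, neg_smul, h5]
    split_ifs with hq
    · subst hq
      exact add_neg_cancel _
    · rw [neg_zero, add_zero]
      rfl
  have h7 : ∀ i j x (w : SubRep _ (wt_mem hV b χ hb i)),
      (k j (E.symm (p x, κ x + -(k i x).1 + w.1))).1 = if j = i then w.1 else (k j x).1 :=
    fun i j x w => by
    show b.repr (κ _) j • b j = _
    rw [h2, map_add, Finsupp.add_apply, add_smul, h5, h6]
    split_ifs
    · exact zero_add _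
    · exact add_zero _
  refine h.eres_coord (fun i => hV.subRep _ (wt_mem hV b χ hb i)) (κ := k)
    (m := fun i x w => E.symm (p x, κ x + -(k i x).1 + w.1))
    ⟨fun i => ((h4 i).comp hκ).subtype_mk _, fun i => E.symm.continuous.comp
      ((hp.comp continuous_fst).prodMk (((hκ.comp continuous_fst).add ?_).add
        (continuous_subtype_val.comp continuous_snd))),
      fun i t x w => h3 (by rw [map_smul p t (E.symm _), h1, h1, map_smul]) ?_,
      fun i x w => Subtype.ext ((h7 i i x w).trans (if_pos rfl)),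
      fun i j x w hj => Subtype.ext ((h7 i j x w).trans (if_neg hj)),
      fun i x => h3 (h1 _) ((h2 _).trans (neg_add_cancel_right _ _)),
      fun i x w w' => congrArg E.symm (Prod.ext (h1 _) ?_)⟩
    (eu_wt hV b χ hb) hr s hj fun x => (e x).trans (forall₂_congr fun i _ => not_congr ?_)
  · exact ((continuous_const_smul (-1 : ℂ)).comp (((h4 i).comp hκ).comp continuous_fst)).congr
      fun x => neg_one_smul ℂ _
  · rw [map_smul κ t (E.symm _), h2, h2, map_smul κ, map_smul (k i), smul_add, smul_add, smul_neg]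
    rfl
  · show κ _ + _ + _ = _
    rw [h7, if_pos rfl, h2, add_neg_cancel_right]
  · exact ⟨fun h => Subtype.ext (by
      show b.repr (κ x) i • b i = 0
      rw [h, zero_smul]), fun h => (smul_eq_zero.1 (congrArg Subtype.val h)).resolve_right
        (b.ne_zero i)⟩

/-- **REG**: the annihilator of the fundamental class of a torus orbit -/
theorem reg_wt {u v : ι → Bx n} (hv : Injective v) (huv : ∀ i j, u i ≠ v j)
    (hχ : ∀ i, linf n (χ i) = MvPolynomial.X (u i) - MvPolynomial.X (v i))
    {Z : Type} [TopologicalSpace Z] [MulAction (Tc n) Z] {p : X →[Tc n] Z}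
    {κ : X →[Tc n] V} (hX : IsHomeomorph fun x => (p x, κ x)) {o : EH (Tc n) X}
    (ho : Bijective fun a : SP n => a • o) {j : U →[Tc n] X}
    (hj : IsOpenEmbedding j) (e : ∀ x, x ∈ range j ↔ ∀ i, b.repr (κ x) i ≠ 0) {a : SP n}
    (ha : a • eres j o = 0) {R : Type} [CommRing R] (φ : SP n →+* R)
    (hφ : ∀ i, φ (MvPolynomial.X (u i)) = φ (MvPolynomial.X (v i))) : φ a = 0 := by
  have h := ((IsCyc.of_bijective (ψ := (psiT n : SP n →+* HS (Tc n) Unit)) ho).eres_wt hV b χ hb hX
    (fun s i hi a h => by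
      simp only [bot_sup_eq, hχ] at h ⊢
      exact regular_X_sub_X hv huv hi h) Finset.univ hj
    fun x => (e x).trans (by simp)).ann a
  rw [bot_sup_eq] at h
  refine (Ideal.span_le (I := RingHom.ker φ)).2 ?_ (h.1 ha)
  rintro _ ⟨i, -, rfl⟩
  show φ (linf n (χ i)) = 0
  rw [hχ, map_sub, hφ, sub_self]

end T

end Vale.Agent.P291Z
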