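import Vale.Agent.P291Z.CAA

/-!
# Spans of classes with given charges and degrees
-/

set_option linter.all false

namespace Vale.Agent.P291Z.Flav

open Set Function

variable {I E Φ : Type} {Q : Quiv I E} [Fintype Φ] [Fintype I] [Fintype E] {A : Flav Q Φ}
  {n m : ℕ} {χ : I → ℤ} {k : ℤ} {M : Type*} [AddCommGroup M] [Module ℂ M]

theorem AA.injective_of {f : A.AA →ₗ[ℂ] M} (h : ∀ n (s : Finset ((I → ℤ) × ℤ))
    (β : ∀ x : (I → ℤ) × ℤ, A.An n x.1 x.2), ∑ x ∈ s, f (cls (β x)) = 0 → ∀ x ∈ s, β x = 0) :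
    Injective f := by
  rw [injective_iff_map_eq_zero]
  intro a ha
  obtain ⟨n, hn⟩ := AA.exists_sum a
  obtain ⟨s, β, rfl⟩ := hn n le_rfl
  rw [map_sum] at ha
  exact Finset.sum_eq_zero fun x hx => by rw [h n s β ha x hx, cls_zero]

variable (A) in
/-- the span of the classes whose charge and degree satisfy `p` -/
noncomputable def spP (p : (I → ℤ) → ℤ → Prop) : Submodule ℂ A.AA :=
  Submodule.span ℂ {a | ∃ n χ k, ∃ β : A.An n χ k, p χ k ∧ a = cls β}

variable {p q r : (I → ℤ) → ℤ → Prop}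

theorem cls_mem_spP (h : p χ k) (β : A.An n χ k) : cls β ∈ A.spP p :=
  Submodule.subset_span ⟨n, χ, k, β, h, rfl⟩

theorem spP_induction {P : A.AA → Prop} {a : A.AA} (ha : a ∈ A.spP p) (h0 : P 0)
    (hadd : ∀ a b, P a → P b → P (a + b))
    (h : ∀ n χ k (β : A.An n χ k), p χ k → P (cls β)) : P a := by
  have key : ∀ c : ℂ, P (c • a) := by
    induction ha using Submodule.span_induction with
    | mem a ha =>
      obtain ⟨n, χ, k, β, h1, rfl⟩ := ha
      exact fun c => cls_smul c β ▸ h _ _ _ _ h1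
    | zero => exact fun c => by rw [smul_zero]; exact h0
    | add a b _ _ ha hb => exact fun c => by rw [smul_add]; exact hadd _ _ (ha c) (hb c)
    | smul c' a _ ha => exact fun c => by rw [smul_smul]; exact ha _
  simpa using key 1

theorem prj_mem (a : A.AA) : AA.prj p a ∈ A.spP p :=
  AA.induction (P := fun a => AA.prj p a ∈ A.spP p) a (by rw [map_zero]; exact zero_mem _)
    (fun a b ha hb => by rw [map_add]; exact add_mem ha hb) fun n χ k β => by
      by_cases h : p χ k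
      · rw [AA.prj_pos h]; exact cls_mem_spP h β
      · rw [AA.prj_neg h]; exact zero_mem _

theorem prj_of_mem {a : A.AA} (ha : a ∈ A.spP q) (h : ∀ χ k, q χ k → p χ k) : AA.prj p a = a :=
  spP_induction (P := fun a => AA.prj p a = a) ha (map_zero _)
    (fun a b ha hb => by rw [map_add, ha, hb]) fun _ _ _ β h1 => AA.prj_pos (h _ _ h1) β

theorem prj_of_not {a : A.AA} (ha : a ∈ A.spP q) (h : ∀ χ k, q χ k → ¬p χ k) : AA.prj p a = 0 :=
  spP_induction (P := fun a => AA.prj p a = 0) ha (map_zero _)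
    (fun a b ha hb => by rw [map_add, ha, hb, add_zero]) fun _ _ _ β h1 => AA.prj_neg (h _ _ h1) β

theorem mem_spP_iff {a : A.AA} : a ∈ A.spP p ↔ AA.prj p a = a :=
  ⟨fun h => prj_of_mem h fun _ _ => id, fun h => h ▸ prj_mem a⟩

theorem spP_mono (h : ∀ χ k, q χ k → p χ k) : A.spP q ≤ A.spP p :=
  fun _ ha => mem_spP_iff.2 (prj_of_mem ha h)

theorem prj_mem_inter {a : A.AA} (ha : a ∈ A.spP q) : AA.prj p a ∈ A.spP fun χ k => p χ k ∧ q χ k :=
  spP_induction (P := fun a => AA.prj p a ∈ A.spP fun χ k => p χ k ∧ q χ k) ha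
    (by rw [map_zero]; exact zero_mem _) (fun a b ha hb => by rw [map_add]; exact add_mem ha hb)
    fun n χ k β h1 => by
      by_cases h : p χ k
      · rw [AA.prj_pos h]; exact cls_mem_spP ⟨h, h1⟩ β
      · rw [AA.prj_neg h]; exact zero_mem _

theorem span_deg_eq (k : ℤ) : Submodule.span ℂ {a | ∃ n χ, ∃ β : A.An n χ k, a = cls β} =
    A.spP fun _ j => j = k :=
  congrArg _ (Set.ext fun a => ⟨fun ⟨n, χ, β, h⟩ => ⟨n, χ, k, β, rfl, h⟩, by
    rintro ⟨n, χ, _, β, rfl, h⟩
    exact ⟨n, χ, β, h⟩⟩)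

/-- bilinear maps that add charges and degrees -/
theorem map₂_mem_spP {c : A.AA →ₗ[ℂ] A.AA →ₗ[ℂ] A.AA}
    (hc : ∀ n χ k n' χ' k' (β : A.An n χ k) (β' : A.An n' χ' k'),
      ∃ γ : A.An (n + n') (χ + χ') (k + k'), c (cls β) (cls β') = cls γ)
    (h : ∀ χ k χ' k', p χ k → q χ' k' → r (χ + χ') (k + k')) {a b : A.AA} (ha : a ∈ A.spP p)
    (hb : b ∈ A.spP q) : c a b ∈ A.spP r :=
  spP_induction (P := fun a => c a b ∈ A.spP r) ha
    (by rw [map_zero, LinearMap.zero_apply]; exact zero_mem _)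
    (fun a a' h1 h2 => by rw [map_add, LinearMap.add_apply]; exact add_mem h1 h2)
    fun n χ k β h1 => spP_induction (P := fun b => c (cls β) b ∈ A.spP r) hb
      (by rw [map_zero]; exact zero_mem _)
      (fun b b' h1 h2 => by rw [map_add]; exact add_mem h1 h2) fun n' χ' k' β' h2 => by
        obtain ⟨γ, hγ⟩ := hc _ _ _ _ _ _ β β'
        rw [hγ]
        exact cls_mem_spP (h _ _ _ _ h1 h2) γ

theorem mem_spP_true (a : A.AA) : a ∈ A.spP fun _ _ => True :=
  AA.induction (P := fun a => a ∈ A.spP fun _ _ => True) a (zero_mem _) (fun _ _ => add_mem)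
    fun _ _ _ β => cls_mem_spP trivial β

end Vale.Agent.P291Z.Flav
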