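import Vale.Agent.P291Z.Conv1
import Vale.Agent.P291Z.Coul2

/-!
# Existence and uniqueness of the convolution product
-/

set_option linter.all false

namespace Vale.Agent.P291Z.Flav

open Set Function Topology Quiv Lt

variable {I E Φ : Type} {Q : Quiv I E} [Fintype Φ] [Fintype I] [Fintype E] (A : Flav Q Φ)
  (n : ℕ) (χ : I → ℤ) (n' : ℕ) (χ' : I → ℤ) (d : ℕ) {d' : ℕ} {k k' : ℤ}

theorem idx_add : Q.idx (χ + χ') = Q.idx χ + Q.idx χ' := by
  simp only [Quiv.idx, Pi.add_apply, mul_add, Finset.sum_add_distrib, Finset.sum_sub_distrib]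
  ring

/-- the pull-back `q^*` -/
noncomputable def qst : EH (GG (Q.nn Φ)) (A.R2 n χ n' χ' d) →ₗ[ℂ]
    EH (GG (Sum.elim (Q.nn Φ) (Q.nn Φ))) (A.Vq n χ n' χ' d) :=
  pst lt₂_smul Unit n ∘ₗ crs.flip (fundE (Q.nn Φ))

theorem qst_apply (c) : A.qst n χ n' χ' d c = pst lt₂_smul Unit n (crs c (fundE (Q.nn Φ))) := rfl

theorem qst_bijective : Bijective (A.qst n χ n' χ' d) := by
  obtain ⟨D, hD⟩ := (R2.fd (A := A) (n := n) (χ := χ) (n' := n') (χ' := χ') (d := d)).hasDim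
  exact qstar_bijective' (sumProd (Q.nn Φ) (Q.nn Φ))
    (B := Pr (Q.nn Φ) (Q.nn Φ) (A.R2 n χ n' χ' d) Unit) (b := fun y => y.1) (fun _ _ => rfl)
    (VV lt₂ lt₂_smul Unit n) (zero_mem_VV _ _ _) (voE lt₂_smul Unit n)
    (Homeomorph.prodUnique _ Unit).isHomeomorph hD (isRep_WW n)
    (isSubVB_VV lt₂_smul Unit continuous_lt₂ fun x => x.1.1.2.1)
    (isOpenEmbedding_voE lt₂_smul Unit continuous_lt₂ fun x => x.1.1.2.1)
    (indFib_VV lt₂_smul Unit fun x => x.1.1.2.1)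

theorem qst_deg {c} (h : c ∈ EH.deg _ _ k) :
    A.qst n χ n' χ' d c ∈ EH.deg _ _ (k + 2 * rkV Q Φ n χ) := by
  have := pst_deg lt₂_smul continuous_lt₂ (fun x : A.R2 n χ n' χ' d => x.1.1.2.1)
    (crs_deg h (fundE_deg (Q.nn Φ)))
  rwa [add_zero] at this

theorem isRep_sig (d' : ℕ) : IsRep (GG (Sum.elim (Q.nn Φ) (Q.nn Φ)))
    (Snd (Q.nn Φ) (Q.nn Φ) (Fin d' → A.NN)) (Fintype.card (Fin d') * Q.dimN.toNat) :=
  A.isRep_NN.pi.snd

variable {n'}

/-- the Gysin map of `iota` -/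
noncomputable def gI (hd : 2 * n' ≤ d') :
    EH (GG (Sum.elim (Q.nn Φ) (Q.nn Φ))) (A.Vp n χ n' χ' d d') →ₗ[ℂ]
      EH (GG (Sum.elim (Q.nn Φ) (Q.nn Φ))) (A.Vq n χ n' χ' d) :=
  egys (A.iotaE n χ χ' d hd) (eul (A.sigE n χ n' χ' d d'))

theorem isCoc_gI (hd : 2 * n' ≤ d') : IsCoc (range (A.iotaE n χ χ' d hd))
    (Fintype.card (Fin d') * Q.dimN.toNat) (eul (A.sigE n χ n' χ' d d')) :=
  (isCoc_eul (A.isRep_sig d') (A.continuous_sigE n χ n' χ' d d')).mono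
    (A.range_iotaE n χ χ' d hd).superset

/-- the class `(q^*)⁻¹ ι^! p^* (z × z')` on the convolution space -/
noncomputable def cv (hd : 2 * n' ≤ d') : EH (GG (Q.nn Φ)) (A.RS n χ d) →ₗ[ℂ]
    EH (GG (Q.nn Φ)) (A.RS n' χ' d') →ₗ[ℂ] EH (GG (Q.nn Φ)) (A.R2 n χ n' χ' d) :=
  crs.compr₂ ((LinearEquiv.ofBijective _ (A.qst_bijective n χ n' χ' d)).symm.toLinearMap ∘ₗ
    A.gI n χ χ' d hd ∘ₗ pst lt_smul _ n)

variable {A n χ χ' d}

theorem qst_cv (hd : 2 * n' ≤ d') (z z') : A.qst n χ n' χ' d (A.cv n χ χ' d hd z z') =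
    A.gI n χ χ' d hd (pst lt_smul _ n (crs z z')) :=
  (LinearEquiv.ofBijective _ (A.qst_bijective n χ n' χ' d)).apply_symm_apply _

theorem cv_deg (hd : 2 * n' ≤ d') {z z'} (h : z ∈ EH.deg _ _ k) (h' : z' ∈ EH.deg _ _ k') :
    A.cv n χ χ' d hd z z' ∈ EH.deg _ _ (k + k' - 2 * d' * Q.dimN) := by
  refine EH.deg_of_injective (fun _ _ h => A.qst_deg n χ n' χ' d h)
    (A.qst_bijective n χ n' χ' d).1 ?_
  have := egys_deg (A.isClosedEmbedding_iotaE n χ χ' d hd) (A.isCoc_gI n χ χ' d hd)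
    (pst_deg lt_smul continuous_lt (fun x : A.RS n χ d => x.2.1) (crs_deg h h'))
  rw [qst_cv, show k + k' - 2 * d' * Q.dimN + 2 * rkV Q Φ n χ = k + k' + 2 * rkV Q Φ n χ -
    2 * (Fintype.card (Fin d') * Q.dimN.toNat : ℕ) by
      rw [Nat.cast_mul, toNat_dimN, Fintype.card_fin]; ring]
  exact this

/-! ### independence of the second truncation -/

theorem gI_succ (hd : 2 * n' ≤ d') (z : EH (GG (Q.nn Φ)) (A.RS n χ d))
    (z' : EH (GG (Q.nn Φ)) (A.RS n' χ' (d' + 1))) :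
    A.gI n χ χ' d (hd.trans d'.le_succ) (pst lt_smul _ n (crs z z')) =
      A.gI n χ χ' d hd (pst lt_smul _ n (crs z (A.gD n' χ' d' z'))) := by
  have h1 : IsTE (A.dropE χ' hd d'.le_succ) (A.secE n' χ' (d' + 1) d') (A.incDE n' χ' d') :=
    ⟨A.isHomeomorph_dropE χ' hd, A.dropE_incDE χ' hd, fun x => x.2.2.1 d' le_rfl⟩
  have h2 := isTE_voMap (lt_smul (A := A) (n := n) (χ := χ) (d := d)) n h1
  let τ : A.Vp n χ n' χ' d d' →[GG (Sum.elim (Q.nn Φ) (Q.nn Φ))] Snd (Q.nn Φ) (Q.nn Φ) A.NN :=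
    ⟨fun x => tr x.1.1.2 x.2.2 d x.1.1.1.1.1.2 d',
      fun h x => A.tr_smul h x.2.2 x.2.1 x.1.1.1.1.2.1 d _ d'⟩
  have h3 : Continuous τ := continuous_tr VO.continuous_w (fun x => x.2.2) Vp.det
    (fun k => (RS.continuous_sec k).comp VO.continuous_fst) d'
  let L : Snd (Q.nn Φ) (Q.nn Φ) (Fin (d' + 1) → A.NN) →ₗ[ℂ]
      Snd (Q.nn Φ) (Q.nn Φ) (Fin d' → A.NN) × Snd (Q.nn Φ) (Q.nn Φ) A.NN :=
    { toFun := fun v => (fun k => v k.castSucc, (-v (Fin.last d') : A.NN))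
      map_add' := fun v w => Prod.ext rfl (neg_add (v (Fin.last d')) (w (Fin.last d')))
      map_smul' := fun c v => Prod.ext rfl (smul_neg c (v (Fin.last d'))).symm }
  have h4 : Bijective L := by
    refine ⟨fun v w h => funext fun k => ?_, fun y => ⟨Fin.snoc (α := fun _ => A.NN) y.1 (-y.2 :), ?_⟩⟩
    · exact Fin.lastCases (neg_injective (congrArg Prod.snd h))
        (fun k => congrFun (congrArg Prod.fst h) k) k
    · exact Prod.ext (funext fun k => Fin.snoc_castSucc (α := fun _ => A.NN) _ _ k)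
        ((congrArg Neg.neg (Fin.snoc_last (α := fun _ => A.NN) _ _)).trans (neg_neg _))
  refine (h2.egys_graph A.isRep_NN.snd (A.isRep_sig d') (A.isRep_sig (d' + 1)) h3
    (A.isClosedEmbedding_iotaE n χ χ' d hd) (A.continuous_sigE n χ n' χ' d d')
    (A.range_iotaE n χ χ' d hd).superset (k := A.iotaE n χ χ' d (hd.trans d'.le_succ))
    (fun y => ?_) (fun y => if_pos d'.lt_succ_self) (A.continuous_sigE n χ n' χ' d (d' + 1)) L
    (fun g u => Prod.ext rfl (smul_neg (sndG _ _ g) (u (Fin.last d'))).symm) h4 (fun x => ?_)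
    _).trans (congrArg (A.gI n χ χ' d hd) ?_)
  · exact Subtype.ext (Subtype.ext (Prod.ext (Prod.ext rfl (RS.ext rfl fun k hk =>
      ((if_pos hk).trans (if_pos (hk.trans d'.lt_succ_self))).trans (if_pos hk).symm)) rfl))
  · exact Prod.ext (funext fun k => congrArg
      (fun y : A.NN => tr x.1.1.2 x.2.2 d x.1.1.1.1.1.2 k - y) (if_pos k.2).symm)
      (neg_sub (tr x.1.1.2 x.2.2 d x.1.1.1.1.1.2 d') (x.1.1.1.2.1.2 d'))
  · exact (egys_eul_pst lt_smul lt_smul (fun _ => rfl) continuous_lt (fun x => x.2.1)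
      IsClosedEmbedding.id (A.isClosedEmbedding_incDE n' χ' d') A.isRep_NN.snd
      (σ := sndS _ (A.secE n' χ' (d' + 1) d')) ((A.continuous_secE _ _ _ _).comp continuous_snd)
      (fun y hy => ((A.range_incDE n' χ' d').superset hy).elim fun x hx =>
        ⟨(y.1, x), Prod.ext rfl hx⟩) _).trans (congrArg _ (egys_crs₂ A.isRep_NN
      (A.continuous_secE _ _ _ _) (A.isClosedEmbedding_incDE n' χ' d')
      (A.range_incDE n' χ' d').superset z z'))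

theorem cv_gD₂ (hd : 2 * n' ≤ d') (z : EH (GG (Q.nn Φ)) (A.RS n χ d))
    (z' : EH (GG (Q.nn Φ)) (A.RS n' χ' (d' + 1))) :
    A.cv n χ χ' d (hd.trans d'.le_succ) z z' = A.cv n χ χ' d hd z (A.gD n' χ' d' z') :=
  (A.qst_bijective n χ n' χ' d).1 ((qst_cv _ _ _).trans ((gI_succ hd z z').trans (qst_cv _ _ _).symm))

/-! ### compatibility with the first truncation -/

variable (A n χ n' χ' d)

/-- the zero section over the convolution space -/
noncomputable def incD₂ : A.R2 n χ n' χ' d →[GG (Q.nn Φ)] A.R2 n χ n' χ' (d + 1) where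
  toFun x := ⟨(A.incDE n χ d x.1.1, x.1.2), x.2.1,
    (poly_succ (x.1.1.2.2.1 d le_rfl)).symm ▸ x.2.2⟩
  map_smul' _ _ := rfl

/-- the last coefficient -/
noncomputable def sec₂ : A.R2 n χ n' χ' (d + 1) →[GG (Q.nn Φ)] A.NN :=
  (A.secE n χ (d + 1) d).comp (A.pr1E n χ n' χ' (d + 1))

theorem continuous_sec₂ : Continuous (A.sec₂ n χ n' χ' d) :=
  (A.continuous_secE _ _ _ _).comp R2.continuous_fst

theorem range_incD₂ : range (A.incD₂ n χ n' χ' d) = A.sec₂ n χ n' χ' d ⁻¹' {0} := by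
  refine Subset.antisymm ?_ ?_
  · rintro _ ⟨x, rfl⟩
    exact x.1.1.2.2.1 d le_rfl
  · rintro ⟨⟨x, L⟩, hx⟩ h
    obtain ⟨y, rfl⟩ := (A.range_incDE n χ d).superset h
    exact ⟨⟨(y, L), hx.1, poly_succ (y.2.2.1 d le_rfl) ▸ hx.2⟩, rfl⟩

theorem isClosedEmbedding_incD₂ : IsClosedEmbedding (A.incD₂ n χ n' χ' d) := by
  refine ⟨R2.isEmbedding_val.of_comp_iff.1 (((A.isClosedEmbedding_incDE n χ d).isEmbedding.prodMap
    IsEmbedding.id).comp R2.isEmbedding_val), ?_⟩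
  rw [range_incD₂]
  exact isClosed_singleton.preimage (A.continuous_sec₂ n χ n' χ' d)

/-- the Gysin map for the convolution space -/
noncomputable def gD₂ : EH (GG (Q.nn Φ)) (A.R2 n χ n' χ' (d + 1)) →ₗ[ℂ]
    EH (GG (Q.nn Φ)) (A.R2 n χ n' χ' d) :=
  egys (A.incD₂ n χ n' χ' d) (eul (A.sec₂ n χ n' χ' d))

variable {A n χ n' χ' d}

theorem gD_epush_mmE (c : EH (GG (Q.nn Φ)) (A.R2 n χ n' χ' (d + 1))) :
    A.gD (n + n') (χ + χ') d (epush (A.mmE n χ n' χ' (d + 1)) c) =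
      epush (A.mmE n χ n' χ' d) (A.gD₂ n χ n' χ' d c) :=
  egys_eul_epush_sq A.isRep_NN (A.isClosedEmbedding_incDE _ _ d)
    (A.isClosedEmbedding_incD₂ n χ n' χ' d) (A.isPr_mmE n χ n' χ' (d + 1)) (A.isPr_mmE n χ n' χ' d)
    (fun _ => rfl) (A.continuous_secE _ _ _ _) (fun _ => rfl) (A.range_incDE _ _ _)
    (A.range_incD₂ n χ n' χ' d).ge c

theorem tr_incDE {w : WW Q Φ n'} (hw : ∀ a, w.2 a ≠ 0) (x : A.RS n χ d) (k : ℕ) :
    tr w hw (d + 1) (A.incDE n χ d x).1.2 k = tr w hw d x.1.2 k :=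
  congrArg (fun y => A.ρ _ (coef (Q.gauge (laur w.1)⁻¹ y) k)) (poly_succ (x.2.2.1 d le_rfl))

theorem qst_gD₂ (c : EH (GG (Q.nn Φ)) (A.R2 n χ n' χ' (d + 1))) :
    A.qst n χ n' χ' d (A.gD₂ n χ n' χ' d c) =
      egys (voMap lt₂_smul n lt₂_smul (A.incD₂ n χ n' χ' d) (MulActionHom.id _) fun _ => rfl)
        (eul ((fstS Unit (A.sec₂ n χ n' χ' d)).comp (voP lt₂_smul Unit n)))
        (A.qst n χ n' χ' (d + 1) c) :=
  ((egys_eul_pst lt₂_smul lt₂_smul (fun _ => rfl) continuous_lt₂ (fun x => x.1.1.2.1)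
    (A.isClosedEmbedding_incD₂ n χ n' χ' d) IsClosedEmbedding.id A.isRep_NN.fst
    (σ := fstS Unit (A.sec₂ n χ n' χ' d)) ((A.continuous_sec₂ n χ n' χ' d).comp continuous_fst)
    (fun y hy => ((A.range_incD₂ n χ n' χ' d).superset hy).elim fun x hx =>
      ⟨(x, y.2), Prod.ext hx rfl⟩) _).trans (congrArg _ (egys_crs₁ A.isRep_NN
    (A.continuous_sec₂ n χ n' χ' d) (A.isClosedEmbedding_incD₂ n χ n' χ' d)
    (A.range_incD₂ n χ n' χ' d).superset c _))).symm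

variable (A n χ n' χ' d) in
/-- the zero section over `Vq` -/
noncomputable def incQ : A.Vq n χ n' χ' d →[GG (Sum.elim (Q.nn Φ) (Q.nn Φ))]
    A.Vq n χ n' χ' (d + 1) :=
  voMap lt₂_smul n lt₂_smul (A.incD₂ n χ n' χ' d) (MulActionHom.id _) fun _ => rfl

variable (A n χ n' χ' d d') in
/-- the zero section over `Vp` -/
noncomputable def incP : A.Vp n χ n' χ' d d' →[GG (Sum.elim (Q.nn Φ) (Q.nn Φ))]
    A.Vp n χ n' χ' (d + 1) d' :=
  voMap lt_smul n lt_smul (A.incDE n χ d) (MulActionHom.id _) fun _ => rfl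

theorem shift_incQ (hd : 2 * n' ≤ d') (x : A.Vq n χ n' χ' d) :
    A.shift hd (A.incQ n χ n' χ' d x) = A.shift hd x :=
  RS.ext (Eq.refl (mulL (laur x.1.1.2.1)⁻¹ x.1.1.1.1.1.2)) fun k hk =>
    (if_pos hk).trans ((tr_incDE x.2.2 x.1.1.1.1.1.1 k).trans (if_pos hk).symm)

theorem iota_incQ (hd : 2 * n' ≤ d') (x : A.Vq n χ n' χ' d) :
    A.iotaE n χ χ' (d + 1) hd (A.incQ n χ n' χ' d x) =
      A.incP n χ n' χ' d d' (A.iotaE n χ χ' d hd x) :=
  Subtype.ext (Subtype.ext (congrArg (fun y => (((A.incDE n χ d x.1.1.1.1.1.1, y) :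
    Pr (Q.nn Φ) (Q.nn Φ) (A.RS n χ (d + 1)) (A.RS n' χ' d')), x.1.1.2)) (shift_incQ hd x)))

theorem sig_incP (y : A.Vp n χ n' χ' d d') :
    A.sigE n χ n' χ' d d' y = A.sigE n χ n' χ' (d + 1) d' (A.incP n χ n' χ' d d' y) :=
  funext fun k => congrArg (fun z : A.NN => z - y.1.1.1.2.1.2 k) (tr_incDE _ y.1.1.1.1 k).symm

theorem mem_range_prMap (y : Pr (Q.nn Φ) (Q.nn Φ) (A.RS n χ (d + 1)) (A.RS n' χ' d'))
    (hy : fstS _ (A.secE n χ (d + 1) d) y = 0) :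
    y ∈ range (prMap (A.incDE n χ d) (MulActionHom.id _)) :=
  ((A.range_incDE n χ d).superset hy).elim fun x hx => ⟨(x, y.2), Prod.ext hx rfl⟩

theorem range_incP : range (A.incP n χ n' χ' d d') =
    (fstS _ (A.secE n χ (d + 1) d)).comp (voP lt_smul _ n) ⁻¹' {0} := by
  refine Subset.antisymm ?_ fun x hx => mem_range_voMap _ _ _ _ _ _ (mem_range_prMap _ hx)
  rintro _ ⟨x, rfl⟩
  exact x.1.1.1.1.2.2.1 d le_rfl

theorem range_incQ : (fstS Unit (A.sec₂ n χ n' χ' d)).comp (voP lt₂_smul Unit n) ⁻¹' {0} ⊆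
    range (A.incQ n χ n' χ' d) := fun x hx =>
  mem_range_voMap _ _ _ _ _ _ (((A.range_incD₂ n χ n' χ' d).superset hx).elim fun y hy =>
    ⟨(y, ()), Prod.ext hy rfl⟩)

theorem egys_incP (z : EH (GG (Q.nn Φ)) (A.RS n χ (d + 1))) (z' : EH (GG (Q.nn Φ)) (A.RS n' χ' d')) :
    egys (A.incP n χ n' χ' d d') (eul ((fstS _ (A.secE n χ (d + 1) d)).comp (voP lt_smul _ n)))
      (pst lt_smul _ n (crs z z')) = pst lt_smul _ n (crs (A.gD n χ d z) z') :=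
  (egys_eul_pst lt_smul lt_smul (fun _ => rfl) continuous_lt (fun x => x.2.1)
    (A.isClosedEmbedding_incDE n χ d) IsClosedEmbedding.id A.isRep_NN.fst
    (σ := fstS _ (A.secE n χ (d + 1) d)) ((A.continuous_secE _ _ _ _).comp continuous_fst)
    mem_range_prMap _).trans (congrArg _ (egys_crs₁ A.isRep_NN (A.continuous_secE _ _ _ _)
      (A.isClosedEmbedding_incDE n χ d) (A.range_incDE n χ d).superset z z'))

theorem egys_incQ_gI (hd : 2 * n' ≤ d') (γ) :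
    egys (A.incQ n χ n' χ' d) (eul ((fstS Unit (A.sec₂ n χ n' χ' d)).comp (voP lt₂_smul Unit n)))
      (A.gI n χ χ' (d + 1) hd γ) = A.gI n χ χ' d hd (egys (A.incP n χ n' χ' d d')
        (eul ((fstS _ (A.secE n χ (d + 1) d)).comp (voP lt_smul _ n))) γ) :=
  egys_eul_comm (A.isRep_sig d') A.isRep_NN.fst (A.isClosedEmbedding_iotaE n χ χ' (d + 1) hd)
    (isClosedEmbedding_voMap lt_smul n lt_smul
      (fun _ => rfl) (A.isClosedEmbedding_incDE n χ d) IsClosedEmbedding.id)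
    (A.isClosedEmbedding_iotaE n χ χ' d hd) (isClosedEmbedding_voMap lt₂_smul n lt₂_smul
      (fun _ => rfl) (A.isClosedEmbedding_incD₂ n χ n' χ' d) IsClosedEmbedding.id)
    (iota_incQ hd) (A.continuous_sigE n χ n' χ' (d + 1) d')
    (((A.continuous_secE _ _ _ _).comp continuous_fst).comp (continuous_voP lt_smul n))
    sig_incP (fun _ => rfl) (A.range_iotaE n χ χ' (d + 1) hd).superset range_incP
    (A.range_iotaE n χ χ' d hd).superset range_incQ γ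

theorem gD₂_cv (hd : 2 * n' ≤ d') (z : EH (GG (Q.nn Φ)) (A.RS n χ (d + 1)))
    (z' : EH (GG (Q.nn Φ)) (A.RS n' χ' d')) :
    A.gD₂ n χ n' χ' d (A.cv n χ χ' (d + 1) hd z z') = A.cv n χ χ' d hd (A.gD n χ d z) z' := by
  refine (A.qst_bijective n χ n' χ' d).1 ?_
  rw [qst_gD₂, qst_cv, qst_cv, ← egys_incP]
  exact egys_incQ_gI hd _

/-! ### the convolution relation -/

theorem le₁ (hd : 2 * (n + n') ≤ d) : 2 * n ≤ d := by omega

theorem cv_at (hd : 2 * n' ≤ d') {d'' : ℕ} (hd' : 2 * n' ≤ d'') (z : EH (GG (Q.nn Φ)) (A.RS n χ d))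
    (β : A.An n' χ' k') :
    A.cv n χ χ' d hd z (An.at d' hd β) = A.cv n χ χ' d hd' z (An.at d'' hd' β) :=
  seq_induction (P := fun d' => ∀ hd : 2 * n' ≤ d',
    A.cv n χ χ' d hd z (An.at d' hd β) = A.cv n χ χ' d hd' z (An.at d'' hd' β)) hd' (fun _ => rfl)
    (fun e he => have := (cv_gD₂ he z _).trans (congrArg _ (An.gD_at he β))
      ⟨fun h _ => this.symm.trans (h _), fun h _ => this.trans (h _)⟩) d' hd hd

theorem conv_level (hd : 2 * n' ≤ d') {c : EH (GG (Q.nn Φ)) (A.R2 n χ n' χ' d)}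
    {z : EH (GG (Q.nn Φ)) (A.RS n χ d)} {z' : EH (GG (Q.nn Φ)) (A.RS n' χ' d')} {M : ℕ} :
    (∃ b b' γ γ', CrossG (c.1 M) (fund _ M) b ∧ PullV lt₂ lt₂_smul b γ ∧
      CrossG (z.1 M) (z'.1 M) b' ∧ PullV lt lt_smul b' γ' ∧
      Gys (bmap (A.iota hd) (A.iota_smul hd) M)
        (euler (fun x => A.sig x.1) fun h x => A.sig_smul h x.1) γ' γ) ↔
    (A.qst n χ n' χ' d c).1 M = (A.gI n χ χ' d hd (pst lt_smul _ n (crs z z'))).1 M := by
  have hi := A.isClosedEmbedding_iotaE n χ χ' d hd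
  have ht := A.isCoc_gI n χ χ' d hd
  have h1 := fun a b => Gys_iff (isClosedEmbedding_smap hi M) (ht.isCo M).cocycle (ht.isCo M).supp
    (β := a) (β' := b)
  have h2 := egys_apply hi ht (pst lt_smul _ n (crs z z')) M
  have h3 := fun γ => pullV_iff lt₂_smul continuous_lt₂ (fun x : A.R2 n χ n' χ' d => x.1.1.2.1)
    (β := crs c (fundE (Q.nn Φ))) (M := M) (γ := γ)
  have h4 := fun γ => pullV_iff lt_smul continuous_lt (fun x : A.RS n χ d => x.2.1)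
    (β := crs z z') (M := M) (γ := γ)
  refine ⟨?_, fun h => ⟨_, _, _, _, (crossG_iff (β' := fundE (Q.nn Φ))).2 rfl, (h3 _).2 rfl,
    crossG_iff.2 rfl, (h4 _).2 rfl, (h1 _ _).2 (h2.symm.trans h.symm)⟩⟩
  rintro ⟨b, b', γ, γ', k1, k2, k3, k4, k5⟩
  obtain rfl := (crossG_iff (β' := fundE (Q.nn Φ))).1 k1
  obtain rfl := crossG_iff.1 k3
  obtain rfl := (h3 _).1 k2
  obtain rfl := (h4 _).1 k4
  exact (h2.trans ((h1 _ _).1 k5)).symm

theorem conv_deg (hd : 2 * n ≤ d) (hd' : 2 * n' ≤ d') (β₁ : A.An n χ k) (β₂ : A.An n' χ' k') :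
    A.cv n χ χ' d hd' (An.at d hd β₁) (An.at d' hd' β₂) ∈
      EH.deg _ _ (k + k' + 2 * Q.idx (χ + χ') + 2 * d * Q.dimN) := by
  convert cv_deg hd' (An.at_deg hd β₁) (An.at_deg hd' β₂) using 2
  rw [idx_add]
  ring

theorem gD₂_cv_at (hd : 2 * n ≤ d) (hd' : 2 * n' ≤ d') (β₁ : A.An n χ k)
    (z' : EH (GG (Q.nn Φ)) (A.RS n' χ' d')) :
    A.gD₂ n χ n' χ' d (A.cv n χ χ' (d + 1) hd' (An.at (d + 1) (hd.trans d.le_succ) β₁) z') =
      A.cv n χ χ' d hd' (An.at d hd β₁) z' :=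
  (gD₂_cv hd' _ z').trans (LinearMap.congr_fun (congrArg (A.cv n χ χ' d hd') (An.gD_at hd β₁)) z')

theorem conv_succ (hd : 2 * (n + n') ≤ d) (hd' : 2 * n' ≤ d') {β₁ : A.An n χ k}
    {β₂ : A.An n' χ' k'} {β₃ : A.An (n + n') (χ + χ') (k + k')} :
    epush (A.mmE n χ n' χ' (d + 1)) (A.cv n χ χ' (d + 1) hd'
      (An.at (d + 1) ((le₁ hd).trans d.le_succ) β₁) (An.at d' hd' β₂)) =
        An.at (d + 1) (hd.trans d.le_succ) β₃ ↔
    epush (A.mmE n χ n' χ' d) (A.cv n χ χ' d hd' (An.at d (le₁ hd) β₁) (An.at d' hd' β₂)) =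
      An.at d hd β₃ :=
  (gD_bijective hd).1.eq_iff.symm.trans (Eq.congr ((gD_epush_mmE _).trans
    (congrArg (epush (A.mmE n χ n' χ' d)) (gD₂_cv_at (le₁ hd) hd' β₁ _))) (An.gD_at hd β₃))

theorem eq_cv_of_level (hd : 2 * n' ≤ d') {c : EH (GG (Q.nn Φ)) (A.R2 n χ n' χ' d)}
    {z : EH (GG (Q.nn Φ)) (A.RS n χ d)} {z' : EH (GG (Q.nn Φ)) (A.RS n' χ' d')}
    (h : ∀ M, (A.qst n χ n' χ' d c).1 M = (A.gI n χ χ' d hd (pst lt_smul _ n (crs z z'))).1 M) :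
    c = A.cv n χ χ' d hd z z' :=
  (A.qst_bijective n χ n' χ' d).1 ((EH.ext h).trans (qst_cv hd z z').symm)

theorem epush_mmE_of_level {c : EH (GG (Q.nn Φ)) (A.R2 n χ n' χ' d)}
    {z : EH (GG (Q.nn Φ)) (A.RS (n + n') (χ + χ') d)} :
    (∀ M, Push (A.mm M) (c.1 M) (z.1 M)) ↔ epush (A.mmE n χ n' χ' d) c = z := by
  have h1 := fun M => Push_iff (isPr_smap (A.isPr_mmE n χ n' χ' d) M) (β := c.1 M) (β' := z.1 M)
  have h2 := epush_apply (A.isPr_mmE n χ n' χ' d) c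
  exact ⟨fun h => EH.ext fun M => (h2 M).trans ((h1 M).1 (h M)),
    fun h M => (h1 M).2 ((h2 M).symm.trans (congrArg (fun z : EH _ _ => z.1 M) h))⟩

theorem ConvRel.at {β₁ : A.An n χ k} {β₂ : A.An n' χ' k'} {β₃ : A.An (n + n') (χ + χ') (k + k')}
    (h : ConvRel β₁ β₂ β₃) (hd : 2 * (n + n') ≤ d) (hd' : 2 * n' ≤ d') :
    epush (A.mmE n χ n' χ' d) (A.cv n χ χ' d hd' (An.at d (le₁ hd) β₁) (An.at d' hd' β₂)) =
      An.at d hd β₃ := by
  refine (h d hd).elim fun c hc => ?_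
  have h3 : EH.mk c (isFam_iff.1 hc.1) =
      A.cv n χ χ' d hd' (An.at d (le₁ hd) β₁) (An.at d' hd' β₂) :=
    eq_cv_of_level hd' fun M => (conv_level hd' (c := EH.mk c (isFam_iff.1 hc.1))
      (z := An.at d (le₁ hd) β₁) (z' := An.at d' hd' β₂)).1 ((hc.2 M).2 d' hd')
  have h4 : epush (A.mmE n χ n' χ' d) (EH.mk c (isFam_iff.1 hc.1)) = An.at d hd β₃ :=
    (epush_mmE_of_level (c := EH.mk c (isFam_iff.1 hc.1)) (z := An.at d hd β₃)).1
      fun M => (hc.2 M).1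
  exact (congrArg (epush (A.mmE n χ n' χ' d)) h3).symm.trans h4

/-- **The convolution relation** can be tested at one pair of truncations. -/
theorem convRel_iff (hd : 2 * (n + n') ≤ d) (hd' : 2 * n' ≤ d') {β₁ : A.An n χ k}
    {β₂ : A.An n' χ' k'} {β₃ : A.An (n + n') (χ + χ') (k + k')} : ConvRel β₁ β₂ β₃ ↔
      epush (A.mmE n χ n' χ' d) (A.cv n χ χ' d hd' (An.at d (le₁ hd) β₁) (An.at d' hd' β₂)) =
        An.at d hd β₃ := by
  refine ⟨fun h => h.at hd hd', fun h e he => ?_⟩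
  have key := seq_induction (P := fun d => ∀ hd : 2 * (n + n') ≤ d, epush (A.mmE n χ n' χ' d)
    (A.cv n χ χ' d hd' (An.at d (le₁ hd) β₁) (An.at d' hd' β₂)) = An.at d hd β₃) hd (fun _ => h)
    (fun d hd => ⟨fun h _ => (conv_succ hd hd').1 (h _), fun h _ => (conv_succ hd hd').2 (h _)⟩)
    e he he
  refine ⟨(A.cv n χ χ' e hd' (An.at e (le₁ he) β₁) (An.at d' hd' β₂)).1,
    isFam_iff.2 (conv_deg (le₁ he) hd' β₁ β₂), fun M => ⟨epush_mmE_of_level.2 key M,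
      fun e' he' => ?_⟩⟩
  refine (conv_level he' (z := An.at e (le₁ he) β₁) (z' := An.at e' he' β₂)).2 ?_
  exact congrArg (fun z : EH _ _ => z.1 M)
    ((congrArg (A.qst n χ n' χ' e) (cv_at hd' he' _ β₂)).trans (qst_cv _ _ _))

/-- **Existence and uniqueness of the convolution product.** -/
theorem existsUnique_convRel (β₁ : A.An n χ k) (β₂ : A.An n' χ' k') :
    ∃! β₃ : A.An (n + n') (χ + χ') (k + k'), ConvRel β₁ β₂ β₃ := by
  obtain ⟨β₃, h⟩ := An.exists_at (le_refl (2 * (n + n')))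
    (epush_deg (A.isPr_mmE n χ n' χ' _) (conv_deg (le₁ le_rfl) (le_refl (2 * n')) β₁ β₂))
  exact ⟨β₃, (convRel_iff le_rfl le_rfl).2 h.symm, fun β h' => An.at_injective le_rfl
    (((convRel_iff le_rfl le_rfl).1 h').symm.trans h.symm)⟩

end Vale.Agent.P291Z.Flav
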