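import Vale.Agent.P291Z.CAn
import Vale.Agent.P291Z.Bnd0

/-!
# Linear maps on `A_F`, the coefficient map
-/

set_option linter.all false

namespace Vale.Agent.P291Z

open Set Function Topology Quiv Lt

namespace Flav

variable {I E Φ : Type} {Q : Quiv I E} [Fintype Φ] [Fintype I] [Fintype E] {A : Flav Q Φ}
  {n : ℕ} {χ : I → ℤ} {d d' : ℕ} {k : ℤ}

/-! ### linear maps on `A_F` -/

open Classical in
/-- `cls` as a linear map -/
noncomputable def clsL : A.An n χ k →ₗ[ℂ] A.AA :=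
  Submodule.mkQ _ ∘ₗ DFinsupp.lsingle (M := fun x : ℕ × (I → ℤ) × ℤ => A.An x.1 x.2.1 x.2.2) (n, χ, k)

theorem clsL_apply (β : A.An n χ k) : clsL β = cls β := rfl

theorem cls_zero : cls (0 : A.An n χ k) = 0 := map_zero clsL

theorem cls_add (β β' : A.An n χ k) : cls (β + β') = cls β + cls β' := map_add clsL β β'

theorem cls_smul (c : ℂ) (β : A.An n χ k) : cls (c • β) = c • cls β := map_smul clsL c β

theorem AA.induction {P : A.AA → Prop} (a : A.AA) (h0 : P 0) (hadd : ∀ a b, P a → P b → P (a + b))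
    (h : ∀ n χ k (β : A.An n χ k), P (cls β)) : P a := by
  classical
  obtain ⟨z, rfl⟩ := Submodule.mkQ_surjective _ a
  exact DFinsupp.induction (p := fun z : A.AS => P (Submodule.Quotient.mk z)) z h0
    fun x β z _ _ hz => hadd _ _ (h _ _ _ β) hz

section lift

variable {P : Type} [AddCommGroup P] [Module ℂ P]

theorem AA.hom_ext {φ ψ : A.AA →ₗ[ℂ] P} (h : ∀ n χ k (β : A.An n χ k), φ (cls β) = ψ (cls β)) :
    φ = ψ := LinearMap.ext fun a => AA.induction (P := fun a => φ a = ψ a) a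
  (by rw [map_zero, map_zero]) (fun a b ha hb => by rw [map_add, map_add, ha, hb]) h

variable (F : ∀ n χ k, A.An n χ k →ₗ[ℂ] P) (hF : ∀ n χ k β, F (n + 1) χ k (An.up β) = F n χ k β)

open Classical in
/-- the sum of maps on the bounded parts -/
noncomputable def AS.lift : A.AS →ₗ[ℂ] P :=
  DFinsupp.lsum ℕ fun x : ℕ × (I → ℤ) × ℤ => F x.1 x.2.1 x.2.2

open Classical in
theorem AS.lift_ofA (β : A.An n χ k) : AS.lift F (ofA β) = F n χ k β :=
  DFinsupp.lsum_single ℕ (fun x : ℕ × (I → ℤ) × ℤ => F x.1 x.2.1 x.2.2) (n, χ, k) β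

/-- the map on `A_F` given by compatible maps on the bounded parts -/
noncomputable def AA.lift : A.AA →ₗ[ℂ] P :=
  Submodule.liftQ _ (AS.lift F) (Submodule.span_le.2 (by
    rintro _ ⟨n, χ, k, β, β', h, rfl⟩
    obtain rfl := push_incN_iff_up.1 h
    rw [SetLike.mem_coe, LinearMap.mem_ker, map_sub, AS.lift_ofA, AS.lift_ofA, hF, sub_self]))

theorem AA.lift_cls (β : A.An n χ k) : AA.lift F hF (cls β) = F n χ k β := AS.lift_ofA F β

end lift

theorem exists_cls_of_le {m : ℕ} (h : n ≤ m) (β : A.An n χ k) :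
    ∃ β' : A.An m χ k, cls β' = cls β :=
  Nat.le_induction ⟨β, rfl⟩ (fun _ _ ⟨β', h⟩ => ⟨An.up β', (cls_up β').trans h⟩) m h

/-- every element comes from one bounded part -/
theorem AA.exists_sum (a : A.AA) : ∃ n₀, ∀ n ≥ n₀, ∃ (s : Finset ((I → ℤ) × ℤ))
    (β : ∀ x : (I → ℤ) × ℤ, A.An n x.1 x.2), a = ∑ x ∈ s, cls (β x) := by
  classical
  refine AA.induction (P := fun a => ∃ n₀, ∀ n ≥ n₀, ∃ (s : Finset ((I → ℤ) × ℤ))
    (β : ∀ x : (I → ℤ) × ℤ, A.An n x.1 x.2), a = ∑ x ∈ s, cls (β x)) a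
    ⟨0, fun n _ => ⟨∅, 0, rfl⟩⟩ ?_ fun n χ k β => ⟨n, fun m hm => ?_⟩
  · rintro a b ⟨n₁, h₁⟩ ⟨n₂, h₂⟩
    refine ⟨max n₁ n₂, fun n hn => ?_⟩
    obtain ⟨s, β, rfl⟩ := h₁ n (le_of_max_le_left hn)
    obtain ⟨t, γ, rfl⟩ := h₂ n (le_of_max_le_right hn)
    refine ⟨s ∪ t, fun x => (if x ∈ s then β x else 0) + if x ∈ t then γ x else 0, ?_⟩
    simp only [cls_add, apply_ite cls, cls_zero, Finset.sum_add_distrib, Finset.sum_ite_mem,
      Finset.union_inter_cancel_left, Finset.union_inter_cancel_right]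
  · obtain ⟨β', h⟩ := exists_cls_of_le hm β
    exact ⟨{(χ, k)}, Pi.single (χ, k) β', by rw [Finset.sum_singleton, Pi.single_eq_same, h]⟩

open Classical in
/-- the projection to the summands whose charge and degree satisfy `p` -/
noncomputable def AA.prj (p : (I → ℤ) → ℤ → Prop) : A.AA →ₗ[ℂ] A.AA :=
  AA.lift (fun _ χ k => if p χ k then clsL else 0) fun n χ k β => by
    split_ifs
    exacts [cls_up β, rfl]

theorem AA.prj_pos {p : (I → ℤ) → ℤ → Prop} (h : p χ k) (β : A.An n χ k) :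
    AA.prj p (cls β) = cls β := by
  rw [AA.prj, AA.lift_cls, if_pos h, clsL_apply]

theorem AA.prj_neg {p : (I → ℤ) → ℤ → Prop} (h : ¬p χ k) (β : A.An n χ k) :
    AA.prj p (cls β) = 0 := by
  rw [AA.prj, AA.lift_cls, if_neg h, LinearMap.zero_apply]

/-! ### the coefficient map -/

theorem CapRel.unique {r : RR Q Φ} {β β' : A.An 0 0 k} (h : CapRel r β) (h' : CapRel r β') :
    β = β' := An.at_injective le_rfl ((isoEH_homeo isHomeomorph_toUnit).bij.1
  ((capRel_iff.1 h).trans (capRel_iff.1 h').symm))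

theorem deg_toU {z : EH (GG (Q.nn Φ)) (A.RS 0 0 0)} : epush (toUnit _ _) z ∈ EH.deg _ _ k ↔
    z ∈ EH.deg _ _ (k + 2 * Q.idx 0 + 2 * (2 * 0 : ℕ) * Q.dimN) := by
  rw [← (isoEH_homeo isHomeomorph_toUnit).deg_iff, idx_zero]
  simp

theorem CapRel.deg {r : RR Q Φ} {β : A.An 0 0 k} (h : CapRel r β) : r.1 ∈ HGdeg _ _ (-k) :=
  smul_fundE_deg.1 (capRel_iff.1 h ▸ deg_toU.2 (An.at_deg _ β))

theorem exists_epush_toU {z : EH (GG (Q.nn Φ)) Unit} (hz : z ∈ EH.deg _ _ k) :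
    ∃ β : A.An 0 0 k, epush (toUnit _ _) (An.at 0 le_rfl β) = z := by
  obtain ⟨y, rfl⟩ := (isoEH_homeo (isHomeomorph_toUnit (A := A))).bij.2 z
  obtain ⟨β, rfl⟩ := An.exists_at le_rfl (deg_toU.1 hz)
  exact ⟨β, rfl⟩

theorem exists_capRel' (β : A.An 0 0 k) : ∃ r : RR Q Φ, CapRel r β :=
  ((fundE_free _).2 (epush (toUnit _ _) (An.at 0 le_rfl β))).imp fun _ h => capRel_iff.2 h.symm

/-- the homology of the base point maps to `A_F` -/
theorem exists_ptL : ∃ ψ : EH (GG (Q.nn Φ)) Unit →ₗ[ℂ] A.AA,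
    ∀ k (β : A.An 0 0 k), ψ (epush (toUnit _ _) (An.at 0 le_rfl β)) = cls β := by
  classical
  let e : ∀ k, A.An 0 0 k ≃ₗ[ℂ] EH.deg (GG (Q.nn Φ)) Unit k := fun k => LinearEquiv.ofBijective
    ((epush (toUnit _ _) ∘ₗ An.at 0 le_rfl).codRestrict _ fun β => deg_toU.2 (An.at_deg _ β))
    ⟨fun _ _ h => An.at_injective le_rfl ((isoEH_homeo isHomeomorph_toUnit).bij.1
      (congrArg Subtype.val h)), fun z => (exists_epush_toU z.2).imp fun _ h => Subtype.ext h⟩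
  let D := LinearEquiv.ofBijective (DirectSum.coeLinearMap _)
    (EH.isInternal (G := GG (Q.nn Φ)) (Z := Unit))
  refine ⟨DirectSum.toModule ℂ ℤ _ (fun k => clsL ∘ₗ (e k).symm.toLinearMap) ∘ₗ
    D.symm.toLinearMap, fun k β => ?_⟩
  have : D.symm (epush (toUnit _ _) (An.at 0 le_rfl β)) = DirectSum.lof ℂ ℤ _ k (e k β) :=
    D.symm_apply_eq.2 (DirectSum.coeLinearMap_lof _ k (e k β)).symm
  exact (congrArg _ this).trans ((DirectSum.toModule_lof _ _ _).trans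
    (congrArg cls ((e k).symm_apply_apply β)))

theorem coefA_spec {r : RR Q Φ} {β : A.An 0 0 k} (h : CapRel r β) : A.coefA r = cls β := by
  obtain ⟨ψ, hψ⟩ := exists_ptL (A := A)
  exact Classical.epsilon_spec (p := fun φ : RR Q Φ →+ A.AA =>
    ∀ r k (β : A.An 0 0 k), CapRel r β → φ r = cls β) ⟨ψ.toAddMonoidHom.comp
      (LinearMap.toSpanSingleton (HS _ Unit) _ (fundE (Q.nn Φ))).toAddMonoidHom,
      fun r k β h => (congrArg ψ (capRel_iff.1 h).symm).trans (hψ k β)⟩ r k β h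

/-- the specification of the coefficient map -/
theorem coefA_final (k : ℤ) (r : RR Q Φ) (hr : r.1 ∈ HGdeg _ _ k) :
    ∃ β : A.An 0 0 (-k), CapRel r β ∧ A.coefA r = cls β ∧ ∀ β', CapRel r β' → β' = β :=
  (exists_capRel hr).exists.imp fun _ h => ⟨h, coefA_spec h, fun _ h' => h'.unique h⟩

end Flav

end Vale.Agent.P291Z
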