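import Mathlib

set_option linter.all false

/-!
# Ordered chains on a set, acyclic carriers, the reversal homotopy

`Ch X = List X →₀ ℤ` with the (augmented) boundary `bd`; consing a point is a contraction.  A chain
map which kills the empty list and is carried by nonempty sets is null homotopic, by a homotopy
with the same carrier.
-/

namespace Vale.Agent.P291Z

namespace Chn

open Finsupp

variable {X Y : Type*}

/-- ordered chains -/
abbrev Ch (X : Type*) := List X →₀ ℤ

/-- the cone over the point `x` -/
noncomputable def cone (x : X) : Ch X →ₗ[ℤ] Ch X := lmapDomain ℤ ℤ (List.cons x)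

theorem cone_single (x : X) (l : List X) (c : ℤ) : cone x (single l c) = single (x :: l) c := by
  simp [cone, mapDomain_single]

/-- the boundary of a list -/
noncomputable def bd0 : List X → Ch X
  | [] => 0
  | x :: l => single l 1 - cone x (bd0 l)

/-- the linear extension of a function on lists -/
noncomputable def lin {M : Type*} [AddCommGroup M] (g : List X → M) : Ch X →ₗ[ℤ] M :=
  linearCombination ℤ g

theorem lin_single {M : Type*} [AddCommGroup M] (g : List X → M) (l : List X) (c : ℤ) :
    lin g (single l c) = c • g l := linearCombination_single _ _ _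

@[simp] theorem lin_one {M : Type*} [AddCommGroup M] (g : List X → M) (l : List X) :
    lin g (single l 1) = g l := by rw [lin_single, one_smul]

theorem lin_cone {M : Type*} [AddCommGroup M] (g : List X → M) (x : X) (c : Ch X) :
    lin g (cone x c) = lin (fun m => g (x :: m)) c := by
  induction c using Finsupp.induction_linear with
  | zero => simp
  | add a b ha hb => rw [map_add, map_add, map_add, ha, hb]
  | single l c => rw [cone_single, lin_single, lin_single]

theorem map_lin {M N : Type*} [AddCommGroup M] [AddCommGroup N] (φ : M →ₗ[ℤ] N) (g : List X → M)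
    (c : Ch X) : φ (lin g c) = lin (fun m => φ (g m)) c := by
  induction c using Finsupp.induction_linear with
  | zero => simp
  | add a b ha hb => rw [map_add, map_add, map_add, ha, hb]
  | single l c => rw [lin_single, lin_single, map_smul]

theorem lin_add {M : Type*} [AddCommGroup M] (g g' : List X → M) (c : Ch X) :
    lin (fun m => g m + g' m) c = lin g c + lin g' c := by
  induction c using Finsupp.induction_linear with
  | zero => simp
  | add a b ha hb => rw [map_add, map_add, map_add, ha, hb]; abel
  | single l c => rw [lin_single, lin_single, lin_single, smul_add]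

theorem lin_sub {M : Type*} [AddCommGroup M] (g g' : List X → M) (c : Ch X) :
    lin (fun m => g m - g' m) c = lin g c - lin g' c := by
  induction c using Finsupp.induction_linear with
  | zero => simp
  | add a b ha hb => rw [map_add, map_add, map_add, ha, hb]; abel
  | single l c => rw [lin_single, lin_single, lin_single, smul_sub]

theorem lin_smul {A M : Type*} [Monoid A] [AddCommGroup M] [DistribMulAction A M] (a : A)
    (g : List X → M) (c : Ch X) : lin (fun m => a • g m) c = a • lin g c := by
  induction c using Finsupp.induction_linear with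
  | zero => simp
  | add a b ha hb => rw [map_add, map_add, ha, hb, smul_add]
  | single l c => rw [lin_single, lin_single, smul_comm]

theorem lin_zero {M : Type*} [AddCommGroup M] (c : Ch X) : lin (fun _ => (0 : M)) c = 0 := by
  induction c using Finsupp.induction_linear with
  | zero => simp
  | add a b ha hb => rw [map_add, ha, hb, add_zero]
  | single l c => rw [lin_single, smul_zero]

theorem lin_id (c : Ch X) : lin (fun m => (single m 1 : Ch X)) c = c := by
  induction c using Finsupp.induction_linear with
  | zero => simp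
  | add a b ha hb => rw [map_add, ha, hb]
  | single l c => rw [lin_single, smul_single, smul_eq_mul, mul_one]

/-- chains supported on lists with the property `P` -/
def On (P : List X → Prop) : Submodule ℤ (Ch X) := supported ℤ ℤ {l | P l}

theorem On.mono {P Q : List X → Prop} {c : Ch X} (h : c ∈ On P) (hPQ : ∀ l, P l → Q l) :
    c ∈ On Q := supported_mono (fun l hl => hPQ l hl) h

theorem single_on {P : List X → Prop} {l : List X} (h : P l) (c : ℤ) : single l c ∈ On P :=
  single_mem_supported ℤ c h

theorem On.induction {P : List X → Prop} {Q : Ch X → Prop} (h0 : Q 0)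
    (ha : ∀ a b, Q a → Q b → Q (a + b)) (hs : ∀ l c, P l → Q (single l c)) {c : Ch X}
    (h : c ∈ On P) : Q c := by
  rw [On, supported_eq_span_single] at h
  have : Q c ∧ ∀ z : ℤ, Q (z • c) := by
    refine Submodule.span_induction (p := fun c _ => Q c ∧ ∀ z : ℤ, Q (z • c)) ?_ ?_ ?_ ?_ h
    · rintro _ ⟨l, hl, rfl⟩
      exact ⟨hs l 1 hl, fun z => by rw [smul_single]; exact hs l _ hl⟩
    · exact ⟨h0, fun z => by rw [smul_zero]; exact h0⟩
    · exact fun a b _ _ h1 h2 => ⟨ha _ _ h1.1 h2.1, fun z => by
        rw [smul_add]; exact ha _ _ (h1.2 z) (h2.2 z)⟩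
    · exact fun z a _ h1 => ⟨h1.2 z, fun w => by rw [smul_smul]; exact h1.2 _⟩
  exact this.1

theorem lin_congr {M : Type*} [AddCommGroup M] {P : List X → Prop} {g g' : List X → M} {c : Ch X}
    (hc : c ∈ On P) (h : ∀ l, P l → g l = g' l) : lin g c = lin g' c :=
  On.induction (Q := fun c => lin g c = lin g' c) (by simp)
    (fun a b ha hb => by rw [map_add, map_add, ha, hb])
    (fun l z hl => by rw [lin_single, lin_single, h l hl]) hc

theorem lin_eq_zero {M : Type*} [AddCommGroup M] {P : List X → Prop} {g : List X → M} {c : Ch X}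
    (hc : c ∈ On P) (h : ∀ l, P l → g l = 0) : lin g c = 0 := by
  rw [lin_congr (g' := fun _ => 0) hc h, lin_zero]

theorem lin_mem {M : Type*} [AddCommGroup M] {P : List X → Prop} {g : List X → M}
    {N : Submodule ℤ M} {c : Ch X} (hc : c ∈ On P) (h : ∀ l, P l → g l ∈ N) : lin g c ∈ N :=
  On.induction (Q := fun c => lin g c ∈ N) (by simp)
    (fun a b ha hb => by rw [map_add]; exact N.add_mem ha hb)
    (fun l z hl => by rw [lin_single]; exact N.smul_mem _ (h l hl)) hc

theorem cone_on {P Q : List X → Prop} {x : X} {c : Ch X} (hc : c ∈ On P)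
    (h : ∀ l, P l → Q (x :: l)) : cone x c ∈ On Q :=
  On.induction (Q := fun c => cone x c ∈ On Q) (by simp)
    (fun a b ha hb => by rw [map_add]; exact (On Q).add_mem ha hb)
    (fun l z hl => by rw [cone_single]; exact single_on (h l hl) _) hc

/-- the boundary -/
noncomputable def bd : Ch X →ₗ[ℤ] Ch X := lin bd0

theorem bd_single (l : List X) : bd (single l 1) = bd0 l := lin_one _ _

theorem bd_cone (x : X) (c : Ch X) : bd (cone x c) = c - cone x (bd c) := by
  rw [bd, lin_cone, map_lin]
  have := lin_sub (fun m => (single m 1 : Ch X)) (fun m => cone x (bd0 m)) c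
  rw [lin_id] at this
  exact this

theorem bd_bd0 (l : List X) : bd (bd0 l) = 0 := by
  induction l with
  | nil => simp [bd0]
  | cons x l ih => rw [bd0, map_sub, bd_single, bd_cone, ih, map_zero, sub_zero, sub_self]

theorem bd_bd (c : Ch X) : bd (bd c) = 0 := by
  rw [bd, map_lin]
  exact lin_eq_zero (P := fun _ => True) (by simp [On]) fun l _ => bd_bd0 l

/-- the boundary of a list consists of its faces -/
theorem bd0_on (l : List X) : bd0 l ∈ On fun m => m.Sublist l ∧ m.length + 1 = l.length := by
  induction l with
  | nil => exact Submodule.zero_mem _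
  | cons x l ih =>
    exact Submodule.sub_mem _ (single_on ⟨List.sublist_cons_self x l, rfl⟩ _)
      (cone_on ih fun m hm => ⟨hm.1.cons_cons x, by simp [← hm.2]⟩)

/-- **Acyclic carriers.**  `D` is a chain map which raises the length by `r` up to sign `s`, kills
all lists of length `< n₀`, and is carried by `Γ`. -/
theorem acyclic (D : List X → Ch Y) (Γ : List X → Set Y)
    (hΓ : ∀ l m : List X, m.Sublist l → Γ m ⊆ Γ l) (hne : ∀ l, l ≠ [] → (Γ l).Nonempty)
    (h0 : D [] = 0) (hD : ∀ l, bd (D l) = lin D (bd0 l))
    (hc : ∀ l, D l ∈ On fun m => m.length = l.length ∧ ∀ y ∈ m, y ∈ Γ l) :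
    ∃ h : List X → Ch Y, h [] = 0 ∧ (∀ l, bd (h l) + lin h (bd0 l) = D l) ∧
      ∀ l, h l ∈ On fun m => m.length = l.length + 1 ∧ ∀ y ∈ m, y ∈ Γ l := by
  classical
  let g : ℕ → List X → Ch Y := fun n => Nat.rec (fun _ => 0)
    (fun _ g l => if hl : l = [] then 0 else cone (hne l hl).some (D l - lin g (bd0 l))) n
  have g0 : ∀ l, g 0 l = 0 := fun _ => rfl
  have gs : ∀ n l (hl : l ≠ []), g (n + 1) l = cone (hne l hl).some (D l - lin (g n) (bd0 l)) :=
    fun n l hl => dif_neg hl
  let h : List X → Ch Y := fun l => g l.length l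
  have hs : ∀ l (hl : l ≠ []), h l = cone (hne l hl).some (D l - lin h (bd0 l)) := by
    intro l hl
    obtain ⟨n, hn⟩ : ∃ n, l.length = n + 1 := ⟨l.length - 1, by
      have := List.length_pos_iff.2 hl
      omega⟩
    show g l.length l = _
    rw [hn, gs n l hl]
    congr 2
    refine lin_congr (bd0_on l) fun m hm => ?_
    show g n m = g m.length m
    rw [show m.length = n by omega]
  have key : ∀ n, ∀ l : List X, l.length = n → (bd (h l) + lin h (bd0 l) = D l) ∧
      h l ∈ On fun m => m.length = l.length + 1 ∧ ∀ y ∈ m, y ∈ Γ l := by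
    intro n
    induction n with
    | zero =>
      intro l hl
      rw [List.length_eq_zero_iff.1 hl]
      exact ⟨by simp [h, g0, bd0, h0], Submodule.zero_mem _⟩
    | succ n ih =>
      intro l hl
      have hl' : l ≠ [] := by
        rintro rfl
        simp at hl
      have e : bd (lin h (bd0 l)) = lin D (bd0 l) := by
        have h1 : lin (fun m => bd (h m) + lin h (bd0 m)) (bd0 l) = lin D (bd0 l) :=
          lin_congr (bd0_on l) fun m hm => (ih m (by omega)).1
        rw [lin_add, ← map_lin bd h, ← map_lin (lin h) bd0] at h1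
        have h2 : lin bd0 (bd0 l) = 0 := bd_bd0 l
        rwa [h2, map_zero, add_zero] at h1
      constructor
      · rw [hs l hl', bd_cone, map_sub, e, hD, sub_self, map_zero]
        abel
      · rw [hs l hl']
        refine cone_on (P := fun m => m.length = l.length ∧ ∀ y ∈ m, y ∈ Γ l)
          (Submodule.sub_mem _ (hc l) (lin_mem (bd0_on l) fun m hm =>
            On.mono (ih m (by omega)).2 fun k hk => ⟨by omega, fun y hy =>
              hΓ l m hm.1 (hk.2 y hy)⟩)) fun m hm => ⟨by simp [hm.1], fun y hy => ?_⟩
        rcases List.mem_cons.1 hy with rfl | hy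
        · exact (hne l hl').some_mem
        · exact hm.2 y hy
  exact ⟨h, rfl, fun l => (key _ l rfl).1, fun l => (key _ l rfl).2⟩

/-! ### maps of sets -/

theorem bd0_map (f : X → Y) (l : List X) :
    bd0 (l.map f) = lin (fun m => (single (m.map f) 1 : Ch Y)) (bd0 l) := by
  induction l with
  | nil => simp [bd0]
  | cons x l ih =>
    rw [List.map_cons, bd0, bd0, map_sub, lin_one, lin_cone, ih, map_lin]
    congr 3
    funext m
    rw [cone_single, List.map_cons]

/-- two arbitrary maps are chain homotopic, carried by the union of the images -/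
theorem prism (f g : X → Y) : ∃ h : List X → Ch Y, h [] = 0 ∧
    (∀ l, bd (h l) + lin h (bd0 l) = single (l.map g) 1 - single (l.map f) 1) ∧
    ∀ l, h l ∈ On fun m => m.length = l.length + 1 ∧ ∀ y ∈ m, ∃ x ∈ l, y = f x ∨ y = g x := by
  refine acyclic (fun l => single (l.map g) 1 - single (l.map f) 1)
    (fun l => {y | ∃ x ∈ l, y = f x ∨ y = g x}) ?_ ?_ (by simp) ?_ ?_
  · rintro l m hm y ⟨x, hx, h⟩
    exact ⟨x, hm.subset hx, h⟩
  · intro l hl
    obtain ⟨x, hx⟩ := List.exists_mem_of_ne_nil l hl
    exact ⟨f x, x, hx, Or.inl rfl⟩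
  · intro l
    rw [map_sub, bd_single, bd_single, bd0_map, bd0_map, lin_sub]
  · intro l
    refine Submodule.sub_mem _ (single_on ⟨by simp, fun y hy => ?_⟩ _)
      (single_on ⟨by simp, fun y hy => ?_⟩ _)
    · obtain ⟨x, hx, rfl⟩ := List.mem_map.1 hy
      exact ⟨x, hx, Or.inr rfl⟩
    · obtain ⟨x, hx, rfl⟩ := List.mem_map.1 hy
      exact ⟨x, hx, Or.inl rfl⟩

/-! ### reversal -/

/-- the sign of the reversal of a list of length `n` -/
def eps : ℕ → ℤ
  | 0 => 1
  | n + 1 => (-1) ^ n * eps n

theorem eps_mul_self (n : ℕ) : eps n * eps n = 1 := by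
  induction n with
  | zero => rfl
  | succ n ih =>
    rw [eps, mul_mul_mul_comm, ih, mul_one, ← pow_add, ← two_mul, pow_mul]
    simp

/-- `eps (p + q + 1) = (-1) ^ (p q) eps (p + 1) eps (q + 1)` -/
theorem eps_add (p q : ℕ) : eps (p + q + 1) = (-1) ^ (p * q) * eps (p + 1) * eps (q + 1) := by
  induction q with
  | zero => simp [eps]
  | succ q ih =>
    rw [show p + (q + 1) + 1 = (p + q + 1) + 1 by ring, eps, ih, eps.eq_2 (q + 1)]
    rw [show p + q + 1 = p + (q + 1) by ring, pow_add, mul_add, mul_one, pow_add]
    ring

/-- appending a point -/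
noncomputable def snoc (x : X) : Ch X →ₗ[ℤ] Ch X := lmapDomain ℤ ℤ fun l => l ++ [x]

theorem snoc_single (x : X) (l : List X) (c : ℤ) : snoc x (single l c) = single (l ++ [x]) c := by
  simp [snoc, mapDomain_single]

theorem snoc_cone (x y : X) (c : Ch X) : snoc x (cone y c) = cone y (snoc x c) := by
  induction c using Finsupp.induction_linear with
  | zero => simp
  | add a b ha hb => simp only [map_add, ha, hb]
  | single l c => rw [cone_single, snoc_single, snoc_single, cone_single, List.cons_append]

theorem bd0_snoc (x : X) (l : List X) :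
    bd0 (l ++ [x]) = snoc x (bd0 l) + (-1 : ℤ) ^ l.length • single l 1 := by
  induction l with
  | nil => simp [bd0]
  | cons y l ih =>
    rw [List.cons_append, bd0, ih, bd0, map_sub, map_add, map_smul, snoc_single, snoc_cone,
      cone_single, List.length_cons, pow_succ, mul_neg_one, neg_smul]
    abel

theorem bd0_reverse (l : List X) : eps l.length • bd0 l.reverse =
    lin (fun m : List X => (eps m.length • single m.reverse 1 : Ch X)) (bd0 l) := by
  induction l with
  | nil => simp [bd0]
  | cons x l ih =>
    rw [List.reverse_cons, bd0_snoc, bd0, map_sub, lin_one, lin_cone, List.length_cons, eps,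
      List.length_reverse, smul_add, smul_smul, mul_right_comm, ← pow_add, ← two_mul, pow_mul,
      neg_one_sq, one_pow, one_mul, mul_smul, ← map_smul, ih, map_lin, add_comm, sub_eq_add_neg,
      ← lin_smul, ← map_neg (lin _)]
    congr 1
    rw [map_neg, ← neg_one_smul ℤ (lin _ (bd0 l)), ← lin_smul]
    refine lin_congr (bd0_on l) fun m hm => ?_
    rw [map_smul, snoc_single, List.reverse_cons, List.length_cons, eps, smul_smul, smul_smul,
      ← hm.2, pow_succ]
    congr 1
    ring

/-- the reversal (with its sign) is chain homotopic to the identity -/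
theorem reversal : ∃ h : List X → Ch X, h [] = 0 ∧
    (∀ l, bd (h l) + lin h (bd0 l) = eps l.length • single l.reverse 1 - single l 1) ∧
    ∀ l, h l ∈ On fun m => m.length = l.length + 1 ∧ ∀ y ∈ m, y ∈ l := by
  refine acyclic (fun l => eps l.length • single l.reverse 1 - single l 1)
    (fun l => {y | y ∈ l}) (fun l m hm y hy => hm.subset hy)
    (fun l hl => List.exists_mem_of_ne_nil l hl) (by simp [eps]) ?_ ?_
  · intro l
    rw [map_sub, map_smul, bd_single, bd_single, bd0_reverse, lin_sub, lin_id]
  · intro l
    exact Submodule.sub_mem _ (Submodule.smul_mem _ _ (single_on ⟨by simp, fun y hy =>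
      List.mem_reverse.1 hy⟩ _)) (single_on ⟨rfl, fun y hy => hy⟩ _)

end Chn

end Vale.Agent.P291Z
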