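import Vale.Agent.P291Z.Quiv0

/-!
# Lattices in `V(K)`, `K = ℂ((t))`, `O = ℂ[[t]]`, and truncated elements of `N(O)` and `G(K)`
-/

namespace Vale.Agent.P291Z

open Set Function Matrix
open scoped ENNReal

/-- `K = ℂ((t))` -/
abbrev KK : Type := LaurentSeries ℂ

/-- `O = ℂ[[t]]` -/
abbrev OO : Type := PowerSeries ℂ

/-- `t^k` -/
noncomputable def tp (k : ℤ) : KK := HahnSeries.single k 1

namespace Quiv

variable {I E : Type} (Q : Quiv I E)

/-- Tuples of `O`-submodules of `V_i(K)`. -/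
def Lat : Type := ∀ i, Submodule OO (Fin (Q.v i) → KK)

noncomputable instance : PartialOrder Q.Lat := Pi.partialOrder

/-- The topology of the affine Grassmannian (on each bounded part it is the topology of the
Grassmannian of a finite dimensional space): distances to `L` are continuous in `L`. -/
noncomputable instance : TopologicalSpace Q.Lat :=
  TopologicalSpace.induced (fun (L : Q.Lat) (i : I) (y : Fin (Q.v i) → KK) =>
    (⨅ z ∈ L i, ⨆ (b) (k : ℤ), ‖(y b - z b).coeff k‖ₑ : ℝ≥0∞)) inferInstance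

variable {Q}

/-- `g L` -/
noncomputable def mulL (g : Q.En KK) (L : Q.Lat) : Q.Lat :=
  fun i => (L i).map ((g i).mulVecLin.restrictScalars OO)

/-- `g V(O)`, the lattice generated by the columns of `g`. -/
noncomputable def lat (g : Q.En KK) : Q.Lat := fun i => Submodule.span OO (range (g i)ᵀ)

/-- Constant matrices. -/
noncomputable def cst (g : Q.En ℂ) : Q.En KK := fun i => (g i).map HahnSeries.C

/-- `L' = g g' V(O)` and `L = g V(O)` with `g'` of topological charge `χ`, and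
`t^n L ⊆ L' ⊆ t^(-n) L`. -/
def Rel (n : ℕ) (χ : I → ℤ) (L L' : Q.Lat) : Prop :=
  (∃ g g' : Q.En KK, (∀ i, (g i).det ≠ 0 ∧ (g' i).det ≠ 0 ∧ (g' i).det.order = χ i) ∧
    L = lat g ∧ L' = lat (g * g')) ∧ mulL (tp n • 1) L ≤ L' ∧ L' ≤ mulL (tp (-n) • 1) L

/-- `x ∈ N(K)` lies in `g N(O)` for `L = g V(O)`. -/
def Pres (L : Q.Lat) (x : Q.N KK) : Prop :=
  (∀ e, ∀ y ∈ L (Q.s e), x.1 e *ᵥ y ∈ L (Q.t e)) ∧
    ∀ i, ∀ y ∈ L i, ∀ l, ∀ k < 0, ((x.2 i *ᵥ y) l).coeff k = 0

/-- The polynomial `∑_{k < d} s_k t^k` in `N(O)`. -/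
noncomputable def poly (d : ℕ) (s : ℕ → Q.N ℂ) : Q.N KK :=
  ∑ k ∈ Finset.range d, tp k •
    ((fun e => ((s k).1 e).map HahnSeries.C, fun i => ((s k).2 i).map HahnSeries.C) : Q.N KK)

/-- The coefficient of `t^k`. -/
def coef (x : Q.N KK) (k : ℕ) : Q.N ℂ :=
  (fun e => (x.1 e).map fun a => a.coeff k, fun i => (x.2 i).map fun a => a.coeff k)

/-- The Laurent polynomial `∑_{|k| ≤ n} g_k t^k`. -/
noncomputable def laur {n : ℕ} (g : Finset.Icc (-n : ℤ) n → Q.En ℂ) : Q.En KK :=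
  ∑ k : Finset.Icc (-n : ℤ) n, tp k.1 • cst (g k)

theorem mulL_one (L : Q.Lat) : mulL 1 L = L := funext fun i => by
  simp only [mulL, Pi.one_apply, Matrix.mulVecLin_one]
  exact Submodule.map_id _

theorem mulL_mul (g h : Q.En KK) (L : Q.Lat) : mulL (g * h) L = mulL g (mulL h L) :=
  funext fun i => by
    simp only [mulL, Pi.mul_apply, Matrix.mulVecLin_mul]
    exact Submodule.map_comp ((h i).mulVecLin.restrictScalars OO)
      ((g i).mulVecLin.restrictScalars OO) _

theorem cst_one : cst (1 : Q.En ℂ) = 1 := funext fun _ => Matrix.map_one _ (map_zero _) (map_one _)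

theorem cst_mul (g h : Q.En ℂ) : cst (g * h) = cst g * cst h := funext fun _ => Matrix.map_mul

noncomputable instance {Φ : Type} : MulAction (GG (Q.nn Φ)) Q.Lat where
  smul g L := mulL (cst (Flav.ga Q Φ g)) L
  one_smul L := (congrArg (mulL · L) cst_one).trans (mulL_one L)
  mul_smul _ _ L := (congrArg (mulL · L) (cst_mul _ _)).trans (mulL_mul _ _ L)

variable (Q) [Fintype I] [Fintype E]

/-- `dim N` -/
def dimN : ℤ := ∑ e, (Q.v (Q.t e) * Q.v (Q.s e) : ℤ) + ∑ i, (Q.w i * Q.v i : ℤ)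

/-- The relative dimension of `g N(O)` and `N(O)` for `g` of charge `χ`. -/
def idx (χ : I → ℤ) : ℤ :=
  ∑ e, (Q.v (Q.t e) * χ (Q.s e) - Q.v (Q.s e) * χ (Q.t e)) + ∑ i, Q.w i * χ i

end Quiv

section twist

variable {J J' : Type} (n : J → ℕ) (n' : J' → ℕ) (Z Z' : Type)

/-- `Z × Z'` with the action of a product of two groups. -/
def Pr (_ : J → ℕ) (_ : J' → ℕ) (Z Z' : Type) : Type := Z × Z'

instance [TopologicalSpace Z] [TopologicalSpace Z'] : TopologicalSpace (Pr n n' Z Z') :=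
  instTopologicalSpaceProd

noncomputable instance [MulAction (GG n) Z] [MulAction (GG n') Z'] :
    MulAction (GG (Sum.elim n n')) (Pr n n' Z Z') where
  smul g x := (fstG n n' g • x.1, sndG n n' g • x.2)
  one_smul _ := Prod.ext (one_smul (GG n) _) (one_smul (GG n') _)
  mul_smul g h _ := Prod.ext (mul_smul (fstG n n' g) (fstG n n' h) _)
    (mul_smul (sndG n n' g) (sndG n n' h) _)

/-- `Z` with a product of two groups acting through the second factor. -/
def Snd (_ : J → ℕ) (_ : J' → ℕ) (Z : Type) : Type := Z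

instance [h : TopologicalSpace Z] : TopologicalSpace (Snd n n' Z) := h

instance [h : AddCommGroup Z] : AddCommGroup (Snd n n' Z) := h

instance [AddCommGroup Z] [h : Module ℂ Z] : Module ℂ (Snd n n' Z) := h

noncomputable instance [AddCommGroup Z] [DistribMulAction (GG n') Z] :
    DistribMulAction (GG (Sum.elim n n')) (Snd n n' Z) :=
  DistribMulAction.compHom Z (sndG n n')

end twist

/-- Pairs `(g, f)` of a tuple of Laurent polynomial matrices with exponents in `[-n, n]` and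
`f ∈ ℂ^Φ`, with `(G × F) × (G × F)` acting by left and right multiplication. -/
def WW {I E : Type} (Q : Quiv I E) (Φ : Type) (n : ℕ) : Type :=
  (Finset.Icc (-n : ℤ) n → Q.En ℂ) × (Φ → ℂ)

variable {I E Φ : Type} {Q : Quiv I E} {n : ℕ}

noncomputable instance : AddCommGroup (WW Q Φ n) := Prod.instAddCommGroup

noncomputable instance : Module ℂ (WW Q Φ n) := Prod.instModule

noncomputable instance : TopologicalSpace (WW Q Φ n) := instTopologicalSpaceProd

noncomputable instance : DistribMulAction (GG (Sum.elim (Q.nn Φ) (Q.nn Φ))) (WW Q Φ n) where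
  smul h x := (fun k => Flav.ga Q Φ (fstG _ _ h) * x.1 k * Flav.ga Q Φ (sndG _ _ h⁻¹),
    fun a => Flav.fl Q Φ (fstG _ _ h) a * x.2 a * Flav.fl Q Φ (sndG _ _ h⁻¹) a)
  one_smul x := Prod.ext (funext fun k => by
    change Flav.ga Q Φ (fstG _ _ 1) * x.1 k * Flav.ga Q Φ (sndG _ _ 1⁻¹) = _
    simp) (funext fun a => by
    change (Flav.fl Q Φ (fstG _ _ 1) a : ℂ) * x.2 a * Flav.fl Q Φ (sndG _ _ 1⁻¹) a = _
    simp)
  mul_smul g h x := Prod.ext (funext fun k => by
    change Flav.ga Q Φ (fstG _ _ (g * h)) * x.1 k * Flav.ga Q Φ (sndG _ _ (g * h)⁻¹) =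
      Flav.ga Q Φ (fstG _ _ g) * (Flav.ga Q Φ (fstG _ _ h) * x.1 k * Flav.ga Q Φ (sndG _ _ h⁻¹)) *
        Flav.ga Q Φ (sndG _ _ g⁻¹)
    simp only [_root_.mul_inv_rev, map_mul, mul_assoc]) (funext fun a => by
    change (Flav.fl Q Φ (fstG _ _ (g * h)) a : ℂ) * x.2 a * Flav.fl Q Φ (sndG _ _ (g * h)⁻¹) a =
      Flav.fl Q Φ (fstG _ _ g) a * (Flav.fl Q Φ (fstG _ _ h) a * x.2 a *
        Flav.fl Q Φ (sndG _ _ h⁻¹) a) * Flav.fl Q Φ (sndG _ _ g⁻¹) a
    simp only [_root_.mul_inv_rev, map_mul, Pi.mul_apply, Units.val_mul]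
    ring)
  smul_zero h := Prod.ext (funext fun k => by
    change _ * (0 : Q.En ℂ) * _ = 0
    simp) (funext fun a => by
    change _ * (0 : ℂ) * _ = 0
    simp)
  smul_add h x y := Prod.ext (funext fun k => by
    change _ * (x.1 k + y.1 k) * _ = _ * x.1 k * _ + _ * y.1 k * _
    rw [mul_add, add_mul]) (funext fun a => by
    change _ * (x.2 a + y.2 a) * _ = _ * x.2 a * _ + _ * y.2 a * _
    rw [mul_add, add_mul])

end Vale.Agent.P291Z
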