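import Vale.Agent.P291Z.CoulRingLem

/-!
# The ring `A_F`, its gradings, and the coordinate ring of the fixed locus
-/

namespace Vale.Agent.P291Z.Flav

variable {I E Φ : Type} {Q : Quiv I E} [Fintype Φ] [Fintype I] [Fintype E] (A : Flav Q Φ)

noncomputable instance : CommRing A.AA where
  mul a b := A.conv a b
  one := A.coefA 1
  left_distrib a b c := map_add (A.conv a) b c
  right_distrib a b c := LinearMap.map_add₂ A.conv a b c
  zero_mul a := LinearMap.map_zero₂ A.conv a
  mul_zero a := map_zero (A.conv a)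
  mul_assoc := A.conv_assoc
  one_mul := A.one_conv
  mul_one a := (A.conv_comm a _).trans (A.one_conv a)
  mul_comm := A.conv_comm

/-- The part of `A_F` of homological degree `k`. -/
noncomputable def Adeg (k : ℤ) : Submodule ℂ A.AA :=
  Submodule.span ℂ {a | ∃ n χ, ∃ β : A.An n χ k, a = cls β}

/-- The part of `A_F` of weight `m` for the character `ν`. -/
noncomputable def Awt (ν : I → ℤ) (m : ℤ) : Submodule ℂ A.AA :=
  Submodule.span ℂ {a | ∃ n χ k, ∃ β : A.An n χ k, ∑ i, ν i * χ i = m ∧ a = cls β}

/-- The ideal generated by the parts of nonzero weight. -/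
noncomputable def JJ (ν : I → ℤ) : Ideal A.AA := Ideal.span {a | ∃ m ≠ 0, a ∈ A.Awt ν m}

/-- The coordinate ring of the scheme-theoretic fixed locus. -/
abbrev CY (ν : I → ℤ) : Type := A.AA ⧸ A.JJ ν

/-- The coefficient map `φ_C`. -/
noncomputable def phiC (ν : I → ℤ) (r : RR Q Φ) : A.CY ν := Ideal.Quotient.mk _ (A.coefA r)

end Vale.Agent.P291Z.Flav
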