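import Vale.Agent.P291Z.C.CMulF

/-!
# The ring axioms for the convolution product
-/

namespace Vale.Agent.P291Z.Flav

variable {I E Φ : Type} {Q : Quiv I E} [Fintype Φ] [Fintype I] [Fintype E] (A : Flav Q Φ)

theorem conv_assoc (a b c : A.AA) : A.conv (A.conv a b) c = A.conv a (A.conv b c) := by
  classical
  exact (mult (exists_wts A).some).conv_assoc a b c

theorem conv_comm (a b : A.AA) : A.conv a b = A.conv b a := by
  classical
  exact (mult (exists_wts A).some).conv_comm a b

theorem one_conv (a : A.AA) : A.conv (A.coefA 1) a = a := by
  classical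
  exact (mult (exists_wts A).some).one_conv a

end Vale.Agent.P291Z.Flav
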