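import Vale.Agent.P291Z.Ops

/-!
# Auxiliary statements for the calculus of equivariant Borel-Moore homology
-/

namespace Vale.Agent.P291Z

open Set Function Topology

section bm

variable {X Y : Type} [TopologicalSpace X] [TopologicalSpace Y]

theorem bm_comp_eq {k : ℤ} {β : BM X} (h : BM.IsDeg k β) : (Hc.comp k).dualMap β = β := by
  refine LinearMap.ext fun c => ?_
  rw [LinearMap.dualMap_apply]
  refine c.induction_deg (P := fun c => β (Hc.comp k c) = β c) (by rw [map_zero])
    (fun a b ha hb => by rw [map_add, map_add, map_add, ha, hb]) fun j => ?_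
  by_cases hj : j = k
  · subst hj
    rw [Hc.comp_of_mem (Hc.comp_mem j c)]
  · rw [Hc.comp_of_ne (Hc.comp_mem j c) (Ne.symm hj), map_zero,
      BM.isDeg_iff.1 h j hj _ (Hc.comp_mem j c)]

theorem bm_comp_ne {k j : ℤ} {β : BM X} (h : BM.IsDeg k β) (hj : j ≠ k) :
    (Hc.comp j).dualMap β = 0 :=
  LinearMap.ext fun c => BM.isDeg_iff.1 h j hj _ (Hc.comp_mem j c)

/-- the self-intersection formula -/
theorem gys_push_self [Nice X] [Nice Y] {i : Y → X} (hi : IsClosedEmbedding i) {t : Coch X}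
    (ht : supp (δ t) = ∅) (hs : supp t ⊆ range i) (β : BM Y) :
    gys i t (push i β) = cap (hcls (pull i t)) β := by
  refine LinearMap.ext fun c => ?_
  rw [gys_apply, push_apply, cap_apply, cgys_eq hi ht hs, cpull_eq (IsPr.of_isClosedEmbedding hi),
    Hc.pull_gys hi ht hs (cocycle_pull hi.continuous ht), Hc.act_hcls]

end bm

section rep

variable {G G' W W' : Type} [Group G] [TopologicalSpace G] [Group G'] [TopologicalSpace G']
  [AddCommGroup W] [Module ℂ W] [TopologicalSpace W] [DistribMulAction G W]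
  [AddCommGroup W'] [Module ℂ W'] [TopologicalSpace W'] [DistribMulAction G' W'] {r r' : ℕ}

theorem IsRep.continuous_lin (h : IsRep G W r) (h' : IsRep G' W' r') (L : W →ₗ[ℂ] W') :
    Continuous L := by
  obtain ⟨e⟩ := h.lin
  obtain ⟨e'⟩ := h'.lin
  have := (e'.toLinearMap ∘ₗ L ∘ₗ e.symm.toLinearMap).continuous_of_finiteDimensional
  refine (e'.symm.continuous.comp (this.comp e.continuous)).congr fun w => ?_
  simp

/-- the Thom cocycle of a bundle of rank zero -/
theorem thom_rank_zero (hW : IsRep G W 0) {Z P : Type} [TopologicalSpace Z] [MulAction G Z]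
    [TopologicalSpace P] [MulAction G P] : thom (⊤ : SubMulAction G (Z × W)) P = 1 := by
  obtain ⟨e⟩ := hW.lin
  have hs : Subsingleton W := e.injective.subsingleton
  have hr : ∀ r φ, fib (⊤ : SubMulAction G (Z × W)) P r φ → r = 0 := by
    rintro r φ ⟨z, u, ℓ, h1, -⟩
    by_contra h
    have := congrFun (h1 (Subsingleton.elim (ℓ 0) (ℓ 1))) ⟨0, Nat.pos_of_ne_zero h⟩
    exact zero_ne_one this
  have h1 : IsThom {x | ∃ y : (⊤ : SubMulAction G (Z × W)) × P, y.1.1.2 = 0 ∧ x = Bor.mk G y}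
      (fib ⊤ P) 1 := by
    refine ⟨cocycle_one, fun x _ => ?_, fun r φ h => ?_⟩
    · obtain ⟨y, rfl⟩ := Quotient.exists_rep x
      exact ⟨y, Subsingleton.elim _ _, rfl⟩
    · obtain rfl := hr r φ h
      refine ⟨by rw [map_one, tau_zero]; exact Cohom.refl _ _, fun z l hl => isDeg_one _ ?_⟩
      simp only [List.length_cons]
      omega
  have h2 := Classical.epsilon_spec (⟨1, h1⟩ : ∃ t, IsThom _ (fib (⊤ : SubMulAction G (Z × W)) P) t)
  have h3 : ∀ x : Bor G (⊤ : SubMulAction G (Z × W)) P, fib ⊤ P 0 fun _ => x := by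
    intro x
    obtain ⟨⟨⟨⟨z, w⟩, hw⟩, u⟩, rfl⟩ := Quotient.exists_rep x
    obtain rfl : w = 0 := Subsingleton.elim _ _
    exact ⟨z, u, 0, fun _ _ _ => Subsingleton.elim _ _,
      fun w => ⟨fun _ => ⟨0, Subsingleton.elim _ _⟩, fun _ => trivial⟩, fun _ => ⟨trivial, rfl⟩⟩
  refine IsDeg.ext_zero (fun l hl => ?_) isDeg_one fun x => ?_
  · match l, hl with
    | [], _ => exact (thom _ P).2.1
    | x :: l, hl => exact (h2.2.2 0 _ (h3 x)).2 0 l (by simp only [List.length_cons] at hl; omega)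
  · obtain ⟨c, -, hc⟩ := (h2.2.2 0 _ (h3 x)).1
    have := Van.val_single (supp_eq_empty.1 hc 0)
    rw [tau_zero, Coch.sub_val, Coch.sub_val, Pi.sub_apply, Pi.sub_apply, δ_val_single, sub_zero,
      sub_eq_zero] at this
    exact this

end rep

end Vale.Agent.P291Z
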