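import Vale.Agent.P291Z.EH1c

/-!
# Calculus of equivariant Borel-Moore homology
-/

set_option linter.unusedSectionVars false

namespace Vale.Agent.P291Z

open Set Function Topology

variable {G G' G'' : Type} [Group G] [TopologicalSpace G] [Sys G] [Group G'] [TopologicalSpace G']
  [Sys G'] [Group G''] [TopologicalSpace G''] [Sys G'']

section equiv

variable {X Y Z U X' Y' U' : Type} [TopologicalSpace X] [MulAction G X] [Nice X]
  [ContinuousSMul G X] [TopologicalSpace Y] [MulAction G Y] [Nice Y] [ContinuousSMul G Y]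
  [TopologicalSpace Z] [MulAction G Z] [Nice Z] [ContinuousSMul G Z]
  [TopologicalSpace U] [MulAction G U] [Nice U] [ContinuousSMul G U]
  [TopologicalSpace X'] [MulAction G X'] [Nice X'] [ContinuousSMul G X']
  [TopologicalSpace Y'] [MulAction G Y'] [Nice Y'] [ContinuousSMul G Y']
  [TopologicalSpace U'] [MulAction G U'] [Nice U'] [ContinuousSMul G U']

variable {W : Type} [AddCommGroup W] [Module ℂ W] [TopologicalSpace W] [DistribMulAction G W]
  {r : ℕ}

variable (G X W) in
/-- the zero section -/
def zeroH : X →[G] W := ⟨fun _ => 0, fun g _ => (smul_zero g).symm⟩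

theorem eul_HSdeg (hW : IsRep G W r) {σ : X →[G] W} (hσ : Continuous σ) :
    (fun M => hcls (eul σ M)) ∈ HSdeg G X (2 * r) := fun M =>
  have ht := isCoc_eul hW hσ
  ⟨(H.map_hcls _ (ht.cocycle _)).trans ((ht.compat M).hcls_eq (ht.cocycle M)),
    hcls_isDeg (ht.deg M)⟩

/-- the equivariant Euler class of a representation -/
noncomputable def eu (hW : IsRep G W r) : HS G Unit :=
  ⟨fun M => hcls (euler (fun _ : Unit × Sys.P G M => (0 : W)) fun h _ => (smul_zero h).symm),
    Subring.subset_closure (mem_iUnion.2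
      ⟨2 * r, eul_HSdeg hW (σ := zeroH G Unit W) continuous_const⟩)⟩

theorem eu_deg (hW : IsRep G W r) : (eu hW).1 ∈ HSdeg G Unit (2 * r) := by
  exact eul_HSdeg hW (σ := zeroH G Unit W) continuous_const

theorem hcls_eul (hW : IsRep G W r) {σ : X →[G] W} (hσ : Continuous σ) (M : ℕ) :
    hcls (eul σ M) = H.map (bptC G X M) ((eu hW).1 M) := by
  let f : X →[G] Unit := ⟨fun _ => (), fun _ _ => rfl⟩
  have h0 := isCoc_eul hW (σ := zeroH G Unit W) continuous_const
  have h1 := isCoc_eul hW (σ := (zeroH G Unit W).comp f) continuous_const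
  have e1 : H.map (bptC G X M) ((eu hW).1 M) = hcls (pull (smap f M) (eul (zeroH G Unit W) M)) :=
    H.map_hcls (bptC G X M) (h0.cocycle M)
  have e2 := (eul_pull hW (σ := zeroH G Unit W) continuous_const
    (f := f) continuous_const M).hcls_eq (h1.cocycle M)
  rw [e1, e2]
  exact hcls_euler hW _ (hσ.comp continuous_fst) _ continuous_const

theorem epush_egys_eul (hW : IsRep G W r) {σ : X →[G] W} (hσ : Continuous σ) {i : Y →[G] X}
    (hi : IsClosedEmbedding i) (h : σ ⁻¹' {0} ⊆ range i) (β : EH G X) :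
    epush i (egys i (eul σ) β) = eu hW • β := by
  have ht := (isCoc_eul hW hσ).mono h
  refine EH.ext fun M => ?_
  rw [epush_apply (IsPr.of_isClosedEmbedding hi), egys_apply hi ht, EH.smul_apply,
    ← hcls_eul hW hσ, ← gys_id_eq_cap (ht.cocycle M)]
  exact push_gys (isClosedEmbedding_smap hi M) IsClosedEmbedding.id (ht.cocycle M)
    (ht.isCo M).supp _

theorem egys_eul_epush (hW : IsRep G W r) {σ : X →[G] W} (hσ : Continuous σ) {i : Y →[G] X}
    (hi : IsClosedEmbedding i) (h : σ ⁻¹' {0} ⊆ range i) (β : EH G Y) :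
    egys i (eul σ) (epush i β) = eu hW • β := by
  have ht := (isCoc_eul hW hσ).mono h
  refine EH.ext fun M => ?_
  rw [egys_apply hi ht, epush_apply (IsPr.of_isClosedEmbedding hi), EH.smul_apply,
    map_bptC hi.continuous, ← hcls_eul hW hσ, H.map_hcls _ (ht.cocycle M)]
  exact gys_push_self (isClosedEmbedding_smap hi M) (ht.cocycle M) (ht.isCo M).supp _

/-- a nowhere vanishing section: the Euler class acts by zero -/
theorem eu_smul_eq_zero (hW : IsRep G W r) {σ : X →[G] W} (hσ : Continuous σ) (h : ∀ x, σ x ≠ 0)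
    (β : EH G X) : eu hW • β = 0 := by
  have ht := isCoc_eul hW hσ
  refine EH.ext fun M => ?_
  have h0 : hcls (eul σ M) = 0 := by
    rw [← hcls_zero]
    refine hcls_eq_of_null cocycle_zero fun x hx => ?_
    rw [sub_zero] at hx
    obtain ⟨y, hy, -⟩ := ht.supp M hx
    exact h _ hy
  rw [EH.smul_apply, ← hcls_eul hW hσ, h0]
  exact LinearMap.ext fun c => by rw [cap_apply, map_zero, LinearMap.zero_apply, map_zero]; rfl

theorem eu_prod {W' : Type} [AddCommGroup W'] [Module ℂ W'] [TopologicalSpace W']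
    [DistribMulAction G W'] {r' : ℕ} (hW : IsRep G W r) (hW' : IsRep G W' r') :
    eu (hW.prod hW') = eu hW * eu hW' := by
  have h1 := isCoc_eul hW (σ := zeroH G Unit W) continuous_const
  have h2 := isCoc_eul hW' (σ := zeroH G Unit W') continuous_const
  refine Subtype.ext (funext fun M => ?_)
  exact ((eul_prod hW hW' (σ := zeroH G Unit W) continuous_const (σ' := zeroH G Unit W')
    continuous_const (τ := zeroH G Unit (W × W')) (fun _ => rfl) M).hcls_eq
    (cocycle_mul (h1.cocycle M) (h2.cocycle M))).trans (hcls_mul (h1.cocycle M) (h2.cocycle M))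

theorem eu_congr {W' : Type} [AddCommGroup W'] [Module ℂ W'] [TopologicalSpace W']
    [DistribMulAction G W'] (hW : IsRep G W r) (hW' : IsRep G W' r) (L : W ≃ₗ[ℂ] W')
    (hL : ∀ (g : G) w, L (g • w) = g • L w) : eu hW = eu hW' := by
  have h2 := isCoc_eul hW' (σ := zeroH G Unit W') continuous_const
  refine Subtype.ext (funext fun M => ?_)
  exact (eul_iso hW hW' (σ := zeroH G Unit W) continuous_const (σ' := zeroH G Unit W')
    (fun _ => L.toLinearMap) ((hW.continuous_lin hW' _).comp continuous_snd)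
    (fun _ => L.bijective) (fun g _ w => hL g w) (fun _ => map_zero _) M).hcls_eq (h2.cocycle M)

theorem eu_zero (hW : IsRep G W 0) : eu hW = 1 := by
  refine Subtype.ext (funext fun M => ?_)
  change hcls (pull _ (thom _ _)) = 1
  rw [thom_rank_zero hW, map_one, hcls_one]

end equiv

end Vale.Agent.P291Z
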