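import Vale.Agent.P291Z.Eul
import Vale.Agent.P291Z.EH0

/-!
# Calculus of equivariant Borel-Moore homology
-/

set_option linter.unusedSectionVars false

namespace Vale.Agent.P291Z

open Set Function Topology

variable {G G' G'' : Type} [Group G] [TopologicalSpace G] [Sys G] [Group G'] [TopologicalSpace G']
  [Sys G'] [Group G''] [TopologicalSpace G''] [Sys G'']

section basic

variable {Z Z' Z'' : Type} [TopologicalSpace Z] [MulAction G Z] [Nice Z] [ContinuousSMul G Z]
  [TopologicalSpace Z'] [MulAction G' Z'] [Nice Z'] [ContinuousSMul G' Z']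
  [TopologicalSpace Z''] [MulAction G'' Z''] [Nice Z''] [ContinuousSMul G'' Z'']

theorem EH.ext {β β' : EH G Z} (h : ∀ M, β.1 M = β'.1 M) : β = β' := Subtype.ext (funext h)

theorem mem_FamS_iff {k : ℤ} {β : ∀ M, BM (Bq G Z M)} : β ∈ FamS G Z k ↔
    ∀ M, gys (binc G Z M) (ecol G Z M) (β (M + 1)) = β M ∧
      BM.IsDeg (k + 2 * Sys.dim G M) (β M) := by
  exact forall_congr' fun M => and_congr_left' (Gys_iff (isClosedEmbedding_binc M)
    (isCo_ecol M).cocycle (isCo_ecol M).supp)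

theorem EH.compat (β : EH G Z) (M : ℕ) :
    gys (binc G Z M) (ecol G Z M) (β.1 (M + 1)) = β.1 M := by
  refine Submodule.iSup_induction (FamS G Z)
    (motive := fun β => gys (binc G Z M) (ecol G Z M) (β (M + 1)) = β M) β.2
    (fun k β h => (mem_FamS_iff.1 h M).1) (map_zero _) fun a b ha hb => ?_
  rw [Pi.add_apply, Pi.add_apply, map_add, ha, hb]

/-- an element is determined by its values for large `M` -/
theorem EH.ext_large {β β' : EH G Z} (M₀ : ℕ) (h : ∀ M, M₀ ≤ M → β.1 M = β'.1 M) : β = β' := by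
  have key : ∀ n M, M₀ ≤ M + n → β.1 M = β'.1 M := by
    intro n
    induction n with
    | zero => exact h
    | succ n ih => exact fun M hM => by rw [← β.compat, ← β'.compat, ih (M + 1) (by omega)]
  exact EH.ext fun M => key M₀ M (Nat.le_add_left _ _)

/-- a family given for large `M` extends -/
theorem EH.exists_of_large {k : ℤ} (M₀ : ℕ) (β : ∀ M, BM (Bq G Z M))
    (h : ∀ M, M₀ ≤ M → gys (binc G Z M) (ecol G Z M) (β (M + 1)) = β M ∧
      BM.IsDeg (k + 2 * Sys.dim G M) (β M)) :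
    ∃ γ ∈ EH.deg G Z k, ∀ M, M₀ ≤ M → γ.1 M = β M := by
  induction M₀ generalizing β with
  | zero => exact ⟨EH.mk β (mem_FamS_iff.2 fun M => h M (Nat.zero_le M)),
      mem_FamS_iff.2 fun M => h M (Nat.zero_le M), fun _ _ => rfl⟩
  | succ N ih =>
    obtain ⟨γ, h1, h2⟩ := ih (update β N (gys (binc G Z N) (ecol G Z N) (β (N + 1)))) fun M hM => by
      rw [update_of_ne (by omega)]
      by_cases e : M = N
      · subst e
        rw [update_self]
        refine ⟨rfl, ?_⟩
        have := (h (M + 1) le_rfl).2.gys (binc G Z M) (isCo_ecol M).deg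
        rwa [Sys.dim_succ, show k + 2 * (Sys.dim G M + (Sys.rk G : ℤ)) - 2 * (Sys.rk G : ℤ) =
          k + 2 * Sys.dim G M by ring] at this
      · rw [update_of_ne e]
        exact h M (by omega)
    exact ⟨γ, h1, fun M hM => by rw [h2 M (by omega), update_of_ne (by omega)]⟩

theorem EH.induction {P : EH G Z → Prop} (β : EH G Z) (h0 : P 0)
    (hadd : ∀ a b, P a → P b → P (a + b)) (h : ∀ k, ∀ a ∈ EH.deg G Z k, P a) : P β := by
  obtain ⟨β, hβ⟩ := β
  exact Submodule.iSup_induction' (FamS G Z) (motive := fun β hβ => P ⟨β, hβ⟩)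
    (fun k a ha => h k _ ha) h0 (fun a b _ _ ha hb => hadd _ _ ha hb) hβ

theorem EH.mem_deg {k : ℤ} {β : EH G Z} : β ∈ EH.deg G Z k ↔ β.1 ∈ FamS G Z k := Iff.rfl

theorem EH.add_apply (β β' : EH G Z) (M : ℕ) : (β + β').1 M = β.1 M + β'.1 M := rfl

theorem EH.zero_apply (M : ℕ) : (0 : EH G Z).1 M = 0 := rfl

theorem EH.csmul_apply (z : ℂ) (β : EH G Z) (M : ℕ) : (z • β).1 M = z • β.1 M := rfl

theorem EH.lift_apply' {φ : ∀ M, BM (Bq G Z M) →ₗ[ℂ] BM (Bq G' Z' M)}
    (h : ∀ β ∈ EHs G Z, (fun M => φ M (β M)) ∈ EHs G' Z') (β : EH G Z) (M : ℕ) :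
    (EH.lift φ β).1 M = φ M (β.1 M) := by
  have h' : ∀ β ∈ EHs G Z, LinearMap.pi (fun M => φ M ∘ₗ LinearMap.proj M) β ∈ EHs G' Z' := h
  have e : EH.lift φ = (LinearMap.pi fun M => φ M ∘ₗ LinearMap.proj M).restrict h' := dif_pos h'
  rw [e]
  rfl

theorem EH.lift_apply {φ : ∀ M, BM (Bq G Z M) →ₗ[ℂ] BM (Bq G' Z' M)} {c : ℤ}
    (h : ∀ k, ∀ β ∈ FamS G Z k, (fun M => φ M (β M)) ∈ FamS G' Z' (k + c)) (β : EH G Z) (M : ℕ) :
    (EH.lift φ β).1 M = φ M (β.1 M) := by
  exact EH.lift_apply' (fun β hβ => Submodule.iSup_induction (FamS G Z)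
    (motive := fun β => (fun M => φ M (β M)) ∈ EHs G' Z') hβ
    (fun k β hβ => Submodule.mem_iSup_of_mem (k + c) (h k β hβ))
    (by simp only [Pi.zero_apply, map_zero]; exact Submodule.zero_mem _)
    fun a b ha hb => by
      simp only [Pi.add_apply, map_add]; exact Submodule.add_mem _ ha hb) β M

/-- the homogeneous components -/
noncomputable def EH.comp (k : ℤ) : EH G Z →ₗ[ℂ] EH G Z :=
  EH.lift fun M => (Hc.comp (k + 2 * Sys.dim G M)).dualMap

theorem EH.comp_apply (k : ℤ) (β : EH G Z) (M : ℕ) :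
    (EH.comp k β).1 M = (Hc.comp (k + 2 * Sys.dim G M)).dualMap (β.1 M) := by
  refine EH.lift_apply (c := 0) (fun j β h => ?_) β M
  rw [add_zero]
  by_cases hj : j = k
  · subst hj
    rwa [show (fun M => (Hc.comp (j + 2 * Sys.dim G M)).dualMap (β M)) = β from
      funext fun M => bm_comp_eq (mem_FamS_iff.1 h M).2]
  · rw [show (fun M => (Hc.comp (k + 2 * Sys.dim G M)).dualMap (β M)) = 0 from
      funext fun M => bm_comp_ne (mem_FamS_iff.1 h M).2 (by omega)]
    exact Submodule.zero_mem _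

theorem EH.comp_of_mem {k : ℤ} {β : EH G Z} (h : β ∈ EH.deg G Z k) : EH.comp k β = β := by
  exact EH.ext fun M => (EH.comp_apply k β M).trans (bm_comp_eq (mem_FamS_iff.1 h M).2)

theorem EH.comp_of_ne {k j : ℤ} {β : EH G Z} (h : β ∈ EH.deg G Z k) (hj : j ≠ k) :
    EH.comp j β = 0 := by
  exact EH.ext fun M => (EH.comp_apply j β M).trans (bm_comp_ne (mem_FamS_iff.1 h M).2 (by omega))

theorem EH.comp_mem (k : ℤ) (β : EH G Z) : EH.comp k β ∈ EH.deg G Z k := by
  refine β.induction (P := fun β => EH.comp k β ∈ EH.deg G Z k)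
    (by rw [map_zero]; exact Submodule.zero_mem _)
    (fun a b ha hb => by rw [map_add]; exact Submodule.add_mem _ ha hb) fun j a ha => ?_
  by_cases hj : k = j
  · subst hj
    rwa [EH.comp_of_mem ha]
  · rw [EH.comp_of_ne ha hj]
    exact Submodule.zero_mem _

theorem EH.isInternal : DirectSum.IsInternal (EH.deg G Z) := by
  refine DirectSum.isInternal_submodule_of_iSupIndep_of_iSup_eq_top (fun k => ?_) ?_
  · rw [Submodule.disjoint_def]
    intro β h1 h2
    rw [← EH.comp_of_mem h1]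
    refine Submodule.iSup_induction _ (motive := fun β => EH.comp k β = 0) h2 (fun j β hβ => ?_)
      (map_zero _) fun a b ha hb => by rw [map_add, ha, hb, add_zero]
    by_cases hj : j = k
    · rw [iSup_neg (not_not.2 hj), Submodule.mem_bot] at hβ
      rw [hβ, map_zero]
    · rw [iSup_pos hj] at hβ
      exact EH.comp_of_ne hβ (Ne.symm hj)
  · refine eq_top_iff.2 fun β _ => ?_
    exact β.induction (Submodule.zero_mem _) (fun _ _ => Submodule.add_mem _)
      fun k a ha => Submodule.mem_iSup_of_mem k ha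

theorem EH.exists_sum_comp (β : EH G Z) : ∃ s : Finset ℤ, ∑ k ∈ s, EH.comp k β = β ∧
    ∀ k ∉ s, EH.comp k β = 0 := by
  refine β.induction (P := fun β => ∃ s : Finset ℤ, ∑ k ∈ s, EH.comp k β = β ∧
    ∀ k ∉ s, EH.comp k β = 0) ⟨∅, rfl, fun _ _ => map_zero _⟩ ?_ fun k a ha => ?_
  · rintro a b ⟨s, h1, h2⟩ ⟨t, h3, h4⟩
    refine ⟨s ∪ t, ?_, fun k hk => ?_⟩
    · simp only [map_add, Finset.sum_add_distrib]
      rw [← Finset.sum_subset Finset.subset_union_left fun k _ hk => h2 k hk,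
        ← Finset.sum_subset Finset.subset_union_right fun k _ hk => h4 k hk, h1, h3]
    · rw [Finset.mem_union, not_or] at hk
      rw [map_add, h2 k hk.1, h4 k hk.2, add_zero]
  · exact ⟨{k}, by rw [Finset.sum_singleton, EH.comp_of_mem ha],
      fun j hj => EH.comp_of_ne ha (by simpa using hj)⟩

/-- a linear map of degree `c` commutes with the components -/
theorem EH.comp_map {φ : EH G Z →ₗ[ℂ] EH G' Z'} {c : ℤ}
    (h : ∀ k, ∀ β ∈ EH.deg G Z k, φ β ∈ EH.deg G' Z' (k + c)) (k : ℤ) (β : EH G Z) :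
    EH.comp (k + c) (φ β) = φ (EH.comp k β) := by
  refine β.induction (P := fun β => EH.comp (k + c) (φ β) = φ (EH.comp k β))
    (by simp only [map_zero]) (fun a b ha hb => by simp only [map_add, ha, hb]) fun j a ha => ?_
  by_cases hj : k = j
  · subst hj
    rw [EH.comp_of_mem ha, EH.comp_of_mem (h k a ha)]
  · rw [EH.comp_of_ne ha hj, EH.comp_of_ne (h j a ha) (by omega), map_zero]

/-- levelwise bijective maps which commute with the Gysin maps give a bijection -/
theorem EH.lift_bijective {φ : ∀ M, Hc (Bq G' Z' M) →ₗ[ℂ] Hc (Bq G Z M)} {e : ℕ → ℤ} {c : ℤ}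
    (he : ∀ M, 2 * Sys.dim G M - e M = c + 2 * Sys.dim G' M)
    (hd : ∀ M j, ∀ a ∈ Hc.deg (Bq G' Z' M) j, φ M a ∈ Hc.deg (Bq G Z M) (j + e M))
    (hc : ∀ M β, gys (binc G' Z' M) (ecol G' Z' M) ((φ (M + 1)).dualMap β) =
      (φ M).dualMap (gys (binc G Z M) (ecol G Z M) β))
    (hb : ∀ M, Bijective (φ M)) : Bijective (EH.lift fun M => (φ M).dualMap) := by
  have h1 : ∀ β M, (EH.lift (fun M => (φ M).dualMap) β).1 M = (φ M).dualMap (β.1 M) :=
    EH.lift_apply (c := c) fun k β h => mem_FamS_iff.2 fun M =>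
      ⟨by rw [hc, (mem_FamS_iff.1 h M).1], BM.isDeg_iff.2 fun j hj a ha =>
        BM.isDeg_iff.1 (mem_FamS_iff.1 h M).2 (j + e M) (by have := he M; omega) _ (hd M j a ha)⟩
  have h2 : ∀ M, Bijective (φ M).dualMap := fun M =>
    (LinearEquiv.ofBijective _ (hb M)).dualMap.bijective
  refine ⟨fun β β' h => EH.ext fun M => (h2 M).1 (by rw [← h1, ← h1, h]), fun γ => ?_⟩
  refine γ.induction (P := fun γ => ∃ β, EH.lift (fun M => (φ M).dualMap) β = γ) ⟨0, map_zero _⟩
    ?_ fun k γ hγ => ?_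
  · rintro _ _ ⟨a, rfl⟩ ⟨b, rfl⟩
    exact ⟨a + b, map_add _ _ _⟩
  · choose β hβ using fun M => (h2 M).2 (γ.1 M)
    refine ⟨EH.mk (k := k - c) β (mem_FamS_iff.2 fun M => ⟨(h2 M).1 ?_, ?_⟩),
      EH.ext fun M => (h1 _ M).trans (hβ M)⟩
    · rw [← hc, hβ, hβ, γ.compat]
    · refine BM.isDeg_iff.2 fun j hj a ha => ?_
      obtain ⟨b, rfl⟩ := (hb M).2 a
      rw [← Hc.comp_of_mem ha, show j = j - e M + e M by ring, Hc.comp_map (hd M),
        ← LinearMap.dualMap_apply, hβ]
      exact BM.isDeg_iff.1 (mem_FamS_iff.1 hγ M).2 _ (by have := he M; omega) _ (Hc.comp_mem _ _)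

theorem cap_mem {j k : ℤ} {c : ∀ M, H (Bq G Z M)} (hc : c ∈ HSdeg G Z j)
    {β : ∀ M, BM (Bq G Z M)} (h : β ∈ FamS G Z k) :
    (fun M => cap (c M) (β M)) ∈ FamS G Z (k - j) := mem_FamS_iff.2 fun M => ⟨by
  rw [← (hc M).1, ← (mem_FamS_iff.1 h M).1]
  exact gys_cap (i := bincC G Z M) (isClosedEmbedding_binc M) (isCo_ecol M) _ _, by
  have := (mem_FamS_iff.1 h M).2.cap (hc M).2
  rwa [show k + 2 * Sys.dim G M - j = k - j + 2 * Sys.dim G M by ring] at this⟩

theorem cap_add' {X : Type} [TopologicalSpace X] (c c' : H X) (β : BM X) :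
    cap (c + c') β = cap c β + cap c' β :=
  LinearMap.ext fun a => by
    rw [LinearMap.add_apply, cap_apply, cap_apply, cap_apply, map_add, LinearMap.add_apply, map_add]

theorem cap_zero' {X : Type} [TopologicalSpace X] (β : BM X) : cap (0 : H X) β = 0 :=
  LinearMap.ext fun a => by rw [cap_apply, map_zero, LinearMap.zero_apply, map_zero]; rfl

theorem cap_neg' {X : Type} [TopologicalSpace X] (c : H X) (β : BM X) :
    cap (-c) β = -cap c β :=
  LinearMap.ext fun a => by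
    rw [LinearMap.neg_apply, cap_apply, cap_apply, map_neg, LinearMap.neg_apply, map_neg]

theorem cap_smul' {X : Type} [TopologicalSpace X] (z : ℂ) (c : H X) (β : BM X) :
    cap (z • c) β = z • cap c β :=
  LinearMap.ext fun a => by
    rw [LinearMap.smul_apply, cap_apply, cap_apply, map_smul, LinearMap.smul_apply, map_smul]

theorem EHs_congr {a b : ∀ M, BM (Bq G Z M)} (hb : b ∈ EHs G Z) (h : ∀ M, a M = b M) :
    a ∈ EHs G Z := by rwa [funext h]

theorem cap_mem_EHs' {j : ℤ} {c : ∀ M, H (Bq G Z M)} (hc : c ∈ HSdeg G Z j)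
    {β : ∀ M, BM (Bq G Z M)} (hβ : β ∈ EHs G Z) : (fun M => cap (c M) (β M)) ∈ EHs G Z :=
  Submodule.iSup_induction (FamS G Z)
    (motive := fun β => (fun M => cap (c M) (β M)) ∈ EHs G Z) hβ
    (fun k _ hβ => Submodule.mem_iSup_of_mem (k - j) (cap_mem hc hβ))
    (EHs_congr (Submodule.zero_mem _) fun M => map_zero (cap (c M)))
    fun a b ha hb => EHs_congr (Submodule.add_mem _ ha hb) fun M => map_add (cap (c M)) (a M) (b M)

variable (G Z) in
/-- families of cohomology classes that act on the families of homology classes -/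
noncomputable def capRing : Subring (∀ M, H (Bq G Z M)) where
  carrier := {c | ∀ β ∈ EHs G Z, (fun M => cap (c M) (β M)) ∈ EHs G Z}
  zero_mem' β _ := EHs_congr (Submodule.zero_mem _) fun M => cap_zero' (β M)
  one_mem' β hβ := EHs_congr hβ fun M => cap_one (β M)
  add_mem' {a b} ha hb β hβ :=
    EHs_congr (Submodule.add_mem _ (ha β hβ) (hb β hβ)) fun M => cap_add' (a M) (b M) (β M)
  neg_mem' {a} ha β hβ := EHs_congr (Submodule.neg_mem _ (ha β hβ)) fun M => cap_neg' (a M) (β M)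
  mul_mem' {a b} ha hb β hβ := EHs_congr (ha _ (hb β hβ)) fun M => cap_mul (a M) (b M) (β M)

theorem cap_mem_EHs {c : ∀ M, H (Bq G Z M)} (hc : c ∈ HS G Z) :
    ∀ β ∈ EHs G Z, (fun M => cap (c M) (β M)) ∈ EHs G Z := by
  have : HS G Z ≤ capRing G Z := Subring.closure_le.2 fun c hc => by
    obtain ⟨j, hj⟩ := mem_iUnion.1 hc
    exact fun β hβ => cap_mem_EHs' hj hβ
  exact this hc

theorem eact_apply' {c : ∀ M, H (Bq G Z M)} (hc : c ∈ HS G Z) (β : EH G Z) (M : ℕ) :
    (eact c β).1 M = cap (c M) (β.1 M) := EH.lift_apply' (cap_mem_EHs hc) β M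

end basic

end Vale.Agent.P291Z
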