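import Vale.Agent.P291Z.EH1a

/-!
# Calculus of equivariant Borel-Moore homology
-/

set_option linter.unusedSectionVars false

namespace Vale.Agent.P291Z

open Set Function Topology

variable {G G' G'' : Type} [Group G] [TopologicalSpace G] [Sys G] [Group G'] [TopologicalSpace G']
  [Sys G'] [Group G''] [TopologicalSpace G''] [Sys G'']

section basic

variable {Z Z' Z'' : Type} [TopologicalSpace Z] [MulAction G Z] [Nice Z] [ContinuousSMul G Z]
  [TopologicalSpace Z'] [MulAction G' Z'] [Nice Z'] [ContinuousSMul G' Z']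
  [TopologicalSpace Z''] [MulAction G'' Z''] [Nice Z''] [ContinuousSMul G'' Z'']

theorem IsLev.comp {F : ∀ M, Bq G Z M → Bq G' Z' M} {F' : ∀ M, Bq G' Z' M → Bq G'' Z'' M} {c c' : ℤ}
    (h' : IsLev F' c') (h : IsLev F c) : IsLev (fun M => F' M ∘ F M) (c + c') := by
  refine ⟨fun M => (h'.cont M).comp (h.cont M), fun M x => ?_, fun M x hx => ?_, fun M => ?_,
    fun M => ?_⟩
  · rw [comp_apply, comp_apply, h.comm, h'.comm]
  · exact h.cart M (h'.cart M hx)
  · rw [← P291Z.pull_pull]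
    exact (((h'.col M).pull (h.cont _)).mono (h.cart M)).trans (h.col M)
  · rw [h.dim, h'.dim]; ring

variable {F : ∀ M, Bq G Z M → Bq G' Z' M} {c : ℤ} (hF : IsLev F c)
include hF

theorem IsLev.gys_col (M : ℕ) : gys (binc G Z M) (pull (F (M + 1)) (ecol G' Z' M)) =
    gys (binc G Z M) (ecol G Z M) :=
  gys_congr (isClosedEmbedding_binc M) ((hF.col M).cocycle (isCo_ecol M).cocycle)
    ((hF.col M).supp_subset (isCo_ecol M).supp) (isCo_ecol M).cocycle (isCo_ecol M).supp (hF.col M)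

theorem IsLev.push_mem (hp : ∀ M, IsPr (F M)) {k : ℤ} {β : ∀ M, BM (Bq G Z M)}
    (h : β ∈ FamS G Z k) : (fun M => push (F M) (β M)) ∈ FamS G' Z' (k + 2 * c) :=
  mem_FamS_iff.2 fun M => ⟨by
    rw [gys_push (isClosedEmbedding_binc M) (isClosedEmbedding_binc M) (hp (M + 1)) (hp M)
      (hF.comm M) (hF.cart M) (isCo_ecol M).cocycle (isCo_ecol M).supp, hF.gys_col,
      (mem_FamS_iff.1 h M).1], by
    have := (mem_FamS_iff.1 h M).2.push (F M)
    rwa [hF.dim, show k + 2 * (Sys.dim G' M + c) = k + 2 * c + 2 * Sys.dim G' M by ring] at this⟩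

theorem IsLev.res_mem (hp : ∀ M, IsOpenEmbedding (F M)) {k : ℤ} {β : ∀ M, BM (Bq G' Z' M)}
    (h : β ∈ FamS G' Z' k) : (fun M => res (F M) (β M)) ∈ FamS G Z (k - 2 * c) :=
  mem_FamS_iff.2 fun M => ⟨by
    rw [← hF.gys_col, ← res_gys (isClosedEmbedding_binc M) (isClosedEmbedding_binc M) (hp (M + 1))
      (hp M) (hF.comm M) (hF.cart M) (isCo_ecol M).cocycle (isCo_ecol M).supp,
      (mem_FamS_iff.1 h M).1], by
    have := (mem_FamS_iff.1 h M).2.res (F M)
    rwa [hF.dim, show k - 2 * c + 2 * (Sys.dim G' M + c) = k + 2 * Sys.dim G' M by ring]⟩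

theorem lpush_apply (hp : ∀ M, IsPr (F M)) (β : EH G Z) (M : ℕ) :
    (lpush F β).1 M = push (F M) (β.1 M) := by
  exact EH.lift_apply (fun _ _ h => hF.push_mem hp h) β M

theorem lpush_deg (hp : ∀ M, IsPr (F M)) {k : ℤ} {β : EH G Z} (h : β ∈ EH.deg G Z k) :
    lpush F β ∈ EH.deg G' Z' (k + 2 * c) := by
  have e : (lpush F β).1 = fun M => push (F M) (β.1 M) := funext (lpush_apply hF hp β)
  rw [EH.mem_deg, e]
  exact hF.push_mem hp h

theorem lres_apply (hp : ∀ M, IsOpenEmbedding (F M)) (β : EH G' Z') (M : ℕ) :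
    (lres F β).1 M = res (F M) (β.1 M) := by
  exact EH.lift_apply (c := -(2 * c)) (fun _ _ h => hF.res_mem hp h) β M

theorem lres_deg (hp : ∀ M, IsOpenEmbedding (F M)) {k : ℤ} {β : EH G' Z'}
    (h : β ∈ EH.deg G' Z' k) : lres F β ∈ EH.deg G Z (k - 2 * c) := by
  have e : (lres F β).1 = fun M => res (F M) (β.1 M) := funext (lres_apply hF hp β)
  rw [EH.mem_deg, e]
  exact hF.res_mem hp h

theorem lpush_bijective (hp : ∀ M, IsHomeomorph (F M)) : Bijective (lpush F) := by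
  have h1 := fun M => IsPr.of_isHomeomorph (hp M)
  have h2 := fun M => (hp M).isOpenEmbedding
  exact bijective_iff_has_inverse.2 ⟨lres F, fun β => EH.ext fun M => by
    rw [lres_apply hF h2, lpush_apply hF h1, res_push_homeo (hp M)], fun β => EH.ext fun M => by
    rw [lpush_apply hF h1, lres_apply hF h2, push_res_homeo (hp M)]⟩

theorem IsLev.map_HSdeg {k : ℤ} {r : ∀ M, H (Bq G' Z' M)} (h : r ∈ HSdeg G' Z' k) :
    (fun M => H.map ⟨F M, hF.cont M⟩ (r M)) ∈ HSdeg G Z k := fun M => ⟨by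
  show H.map _ (H.map _ (r (M + 1))) = H.map _ (r M)
  rw [← (h M).1, H.map_map, H.map_map]
  exact congrArg (fun g => H.map g (r (M + 1))) (ContinuousMap.ext (hF.comm M)), (h M).2.map _⟩

theorem IsLev.map_HS {r : ∀ M, H (Bq G' Z' M)} (h : r ∈ HS G' Z') :
    (fun M => H.map ⟨F M, hF.cont M⟩ (r M)) ∈ HS G Z := by
  have : HS G' Z' ≤ (HS G Z).comap
      (RingHom.pi fun M => (H.map ⟨F M, hF.cont M⟩).comp (Pi.evalRingHom _ M)) :=
    Subring.closure_le.2 fun r hr => by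
      obtain ⟨k, hk⟩ := mem_iUnion.1 hr
      exact Subring.subset_closure (mem_iUnion.2 ⟨k, hF.map_HSdeg hk⟩)
  exact this h

omit hF in
theorem EH.smul_apply' (r : HS G Unit) (β : EH G Z) (M : ℕ) :
    (r • β).1 M = cap (H.map (bptC G Z M) (r.1 M)) (β.1 M) :=
  eact_apply' (IsLev.map_HS (isLev_bpt (G := G) (Z := Z)) r.2) β M

/-- the induced map of equivariant cohomology rings -/
noncomputable def HS.lmap {F : ∀ M, Bq G Z M → Bq G' Z' M} {c : ℤ} (hF : IsLev F c) :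
    HS G' Z' →+* HS G Z :=
  ((RingHom.pi fun M => (H.map ⟨F M, hF.cont M⟩).comp (Pi.evalRingHom _ M)).comp
    (HS G' Z').subtype).codRestrict (HS G Z) fun r => hF.map_HS r.2

theorem HS.lmap_apply (r : HS G' Z') (M : ℕ) :
    (HS.lmap hF r).1 M = H.map ⟨F M, hF.cont M⟩ (r.1 M) := rfl

theorem HS.lmap_deg {k : ℤ} {r : HS G' Z'} (h : r.1 ∈ HSdeg G' Z' k) :
    (HS.lmap hF r).1 ∈ HSdeg G Z k := by
  exact hF.map_HSdeg h

/-- projection formula -/
theorem lpush_smul (hp : ∀ M, IsPr (F M)) {F₀ : ∀ M, Bq G Unit M → Bq G' Unit M} (h₀ : IsLev F₀ c)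
    (hsq : ∀ M x, bpt G' Z' M (F M x) = F₀ M (bpt G Z M x)) (r : HS G' Unit) (β : EH G Z) :
    lpush F (HS.lmap h₀ r • β) = r • lpush F β := by
  refine EH.ext fun M => ?_
  have e : H.map (bptC G Z M) ((HS.lmap h₀ r).1 M) =
      H.map ⟨F M, hF.cont M⟩ (H.map (bptC G' Z' M) (r.1 M)) := by
    rw [HS.lmap_apply, H.map_map, H.map_map]
    exact congrArg (fun g => H.map g (r.1 M)) (ContinuousMap.ext fun x => (hsq M x).symm)
  rw [lpush_apply hF hp, EH.smul_apply', EH.smul_apply', lpush_apply hF hp, e]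
  exact push_cap (f := ⟨F M, hF.cont M⟩) (hp M) _ _

end basic

end Vale.Agent.P291Z
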