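import Vale.Agent.P291Z.EH1b

/-!
# Calculus of equivariant Borel-Moore homology
-/

set_option linter.unusedSectionVars false

namespace Vale.Agent.P291Z

open Set Function Topology

variable {G G' G'' : Type} [Group G] [TopologicalSpace G] [Sys G] [Group G'] [TopologicalSpace G']
  [Sys G'] [Group G''] [TopologicalSpace G''] [Sys G'']

section equiv

variable {X Y Z U X' Y' U' : Type} [TopologicalSpace X] [MulAction G X] [Nice X]
  [ContinuousSMul G X] [TopologicalSpace Y] [MulAction G Y] [Nice Y] [ContinuousSMul G Y]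
  [TopologicalSpace Z] [MulAction G Z] [Nice Z] [ContinuousSMul G Z]
  [TopologicalSpace U] [MulAction G U] [Nice U] [ContinuousSMul G U]
  [TopologicalSpace X'] [MulAction G X'] [Nice X'] [ContinuousSMul G X']
  [TopologicalSpace Y'] [MulAction G Y'] [Nice Y'] [ContinuousSMul G Y']
  [TopologicalSpace U'] [MulAction G U'] [Nice U'] [ContinuousSMul G U']

theorem range_inv (f : X →[G] Y) (g : G) : ∀ z ∈ range f, g • z ∈ range f := by
  rintro _ ⟨x, rfl⟩
  exact ⟨g • x, f.map_smul g x⟩

theorem bset_compl {A : Set X} (hA : ∀ (g : G), ∀ z ∈ A, g • z ∈ A) (M : ℕ) :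
    bset (G := G) Aᶜ M = (bset A M)ᶜ := by
  ext x
  constructor
  · rintro ⟨y, h1, rfl⟩ ⟨y', h2, e⟩
    obtain ⟨g, rfl⟩ := Bor.mk_eq_iff.1 e
    exact h1 (hA g _ h2)
  · intro h
    obtain ⟨y, rfl⟩ := Quotient.exists_rep x
    exact ⟨y, fun h' => h ⟨y, h', rfl⟩, rfl⟩

theorem range_smap_compl {i : Y →[G] X} {j : U →[G] X} (hc : range j = (range i)ᶜ) (M : ℕ) :
    range (smap j M) = (range (smap i M))ᶜ := by
  rw [range_smap, range_smap, hc, bset_compl (range_inv i)]

theorem smap_comp {f : X →[G] Y} {g : Y →[G] Z} {h : X →[G] Z} (e : ∀ x, h x = g (f x)) (M : ℕ) :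
    smap g M ∘ smap f M = smap h M := funext fun x => by
  obtain ⟨y, rfl⟩ := Quotient.exists_rep x
  exact congrArg (fun z => Bor.mk G (z, y.2)) (e y.1).symm

theorem smap_id {f : X →[G] X} (e : ∀ x, f x = x) (M : ℕ) : smap f M = id := funext fun x => by
  obtain ⟨y, rfl⟩ := Quotient.exists_rep x
  exact congrArg (fun z => Bor.mk G (z, y.2)) (e y.1)

theorem smap_sq {j : U →[G] X} {j' : U' →[G] X'} {f : X' →[G] X} {g : U' →[G] U}
    (hsq : ∀ u, f (j' u) = j (g u)) (M : ℕ) (x : Bq G U' M) :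
    smap f M (smap j' M x) = smap j M (smap g M x) := by
  obtain ⟨y, rfl⟩ := Quotient.exists_rep x
  exact congrArg (fun z => Bor.mk G (z, y.2)) (hsq y.1)

theorem smap_cart {j : U →[G] X} {j' : U' →[G] X'} {f : X' →[G] X}
    (hr : f ⁻¹' range j ⊆ range j') (M : ℕ) : smap f M ⁻¹' range (smap j M) ⊆ range (smap j' M) := by
  rw [range_smap, range_smap, preimage_bset f (range_inv j)]
  exact bset_mono hr M

theorem isHomeomorph_smap {e : X →[G] Y} (he : IsHomeomorph e) (M : ℕ) :
    IsHomeomorph (smap e M) := by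
  have h := isOpenEmbedding_smap he.isOpenEmbedding M
  refine ⟨h.continuous, h.isOpenMap, h.injective, fun x => ?_⟩
  obtain ⟨y, rfl⟩ := Quotient.exists_rep x
  obtain ⟨z, hz⟩ := he.surjective y.1
  exact ⟨Bor.mk G (z, y.2), congrArg (fun z => Bor.mk G (z, y.2)) hz⟩

/-- the induced map as a continuous map -/
noncomputable def smapC {f : X →[G] Y} (hf : Continuous f) (M : ℕ) : C(Bq G X M, Bq G Y M) :=
  ⟨smap f M, continuous_smap hf M⟩

theorem map_bptC {f : X →[G] Y} (hf : Continuous f) (M : ℕ) (c : H (Bq G Unit M)) :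
    H.map (bptC G X M) c = H.map (smapC hf M) (H.map (bptC G Y M) c) := by
  rw [H.map_map]
  refine congrArg (fun g => H.map g c) (ContinuousMap.ext fun x => ?_)
  obtain ⟨y, rfl⟩ := Quotient.exists_rep x
  rfl

theorem IsCoc.isCo {i : Y →[G] X} {d : ℕ} {t : ∀ M, Coch (Bq G X M)} (ht : IsCoc (range i) d t)
    (M : ℕ) : IsCo (range (smap i M)) d (t M) :=
  ⟨ht.cocycle M, ht.deg M, by rw [range_smap]; exact ht.supp M⟩

theorem gys_comm_binc {i : Y →[G] X} (hi : IsClosedEmbedding i) {d : ℕ}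
    {t : ∀ M, Coch (Bq G X M)} (ht : IsCoc (range i) d t) (M : ℕ) (β : BM (Bq G X (M + 1))) :
    gys (binc G Y M) (ecol G Y M) (gys (smap i (M + 1)) (t (M + 1)) β) =
      gys (smap i M) (t M) (gys (binc G X M) (ecol G X M) β) := by
  have hL := isLev_smap (G := G) hi.continuous
  have h1 : Cohom (range (smap i M)) (pull (binc G X M) (t (M + 1))) (t M) := by
    rw [range_smap]; exact ht.compat M
  rw [← hL.gys_col, gys_comm (isClosedEmbedding_smap hi (M + 1)) (isClosedEmbedding_binc M)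
    (isClosedEmbedding_smap hi M) (isClosedEmbedding_binc M) (hL.comm M) (hL.cart M)
    (ht.isCo (M + 1)) (isCo_ecol M), gys_congr (isClosedEmbedding_smap hi M)
    (h1.cocycle (ht.cocycle M)) (h1.supp_subset (ht.isCo M).supp) (ht.cocycle M) (ht.isCo M).supp h1]

theorem gys_mem {i : Y →[G] X} (hi : IsClosedEmbedding i) {d : ℕ}
    {t : ∀ M, Coch (Bq G X M)} (ht : IsCoc (range i) d t) {k : ℤ} {β : ∀ M, BM (Bq G X M)}
    (h : β ∈ FamS G X k) : (fun M => gys (smap i M) (t M) (β M)) ∈ FamS G Y (k - 2 * d) :=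
  mem_FamS_iff.2 fun M => ⟨by rw [gys_comm_binc hi ht, (mem_FamS_iff.1 h M).1], by
    have := (mem_FamS_iff.1 h M).2.gys (smap i M) (ht.deg M)
    rwa [show k + 2 * Sys.dim G M - 2 * d = k - 2 * d + 2 * Sys.dim G M by ring] at this⟩

theorem bdy_comm_binc {i : Y →[G] X} (hi : IsClosedEmbedding i) {j : U →[G] X}
    (hj : IsOpenEmbedding j) (hc : range j = (range i)ᶜ) (M : ℕ) (β : BM (Bq G U (M + 1))) :
    gys (binc G Y M) (ecol G Y M) (bdy (smap i (M + 1)) (smap j (M + 1)) β) =
      bdy (smap i M) (smap j M) (gys (binc G U M) (ecol G U M) β) := by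
  have hL := isLev_smap (G := G) hi.continuous
  have hL' := isLev_smap (G := G) hj.continuous
  rw [← hL.gys_col, ← hL'.gys_col]
  exact bdy_gys (isClosedEmbedding_smap hi _) (isOpenEmbedding_smap hj _) (range_smap_compl hc _)
    (isClosedEmbedding_smap hi _) (isOpenEmbedding_smap hj _) (range_smap_compl hc _)
    (isClosedEmbedding_binc M) (isClosedEmbedding_binc M) (isClosedEmbedding_binc M)
    (fun y => (hL.comm M y).symm) (fun y => (hL'.comm M y).symm) (isCo_ecol M).cocycle
    (isCo_ecol M).supp β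

theorem bdy_mem {i : Y →[G] X} (hi : IsClosedEmbedding i) {j : U →[G] X}
    (hj : IsOpenEmbedding j) (hc : range j = (range i)ᶜ) {k : ℤ} {β : ∀ M, BM (Bq G U M)}
    (h : β ∈ FamS G U k) : (fun M => bdy (smap i M) (smap j M) (β M)) ∈ FamS G Y (k - 1) :=
  mem_FamS_iff.2 fun M => ⟨by rw [bdy_comm_binc hi hj hc, (mem_FamS_iff.1 h M).1], by
    have := (mem_FamS_iff.1 h M).2.bdy (smap i M) (smap j M)
    rwa [show k + 2 * Sys.dim G M - 1 = k - 1 + 2 * Sys.dim G M by ring] at this⟩

theorem eact_apply (c : HS G X) (β : EH G X) (M : ℕ) :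
    (eact c.1 β).1 M = cap (c.1 M) (β.1 M) := by
  exact eact_apply' c.2 β M

theorem eact_deg {j k : ℤ} {c : HS G X} (hc : c.1 ∈ HSdeg G X j) {β : EH G X}
    (h : β ∈ EH.deg G X k) : eact c.1 β ∈ EH.deg G X (k - j) := by
  have e : (eact c.1 β).1 = fun M => cap (c.1 M) (β.1 M) := funext (eact_apply c β)
  rw [EH.mem_deg, e]
  exact cap_mem hc h

theorem EH.smul_apply (r : HS G Unit) (β : EH G X) (M : ℕ) :
    (r • β).1 M = cap (H.map (bptC G X M) (r.1 M)) (β.1 M) := by
  exact EH.smul_apply' r β M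

noncomputable instance : Module (HS G Unit) (EH G X) where
  one_smul β := EH.ext fun M => by
    rw [EH.smul_apply]
    exact (congrArg (cap · (β.1 M)) (map_one _)).trans (cap_one _)
  mul_smul r s β := EH.ext fun M => by
    rw [EH.smul_apply, EH.smul_apply, EH.smul_apply, ← cap_mul, ← map_mul]
    rfl
  smul_zero r := EH.ext fun M => by rw [EH.smul_apply]; exact map_zero _
  smul_add r β β' := EH.ext fun M => by
    rw [EH.add_apply, EH.smul_apply, EH.smul_apply, EH.smul_apply]; exact map_add _ _ _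
  add_smul r s β := EH.ext fun M => by
    rw [EH.add_apply, EH.smul_apply, EH.smul_apply, EH.smul_apply, ← cap_add', ← map_add]
    rfl
  zero_smul β := EH.ext fun M => by
    rw [EH.smul_apply]
    exact (congrArg (cap · (β.1 M)) (map_zero _)).trans (cap_zero' _)

instance : SMulCommClass (HS G Unit) ℂ (EH G X) :=
  ⟨fun r z β => EH.ext fun M => by
    rw [EH.csmul_apply, EH.smul_apply, EH.smul_apply, EH.csmul_apply, LinearMap.map_smul]⟩

theorem EH.smul_deg {j k : ℤ} {r : HS G Unit} (hr : r.1 ∈ HSdeg G Unit j) {β : EH G X}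
    (h : β ∈ EH.deg G X k) : r • β ∈ EH.deg G X (k - j) := by
  exact eact_deg (c := HS.lmap isLev_bpt r) (HS.lmap_deg isLev_bpt hr) h

theorem epush_apply {f : X →[G] Y} (hf : IsPr f) (β : EH G X) (M : ℕ) :
    (epush f β).1 M = push (smap f M) (β.1 M) := by
  exact lpush_apply (isLev_smap hf.cont) (isPr_smap hf) β M

theorem eres_apply {j : U →[G] X} (hj : IsOpenEmbedding j) (β : EH G X) (M : ℕ) :
    (eres j β).1 M = res (smap j M) (β.1 M) := by
  exact lres_apply (isLev_smap hj.continuous) (isOpenEmbedding_smap hj) β M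

theorem egys_apply {i : Y →[G] X} (hi : IsClosedEmbedding i) {d : ℕ} {t : ∀ M, Coch (Bq G X M)}
    (ht : IsCoc (range i) d t) (β : EH G X) (M : ℕ) :
    (egys i t β).1 M = gys (smap i M) (t M) (β.1 M) := by
  exact EH.lift_apply (c := -(2 * d)) (fun _ _ h => gys_mem hi ht h) β M

theorem ebdy_apply {i : Y →[G] X} (hi : IsClosedEmbedding i) {j : U →[G] X}
    (hj : IsOpenEmbedding j) (hc : range j = (range i)ᶜ) (β : EH G U) (M : ℕ) :
    (ebdy i j β).1 M = bdy (smap i M) (smap j M) (β.1 M) := by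
  exact EH.lift_apply (c := -1) (fun _ _ h => bdy_mem hi hj hc h) β M

theorem epush_deg {f : X →[G] Y} (hf : IsPr f) {k : ℤ} {β : EH G X} (h : β ∈ EH.deg G X k) :
    epush f β ∈ EH.deg G Y k := by
  have := lpush_deg (isLev_smap hf.cont) (isPr_smap hf) h
  rwa [mul_zero, add_zero] at this

theorem eres_deg {j : U →[G] X} (hj : IsOpenEmbedding j) {k : ℤ} {β : EH G X}
    (h : β ∈ EH.deg G X k) : eres j β ∈ EH.deg G U k := by
  have := lres_deg (isLev_smap hj.continuous) (isOpenEmbedding_smap hj) h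
  rwa [mul_zero, sub_zero] at this

theorem egys_deg {i : Y →[G] X} (hi : IsClosedEmbedding i) {d : ℕ} {t : ∀ M, Coch (Bq G X M)}
    (ht : IsCoc (range i) d t) {k : ℤ} {β : EH G X} (h : β ∈ EH.deg G X k) :
    egys i t β ∈ EH.deg G Y (k - 2 * d) := by
  have e : (egys i t β).1 = fun M => gys (smap i M) (t M) (β.1 M) := funext (egys_apply hi ht β)
  rw [EH.mem_deg, e]
  exact gys_mem hi ht h

theorem ebdy_deg {i : Y →[G] X} (hi : IsClosedEmbedding i) {j : U →[G] X}
    (hj : IsOpenEmbedding j) (hc : range j = (range i)ᶜ) {k : ℤ} {β : EH G U}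
    (h : β ∈ EH.deg G U k) : ebdy i j β ∈ EH.deg G Y (k - 1) := by
  have e : (ebdy i j β).1 = fun M => bdy (smap i M) (smap j M) (β.1 M) :=
    funext (ebdy_apply hi hj hc β)
  rw [EH.mem_deg, e]
  exact bdy_mem hi hj hc h

theorem epush_smul {f : X →[G] Y} (hf : IsPr f) (r : HS G Unit) (β : EH G X) :
    epush f (r • β) = r • epush f β := by
  refine EH.ext fun M => ?_
  rw [epush_apply hf, EH.smul_apply, EH.smul_apply, epush_apply hf, map_bptC hf.cont]
  exact push_cap (f := smapC hf.cont M) (isPr_smap hf M) _ _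

theorem eres_smul {j : U →[G] X} (hj : IsOpenEmbedding j) (r : HS G Unit) (β : EH G X) :
    eres j (r • β) = r • eres j β := by
  refine EH.ext fun M => ?_
  rw [eres_apply hj, EH.smul_apply, EH.smul_apply, eres_apply hj, map_bptC hj.continuous]
  exact res_cap (j := smapC hj.continuous M) (isOpenEmbedding_smap hj M) _ _

theorem egys_smul {i : Y →[G] X} (hi : IsClosedEmbedding i) {d : ℕ} {t : ∀ M, Coch (Bq G X M)}
    (ht : IsCoc (range i) d t) (r : HS G Unit) (β : EH G X) :
    egys i t (r • β) = r • egys i t β := by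
  refine EH.ext fun M => ?_
  rw [egys_apply hi ht, EH.smul_apply, EH.smul_apply, egys_apply hi ht, map_bptC hi.continuous]
  exact gys_cap (i := smapC hi.continuous M) (isClosedEmbedding_smap hi M) (ht.isCo M) _ _

theorem ebdy_smul {i : Y →[G] X} (hi : IsClosedEmbedding i) {j : U →[G] X}
    (hj : IsOpenEmbedding j) (hc : range j = (range i)ᶜ) (r : HS G Unit) (β : EH G U) :
    ebdy i j (r • β) = r • ebdy i j β := by
  refine EH.ext fun M => ?_
  rw [ebdy_apply hi hj hc, EH.smul_apply, EH.smul_apply, ebdy_apply hi hj hc,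
    map_bptC hi.continuous, map_bptC hj.continuous]
  exact bdy_cap (i := smapC hi.continuous M) (isClosedEmbedding_smap hi M)
    (j := smapC hj.continuous M) (isOpenEmbedding_smap hj M) (range_smap_compl hc M) _ _

theorem epush_epush {f : X →[G] Y} {g : Y →[G] Z} (hf : IsPr f) (hg : IsPr g) {h : X →[G] Z}
    (e : ∀ x, h x = g (f x)) (β : EH G X) : epush g (epush f β) = epush h β := by
  have hh : IsPr h := (funext e : (h : X → Z) = g ∘ f) ▸ hg.comp hf
  refine EH.ext fun M => ?_
  rw [epush_apply hg, epush_apply hf, epush_apply hh, push_push (isPr_smap hf M) (isPr_smap hg M),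
    smap_comp e]

theorem epush_id {f : X →[G] X} (e : ∀ x, f x = x) (β : EH G X) : epush f β = β := by
  have hh : IsPr f := (funext e : (f : X → X) = id) ▸ IsPr.id
  refine EH.ext fun M => ?_
  rw [epush_apply hh, smap_id e, push_id']

theorem eres_eres {j : U →[G] X} {j' : X →[G] Y} (hj : IsOpenEmbedding j)
    (hj' : IsOpenEmbedding j') {h : U →[G] Y} (e : ∀ x, h x = j' (j x)) (β : EH G Y) :
    eres j (eres j' β) = eres h β := by
  have hh : IsOpenEmbedding h := (funext e : (h : U → Y) = j' ∘ j) ▸ hj'.comp hj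
  refine EH.ext fun M => ?_
  rw [eres_apply hj, eres_apply hj', eres_apply hh,
    res_res (isOpenEmbedding_smap hj M) (isOpenEmbedding_smap hj' M), smap_comp e]

theorem eres_epush_homeo {e : X →[G] Y} (he : IsHomeomorph e) (β : EH G X) :
    eres e (epush e β) = β := by
  refine EH.ext fun M => ?_
  rw [eres_apply he.isOpenEmbedding, epush_apply (IsPr.of_isHomeomorph he),
    res_push_homeo (isHomeomorph_smap he M)]

theorem epush_eres_homeo {e : X →[G] Y} (he : IsHomeomorph e) (β : EH G Y) :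
    epush e (eres e β) = β := by
  refine EH.ext fun M => ?_
  rw [epush_apply (IsPr.of_isHomeomorph he), eres_apply he.isOpenEmbedding,
    push_res_homeo (isHomeomorph_smap he M)]

theorem eres_epush {j : U →[G] X} (hj : IsOpenEmbedding j) {j' : U' →[G] X'}
    (hj' : IsOpenEmbedding j') {f : X' →[G] X} (hf : IsPr f) {g : U' →[G] U} (hg : IsPr g)
    (hsq : ∀ u, f (j' u) = j (g u)) (hr : f ⁻¹' range j ⊆ range j') (β : EH G X') :
    eres j (epush f β) = epush g (eres j' β) := by
  refine EH.ext fun M => ?_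
  rw [eres_apply hj, epush_apply hf, epush_apply hg, eres_apply hj']
  exact res_push (isOpenEmbedding_smap hj M) (isOpenEmbedding_smap hj' M) (isPr_smap hf M)
    (isPr_smap hg M) (smap_sq hsq M) (smap_cart hr M) _

theorem egys_epush {i : Y →[G] X} (hi : IsClosedEmbedding i) {i' : Y' →[G] X'}
    (hi' : IsClosedEmbedding i') {f : X' →[G] X} (hf : IsPr f) {g : Y' →[G] Y} (hg : IsPr g)
    (hsq : ∀ y, f (i' y) = i (g y)) (hr : f ⁻¹' range i ⊆ range i') {d : ℕ}
    {t : ∀ M, Coch (Bq G X M)} (ht : IsCoc (range i) d t) (β : EH G X') :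
    egys i t (epush f β) = epush g (egys i' (fun M => pull (smap f M) (t M)) β) := by
  refine EH.ext fun M => ?_
  rw [egys_apply hi ht, epush_apply hf, epush_apply hg,
    egys_apply hi' ((ht.pull (range_inv i) hf.cont).mono hr)]
  exact gys_push (isClosedEmbedding_smap hi M) (isClosedEmbedding_smap hi' M) (isPr_smap hf M)
    (isPr_smap hg M) (smap_sq hsq M) (smap_cart hr M) (ht.isCo M).cocycle (ht.isCo M).supp _

theorem eres_egys {i : Y →[G] X} (hi : IsClosedEmbedding i) {i' : Y' →[G] X'}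
    (hi' : IsClosedEmbedding i') {f : X' →[G] X} (hf : IsOpenEmbedding f) {g : Y' →[G] Y}
    (hg : IsOpenEmbedding g) (hsq : ∀ y, f (i' y) = i (g y)) (hr : f ⁻¹' range i ⊆ range i')
    {d : ℕ} {t : ∀ M, Coch (Bq G X M)} (ht : IsCoc (range i) d t) (β : EH G X) :
    eres g (egys i t β) = egys i' (fun M => pull (smap f M) (t M)) (eres f β) := by
  refine EH.ext fun M => ?_
  rw [eres_apply hg, egys_apply hi ht,
    egys_apply hi' ((ht.pull (range_inv i) hf.continuous).mono hr), eres_apply hf]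
  exact res_gys (isClosedEmbedding_smap hi M) (isClosedEmbedding_smap hi' M)
    (isOpenEmbedding_smap hf M) (isOpenEmbedding_smap hg M) (smap_sq hsq M) (smap_cart hr M)
    (ht.isCo M).cocycle (ht.isCo M).supp _

theorem egys_congr {i : Y →[G] X} (hi : IsClosedEmbedding i) {d : ℕ}
    {t t' : ∀ M, Coch (Bq G X M)} (ht : IsCoc (range i) d t) (ht' : IsCoc (range i) d t')
    (h : Coh (range i) t t') : egys i t = egys i t' := by
  refine LinearMap.ext fun β => EH.ext fun M => ?_
  rw [egys_apply hi ht, egys_apply hi ht', gys_congr (isClosedEmbedding_smap hi M)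
    (ht.isCo M).cocycle (ht.isCo M).supp (ht'.isCo M).cocycle (ht'.isCo M).supp
    (by rw [range_smap]; exact h M)]

theorem egys_egys {i : Z →[G] Y} (hi : IsClosedEmbedding i) {j : Y →[G] X}
    (hj : IsClosedEmbedding j) {k : Z →[G] X} (e : ∀ z, k z = j (i z)) {A : Set X}
    (hA : ∀ (g : G), ∀ z ∈ A, g • z ∈ A) (hA' : j ⁻¹' A ⊆ range i) {d d' : ℕ}
    {s t : ∀ M, Coch (Bq G X M)} (hs : IsCoc A d s) (ht : IsCoc (range j) d' t) (β : EH G X) :
    egys i (fun M => pull (smap j M) (s M)) (egys j t β) = egys k (s * t) β := by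
  have hk : IsClosedEmbedding k := (funext e : (k : Z → X) = j ∘ i) ▸ hj.comp hi
  have h1 : A ∩ range j ⊆ range k := by
    rintro _ ⟨hx, y, rfl⟩
    obtain ⟨z, rfl⟩ := hA' hx
    exact ⟨z, e z⟩
  refine EH.ext fun M => ?_
  rw [egys_apply hi ((hs.pull hA hj.continuous).mono hA'), egys_apply hj ht,
    egys_apply hk ((hs.mul hA ht).mono h1), ← smap_comp e]
  refine gys_gys (isClosedEmbedding_smap hi M) (isClosedEmbedding_smap hj M) (hs.cocycle M)
    ((preimage_mono (hs.supp M)).trans ?_) (ht.cocycle M) (ht.isCo M).supp _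
  rw [preimage_bset j hA, range_smap]
  exact bset_mono hA' M

theorem egys_comm {i : Y →[G] X} (hi : IsClosedEmbedding i) {j : Y' →[G] X}
    (hj : IsClosedEmbedding j) {i' : Z →[G] Y'} (hi' : IsClosedEmbedding i') {j' : Z →[G] Y}
    (hj' : IsClosedEmbedding j') (hsq : ∀ z, i (j' z) = j (i' z)) (hr : i ⁻¹' range j ⊆ range j')
    {d e : ℕ} {s t : ∀ M, Coch (Bq G X M)} (ht : IsCoc (range i) d t) (hs : IsCoc (range j) e s)
    (β : EH G X) : egys j' (fun M => pull (smap i M) (s M)) (egys i t β) =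
      egys i' (fun M => pull (smap j M) (t M)) (egys j s β) := by
  have hr' : j ⁻¹' range i ⊆ range i' := by
    rintro y ⟨x, hx⟩
    obtain ⟨z, rfl⟩ := hr (show x ∈ i ⁻¹' range j from ⟨y, hx.symm⟩)
    exact ⟨z, hj.injective (by rw [← hsq, hx])⟩
  refine EH.ext fun M => ?_
  rw [egys_apply hj' ((hs.pull (range_inv j) hi.continuous).mono hr), egys_apply hi ht,
    egys_apply hi' ((ht.pull (range_inv i) hj.continuous).mono hr'), egys_apply hj hs]
  exact gys_comm (isClosedEmbedding_smap hi M) (isClosedEmbedding_smap hj M)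
    (isClosedEmbedding_smap hi' M) (isClosedEmbedding_smap hj' M) (smap_sq hsq M) (smap_cart hr M)
    (ht.isCo M) (hs.isCo M) _

theorem epush_egys {k : Z →[G] Y} (hk : IsClosedEmbedding k) {j : Y →[G] X}
    (hj : IsClosedEmbedding j) {i : Z →[G] X} (e : ∀ z, i z = j (k z)) {d : ℕ}
    {t : ∀ M, Coch (Bq G X M)} (ht : IsCoc (range i) d t) (β : EH G X) :
    epush k (egys i t β) = egys j t β := by
  have e' : (i : Z → X) = j ∘ k := funext e
  have hi : IsClosedEmbedding i := e' ▸ hj.comp hk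
  refine EH.ext fun M => ?_
  rw [epush_apply (IsPr.of_isClosedEmbedding hk), egys_apply hi ht,
    egys_apply hj (ht.mono (e' ▸ range_comp_subset_range _ _)), ← smap_comp e]
  exact push_gys (isClosedEmbedding_smap hk M) (isClosedEmbedding_smap hj M) (ht.cocycle M)
    (by rw [smap_comp e]; exact (ht.isCo M).supp) _

/-- levelwise bijective Gysin maps give a bijection -/
theorem egys_bijective {i : Y →[G] X} (hi : IsClosedEmbedding i) {d : ℕ}
    {t : ∀ M, Coch (Bq G X M)} (ht : IsCoc (range i) d t)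
    (h : ∀ M, Bijective (cgys (smap i M) (t M))) : Bijective (egys i t) := by
  exact EH.lift_bijective (e := fun _ => 2 * d) (c := -(2 * d)) (fun M => by ring)
    (fun M j a ha => cgys_deg _ (ht.deg M) ha) (gys_comm_binc hi ht) h

end equiv

end Vale.Agent.P291Z
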