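import Vale.Agent.P291Z.T8

/-!
# Vanishing of cohomology with compact supports: flows, strata, half-spaces
-/

set_option linter.unusedSectionVars false

namespace Vale.Agent.P291Z

open Topology Set TopologicalSpace unitInterval

variable {X V : Type} [TopologicalSpace X] [TopologicalSpace V]

/-- A space that can be pushed off every compact set by a proper homotopy. -/
theorem Hc.subsingleton_of_push [MetrizableSpace X] [LocallyCompactSpace X]
    (h : ∀ K : Set X, IsCompact K → ∃ H : I × X → X, IsPr H ∧ (∀ x, H (0, x) = x) ∧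
      ∀ x, H (1, x) ∉ K) : Subsingleton (Hc X) := by
  refine subsingleton_of_forall_eq 0 fun c => ?_
  obtain ⟨a, ha, rfl⟩ := cls_surj c
  obtain ⟨H, hH, h0, h1⟩ := h _ (mem_Zc.1 ha).1
  have hg : IsPr fun x => H (1, x) := hH.comp (isPr_mk (1 : I))
  have e := Hc.pull_eq_of_homotopy hH IsPr.id hg h0 fun _ => rfl
  rw [← Hc.pull_id IsPr.id (fun _ => rfl) (cls a), e, Hc.pull_cls hg ha]
  refine cls_of_mem_Bc (mem_Bc_of_null fun x => ?_)
  exact Van.pull hg.cont.continuousAt (mem_Van.2 (h1 x))

/-- A space with a flow and a function that grows with unit speed: the part where the function is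
nonnegative has no cohomology with compact supports. -/
theorem Hc.subsingleton_of_action [MetrizableSpace X] [LocallyCompactSpace X] (Φ : ℝ → X → X)
    (hΦ : Continuous fun p : ℝ × X => Φ p.1 p.2) (h0 : ∀ x, Φ 0 x = x)
    (hadd : ∀ t x, Φ (-t) (Φ t x) = x) {f : X → ℝ} (hf : Continuous f)
    (hc : ∀ t x, f (Φ t x) = f x + t) : Subsingleton (Hc {x // 0 ≤ f x}) := by
  have hcl : IsClosed {x | 0 ≤ f x} := isClosed_le continuous_const hf
  have : LocallyCompactSpace {x // 0 ≤ f x} := hcl.isClosedEmbedding_subtypeVal.locallyCompactSpace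
  have : MetrizableSpace {x // 0 ≤ f x} := (IsEmbedding.subtypeVal).metrizableSpace
  refine Hc.subsingleton_of_push fun K hK => ?_
  obtain ⟨M, hM⟩ := (hK.image (hf.comp continuous_subtype_val)).bddAbove
  set N : ℝ := |M| + 1 with hN
  have hN0 : 0 ≤ N := by positivity
  have hcont : Continuous fun p : I × {x // 0 ≤ f x} => Φ (p.1.1 * N) p.2.1 :=
    hΦ.comp (((continuous_subtype_val.comp continuous_fst).mul continuous_const).prodMk
      (continuous_subtype_val.comp continuous_snd))
  let H : I × {x // 0 ≤ f x} → {x // 0 ≤ f x} := fun p => ⟨Φ (p.1.1 * N) p.2.1, by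
    rw [hc]; exact add_nonneg p.2.2 (mul_nonneg p.1.2.1 hN0)⟩
  have hH : Continuous H := hcont.subtype_mk _
  refine ⟨H, ⟨hH, fun L hL => ?_⟩, fun x => Subtype.ext (by simp [H, h0]), fun x hx => ?_⟩
  · have h1 : IsCompact ((fun p : I × {x // 0 ≤ f x} => Φ (-(p.1.1 * N)) p.2.1) '' (univ ×ˢ L)) :=
      (isCompact_univ.prod hL).image (hΦ.comp
        (((continuous_subtype_val.comp continuous_fst).mul continuous_const).neg.prodMk
          (continuous_subtype_val.comp continuous_snd)))
    have h2 := hcl.isClosedEmbedding_subtypeVal.isCompact_preimage h1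
    refine (isCompact_univ.prod h2).of_isClosed_subset (hL.isClosed.preimage hH) fun p hp => ?_
    exact ⟨trivial, (p.1, H p), ⟨trivial, hp⟩, hadd _ _⟩
  · have h1 : f (Φ ((1 : I).1 * N) x.1) ≤ M := hM ⟨_, hx, rfl⟩
    rw [hc] at h1
    have h2 := x.2
    have h3 := le_abs_self M
    simp only [Icc.coe_one, one_mul] at h1
    linarith

/-- A subset without cohomology with compact supports. -/
def Null (S : Set V) : Prop := Subsingleton (Hc S)

theorem Hc.subsingleton_of_homeomorph {Y : Type} [TopologicalSpace Y] (e : X ≃ₜ Y)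
    (h : Subsingleton (Hc Y)) : Subsingleton (Hc X) :=
  (Hc.equiv e).symm.toEquiv.subsingleton

theorem null_empty : Null (∅ : Set V) := by
  unfold Null
  infer_instance

theorem Null.congr {S S' : Set V} (h : Null S) (e : ∀ x, x ∈ S' ↔ x ∈ S) : Null S' := by
  rw [Set.ext e]; exact h

theorem null_of_forall_not {S : Set V} (h : ∀ x, x ∉ S) : Null S :=
  null_empty.congr fun x => iff_of_false (h x) (notMem_empty x)

variable [MetrizableSpace V] [LocallyCompactSpace V]

theorem null_of_flow {S : Set V} (hS : IsLocallyClosed S) (Φ : ℝ → V → V)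
    (hm : ∀ t, ∀ x ∈ S, Φ t x ∈ S) (hΦ : Continuous fun p : ℝ × S => Φ p.1 p.2.1)
    (h0 : ∀ x ∈ S, Φ 0 x = x) (hadd : ∀ t, ∀ x ∈ S, Φ (-t) (Φ t x) = x) {f : V → ℝ}
    (hf : Continuous fun x : S => f x.1) (hc : ∀ t, ∀ x ∈ S, f (Φ t x) = f x + t) :
    Null (S ∩ {x | 0 ≤ f x}) := by
  have := hS.locallyCompactSpace
  have h := Hc.subsingleton_of_action (X := S) (fun t x => ⟨Φ t x.1, hm t _ x.2⟩)
    (hΦ.subtype_mk _) (fun x => Subtype.ext (h0 _ x.2)) (fun t x => Subtype.ext (hadd t _ x.2)) hf
    fun t x => hc t _ x.2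
  refine Hc.subsingleton_of_homeomorph (Y := {x : S // 0 ≤ f x.1})
    { toFun := fun x => ⟨⟨x.1, x.2.1⟩, x.2.2⟩
      invFun := fun x => ⟨x.1.1, x.1.2, x.2⟩
      left_inv := fun _ => rfl
      right_inv := fun _ => rfl
      continuous_toFun := by fun_prop
      continuous_invFun := by fun_prop } h

theorem null_union {S : Set V} (hS : IsLocallyClosed S) {O : Set V} (hO : IsOpen O)
    (h1 : Null (S ∩ O)) (h2 : Null (S ∩ Oᶜ)) : Null S := by
  have := hS.locallyCompactSpace
  refine Hc.subsingleton_of_open_closed (X := S) (i := inclusion (inter_subset_left (t := Oᶜ)))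
    ?_ (j := inclusion (inter_subset_left (t := O))) ?_ ?_ h1 h2
  · refine ⟨IsEmbedding.inclusion _, ?_⟩
    rw [range_inclusion]
    have : {x : S | x.1 ∈ S ∩ Oᶜ} = Subtype.val ⁻¹' Oᶜ := by ext x; simp
    rw [this]
    exact hO.isClosed_compl.preimage continuous_subtype_val
  · refine ⟨IsEmbedding.inclusion _, ?_⟩
    rw [range_inclusion]
    have : {x : S | x.1 ∈ S ∩ O} = Subtype.val ⁻¹' O := by ext x; simp
    rw [this]
    exact hO.preimage continuous_subtype_val
  · rw [range_inclusion, range_inclusion]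
    ext x
    simp

theorem isLocallyClosed_stratum {n : V → ℕ} (hn : ∀ k, IsOpen {x | k ≤ n x}) (k : ℕ) :
    IsLocallyClosed {x | n x = k} := by
  have : {x | n x = k} = {x | k ≤ n x} ∩ {x | k + 1 ≤ n x}ᶜ := by
    ext x
    simp only [mem_ofPred_eq, mem_inter_iff, mem_compl_iff]
    omega
  rw [this]
  exact (hn k).isLocallyClosed.inter (hn _).isClosed_compl.isLocallyClosed

theorem null_of_strata {S : Set V} (hS : IsLocallyClosed S) {n : V → ℕ}
    (hn : ∀ k, IsOpen {x | k ≤ n x}) {N : ℕ} (hN : ∀ x ∈ S, n x ≤ N)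
    (h : ∀ k, Null (S ∩ {x | n x = k})) : Null S := by
  have key : ∀ j, Null (S ∩ {x | j ≤ n x}ᶜ) := by
    intro j
    induction j with
    | zero => exact null_of_forall_not fun x hx => hx.2 (Nat.zero_le _)
    | succ j ih =>
      refine null_union (hS.inter (hn _).isClosed_compl.isLocallyClosed) (hn j)
        ((h j).congr fun x => ?_) (ih.congr fun x => ?_)
      · simp only [mem_ofPred_eq, mem_inter_iff, mem_compl_iff, and_assoc]
        exact and_congr_right fun _ => by omega
      · simp only [mem_ofPred_eq, mem_inter_iff, mem_compl_iff, and_assoc]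
        exact and_congr_right fun _ => by omega
  refine (key (N + 1)).congr fun x => ⟨fun hx => ⟨hx, ?_⟩, fun hx => hx.1⟩
  have := hN x hx
  simp only [mem_ofPred_eq, mem_compl_iff]
  omega

/-- Vanishing is local over any base. -/
theorem null_of_fib {B : Type} [TopologicalSpace B] [T2Space B] [LocallyCompactSpace B]
    {S : Set V} (hS : IsLocallyClosed S) {p : V → B} (hp : Continuous fun x : S => p x.1)
    (h : ∀ b, Null (S ∩ p ⁻¹' {b})) : Null S := by
  have := hS.locallyCompactSpace
  refine Hc.subsingleton_of_fib (F := fun b => (S ∩ p ⁻¹' {b} : Set V))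
    (i := fun b => inclusion inter_subset_left) hp (fun b => ?_) h
  have e : range (inclusion (inter_subset_left : S ∩ p ⁻¹' {b} ⊆ S)) =
      (fun x : S => p x.1) ⁻¹' {b} := by
    rw [range_inclusion]; ext x; simp
  exact ⟨⟨IsEmbedding.inclusion _, e ▸ isClosed_singleton.preimage hp⟩, e⟩

omit [MetrizableSpace V] [LocallyCompactSpace V] in
theorem Null.of_embedding {W : Type} [TopologicalSpace W] {e : W → V} (he : IsEmbedding e)
    {S : Set W} (h : Null S) : Null (e '' S) :=
  Hc.subsingleton_of_homeomorph (he.homeomorphImage S).symm h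

/-- A closed half-space of a closed affine subspace. -/
theorem null_halfspace [AddCommGroup V] [Module ℝ V] [ContinuousAdd V] [ContinuousSMul ℝ V]
    {S : Set V} (hS : IsLocallyClosed S) {f : V → ℝ} (hf : Continuous f) {w : V}
    (hw : ∀ t : ℝ, ∀ x ∈ S, x + t • w ∈ S) (hfw : ∀ t : ℝ, ∀ x ∈ S, f (x + t • w) = f x + t) :
    Null (S ∩ {x | 0 ≤ f x}) :=
  null_of_flow hS (fun t x => x + t • w) hw (by fun_prop) (fun x _ => by simp)
    (fun t x _ => by simp) (hf.comp continuous_subtype_val) hfw

end Vale.Agent.P291Z
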