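import Vale.Agent.P291Z.EL.Ex
import Vale.Agent.P291Z.Flow

/-!
# Exact sequences, vanishing, cross products, dimension bounds
-/

set_option linter.unusedSectionVars false

namespace Vale.Agent.P291Z

open Set Function Topology

variable {G : Type} [Group G] [TopologicalSpace G] [Sys G]

section exact

variable {X Y U : Type} [TopologicalSpace X] [MulAction G X] [Nice X]
  [ContinuousSMul G X] [TopologicalSpace Y] [MulAction G Y] [Nice Y] [ContinuousSMul G Y]
  [TopologicalSpace U] [MulAction G U] [Nice U] [ContinuousSMul G U]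

theorem ENull.subsingleton (h : ENull G X) : Subsingleton (EH G X) :=
  ⟨fun _ _ => EH.ext fun M => LinearMap.ext fun x => by
    rw [(h M).elim x 0, map_zero, map_zero]⟩

theorem ENull.of_isEmpty [IsEmpty X] : ENull G X := fun M =>
  haveI : IsEmpty (Bq G X M) := ⟨fun x => Quotient.inductionOn' x fun y => isEmptyElim y.1⟩
  inferInstance

theorem ENull.of_fib {f : X →[G] Y} (hf : Continuous f) (h : ∀ y, Null (f ⁻¹' {y})) :
    ENull G X := fun M => by
  have hy : ∀ x : Bq G Y M, ∃ y, Bor.mk G y = x := fun x => Quotient.exists_rep x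
  choose y hy using hy
  exact Hc.subsingleton_of_fib (F := fun x => f ⁻¹' {(y x).1})
    (i := fun x z => Bor.mk G (z.1, (y x).2)) (continuous_smap hf M)
    (fun x => by
      have := isFib_smap hf M (y x).1 (y x).2
      rwa [Prod.mk.eta, hy x] at this) fun x => h _

variable {i : Y →[G] X} (hi : IsClosedEmbedding i) {j : U →[G] X} (hj : IsOpenEmbedding j)
  (hc : range j = (range i)ᶜ)
include hi hj hc

theorem exact_epush_eres : Function.Exact (epush i) (eres j) := by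
  have hi' := isClosedEmbedding_smap hi
  have hp := fun M => IsPr.of_isClosedEmbedding (hi' M)
  refine EL.exact_of_level (epush_apply (.of_isClosedEmbedding hi)) (eres_apply hj) (fun M => ?_)
    (EL.lev_push (isLev_smap hi.continuous) hp) (r := 0) (c := 0) (fun M k x hx => ?_)
    fun k β hβ => by rw [add_zero]; exact eres_deg hj hβ
  · rw [cext_eq (isOpenEmbedding_smap hj M), cpull_eq (hp M)]
    exact Hc.exact_push_pull (hi' M) _ (EL.range_smap_compl hc M)
  · rw [cpull_eq (hp M), add_zero]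
    exact Hc.pull_deg _ hx

theorem exact_eres_ebdy : Function.Exact (eres j) (ebdy i j) := by
  have hi' := isClosedEmbedding_smap hi
  have hj' := isOpenEmbedding_smap hj
  refine EL.exact_of_level (eres_apply hj) (ebdy_apply hi hj hc) (fun M => ?_)
    (EL.lev_res (isLev_smap hj.continuous) hj') (r := 0) (c := -1) (fun M k x hx => ?_)
    fun k β hβ => ebdy_deg hi hj hc hβ
  · rw [cext_eq (hj' M), cconn_eq (hi' M) (hj' M) (EL.range_smap_compl hc M)]
    exact Hc.exact_conn_push _ _ _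
  · rw [cext_eq (hj' M), add_zero]
    exact Hc.push_deg _ hx

theorem exact_ebdy_epush : Function.Exact (ebdy i j) (epush i) := by
  have hi' := isClosedEmbedding_smap hi
  have hj' := isOpenEmbedding_smap hj
  refine EL.exact_of_level (ebdy_apply hi hj hc) (epush_apply (.of_isClosedEmbedding hi))
    (fun M => ?_) (EL.lev_bdy hi hj hc) (r := 1) (c := 0) (fun M k x hx => ?_)
    fun k β hβ => by rw [add_zero]; exact epush_deg (.of_isClosedEmbedding hi) hβ
  · rw [cpull_eq (.of_isClosedEmbedding (hi' M)),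
      cconn_eq (hi' M) (hj' M) (EL.range_smap_compl hc M)]
    exact Hc.exact_pull_conn _ _ _
  · rw [cconn_eq (hi' M) (hj' M) (EL.range_smap_compl hc M)]
    exact Hc.conn_deg _ _ _ hx

theorem epush_bijective_of_null (h : ENull G U) : Bijective (epush i) := by
  have := h.subsingleton
  refine ⟨(injective_iff_map_eq_zero _).2 fun β hβ => ?_,
    fun β => (exact_epush_eres hi hj hc β).1 (Subsingleton.elim _ _)⟩
  obtain ⟨γ, rfl⟩ := (exact_ebdy_epush hi hj hc β).1 hβ
  rw [Subsingleton.elim γ 0, map_zero]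

theorem eres_bijective_of_null (h : ENull G Y) : Bijective (eres j) := by
  have := h.subsingleton
  refine ⟨(injective_iff_map_eq_zero _).2 fun β hβ => ?_,
    fun β => (exact_eres_ebdy hi hj hc β).1 (Subsingleton.elim _ _)⟩
  obtain ⟨γ, rfl⟩ := (exact_epush_eres hi hj hc β).1 hβ
  rw [Subsingleton.elim γ 0, map_zero]

theorem ENull.of_open_closed (h : ENull G U) (h' : ENull G Y) : ENull G X := fun M =>
  Hc.subsingleton_of_open_closed (isClosedEmbedding_smap hi M) (isOpenEmbedding_smap hj M)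
    (EL.range_smap_compl hc M) (h M) (h' M)

theorem finite_deg_of_open_closed {k : ℤ} [Module.Finite ℂ (EH.deg G Y k)]
    [Module.Finite ℂ (EH.deg G U k)] : Module.Finite ℂ (EH.deg G X k) ∧
      Module.finrank ℂ (EH.deg G X k) ≤
        Module.finrank ℂ (EH.deg G Y k) + Module.finrank ℂ (EH.deg G U k) := by
  have hp := IsPr.of_isClosedEmbedding hi
  refine EL.finite_of_exact (f := (epush i).restrict fun _ => epush_deg hp)
    (g := (eres j).restrict fun _ => eres_deg hj) fun β => ⟨fun h => ?_, ?_⟩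
  · obtain ⟨γ, hγ⟩ := (exact_epush_eres hi hj hc β.1).1 (congrArg Subtype.val h)
    refine ⟨⟨EH.comp k γ, EH.comp_mem k γ⟩, Subtype.ext ?_⟩
    have := EH.comp_map (φ := epush i) (c := 0)
      (fun k β hβ => by rw [add_zero]; exact epush_deg hp hβ) k γ
    rw [add_zero, hγ, EH.comp_of_mem β.2] at this
    exact this.symm
  · rintro ⟨γ, rfl⟩
    exact Subtype.ext ((exact_epush_eres hi hj hc).apply_apply_eq_zero γ.1)

/-- localization: if `r` kills the homology of the open part, the kernel and the cokernel of the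
push-forward from the closed part are killed by `r` -/
theorem loc_coker {r : HS G Unit} (h : ∀ β : EH G U, r • β = 0) (β : EH G X) :
    ∃ γ, epush i γ = r • β :=
  (exact_epush_eres hi hj hc _).1 (by rw [eres_smul hj, h])

theorem loc_ker {r : HS G Unit} (h : ∀ β : EH G U, r • β = 0) {γ : EH G Y} (h0 : epush i γ = 0) :
    r • γ = 0 := by
  obtain ⟨β, rfl⟩ := (exact_ebdy_epush hi hj hc γ).1 h0
  rw [← ebdy_smul hi hj hc, h, map_zero]

theorem kill_of_open_closed {r r' : HS G Unit} (h : ∀ β : EH G U, r • β = 0)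
    (h' : ∀ β : EH G Y, r' • β = 0) (β : EH G X) : (r' * r) • β = 0 := by
  obtain ⟨γ, hγ⟩ := loc_coker hi hj hc h β
  rw [mul_smul, ← hγ, ← epush_smul (.of_isClosedEmbedding hi), h', map_zero]

end exact

section cross

variable {G₁ G₂ Z Z₁ Z₂ : Type} [Group G₁] [TopologicalSpace G₁] [Sys G₁] [Group G₂]
  [TopologicalSpace G₂] [Sys G₂] [TopologicalSpace Z] [MulAction G Z] [Nice Z] [ContinuousSMul G Z]
  [TopologicalSpace Z₁] [MulAction G₁ Z₁] [Nice Z₁] [ContinuousSMul G₁ Z₁]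
  [TopologicalSpace Z₂] [MulAction G₂ Z₂] [Nice Z₂] [ContinuousSMul G₂ Z₂]
  {p₁ : ∀ M, Bq G Z M → Bq G₁ Z₁ M} {p₂ : ∀ M, Bq G Z M → Bq G₂ Z₂ M} (hp : IsProd p₁ p₂)
include hp

theorem lcross_apply (β₁ : EH G₁ Z₁) (β₂ : EH G₂ Z₂) (M : ℕ) :
    (lcross p₁ p₂ β₁ β₂).1 M = cross (p₁ M) (p₂ M) (β₁.1 M) (β₂.1 M) :=
  Classical.epsilon_spec (p := fun φ : EH G₁ Z₁ →ₗ[ℂ] EH G₂ Z₂ →ₗ[ℂ] EH G Z => ∀ β₁ β₂ M,
    (φ β₁ β₂).1 M = cross (p₁ M) (p₂ M) (β₁.1 M) (β₂.1 M))
    ⟨LinearMap.mk₂ ℂ (fun β₁ β₂ => ⟨_, EL.cross_mem_EHs hp β₁.2 β₂.2⟩)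
      (fun _ _ _ => EH.ext fun _ => LinearMap.map_add₂ _ _ _ _)
      (fun _ _ _ => EH.ext fun _ => LinearMap.map_smul₂ _ _ _ _)
      (fun _ _ _ => EH.ext fun _ => map_add _ _ _)
      (fun c β₁ β₂ => EH.ext fun M => map_smul (cross (p₁ M) (p₂ M) (β₁.1 M)) c (β₂.1 M)),
      fun _ _ _ => rfl⟩ β₁ β₂ M

theorem lcross_deg {k l : ℤ} {β₁ : EH G₁ Z₁} {β₂ : EH G₂ Z₂} (h₁ : β₁ ∈ EH.deg G₁ Z₁ k)
    (h₂ : β₂ ∈ EH.deg G₂ Z₂ l) : lcross p₁ p₂ β₁ β₂ ∈ EH.deg G Z (k + l) := by
  have h := EL.cross_mem_FamS hp (β₁ := β₁.1) (β₂ := β₂.1) h₁ h₂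
  rwa [← funext (lcross_apply hp β₁ β₂)] at h

end cross

/-- Dimension bound for a product with a classifying space. -/
theorem finite_deg_prod {G₁ G₂ Z Z₁ : Type} [Group G₁] [TopologicalSpace G₁] [Sys G₁] [Group G₂]
    [TopologicalSpace G₂] [Sys G₂] [TopologicalSpace Z] [MulAction G Z] [Nice Z]
    [ContinuousSMul G Z] [TopologicalSpace Z₁] [MulAction G₁ Z₁] [Nice Z₁] [ContinuousSMul G₁ Z₁]
    {p₁ : ∀ M, Bq G Z M → Bq G₁ Z₁ M} {p₂ : ∀ M, Bq G Z M → Bq G₂ Unit M} (hp : IsProd p₁ p₂)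
    (h₁ : ∀ k, Module.Finite ℂ (EH.deg G₁ Z₁ k)) (h₂ : ∀ k, Module.Finite ℂ (EH.deg G₂ Unit k))
    {D : ℤ} (b₁ : ∀ k, D < k → EH.deg G₁ Z₁ k = ⊥) (b₂ : ∀ k, 0 < k → EH.deg G₂ Unit k = ⊥) (k : ℤ) :
    Module.Finite ℂ (EH.deg G Z k) ∧ Module.finrank ℂ (EH.deg G Z k) ≤
      ∑ j ∈ Finset.Icc 0 (D - k), Module.finrank ℂ (EH.deg G₁ Z₁ (k + j)) *
        Module.finrank ℂ (EH.deg G₂ Unit (-j)) := by
  have e : ∀ j : ℤ, k + j + -j = k := fun j => by ring
  choose μ hμ using fun j => EL.exists_col_cross hp (e j)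
  rw [EL.finite_iff]
  simp only [EL.finrank_eq]
  refine EL.finite_of_span (fun j => EL.finite_iff.1 (h₁ _)) (fun j => EL.finite_iff.1 (h₂ _)) μ _
    fun S hS => EL.col_span hp S fun a b h M x y => ?_
  obtain ⟨j, rfl, rfl⟩ : ∃ j, a = k + j ∧ b = -j := ⟨-b, by omega, by omega⟩
  rw [← hμ]
  by_cases hj : j ∈ Finset.Icc 0 (D - k)
  · exact hS j hj _ _
  · rw [Finset.mem_Icc, not_and_or] at hj
    rcases hj with hj | hj
    · rw [EL.col_eq_zero (b₂ (-j) (by omega)) (EL.ofD _ _ _ M y), map_zero]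
      exact zero_mem _
    · rw [EL.col_eq_zero (b₁ (k + j) (by omega)) (EL.ofD _ _ _ M x), map_zero,
        LinearMap.zero_apply]
      exact zero_mem _

end Vale.Agent.P291Z
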