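import Vale.Agent.P291Z.Sys1
import Vale.Agent.P291Z.OpsC
import Vale.Agent.P291Z.EulVB

/-!
# Euler and Thom cocycles on Borel constructions
-/

set_option linter.all false

namespace Vale.Agent.P291Z

open Set Function Topology

section vb

variable {X E B : Type} [TopologicalSpace X] [TopologicalSpace E] [TopologicalSpace B] {r : ℕ}
  {p : E → B} {Z : Set E} {chart : (r : ℕ) → ((Fin r → ℂ) → E) → Prop}

/-- transport of vector bundles along homeomorphisms -/
theorem IsVB.comap (h : IsVB r p Z chart) {e : X → E} (he : IsHomeomorph e) :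
    IsVB r (p ∘ e) (e ⁻¹' Z) fun r φ => chart r (e ∘ φ) := by
  let e' := he.homeomorph e
  have h1 : ∀ y, e (e'.symm y) = y := e'.apply_symm_apply
  refine ⟨h.cont.comp he.continuous, fun x => ?_, fun r' φ hφ => h.rank r' _ hφ,
    fun φ φ' c c' hp => ?_⟩
  · obtain ⟨N, Φ, h2, h3, h4⟩ := h.triv x
    refine ⟨N, e'.symm ∘ Φ, h2, ⟨h3.isOpen, e'.symm.isOpenEmbedding.comp h3.emb, ?_,
      fun w => ?_, fun w => ?_⟩, fun y => ?_⟩
    · rw [range_comp, h3.range_eq, e'.image_symm]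
      rfl
    · rw [comp_apply, comp_apply, h1, h3.proj]
    · rw [mem_preimage, comp_apply, h1, h3.zero]
    · rw [show (e ∘ fun v => (e'.symm ∘ Φ) (y, v)) = fun v => Φ (y, v) from funext fun v => h1 _]
      exact h4 y
  · obtain ⟨g, hg⟩ := h.trans _ _ c c' hp
    exact ⟨g, funext fun v => he.injective (congrFun hg v)⟩

/-- a cocycle of the right degree that is cohomologous to a Thom cocycle is a Thom cocycle -/
theorem IsVB.isThom_of_cohom [T1Space B] (h : IsVB r p Z chart) {t t' : Coch E}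
    (ht : IsThom Z chart t) (hd : IsDeg (2 * r) t') (hc : Cohom Z t' t) : IsThom Z chart t' := by
  refine h.isThom_of (hc.cocycle ht.1) (hc.supp_subset ht.2.1) hd fun x => ?_
  obtain ⟨φ, h1, h2⟩ := h.exists_chart x
  refine ⟨φ, h1, h2, ?_⟩
  rw [← ht.cls_chart h1]
  exact cls_eq_of_cohom isCompact_singleton ((hc.pull (h.chart_fib h1).emb.continuous).mono
    fun v hv => (h.chart_zero h1 v).1 hv)

theorem Cohom.mul {A A' : Set X} {a a' b b' : Coch X} (h : Cohom A a a') (h' : Cohom A' b b')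
    (ha : supp (δ a') = ∅) (hb : supp (δ b) = ∅) (hs : supp a' ⊆ A) (hs' : supp b ⊆ A') :
    Cohom (A ∩ A') (a * b) (a' * b') :=
  ((h.mul_right hb).mono (inter_subset_inter_right _ hs')).trans
    ((h'.mul_left ha).mono (inter_subset_inter_left _ hs))

end vb

section rep

variable {G W W' : Type} [Group G] [TopologicalSpace G] [AddCommGroup W] [Module ℂ W]
  [TopologicalSpace W] [DistribMulAction G W] [AddCommGroup W'] [Module ℂ W']
  [TopologicalSpace W'] [DistribMulAction G W'] {r r' : ℕ}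

theorem IsRep.prod (h : IsRep G W r) (h' : IsRep G W' r') : IsRep G (W × W') (r + r') := by
  haveI := h.comm
  haveI := h'.comm
  haveI := h.cont
  haveI := h'.cont
  obtain ⟨e⟩ := h.lin
  obtain ⟨e'⟩ := h'.lin
  exact ⟨⟨(e.prodCongr e').trans (ContinuousLinearEquiv.ofFinrankEq (by simp))⟩, inferInstance,
    inferInstance⟩

theorem IsRep.pi {ι : Type} [Fintype ι] (h : IsRep G W r) :
    IsRep G (ι → W) (Fintype.card ι * r) := by
  haveI := h.comm
  haveI := h.cont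
  obtain ⟨e⟩ := h.lin
  exact ⟨⟨(ContinuousLinearEquiv.piCongrRight fun _ : ι => e).trans
    (ContinuousLinearEquiv.ofFinrankEq (by simp [Module.finrank_pi_fintype]))⟩, inferInstance,
    inferInstance⟩

end rep

section level

variable {G G' Z Z' P P' W W' : Type} [Group G] [TopologicalSpace G] [Group G']
  [TopologicalSpace G'] [TopologicalSpace Z] [MulAction G Z] [TopologicalSpace P] [MulAction G P]
  [TopologicalSpace Z'] [MulAction G' Z'] [TopologicalSpace P'] [MulAction G' P']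
  [AddCommGroup W] [Module ℂ W] [TopologicalSpace W] [DistribMulAction G W]
  [AddCommGroup W'] [Module ℂ W'] [TopologicalSpace W'] [DistribMulAction G' W']
  [Prin G P] [Nice P] [Nice Z] [ContinuousSMul G Z] [Prin G' P'] [Nice P'] [Nice Z']
  [ContinuousSMul G' Z'] {r : ℕ}

/-- the zero set of a section in the Borel construction -/
def zset (G : Type) [Group G] [MulAction G Z] [MulAction G P] (σ : Z × P → W) :
    Set (Bor G Z P) := {x | ∃ y, σ y = 0 ∧ x = Bor.mk G y}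

/-- the section of `(Z × W × P) / G → (Z × P) / G` given by an equivariant map -/
def vsec (σ : Z × P → W) (hσ : ∀ (h : G) x, σ (h • x) = h • σ x) :
    Bor G Z P → Bor G (⊤ : SubMulAction G (Z × W)) P :=
  Bor.map (MonoidHom.id G) (fun x => (⟨(x.1, σ x), trivial⟩, x.2))
    fun h x => Prod.ext (Subtype.ext (Prod.ext rfl (hσ h x))) rfl

theorem euler_eq (σ : Z × P → W) (hσ : ∀ (h : G) x, σ (h • x) = h • σ x) :
    euler σ hσ = pull (vsec σ hσ) (thom ⊤ P) := rfl

theorem continuous_vsec {σ : Z × P → W} (hσ : ∀ (h : G) x, σ (h • x) = h • σ x)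
    (hc : Continuous σ) : Continuous (vsec σ hσ) :=
  Bor.continuous_map' _ (((continuous_fst.prodMk hc).subtype_mk _).prodMk continuous_snd)

theorem mk_mem_zset {σ : Z × P → W} (hσ : ∀ (h : G) x, σ (h • x) = h • σ x) {y : Z × P} :
    Bor.mk G y ∈ zset G σ ↔ σ y = 0 := by
  refine ⟨?_, fun h => ⟨y, h, rfl⟩⟩
  rintro ⟨y', h, e⟩
  obtain ⟨g, rfl⟩ := Bor.mk_eq_iff.1 e
  rw [hσ, h, smul_zero]

theorem vsec_preimage {σ : Z × P → W} (hσ : ∀ (h : G) x, σ (h • x) = h • σ x) :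
    vsec σ hσ ⁻¹' vzero ⊤ P = zset G σ := by
  ext b
  obtain ⟨y, rfl⟩ := Bor.mk_surjective b
  exact (mk_mem_vzero (V := ⊤) (y := (⟨(y.1, σ y), trivial⟩, y.2))).trans (mk_mem_zset hσ).symm

theorem euler_cocycle (hW : IsRep G W r) {σ : Z × P → W} (hσ : ∀ (h : G) x, σ (h • x) = h • σ x)
    (hc : Continuous σ) : supp (δ (euler σ hσ)) = ∅ :=
  cocycle_pull (continuous_vsec hσ hc) (thom_cocycle hW (isSubVB_top hW))

theorem isDeg_euler (hW : IsRep G W r) {σ : Z × P → W} (hσ : ∀ (h : G) x, σ (h • x) = h • σ x) :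
    IsDeg (2 * r) (euler σ hσ) := (isDeg_thom hW (isSubVB_top hW)).pull _

theorem supp_euler (hW : IsRep G W r) {σ : Z × P → W} (hσ : ∀ (h : G) x, σ (h • x) = h • σ x)
    (hc : Continuous σ) : supp (euler σ hσ) ⊆ zset G σ :=
  (supp_pull (continuous_vsec hσ hc) _).trans
    ((preimage_mono (supp_thom hW (isSubVB_top hW))).trans (vsec_preimage hσ).subset)

/-- fibrewise linear injective maps of bundles of equal rank pull Thom cocycles back to Thom
cocycles -/
theorem IsThom.pull_fib {s' : ℕ} (hW' : IsRep G' W' s') (φ : G →* G')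
    {V : SubMulAction G (Z × W)} {V' : SubMulAction G' (Z' × W')} (hV : IsSubVB V r)
    (hV' : IsSubVB V' r) {F : V × P → V' × P'} (hF : ∀ h x, F (h • x) = φ h • F x)
    (hFc : Continuous F) (hl : ∀ z u, ∃ (y : Z' × P') (ℓ : W →ₗ[ℂ] W'),
      (∀ w h, (F (⟨(z, w), h⟩, u)).1.1 = (y.1, ℓ w) ∧ (F (⟨(z, w), h⟩, u)).2 = y.2) ∧
      ∀ w, (z, w) ∈ V → ℓ w = 0 → w = 0) {t : Coch (Bor G' V' P')}
    (ht : IsThom (vzero V' P') (fib V' P') t) :
    IsThom (vzero V P) (fib V P) (P291Z.pull (Bor.map φ F hF) t) := by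
  haveI := hW'.finite
  refine ht.pull (Bor.continuous_map' hF hFc) (fun b hb => ?_) fun r₀ ψ hψ => ?_
  · obtain ⟨⟨⟨⟨z, w⟩, h⟩, u⟩, rfl⟩ := Bor.mk_surjective b
    obtain ⟨y, ℓ, h1, h2⟩ := hl z u
    have h3 := mk_mem_vzero.1 hb
    rw [(h1 w h).1] at h3
    exact mk_mem_vzero.2 (h2 w h h3)
  · obtain rfl := fib_rank hV hψ
    obtain ⟨z, u, ℓ₀, h1, h2, h3⟩ := hψ
    obtain ⟨y, ℓ, h4, h5⟩ := hl z u
    have hm : ∀ a, (y.1, ℓ (ℓ₀ a)) ∈ V' := fun a => by
      rw [← (h4 (ℓ₀ a) ((h2 _).2 ⟨a, rfl⟩)).1]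
      exact Subtype.property _
    have hi : Injective (ℓ ∘ₗ ℓ₀) := by
      rw [← LinearMap.ker_eq_bot, eq_bot_iff]
      intro a ha
      exact h1 ((h5 _ ((h2 _).2 ⟨a, rfl⟩) ha).trans (map_zero ℓ₀).symm)
    obtain ⟨S, h6, h7⟩ := hV'.fibre y.1
    have h8 : LinearMap.range (ℓ ∘ₗ ℓ₀) = S := by
      refine Submodule.eq_of_le_of_finrank_eq ?_ ?_
      · rintro _ ⟨a, rfl⟩
        exact (h7 _).1 (hm a)
      · rw [h6, LinearMap.finrank_range_of_inj hi, Module.finrank_fin_fun]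
    refine ⟨y.1, y.2, ℓ ∘ₗ ℓ₀, hi, fun w => (h7 w).trans (by rw [← h8]; rfl), fun a =>
      ⟨hm a, ?_⟩⟩
    obtain ⟨h, e⟩ := h3 a
    rw [comp_apply, e, Bor.map_mk]
    exact congrArg (Bor.mk G') (Prod.ext (Subtype.ext (h4 _ h).1) (h4 _ h).2)

/-- Naturality of Thom cocycles under fibrewise linear injective maps of bundles of equal rank. -/
theorem thom_pull {s s' : ℕ} (hW : IsRep G W s) (hW' : IsRep G' W' s') (φ : G →* G')
    {V : SubMulAction G (Z × W)} {V' : SubMulAction G' (Z' × W')} (hV : IsSubVB V r)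
    (hV' : IsSubVB V' r) {F : V × P → V' × P'} (hF : ∀ h x, F (h • x) = φ h • F x)
    (hFc : Continuous F) (hl : ∀ z u, ∃ (y : Z' × P') (ℓ : W →ₗ[ℂ] W'),
      (∀ w h, (F (⟨(z, w), h⟩, u)).1.1 = (y.1, ℓ w) ∧ (F (⟨(z, w), h⟩, u)).2 = y.2) ∧
      ∀ w, (z, w) ∈ V → ℓ w = 0 → w = 0) :
    Cohom {x | ∃ y : V × P, y.1.1.2 = 0 ∧ x = Bor.mk G y} (pull (Bor.map φ F hF) (thom V' P'))
      (thom V P) :=
  ((isThom_thom hW' hV').pull_fib hW' φ hV hV' hF hFc hl).cohom_thom hW hV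

/-- a section of a pulled back bundle: the Euler cocycle is the pull-back of a Thom cocycle -/
theorem euler_eq_pull {s' : ℕ} (hW : IsRep G W r) (hW' : IsRep G' W' s') (φ : G →* G')
    {V' : SubMulAction G' (Z' × W')} (hV' : IsSubVB V' r)
    {F : (⊤ : SubMulAction G (Z × W)) × P → V' × P'} (hF : ∀ h x, F (h • x) = φ h • F x)
    (hFc : Continuous F) (hl : ∀ z u, ∃ (y : Z' × P') (ℓ : W →ₗ[ℂ] W'), Injective ℓ ∧
      ∀ w h, (F (⟨(z, w), h⟩, u)).1.1 = (y.1, ℓ w) ∧ (F (⟨(z, w), h⟩, u)).2 = y.2)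
    {σ : Z × P → W} (hσ : ∀ (h : G) x, σ (h • x) = h • σ x) (hc : Continuous σ)
    {k : Bor G Z P → Bor G' V' P'}
    (hk : ∀ x, k (Bor.mk G x) = Bor.mk G' (F (⟨(x.1, σ x), trivial⟩, x.2))) :
    Cohom (zset G σ) (pull k (thom V' P')) (euler σ hσ) := by
  have h1 := (thom_pull hW hW' φ (isSubVB_top hW) hV' hF hFc fun z u => by
    obtain ⟨y, ℓ, h1, h2⟩ := hl z u
    exact ⟨y, ℓ, h2, fun w _ h => h1 (h.trans (map_zero ℓ).symm)⟩).pull (continuous_vsec hσ hc)
  rw [pull_pull, show Bor.map φ F hF ∘ vsec σ hσ = k from funext fun b => by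
    obtain ⟨x, rfl⟩ := Bor.mk_surjective b
    exact (hk x).symm] at h1
  exact h1.mono (vsec_preimage hσ).subset

/-- Naturality of Euler cocycles: `f` is equivariant along `φ`, and `L` is a continuous
equivariant family of linear isomorphisms that carries `σ` to `σ' ∘ f`. -/
theorem euler_pull (hW : IsRep G W r) (hW' : IsRep G' W' r) (φ : G →* G') {f : Z × P → Z' × P'}
    (hf : ∀ h x, f (h • x) = φ h • f x) (hfc : Continuous f) {σ : Z × P → W}
    (hσ : ∀ (h : G) x, σ (h • x) = h • σ x) (hc : Continuous σ) {σ' : Z' × P' → W'}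
    (hσ' : ∀ (h : G') x, σ' (h • x) = h • σ' x) (hc' : Continuous σ') (L : Z × P → W →ₗ[ℂ] W')
    (hL : Continuous fun x : (Z × P) × W => L x.1 x.2) (hLb : ∀ x, Bijective (L x))
    (hLe : ∀ (h : G) x w, L (h • x) (h • w) = φ h • L x w) (hLσ : ∀ x, L x (σ x) = σ' (f x)) :
    Cohom (zset G σ) (pull (Bor.map φ f hf) (euler σ' hσ')) (euler σ hσ) := by
  rw [euler_eq σ', pull_pull]
  have h1 : Continuous fun x : (⊤ : SubMulAction G (Z × W)) × P => (x.1.1.1, x.2) := by fun_prop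
  refine euler_eq_pull hW hW' φ (isSubVB_top hW')
    (F := fun x => (⟨((f (x.1.1.1, x.2)).1, L (x.1.1.1, x.2) x.1.1.2), trivial⟩,
      (f (x.1.1.1, x.2)).2)) (fun h x => ?_) ?_
    (fun z u => ⟨f (z, u), L (z, u), (hLb _).1, fun w h => ⟨rfl, rfl⟩⟩) hσ hc fun x => ?_
  · have h2 := hf h (x.1.1.1, x.2)
    have h3 := congrArg Prod.fst h2
    have h4 := congrArg Prod.snd h2
    exact Prod.ext (Subtype.ext (Prod.ext h3 (hLe h (x.1.1.1, x.2) x.1.1.2))) h4
  · exact (((hfc.comp h1).fst.prodMk (hL.comp (h1.prodMk (by fun_prop)))).subtype_mk _).prodMk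
      (hfc.comp h1).snd
  · exact congrArg (Bor.mk G') (Prod.ext (Subtype.ext (Prod.ext rfl (hLσ x).symm)) rfl)

/-- Whitney sum formula -/
theorem euler_prod {W₂ : Type} [AddCommGroup W₂] [Module ℂ W₂] [TopologicalSpace W₂]
    [DistribMulAction G W₂] {r₂ : ℕ} (hW : IsRep G W r) (hW₂ : IsRep G W₂ r₂) {σ : Z × P → W}
    (hσ : ∀ (h : G) x, σ (h • x) = h • σ x) (hc : Continuous σ) {σ₂ : Z × P → W₂}
    (hσ₂ : ∀ (h : G) x, σ₂ (h • x) = h • σ₂ x) (hc₂ : Continuous σ₂)
    (h : ∀ (h : G) x, (σ (h • x), σ₂ (h • x)) = h • (σ x, σ₂ x)) :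
    Cohom (zset G σ ∩ zset G σ₂) (euler (fun x => (σ x, σ₂ x)) h) (euler σ hσ * euler σ₂ hσ₂) := by
  have hW' := hW.prod hW₂
  let q₁ : Bor G (⊤ : SubMulAction G (Z × (W × W₂))) P → Bor G (⊤ : SubMulAction G (Z × W)) P :=
    Bor.map (MonoidHom.id G) (fun x => (⟨(x.1.1.1, x.1.1.2.1), trivial⟩, x.2)) fun _ _ => rfl
  let q₂ : Bor G (⊤ : SubMulAction G (Z × (W × W₂))) P → Bor G (⊤ : SubMulAction G (Z × W₂)) P :=
    Bor.map (MonoidHom.id G) (fun x => (⟨(x.1.1.1, x.1.1.2.2), trivial⟩, x.2)) fun _ _ => rfl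
  have hq₁ : Continuous q₁ := Bor.continuous_map' _ (by fun_prop)
  have hq₂ : Continuous q₂ := Bor.continuous_map' _ (by fun_prop)
  have v₁ := isVB_fib (Z := Z) (P := P) hW (isSubVB_top hW)
  have v₂ := isVB_fib (Z := Z) (P := P) hW₂ (isSubVB_top hW₂)
  have t₁ := isThom_thom (Z := Z) (P := P) hW (isSubVB_top hW)
  have t₂ := isThom_thom (Z := Z) (P := P) hW₂ (isSubVB_top hW₂)
  have key := (isVB_fib (Z := Z) (P := P) hW' (isSubVB_top hW')).isThom_sum hq₁ hq₂ (fun b hb => by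
      obtain ⟨y, rfl⟩ := Bor.mk_surjective b
      exact mk_mem_vzero.2 (Prod.ext (mk_mem_vzero.1 hb.1) (mk_mem_vzero.1 hb.2))) t₁
    (v₁.thom_deg t₁) t₂ (v₂.thom_deg t₂) fun x => by
      obtain ⟨⟨z, u⟩, rfl⟩ := Bor.mk_surjective x
      obtain ⟨e₁⟩ := hW.lin
      obtain ⟨e₂⟩ := hW₂.lin
      let ℓ : (Fin (r + r₂) → ℂ) →ₗ[ℂ] W × W₂ :=
        (e₁.symm.toLinearEquiv.toLinearMap ∘ₗ LinearMap.funLeft ℂ ℂ (Fin.castAdd r₂)).prod
          (e₂.symm.toLinearEquiv.toLinearMap ∘ₗ LinearMap.funLeft ℂ ℂ (Fin.natAdd r))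
      have hℓ : Bijective ℓ :=
        (e₁.symm.bijective.prodMap e₂.symm.bijective).comp (isHomeomorph_append r r₂).bijective
      have c₁ : fib (⊤ : SubMulAction G (Z × W)) P r
          fun a => Bor.mk G (⟨(z, e₁.symm a), trivial⟩, u) :=
        ⟨z, u, e₁.symm.toLinearEquiv.toLinearMap, e₁.symm.injective,
          fun w => ⟨fun _ => e₁.symm.surjective w, fun _ => trivial⟩, fun a => ⟨trivial, rfl⟩⟩
      have c₂ : fib (⊤ : SubMulAction G (Z × W₂)) P r₂
          fun a => Bor.mk G (⟨(z, e₂.symm a), trivial⟩, u) :=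
        ⟨z, u, e₂.symm.toLinearEquiv.toLinearMap, e₂.symm.injective,
          fun w => ⟨fun _ => e₂.symm.surjective w, fun _ => trivial⟩, fun a => ⟨trivial, rfl⟩⟩
      exact ⟨fun a => Bor.mk G (⟨(z, ℓ a), trivial⟩, u), _, _,
        ⟨z, u, ℓ, hℓ.1, fun w => ⟨fun _ => hℓ.2 w, fun _ => trivial⟩, fun a => ⟨trivial, rfl⟩⟩,
        c₁, c₂, rfl, fun _ => rfl, fun _ => rfl, (v₁.isGen_chart t₁ c₁).mem,
        (v₂.isGen_chart t₂ c₂).mem⟩
  have h1 := ((key.cohom_thom hW' (isSubVB_top hW')).symm).pull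
    (continuous_vsec (σ := fun x => (σ x, σ₂ x)) h (hc.prodMk hc₂))
  rw [map_mul, pull_pull, pull_pull, vsec_preimage,
    show q₁ ∘ vsec (fun x => (σ x, σ₂ x)) h = vsec σ hσ from funext fun b => by
      obtain ⟨x, rfl⟩ := Bor.mk_surjective b
      rfl,
    show q₂ ∘ vsec (fun x => (σ x, σ₂ x)) h = vsec σ₂ hσ₂ from funext fun b => by
      obtain ⟨x, rfl⟩ := Bor.mk_surjective b
      rfl] at h1
  refine h1.mono ?_
  rintro _ ⟨y, hy, rfl⟩
  exact ⟨⟨y, congrArg Prod.fst hy, rfl⟩, ⟨y, congrArg Prod.snd hy, rfl⟩⟩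

/-- the Euler class does not depend on the section -/
theorem hcls_euler (hW : IsRep G W r) {σ σ' : Z × P → W} (hσ : ∀ (h : G) x, σ (h • x) = h • σ x)
    (hc : Continuous σ) (hσ' : ∀ (h : G) x, σ' (h • x) = h • σ' x) (hc' : Continuous σ') :
    hcls (euler σ hσ) = hcls (euler σ' hσ') := by
  haveI := hW.comm
  haveI := hW.continuousAdd
  haveI := hW.continuousSMul
  have ht := thom_cocycle (Z := Z) (P := P) hW (isSubVB_top hW)
  let ρ : unitInterval → Z × P → W := fun t x => (1 - ((t : ℝ) : ℂ)) • σ x + ((t : ℝ) : ℂ) • σ' x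
  have hρ : ∀ t (h : G) x, ρ t (h • x) = h • ρ t x := fun t h x => by
    simp only [ρ, hσ, hσ', smul_add, smul_comm h]
  have hρc : Continuous fun y : unitInterval × (Z × P) => ρ y.1 y.2 := by
    simp only [ρ]
    fun_prop
  have hH : (⟨vsec σ hσ, continuous_vsec hσ hc⟩ : C(_, _)).Homotopic
      ⟨vsec σ' hσ', continuous_vsec hσ' hc'⟩ := by
    refine ⟨⟨⟨fun y => vsec (ρ y.1) (hρ y.1) y.2, ?_⟩, fun b => ?_, fun b => ?_⟩⟩
    · rw [← (IsOpenQuotientMap.id.prodMap (Bor.isOpenQuotientMap_mk (G := G))).continuous_comp_iff]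
      exact Bor.continuous_mk.comp
        (((continuous_snd.fst.prodMk hρc).subtype_mk _).prodMk continuous_snd.snd)
    · obtain ⟨x, rfl⟩ := Bor.mk_surjective b
      exact congrArg (Bor.mk G) (Prod.ext (Subtype.ext (Prod.ext rfl (by simp [ρ]))) rfl)
    · obtain ⟨x, rfl⟩ := Bor.mk_surjective b
      exact congrArg (Bor.mk G) (Prod.ext (Subtype.ext (Prod.ext rfl (by simp [ρ]))) rfl)
  exact (H.map_hcls ⟨_, continuous_vsec hσ hc⟩ ht).symm.trans
    ((congrArg (fun f : H _ →+* H _ => f (hcls (thom ⊤ P))) (H.map_eq_of_homotopic hH)).trans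
      (H.map_hcls ⟨_, continuous_vsec hσ' hc'⟩ ht))

section triv

variable {X : Type} [TopologicalSpace X] [MulAction G X] [Nice X] [ContinuousSMul G X]

/-- the map to the trivial bundle given by `p` and `κ` -/
def vmap (p : X →[G] Z) (κ : X →[G] W) (P : Type) [MulAction G P] :
    Bor G X P → Bor G (⊤ : SubMulAction G (Z × W)) P :=
  Bor.map (MonoidHom.id G) (fun x => (⟨(p x.1, κ x.1), trivial⟩, x.2)) fun h x =>
    Prod.ext (Subtype.ext (Prod.ext (p.map_smul h x.1) (κ.map_smul h x.1))) rfl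

theorem continuous_vmap {p : X →[G] Z} {κ : X →[G] W} (hp : Continuous p) (hκ : Continuous κ) :
    Continuous (vmap p κ P) := Bor.continuous_map' _ (by fun_prop)

theorem vmap_preimage (p : X →[G] Z) (κ : X →[G] W) :
    vmap p κ P ⁻¹' vzero ⊤ P = zset G fun x : X × P => κ x.1 := by
  ext b
  obtain ⟨y, rfl⟩ := Bor.mk_surjective b
  exact (mk_mem_vzero (V := ⊤) (y := (⟨(p y.1, κ y.1), trivial⟩, y.2))).trans
    (mk_mem_zset (σ := fun x : X × P => κ x.1) fun h x => κ.map_smul h x.1).symm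

theorem pull_vmap (hW : IsRep G W r) {p : X →[G] Z} {κ : X →[G] W} (hp : Continuous p)
    (hκ : Continuous κ) : Cohom (zset G fun x : X × P => κ x.1) (pull (vmap p κ P) (thom ⊤ P))
      (euler (fun x : X × P => κ x.1) fun h x => κ.map_smul h x.1) :=
  euler_eq_pull hW hW (MonoidHom.id G) (isSubVB_top hW)
    (F := fun x => (⟨(p x.1.1.1, x.1.1.2), trivial⟩, x.2))
    (fun h x => Prod.ext (Subtype.ext (Prod.ext (p.map_smul h _) rfl)) rfl) (by fun_prop)
    (fun z u => ⟨(p z, u), LinearMap.id, injective_id, fun _ _ => ⟨rfl, rfl⟩⟩) _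
    (hκ.comp continuous_fst) fun _ => rfl

theorem isHomeomorph_vmap {p : X →[G] Z} {κ : X →[G] W} (h : IsHomeomorph fun x => (p x, κ x)) :
    IsHomeomorph (vmap p κ P) :=
  Bor.isHomeomorph_map' _ surjective_id
    (((Homeomorph.Set.univ (Z × W)).symm.isHomeomorph.comp h).prodMap IsHomeomorph.id)

/-- A Thom cocycle pulled back to a trivial bundle `X ≅ Z × W` is the Euler cocycle of the
tautological section. -/
theorem thom_pull_eq_euler {s' : ℕ} (hW : IsRep G W r) (hW' : IsRep G' W' s') (φ : G →* G')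
    {V' : SubMulAction G' (Z' × W')} (hV' : IsSubVB V' r) {p : X →[G] Z} {κ : X →[G] W}
    (h : IsHomeomorph fun x => (p x, κ x)) {F : X × P → V' × P'}
    (hF : ∀ h x, F (h • x) = φ h • F x) (hFc : Continuous F)
    (hl : ∀ z u, ∃ (y : Z' × P') (ℓ : W →ₗ[ℂ] W'), Injective ℓ ∧
      ∀ x, p x = z → (F (x, u)).1.1 = (y.1, ℓ (κ x)) ∧ (F (x, u)).2 = y.2) :
    Cohom (zset G fun x : X × P => κ x.1) (pull (Bor.map φ F hF) (thom V' P'))
      (euler (fun x : X × P => κ x.1) fun h x => κ.map_smul h x.1) := by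
  let e := h.homeomorph _
  have h1 : ∀ y, (p (e.symm y), κ (e.symm y)) = y := e.apply_symm_apply
  have h2 : ∀ x, e.symm (p x, κ x) = x := e.symm_apply_apply
  have hp : Continuous p := h.continuous.fst
  refine euler_eq_pull hW hW' φ hV' (F := fun x => F (e.symm (p x.1.1.1, x.1.1.2), x.2))
    (fun g x => ?_) (hFc.comp (by fun_prop)) (fun x u => ?_) _
    (h.continuous.snd.comp continuous_fst) fun x => ?_
  · rw [← hF]
    refine congrArg F (Prod.ext (h.injective ?_) rfl)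
    show (p (e.symm _), κ (e.symm _)) = (p (g • e.symm _), κ (g • e.symm _))
    rw [h1, p.map_smul g (e.symm _), κ.map_smul g (e.symm _), ← Prod.smul_mk, h1]
    exact Prod.ext (p.map_smul g _) rfl
  · obtain ⟨y, ℓ, h3, h4⟩ := hl (p x) u
    refine ⟨y, ℓ, h3, fun w _ => ?_⟩
    have h5 := h4 (e.symm (p x, w)) (congrArg Prod.fst (h1 _))
    rwa [show κ (e.symm (p x, w)) = w from congrArg Prod.snd (h1 _)] at h5
  · exact congrArg (fun y => Bor.mk G' (F (y, x.2))) (h2 x.1).symm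

/-- the vector bundle structure on the Borel construction of `X ≅ Z × W` -/
theorem isVB_triv (hW : IsRep G W r) {p : X →[G] Z} {κ : X →[G] W}
    (h : IsHomeomorph fun x => (p x, κ x)) :
    IsVB r (vproj ⊤ P ∘ vmap p κ P) (zset G fun x : X × P => κ x.1)
      fun r φ => fib ⊤ P r (vmap p κ P ∘ φ) := by
  rw [← vmap_preimage p]
  exact (isVB_fib hW (isSubVB_top hW)).comap (isHomeomorph_vmap h)

theorem isThom_euler_triv (hW : IsRep G W r) {p : X →[G] Z} {κ : X →[G] W}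
    (h : IsHomeomorph fun x => (p x, κ x)) :
    IsThom (zset G fun x : X × P => κ x.1) (fun r φ => fib ⊤ P r (vmap p κ P ∘ φ))
      (euler (fun x : X × P => κ x.1) fun h x => κ.map_smul h x.1) :=
  (isVB_triv hW h).isThom_of_cohom ((isThom_thom hW (isSubVB_top hW)).pull
    (isHomeomorph_vmap h).continuous (vmap_preimage p κ).subset fun _ _ h => h)
    (isDeg_euler hW _) (pull_vmap hW h.continuous.fst h.continuous.snd).symm

end triv

end level

section sys

variable {G Z Z' W W' : Type} [Group G] [TopologicalSpace G] [Sys G] [TopologicalSpace Z]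
  [MulAction G Z] [TopologicalSpace Z'] [MulAction G Z'] [Nice Z] [ContinuousSMul G Z] [Nice Z']
  [ContinuousSMul G Z'] [AddCommGroup W] [Module ℂ W] [TopologicalSpace W] [DistribMulAction G W]
  [AddCommGroup W'] [Module ℂ W'] [TopologicalSpace W'] [DistribMulAction G W'] {r r' : ℕ}

theorem isRep_sysW : IsRep G (Sys.W G) (Sys.rk G) := ⟨Sys.wlin, Sys.wcomm, Sys.wcont⟩

theorem zset_col_eq (M : ℕ) :
    zset G (fun x : Z × Sys.P G (M + 1) => Sys.col M x.2) = range (binc G Z M) := by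
  ext b
  refine ⟨?_, ?_⟩
  · rintro ⟨⟨z, u⟩, h, rfl⟩
    obtain ⟨v, rfl⟩ := (Sys.col_zero M u).1 h
    exact ⟨Bor.mk G (z, v), rfl⟩
  · rintro ⟨a, rfl⟩
    obtain ⟨x, rfl⟩ := Bor.mk_surjective a
    exact ⟨(x.1, Sys.inc M x.2), (Sys.col_zero M _).2 ⟨_, rfl⟩, rfl⟩

theorem ecol_cocycle (M : ℕ) : supp (δ (ecol G Z M)) = ∅ :=
  euler_cocycle isRep_sysW _ ((Sys.col_cont M).comp continuous_snd)

theorem isDeg_ecol (M : ℕ) : IsDeg (2 * Sys.rk G) (ecol G Z M) := isDeg_euler isRep_sysW _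

theorem supp_ecol (M : ℕ) : supp (ecol G Z M) ⊆ range (binc G Z M) :=
  (supp_euler isRep_sysW _ ((Sys.col_cont M).comp continuous_snd)).trans (zset_col_eq M).subset

theorem isLev_smap {f : Z →[G] Z'} (hf : Continuous f) : IsLev (smap f) 0 := by
  refine ⟨continuous_smap hf, fun M x => ?_, fun M x hx => ?_, fun M => ?_,
    fun M => (add_zero _).symm⟩
  · obtain ⟨x, rfl⟩ := Bor.mk_surjective x
    rfl
  · obtain ⟨x, rfl⟩ := Bor.mk_surjective x
    rw [← zset_col_eq] at hx ⊢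
    exact ⟨x, (mk_mem_zset (σ := fun x : Z' × Sys.P G (M + 1) => Sys.col M x.2)
      (fun h x => Sys.col_smul M h x.2) (y := (f x.1, x.2))).1 hx, rfl⟩
  · rw [← zset_col_eq]
    exact euler_pull isRep_sysW isRep_sysW (MonoidHom.id G) _
      ((hf.comp continuous_fst).prodMk continuous_snd) _ ((Sys.col_cont _).comp continuous_snd) _
      ((Sys.col_cont _).comp continuous_snd) (fun _ => LinearMap.id) continuous_snd
      (fun _ => bijective_id) (fun _ _ _ => rfl) fun _ => rfl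

/-- the equivariant map to a point -/
def toUnit (G Z : Type) [Group G] [MulAction G Z] : Z →[G] Unit := ⟨fun _ => (), fun _ _ => rfl⟩

theorem isLev_bpt : IsLev (bpt G Z) 0 :=
  haveI : ContinuousSMul G Unit := ⟨continuous_const⟩
  isLev_smap (f := toUnit G Z) continuous_const

theorem smap_binc (f : Z →[G] Z') (M : ℕ) :
    smap f (M + 1) ∘ binc G Z M = binc G Z' M ∘ smap f M := funext fun x => by
  obtain ⟨x, rfl⟩ := Bor.mk_surjective x
  rfl

theorem bset_mono {A B : Set Z} (h : A ⊆ B) (M : ℕ) : bset (G := G) A M ⊆ bset B M := by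
  rintro _ ⟨y, hy, rfl⟩
  exact ⟨y, h hy, rfl⟩

theorem bset_inter {A B : Set Z} (hA : ∀ (g : G), ∀ z ∈ A, g • z ∈ A) (M : ℕ) :
    bset (G := G) A M ∩ bset B M = bset (A ∩ B) M := by
  refine Subset.antisymm ?_ (subset_inter (bset_mono inter_subset_left M)
    (bset_mono inter_subset_right M))
  rintro _ ⟨⟨y, hy, e⟩, ⟨y', hy', rfl⟩⟩
  obtain ⟨g, rfl⟩ := Bor.mk_eq_iff.1 e
  exact ⟨g • y, ⟨hA g _ hy, hy'⟩, rfl⟩

theorem IsCoc.pull {A : Set Z'} (hA : ∀ (g : G), ∀ z ∈ A, g • z ∈ A) {d : ℕ}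
    {t : ∀ M, Coch (Bq G Z' M)} (h : IsCoc A d t) {f : Z →[G] Z'} (hf : Continuous f) :
    IsCoc (f ⁻¹' A) d fun M => pull (smap f M) (t M) := by
  refine ⟨fun M => cocycle_pull (continuous_smap hf M) (h.cocycle M), fun M => (h.deg M).pull _,
    fun M => (supp_pull (continuous_smap hf M) _).trans
      ((preimage_mono (h.supp M)).trans (preimage_bset f hA M).subset), fun M => ?_⟩
  rw [pull_pull, smap_binc, ← pull_pull, ← preimage_bset f hA]
  exact (h.compat M).pull (continuous_smap hf M)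

theorem IsCoc.mul {A B : Set Z} (hA : ∀ (g : G), ∀ z ∈ A, g • z ∈ A) {d e : ℕ}
    {s t : ∀ M, Coch (Bq G Z M)} (hs : IsCoc A d s) (ht : IsCoc B e t) :
    IsCoc (A ∩ B) (d + e) (s * t) := by
  refine ⟨fun M => cocycle_mul (hs.cocycle M) (ht.cocycle M),
    fun M => ((hs.deg M).mul (ht.deg M)).cast (by push_cast; ring),
    fun M => (supp_mul _ _).trans
      ((inter_subset_inter (hs.supp M) (ht.supp M)).trans (bset_inter hA M).subset), fun M => ?_⟩
  rw [Pi.mul_apply, Pi.mul_apply, map_mul, ← bset_inter hA]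
  exact (hs.compat M).mul (ht.compat M) (hs.cocycle M)
    (cocycle_pull (continuous_binc M) (ht.cocycle _)) (hs.supp M)
    ((ht.compat M).supp_subset (ht.supp M))

theorem IsCoc.mono {A B : Set Z} (h : A ⊆ B) {d : ℕ} {t : ∀ M, Coch (Bq G Z M)}
    (ht : IsCoc A d t) : IsCoc B d t :=
  ⟨ht.cocycle, ht.deg, fun M => (ht.supp M).trans (bset_mono h M),
    fun M => (ht.compat M).mono (bset_mono h M)⟩

theorem isCoc_eul (hW : IsRep G W r) {σ : Z →[G] W} (hσ : Continuous σ) :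
    IsCoc (σ ⁻¹' {0}) r (eul σ) :=
  ⟨fun M => euler_cocycle hW _ (hσ.comp continuous_fst), fun M => isDeg_euler hW _,
    fun M => supp_euler hW _ (hσ.comp continuous_fst), fun M =>
    euler_pull hW hW (MonoidHom.id G) _
      (continuous_fst.prodMk ((Sys.inc_closed M).continuous.comp continuous_snd)) _
      (hσ.comp continuous_fst) _ (hσ.comp continuous_fst) (fun _ => LinearMap.id) continuous_snd
      (fun _ => bijective_id) (fun _ _ _ => rfl) fun _ => rfl⟩

theorem eul_pull (hW : IsRep G W r) {σ : Z' →[G] W} (hσ : Continuous σ) {f : Z →[G] Z'}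
    (hf : Continuous f) :
    Coh ((σ.comp f) ⁻¹' {0}) (fun M => pull (smap f M) (eul σ M)) (eul (σ.comp f)) := fun M =>
  euler_pull hW hW (MonoidHom.id G) _ ((hf.comp continuous_fst).prodMk continuous_snd) _
    ((hσ.comp hf).comp continuous_fst) _ (hσ.comp continuous_fst) (fun _ => LinearMap.id)
    continuous_snd (fun _ => bijective_id) (fun _ _ _ => rfl) fun _ => rfl

theorem eul_prod (hW : IsRep G W r) (hW' : IsRep G W' r') {σ : Z →[G] W} (hσ : Continuous σ)
    {σ' : Z →[G] W'} (hσ' : Continuous σ') {τ : Z →[G] W × W'} (hτ : ∀ z, τ z = (σ z, σ' z)) :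
    Coh (τ ⁻¹' {0}) (eul τ) (eul σ * eul σ') := by
  intro M
  obtain rfl : τ = ⟨fun z => (σ z, σ' z), fun h z => Prod.ext (σ.map_smul h z) (σ'.map_smul h z)⟩ :=
    MulActionHom.ext hτ
  refine (euler_prod hW hW' (σ := fun x : Z × Sys.P G M => σ x.1) (fun h x => σ.map_smul h x.1)
    (hσ.comp continuous_fst) (σ₂ := fun x : Z × Sys.P G M => σ' x.1)
    (fun h x => σ'.map_smul h x.1) (hσ'.comp continuous_fst) _).mono ?_
  rintro b ⟨⟨y, hy, rfl⟩, h⟩
  exact ⟨y, Prod.ext hy ((mk_mem_zset (σ := fun x : Z × Sys.P G M => σ' x.1)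
    fun h x => σ'.map_smul h x.1).1 h), rfl⟩

/-- change of the section by an equivariant family of linear isomorphisms -/
theorem eul_iso (hW : IsRep G W r) (hW' : IsRep G W' r) {σ : Z →[G] W} (hσ : Continuous σ)
    {σ' : Z →[G] W'} (L : Z → W →ₗ[ℂ] W') (hL : Continuous fun x : Z × W => L x.1 x.2)
    (hLb : ∀ z, Bijective (L z)) (hLe : ∀ (h : G) z w, L (h • z) (h • w) = h • L z w)
    (hLσ : ∀ z, L z (σ z) = σ' z) : Coh (σ ⁻¹' {0}) (eul σ) (eul σ') := by
  intro M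
  have hσ' : Continuous σ' := (hL.comp (continuous_id.prodMk hσ)).congr hLσ
  have := euler_pull hW hW' (MonoidHom.id G) (f := id) (fun _ _ => rfl) continuous_id
    (σ := fun x : Z × Sys.P G M => σ x.1) (fun h x => σ.map_smul h x.1) (hσ.comp continuous_fst)
    (σ' := fun x : Z × Sys.P G M => σ' x.1) (fun h x => σ'.map_smul h x.1)
    (hσ'.comp continuous_fst) (fun x => L x.1)
    (hL.comp (continuous_fst.fst.prodMk continuous_snd)) (fun x => hLb x.1)
    (fun h x w => hLe h x.1 w) fun x => hLσ x.1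
  rw [show Bor.map (MonoidHom.id G) (id : Z × Sys.P G M → _) (fun _ _ => rfl) = id from
    funext fun b => by
      obtain ⟨x, rfl⟩ := Bor.mk_surjective b
      rfl, pull_id] at this
  exact this.symm

variable {V : SubMulAction G (Z × W)}

theorem IsSubVB.nice (hW : IsRep G W r') (hV : IsSubVB V r) : Nice V := hV.nice' hW

theorem IsSubVB.cont (hW : IsRep G W r') (V : SubMulAction G (Z × W)) : ContinuousSMul G V :=
  hW.contSub V

theorem IsSubVB.isClosedEmbedding_zs (hW : IsRep G W r') (h0 : ∀ z, (z, 0) ∈ V) :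
    IsClosedEmbedding (zs V h0) := by
  haveI := hW.nice
  have hc : Continuous (zs V h0) := (continuous_id.prodMk continuous_const).subtype_mk _
  refine ⟨LeftInverse.isEmbedding (f := fun v : V => v.1.1) (fun _ => rfl) (by fun_prop) hc, ?_⟩
  rw [show range (zs V h0) = (fun v : V => v.1.2) ⁻¹' {0} from Subset.antisymm
    (by rintro _ ⟨z, rfl⟩; rfl) fun v hv => ⟨v.1.1, Subtype.ext (Prod.ext rfl (Eq.symm hv))⟩]
  exact isClosed_singleton.preimage (by fun_prop)

theorem bset_range_zs (h0 : ∀ z, (z, 0) ∈ V) (M : ℕ) :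
    bset (range (zs V h0)) M = vzero V (Sys.P G M) :=
  (range_smap _ M).symm.trans (range_zsec h0)

theorem isCoc_tho (hW : IsRep G W r') (hV : IsSubVB V r) (h0 : ∀ z, (z, 0) ∈ V) :
    IsCoc (range (zs V h0)) r (tho V) := by
  refine ⟨fun M => thom_cocycle hW hV, fun M => isDeg_thom hW hV,
    fun M => (supp_thom hW hV).trans (bset_range_zs h0 M).superset, fun M => ?_⟩
  rw [bset_range_zs]
  exact thom_pull hW hW (MonoidHom.id G) hV hV _
    (continuous_fst.prodMk ((Sys.inc_closed M).continuous.comp continuous_snd))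
    fun z u => ⟨(z, Sys.inc M u), LinearMap.id, fun _ _ => ⟨rfl, rfl⟩, fun _ _ h => h⟩

/-- Thom isomorphism, levelwise -/
theorem cgys_tho_bijective [Nice V] [ContinuousSMul G V] (hW : IsRep G W r') (hV : IsSubVB V r)
    (h0 : ∀ z, (z, 0) ∈ V) (M : ℕ) : Bijective (cgys (smap (zs V h0) M) (tho V M)) := by
  have hi := isClosedEmbedding_smap (IsSubVB.isClosedEmbedding_zs hW h0) M
  have hs : supp (tho V M) ⊆ range (smap (zs V h0) M) :=
    (supp_thom hW hV).trans (range_zsec h0).superset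
  rw [cgys_eq hi (t := tho V M) (thom_cocycle hW hV) hs]
  exact (isVB_fib hW hV).gys_bijective (isThom_thom hW hV) hi (vproj_zsec h0) hs

/-- Thom isomorphism for a trivial bundle `X ≅ Z × W`, levelwise -/
theorem cgys_eul_bijective {X : Type} [TopologicalSpace X] [MulAction G X] [Nice X]
    [ContinuousSMul G X] (hW : IsRep G W r) {p : X →[G] Z} {κ : X →[G] W}
    (h : IsHomeomorph fun x => (p x, κ x)) {s : Z →[G] X} (hs : ∀ z, p (s z) = z)
    (hs' : ∀ z, κ (s z) = 0) (M : ℕ) : Bijective (cgys (smap s M) (eul κ M)) := by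
  haveI := hW.nice
  have h1 : IsClosedEmbedding s := by
    refine h.isClosedEmbedding.of_comp_iff.1 ?_
    rw [show (fun x => (p x, κ x)) ∘ s = fun z => (z, 0) from
      funext fun z => Prod.ext (hs z) (hs' z)]
    refine ⟨isEmbedding_prodMkLeft 0, ?_⟩
    rw [show range (fun z : Z => (z, (0 : W))) = Prod.snd ⁻¹' {0} from Subset.antisymm
      (by rintro _ ⟨z, rfl⟩; rfl) fun v hv => ⟨v.1, Prod.ext rfl (Eq.symm hv)⟩]
    exact isClosed_singleton.preimage continuous_snd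
  have hi := isClosedEmbedding_smap h1 M
  have ht := isThom_euler_triv (P := Sys.P G M) hW h
  have h2 : supp (eul κ M) ⊆ range (smap s M) := ht.2.1.trans (by
    rintro _ ⟨y, hy, rfl⟩
    refine ⟨Bor.mk G (p y.1, y.2), congrArg (Bor.mk G) (Prod.ext (h.injective ?_) rfl)⟩
    exact Prod.ext (hs _) ((hs' _).trans hy.symm))
  rw [cgys_eq hi (t := eul κ M) ht.1 h2]
  refine (isVB_triv hW h).gys_bijective ht hi (fun b => ?_) h2
  obtain ⟨y, rfl⟩ := Bor.mk_surjective b
  exact congrArg (Bor.mk G) (Prod.ext (hs _) rfl)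

/-- a fibrewise linear bijection `κ : V → W'` compares the Thom and the Euler cocycles -/
theorem tho_eq_eul (hW : IsRep G W r') (hW' : IsRep G W' r) (hV : IsSubVB V r)
    (h0 : ∀ z, (z, 0) ∈ V) {κ : V →[G] W'} (hκ : Continuous κ)
    (hl : ∀ z, ∃ ℓ : W →ₗ[ℂ] W', (∀ w h, κ ⟨(z, w), h⟩ = ℓ w) ∧
      ∀ w, (z, w) ∈ V → ℓ w = 0 → w = 0) : Coh (range (zs V h0)) (tho V) (eul κ) := by
  intro M
  haveI := hV.nice' hW
  haveI := hW.contSub V
  let p : V →[G] Z := ⟨fun v => v.1.1, fun _ _ => rfl⟩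
  have hp : Continuous p := continuous_fst.comp continuous_subtype_val
  rw [bset_range_zs]
  refine (thom_pull (P := Sys.P G M) (P' := Sys.P G M) hW hW' (MonoidHom.id G) hV (isSubVB_top hW')
    (F := fun x => (⟨(p x.1, κ x.1), trivial⟩, x.2)) (fun h x =>
      Prod.ext (Subtype.ext (Prod.ext (p.map_smul h x.1) (κ.map_smul h x.1))) rfl) (by fun_prop)
    fun z u => ?_).symm.trans ((pull_vmap hW' hp hκ).mono ?_)
  · obtain ⟨ℓ, h1, h2⟩ := hl z
    exact ⟨(z, u), ℓ, fun w h => ⟨Prod.ext rfl (h1 w h), rfl⟩, h2⟩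
  · rintro _ ⟨⟨⟨⟨z, w⟩, h⟩, u⟩, hy, rfl⟩
    obtain ⟨ℓ, h1, h2⟩ := hl z
    exact mk_mem_vzero.2 (h2 w h ((h1 w h).symm.trans hy))

/-- Thom cocycles under pull-back of vector bundles -/
theorem tho_pull {V' : SubMulAction G (Z' × W)} (hW : IsRep G W r') (hV : IsSubVB V r)
    (hV' : IsSubVB V' r) (h0 : ∀ z, (z, 0) ∈ V) {f : Z →[G] Z'} (hf : Continuous f)
    {F : V →[G] V'} (hF : ∀ v, (F v).1 = (f v.1.1, v.1.2)) :
    Coh (range (zs V h0)) (fun M => pull (smap F M) (tho V' M)) (tho V) := by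
  intro M
  have hc : Continuous F := continuous_induced_rng.2
    ((show Continuous fun v : V => (f v.1.1, v.1.2) by fun_prop).congr fun v => (hF v).symm)
  rw [bset_range_zs]
  exact thom_pull hW hW (MonoidHom.id G) hV hV' _
    ((hc.comp continuous_fst).prodMk continuous_snd)
    fun z u => ⟨(f z, u), LinearMap.id, fun _ _ => ⟨hF _, rfl⟩, fun _ _ h => h⟩

end sys

end Vale.Agent.P291Z
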