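import Vale.Agent.P291Z.Ops
import Vale.Agent.P291Z.Eul0

/-!
# Euler cocycles on Borel constructions as cocycles with supports
-/

set_option linter.all false

namespace Vale.Agent.P291Z

open Set Function Topology

theorem isCo_euler {G Z P W : Type} [Group G] [TopologicalSpace G] [TopologicalSpace Z]
    [MulAction G Z] [TopologicalSpace P] [MulAction G P] [AddCommGroup W] [Module ℂ W]
    [TopologicalSpace W] [DistribMulAction G W] [Prin G P] [Nice P] [Nice Z] [ContinuousSMul G Z]
    {r : ℕ} (hW : IsRep G W r) {σ : Z × P → W} (hσ : ∀ (h : G) x, σ (h • x) = h • σ x)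
    (hc : Continuous σ) : IsCo (zset G σ) r (euler σ hσ) :=
  ⟨euler_cocycle hW hσ hc, isDeg_euler hW hσ, supp_euler hW hσ hc⟩

theorem isCo_ecol {G Z : Type} [Group G] [TopologicalSpace G] [Sys G] [TopologicalSpace Z]
    [MulAction G Z] [Nice Z] [ContinuousSMul G Z] (M : ℕ) :
    IsCo (range (binc G Z M)) (Sys.rk G) (ecol G Z M) :=
  ⟨ecol_cocycle M, isDeg_ecol M, supp_ecol M⟩

end Vale.Agent.P291Z
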