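import Vale.Agent.P291Z.T12

set_option linter.all false

/-!
# Logarithmic cochains, bases, Leray-Hirsch in terms of classes
-/

namespace Vale.Agent.P291Z.Fl

open Topology Set Filter TopologicalSpace

variable {X Y : Type}

/-! ### cochains of degree one and two -/

/-- the cochain of degree one given by a function of two points -/
noncomputable def fn2 (f : X → X → ℂ) : Coch X :=
  ⟨fun l => match l with
    | [x, y] => f x y
    | _ => 0, rfl, 2, fun l hl => by
      match l, hl with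
      | _ :: _ :: _ :: _, _ => rfl⟩

/-- the cochain of degree two given by a function of three points -/
noncomputable def fn3 (f : X → X → X → ℂ) : Coch X :=
  ⟨fun l => match l with
    | [x, y, z] => f x y z
    | _ => 0, rfl, 3, fun l hl => by
      match l, hl with
      | _ :: _ :: _ :: _ :: _, _ => rfl⟩

theorem isDeg_fn2 (f : X → X → ℂ) : IsDeg 1 (fn2 f) := fun l hl => by
  match l, hl with
  | [], _ => rfl
  | [_], _ => rfl
  | [_, _], h => exact absurd rfl h
  | _ :: _ :: _ :: _, _ => rfl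

theorem isDeg_fn3 (f : X → X → X → ℂ) : IsDeg 2 (fn3 f) := fun l hl => by
  match l, hl with
  | [], _ => rfl
  | [_], _ => rfl
  | [_, _], _ => rfl
  | [_, _, _], h => exact absurd rfl h
  | _ :: _ :: _ :: _ :: _, _ => rfl

theorem ext_one {a b : Coch X} (ha : IsDeg 1 a) (hb : IsDeg 1 b)
    (h : ∀ x y, a.1 [x, y] = b.1 [x, y]) : a = b := Coch.ext fun l => by
  match l with
  | [] => rw [a.2.1, b.2.1]
  | [_] => rw [ha _ (by simp), hb _ (by simp)]
  | [x, y] => exact h x y
  | _ :: _ :: _ :: _ => rw [ha _ (by simp; omega), hb _ (by simp; omega)]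

theorem ext_two {a b : Coch X} (ha : IsDeg 2 a) (hb : IsDeg 2 b)
    (h : ∀ x y z, a.1 [x, y, z] = b.1 [x, y, z]) : a = b := Coch.ext fun l => by
  match l with
  | [] => rw [a.2.1, b.2.1]
  | [_] => rw [ha _ (by simp), hb _ (by simp)]
  | [_, _] => rw [ha _ (by simp), hb _ (by simp)]
  | [x, y, z] => exact h x y z
  | _ :: _ :: _ :: _ :: _ => rw [ha _ (by simp; omega), hb _ (by simp; omega)]

theorem δ_val_three (a : Coch X) (x y z : X) :
    (δ a).1 [x, y, z] = a.1 [y, z] - a.1 [x, z] + a.1 [x, y] := by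
  rw [δ_val, cob_cons, cob_cons, cob_cons, cob_nil]
  ring

theorem δ_fn2 (f : X → X → ℂ) : δ (fn2 f) = fn3 fun x y z => f y z - f x z + f x y :=
  ext_two (isDeg_fn2 f).δ (isDeg_fn3 _) fun x y z => δ_val_three _ x y z

theorem pull_fn2 (g : X → Y) (f : Y → Y → ℂ) :
    pull g (fn2 f) = fn2 fun x y => f (g x) (g y) :=
  ext_one ((isDeg_fn2 f).pull g) (isDeg_fn2 _) fun _ _ => rfl

theorem pull_fn3 (g : X → Y) (f : Y → Y → Y → ℂ) :
    pull g (fn3 f) = fn3 fun x y z => f (g x) (g y) (g z) :=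
  ext_two ((isDeg_fn3 f).pull g) (isDeg_fn3 _) fun _ _ _ => rfl

/-- `log z / (2 π i)` -/
noncomputable def lg (z : ℂ) : ℂ := Complex.log z / (2 * Real.pi * Complex.I)

theorem lg_one : lg 1 = 0 := by simp [lg]

theorem wind_eq : wind = fn2 fun z w => lg (w / z) :=
  ext_one isDeg_wind (isDeg_fn2 _) fun _ _ => rfl

/-- the logarithm is additive near one -/
theorem lg_prod {T ι : Type*} {l : Filter T} (s : Finset ι) {f : ι → T → ℂ} (k : ι → ℤ)
    (hf : ∀ i ∈ s, Tendsto (f i) l (𝓝 1)) :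
    ∀ᶠ t in l, lg (∏ i ∈ s, f i t ^ k i) = ∑ i ∈ s, k i * lg (f i t) := by
  have h1 : Tendsto (fun t => ∑ i ∈ s, (k i : ℂ) * Complex.log (f i t)) l (𝓝 0) := by
    have : (0 : ℂ) = ∑ i ∈ s, (k i : ℂ) * Complex.log 1 := by simp
    rw [this]
    exact tendsto_finset_sum _ fun i hi => ((continuousAt_clog (by simp)).tendsto.comp
      (hf i hi)).const_mul _
  have h2 := (Complex.continuous_im.tendsto 0).comp h1
  have h3 : ∀ᶠ t in l, ∀ i ∈ s, f i t ≠ 0 :=
    (eventually_all_finset s).2 fun i hi => (hf i hi).eventually_ne one_ne_zero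
  filter_upwards [h3, h2.eventually (Ioo_mem_nhds (show -Real.pi < (0 : ℂ).im by
    simpa using Real.pi_pos) (show (0 : ℂ).im < Real.pi by simpa using Real.pi_pos))] with t h4 h5
  have e : ∏ i ∈ s, f i t ^ k i = Complex.exp (∑ i ∈ s, (k i : ℂ) * Complex.log (f i t)) := by
    rw [Complex.exp_sum]
    exact Finset.prod_congr rfl fun i hi => by
      rw [Complex.exp_int_mul, Complex.exp_log (h4 i hi)]
  rw [lg, e, Complex.log_exp h5.1 h5.2.le, Finset.sum_div]
  exact Finset.sum_congr rfl fun i _ => by rw [lg, mul_div_assoc]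

theorem lg_three {T : Type*} {l : Filter T} {a b c : T → ℂ} (ha : Tendsto a l (𝓝 1))
    (hb : Tendsto b l (𝓝 1)) (hc : Tendsto c l (𝓝 1)) :
    ∀ᶠ t in l, lg (a t * b t / c t) = lg (a t) + lg (b t) - lg (c t) := by
  have := lg_prod (l := l) (Finset.univ : Finset (Fin 3)) (f := ![a, b, c]) ![1, 1, -1]
    fun i _ => by fin_cases i <;> assumption
  filter_upwards [this] with t ht
  simp only [Fin.prod_univ_three, Fin.sum_univ_three] at ht
  simp at ht
  rw [div_eq_mul_inv, ht, sub_eq_add_neg]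

theorem lg_div {T : Type*} {l : Filter T} {a b : T → ℂ} (ha : Tendsto a l (𝓝 1))
    (hb : Tendsto b l (𝓝 1)) : ∀ᶠ t in l, lg (a t / b t) = lg (a t) - lg (b t) := by
  filter_upwards [lg_three ha (tendsto_const_nhds (x := (1 : ℂ))) hb] with t ht
  rwa [mul_one, lg_one, add_zero] at ht

variable [TopologicalSpace X] [TopologicalSpace Y]

theorem van_one {a : Coch X} (ha : IsDeg 1 a) {x : X}
    (h : ∀ᶠ p : X × X in 𝓝 (x, x), a.1 [p.1, p.2] = 0) : a ∈ Van x := by
  rw [nhds_prod_eq] at h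
  obtain ⟨U, hU, V, hV, h⟩ := eventually_prod_iff.1 h
  exact ha.van_one (inter_mem hU hV) fun y hy z hz => h hy.1 hz.2

theorem van_two {a : Coch X} (ha : IsDeg 2 a) {x : X}
    (h : ∀ᶠ p : X × X × X in 𝓝 (x, x, x), a.1 [p.1, p.2.1, p.2.2] = 0) : a ∈ Van x := by
  rw [nhds_prod_eq, nhds_prod_eq] at h
  obtain ⟨U, hU, W, hW, h⟩ := eventually_prod_iff.1 h
  obtain ⟨V, hV, V', hV', h'⟩ := eventually_prod_iff.1 hW
  refine notMem_supp.2 ⟨_, inter_mem hU (inter_mem hV hV'), fun l hl => ?_⟩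
  match l, hl with
  | [], _ => exact a.2.1
  | [_], _ => exact ha _ (by simp)
  | [_, _], _ => exact ha _ (by simp)
  | [y, z, w], hl =>
    exact h (y := (z, w)) (hl y (by simp)).1 (h' (hl z (by simp)).2.1 (hl w (by simp)).2.2)
  | _ :: _ :: _ :: _ :: _, _ => exact ha _ (by simp; omega)

theorem tendsto_12 (x : X) :
    Tendsto (fun p : X × X × X => (p.1, p.2.1)) (𝓝 (x, x, x)) (𝓝 (x, x)) :=
  (by fun_prop : Continuous fun p : X × X × X => (p.1, p.2.1)).tendsto (x, x, x)

theorem tendsto_23 (x : X) :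
    Tendsto (fun p : X × X × X => (p.2.1, p.2.2)) (𝓝 (x, x, x)) (𝓝 (x, x)) :=
  (by fun_prop : Continuous fun p : X × X × X => (p.2.1, p.2.2)).tendsto (x, x, x)

theorem tendsto_13 (x : X) :
    Tendsto (fun p : X × X × X => (p.1, p.2.2)) (𝓝 (x, x, x)) (𝓝 (x, x)) :=
  (by fun_prop : Continuous fun p : X × X × X => (p.1, p.2.2)).tendsto (x, x, x)

/-- near `x` the function `κ` is the multiplicative coboundary of a function `f` close to one -/
structure Triv (κ : X → X → X → ℂ) (f : X → X → ℂ) (x : X) : Prop where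
  lim : Tendsto (fun p : X × X => f p.1 p.2) (𝓝 (x, x)) (𝓝 1)
  eq : ∀ᶠ p : X × X × X in 𝓝 (x, x, x),
    κ p.1 p.2.1 p.2.2 = f p.1 p.2.1 * f p.2.1 p.2.2 / f p.1 p.2.2

/-- the logarithm of a function of three points -/
noncomputable def lg3 (κ : X → X → X → ℂ) : Coch X := fn3 fun x y z => lg (κ x y z)

/-- the logarithm of a function of two points -/
noncomputable def lg2 (f : X → X → ℂ) : Coch X := fn2 fun x y => lg (f x y)

theorem Triv.van {κ : X → X → X → ℂ} {f : X → X → ℂ} {x : X} (h : Triv κ f x) :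
    lg3 κ - δ (lg2 f) ∈ Van x := by
  refine van_two ((isDeg_fn3 _).sub (isDeg_fn2 _).δ) ?_
  filter_upwards [h.eq, lg_three (h.lim.comp (tendsto_12 x)) (h.lim.comp (tendsto_23 x))
    (h.lim.comp (tendsto_13 x))] with p h1 h2
  rw [Coch.sub_val, Pi.sub_apply, δ_val_three]
  change lg (κ _ _ _) - (lg (f _ _) - lg (f _ _) + lg (f _ _)) = 0
  rw [h1]
  erw [h2]
  simp only [Function.comp_apply]
  ring

theorem Triv.δ_van {κ : X → X → X → ℂ} {f : X → X → ℂ} {x : X} (h : Triv κ f x) :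
    δ (lg3 κ) ∈ Van x := by
  have := Van.δ h.van
  rwa [map_sub, δ_δ, sub_zero] at this

theorem Triv.κ_lim {κ : X → X → X → ℂ} {f : X → X → ℂ} {x : X} (h : Triv κ f x) :
    Tendsto (fun p : X × X × X => κ p.1 p.2.1 p.2.2) (𝓝 (x, x, x)) (𝓝 1) := by
  have := ((h.lim.comp (tendsto_12 x)).mul (h.lim.comp (tendsto_23 x))).div
    (h.lim.comp (tendsto_13 x)) one_ne_zero
  rw [mul_one, div_one] at this
  exact this.congr' (h.eq.mono fun p hp => hp.symm)

theorem Triv.comp {κ : Y → Y → Y → ℂ} {f : Y → Y → ℂ} {g : X → Y} {x : X} (h : Triv κ f (g x))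
    (hg : ContinuousAt g x) :
    Triv (fun a b c => κ (g a) (g b) (g c)) (fun a b => f (g a) (g b)) x :=
  ⟨h.lim.comp (hg.prodMap' hg), (hg.prodMap' (hg.prodMap' hg)).eventually h.eq⟩

/-! ### products of cohomologous cocycles -/

theorem cohom_mul {A B : Set X} {a a' b b' : Coch X} (h : Cohom A a a') (h' : Cohom B b b')
    (hb : supp (δ b) = ∅) (hbB : supp b ⊆ B) (ha' : supp (δ a') = ∅) (haA : supp a' ⊆ A) :
    Cohom (A ∩ B) (a * b) (a' * b') := by
  obtain ⟨c, h1, h2⟩ := h
  obtain ⟨d, h3, h4⟩ := h'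
  refine ⟨c * b + par a' * d, (supp_add _ _).trans (union_subset
    ((supp_mul _ _).trans (inter_subset_inter h1 hbB))
    ((supp_mul _ _).trans (inter_subset_inter ((supp_par _).trans haA) h3))), ?_⟩
  have := supp_add_eq_empty (cobound_mul_right h2 hb) (cobound_mul_left h4 ha')
  rw [← this, map_add]
  congr 1
  abel

theorem supp_ofFn_prod {m : ℕ} {A : Fin m → Set X} {a : Fin m → Coch X}
    (h : ∀ i, supp (a i) ⊆ A i) : supp (List.ofFn a).prod ⊆ ⋂ i, A i := by
  induction m with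
  | zero => simp
  | succ m ih =>
    rw [List.ofFn_succ, List.prod_cons]
    refine fun x hx => mem_iInter.2 fun i => Fin.cases (h 0 (supp_mul _ _ hx).1) (fun i => ?_) i
    exact mem_iInter.1 (ih (A := fun i => A i.succ) (fun i => h i.succ) (supp_mul _ _ hx).2) i

theorem cocycle_ofFn_prod {m : ℕ} {a : Fin m → Coch X} (h : ∀ i, supp (δ (a i)) = ∅) :
    supp (δ (List.ofFn a).prod) = ∅ :=
  (Zs X).list_prod_mem fun x hx => by
    obtain ⟨i, rfl⟩ := (List.mem_ofFn' _ _).1 hx
    exact h i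

theorem cohom_prod {m : ℕ} {A : Fin m → Set X} {a b : Fin m → Coch X}
    (h : ∀ i, Cohom (A i) (a i) (b i)) (ha : ∀ i, supp (δ (a i)) = ∅)
    (hb : ∀ i, supp (δ (b i)) = ∅) (haA : ∀ i, supp (a i) ⊆ A i) (hbA : ∀ i, supp (b i) ⊆ A i) :
    Cohom (⋂ i, A i) (List.ofFn a).prod (List.ofFn b).prod := by
  induction m with
  | zero => exact ⟨0, by rw [supp_zero]; exact empty_subset _, by simpa using supp_zero⟩
  | succ m ih =>
    rw [List.ofFn_succ, List.ofFn_succ, List.prod_cons, List.prod_cons]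
    obtain ⟨c, h1, h2⟩ := cohom_mul (h 0) (ih (A := fun i => A i.succ) (fun i => h i.succ)
      (fun i => ha i.succ) (fun i => hb i.succ) (fun i => haA i.succ) fun i => hbA i.succ)
      (cocycle_ofFn_prod fun i => ha i.succ) (supp_ofFn_prod fun i => haA i.succ) (hb 0) (hbA 0)
    exact ⟨c, fun x hx => mem_iInter.2 fun i => Fin.cases (h1 hx).1
      (fun i => mem_iInter.1 (h1 hx).2 i) i, h2⟩

theorem hcls_ofFn_prod {m : ℕ} {a : Fin m → Coch X} (h : ∀ i, supp (δ (a i)) = ∅) :
    hcls (List.ofFn a).prod = (List.ofFn fun i => hcls (a i)).prod := by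
  induction m with
  | zero => simpa using hcls_one
  | succ m ih =>
    rw [List.ofFn_succ, List.ofFn_succ, List.prod_cons, List.prod_cons,
      hcls_mul (h 0) (cocycle_ofFn_prod fun i => h i.succ), ih fun i => h i.succ]

/-! ### forgetting supports -/

theorem exists_toH : ∃ f : Hc X →ₗ[ℂ] H X, ∀ a ∈ Zc X, f (cls a) = hcls a := by
  obtain ⟨f, hf⟩ := Hc.exists_lift (M := H X) (Zc X) LinearMap.id
    ⟨⟨fun a => hcls a.1, fun a b => hcls_add a.2.2 b.2.2⟩, fun c a => hcls_smul c a.2.2⟩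
    (fun _ h => h) (fun a ha => ⟨a, ha, by simp⟩) fun a ha => by
      obtain ⟨c, -, hc⟩ := ha
      exact (hcls_eq_zero a.2.2).2 ⟨c, hc⟩
  exact ⟨f, fun a ha => hf ⟨a, ha⟩⟩

/-- forgetting supports -/
noncomputable def toH : Hc X →ₗ[ℂ] H X := exists_toH.choose

theorem toH_cls {a : Coch X} (ha : a ∈ Zc X) : toH (cls a) = hcls a := exists_toH.choose_spec a ha

theorem toH_bijective [CompactSpace X] : Function.Bijective (toH : Hc X → H X) :=
  ⟨fun c c' h => by
    obtain ⟨a, ha, rfl⟩ := cls_surj c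
    obtain ⟨b, hb, rfl⟩ := cls_surj c'
    rwa [toH_cls ha, toH_cls hb, ← cls_eq_iff_hcls ha.2 hb.2] at h, fun c => by
    obtain ⟨a, ha, rfl⟩ := hcls_surj c
    exact ⟨_, toH_cls (Zc_of_compact ha)⟩⟩

theorem toH_pull {f : C(X, Y)} (hf : IsPr f) (c : Hc Y) :
    toH (Hc.pull hf c) = H.map f (toH c) := by
  obtain ⟨a, ha, rfl⟩ := cls_surj c
  rw [Hc.pull_cls hf ha, toH_cls ha, toH_cls (hf.pull_Zc ha), H.map_hcls f ha.2]

theorem toH_act (h : H X) (c : Hc X) : toH (Hc.act h c) = toH c * h := by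
  obtain ⟨a, ha, rfl⟩ := cls_surj c
  obtain ⟨t, ht, rfl⟩ := hcls_surj h
  rw [Hc.act_cls ht ha, toH_cls ha, toH_cls (mul_Zc ha ht), hcls_mul ha.2 ht]

theorem toH_deg {k : ℤ} {c : Hc X} (hc : c ∈ Hc.deg X k) : H.IsDeg k (toH c) := by
  obtain ⟨a, ha, h, rfl⟩ := hc
  rw [toH_cls ha]
  exact hcls_isDeg h

theorem toH_comp (k : ℤ) (c : Hc X) : toH (Hc.comp k c) = H.comp k (toH c) := by
  obtain ⟨a, ha, rfl⟩ := cls_surj c
  rw [Hc.comp_cls k ha, toH_cls ha, toH_cls (Zc.comp ha k), H.comp_hcls k ha.2]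

/-! ### bases -/

section basis

variable {M N : Type*} [AddCommGroup M] [Module ℂ M] [AddCommGroup N] [Module ℂ N] {ι κ : Type*}

/-- a family of vectors is a basis -/
def IsBasis (f : ι → M) : Prop := Function.Bijective (Finsupp.linearCombination ℂ f)

theorem IsBasis.li {f : ι → M} (h : IsBasis f) : LinearIndependent ℂ f := h.1

theorem IsBasis.span {f : ι → M} (h : IsBasis f) : ⊤ ≤ Submodule.span ℂ (range f) := by
  rw [← Finsupp.range_linearCombination, LinearMap.range_eq_top.2 h.2]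

theorem IsBasis.mk {f : ι → M} (h : LinearIndependent ℂ f) (h' : ⊤ ≤ Submodule.span ℂ (range f)) :
    IsBasis f := ⟨h, LinearMap.range_eq_top.1 (by
      rw [Finsupp.range_linearCombination]; exact top_le_iff.1 h')⟩

theorem isBasis_basis (b : Module.Basis ι ℂ M) : IsBasis b :=
  IsBasis.mk b.linearIndependent b.span_eq.ge

/-- the basis -/
noncomputable def IsBasis.basis {f : ι → M} (h : IsBasis f) : Module.Basis ι ℂ M :=
  Module.Basis.mk h.li h.span

theorem IsBasis.basis_apply {f : ι → M} (h : IsBasis f) (i : ι) : h.basis i = f i :=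
  Module.Basis.mk_apply _ _ i

theorem IsBasis.map {f : ι → M} (h : IsBasis f) {φ : M →ₗ[ℂ] N} (hφ : Function.Bijective φ) :
    IsBasis fun i => φ (f i) := by
  have := isBasis_basis (h.basis.map (LinearEquiv.ofBijective φ hφ))
  rwa [show ⇑(h.basis.map (LinearEquiv.ofBijective φ hφ)) = fun i => φ (f i) from
    funext fun i => by rw [Module.Basis.map_apply, h.basis_apply]; rfl] at this

theorem IsBasis.of_map {f : ι → M} {φ : M →ₗ[ℂ] N} (hφ : Function.Bijective φ)
    (h : IsBasis fun i => φ (f i)) : IsBasis f := by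
  have := h.map (LinearEquiv.ofBijective φ hφ).symm.bijective
  rwa [show (fun i => (LinearEquiv.ofBijective φ hφ).symm.toLinearMap (φ (f i))) = f from
    funext fun i => (LinearEquiv.ofBijective φ hφ).symm_apply_apply (f i)] at this

theorem IsBasis.of_comp {f : ι → M} {e : κ → ι} (he : Function.Bijective e)
    (h : IsBasis fun k => f (e k)) : IsBasis f := by
  have := isBasis_basis (h.basis.reindex (Equiv.ofBijective e he))
  rwa [show ⇑(h.basis.reindex (Equiv.ofBijective e he)) = f from funext fun i => by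
    rw [Module.Basis.reindex_apply, h.basis_apply]
    exact congrArg f ((Equiv.ofBijective e he).apply_symm_apply i)] at this

theorem IsBasis.finsupp {f : κ → M} (h : IsBasis f) :
    IsBasis fun p : ι × κ => Finsupp.single p.1 (f p.2) := by
  classical
  have := isBasis_basis (Finsupp.basis fun _ : ι => h.basis)
  refine IsBasis.of_comp (Equiv.sigmaEquivProd ι κ).bijective ?_
  rwa [Finsupp.coe_basis, show (fun ix : Σ _ : ι, κ => Finsupp.single ix.1 (h.basis ix.2)) =
    fun ix : Σ _ : ι, κ => Finsupp.single ix.1 (f ix.2) from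
      funext fun ix => by rw [h.basis_apply]] at this

end basis

/-! ### Leray-Hirsch in terms of classes -/

section lh

variable {E B : Type} [TopologicalSpace E] [TopologicalSpace B] {ι : Type*}

/-- `a ↦ ∑ p^* (a j) * T j` in cohomology with compact supports -/
noncomputable def lhc {p : C(E, B)} (hp : IsPr p) (T : ι → H E) : (ι →₀ Hc B) →ₗ[ℂ] Hc E :=
  Finsupp.lsum ℂ fun j => Hc.act (T j) ∘ₗ Hc.pull hp

theorem lhc_single {p : C(E, B)} (hp : IsPr p) (T : ι → H E) (j : ι) (a : Hc B) :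
    lhc hp T (Finsupp.single j a) = Hc.act (T j) (Hc.pull hp a) := by
  simp [lhc]

variable [T2Space B] [LocallyCompactSpace B] [MetrizableSpace E] [LocallyCompactSpace E]
  {F : B → Type} [∀ x, TopologicalSpace (F x)] {i : ∀ x, C(F x, E)} {p : C(E, B)} (hp : IsPr p)
  (hi : ∀ x, IsFib p x (i x)) {T : ι → H E} {d : ι → ℤ} (hd : ∀ j, H.IsDeg (d j) (T j))
  (h0 : ∀ j, 0 ≤ d j) (hb : ∀ x, IsBasis fun j => H.map (i x) (T j))
include hp hi hd h0 hb

omit [T2Space B] [LocallyCompactSpace B] [MetrizableSpace E] [LocallyCompactSpace E] h0 in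
theorem exists_rep : ∃ t : ι → Coch E, (∀ j, supp (δ (t j)) = ∅) ∧ (∀ j, IsDeg (d j) (t j)) ∧
    (∀ j, hcls (t j) = T j) ∧ ∀ x, IsBasis fun j => cls (pull (i x) (t j)) := by
  choose t h1 h2 h3 using fun j => H.isDeg_iff.1 (hd j)
  refine ⟨t, h1, h2, h3, fun x => ?_⟩
  haveI := (hi x).compactSpace hp
  refine IsBasis.of_map toH_bijective ?_
  have := hb x
  rwa [show (fun j => H.map (i x) (T j)) = fun j => toH (cls (pull (i x) (t j))) from
    funext fun j => by
      rw [toH_cls (Zc_of_compact (cocycle_pull (i x).continuous (h1 j))), ← h3,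
        H.map_hcls _ (h1 j)]] at this

theorem lhc_bijective : Function.Bijective (lhc hp T) := by
  obtain ⟨t, h1, h2, h3, h4⟩ := exists_rep hp hi hd hb
  have D := hp.lhData h1 h2 h0
  have := D.map_bijective hi (fun x => (h4 x).span) fun x => (h4 x).li
  rwa [show D.map = lhc hp T from Finsupp.lhom_ext' fun j => Hc.hom_ext fun a ha => by
    rw [LinearMap.comp_apply, LinearMap.comp_apply, Finsupp.lsingle_apply, D.map_single,
      lhc_single, Hc.pullMul_cls _ _ _ ha, Hc.pull_cls hp ha, ← h3,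
      Hc.act_cls (h1 j) (hp.pull_Zc ha)]] at this

theorem lh_bijective [SigmaCompactSpace B] [Finite ι] : Function.Bijective (H.lh p T) := by
  obtain ⟨t, h1, h2, h3, h4⟩ := exists_rep hp hi hd hb
  have := H.lh_bijective hp hi h1 h2 h0 (fun x => (h4 x).span) (fun x => (h4 x).li)
    fun _ => toFinite _
  rwa [show (fun j => hcls (t j)) = T from funext h3] at this

end lh

theorem IsBasis.lh {E B : Type} [TopologicalSpace E] [TopologicalSpace B] {ι κ : Type*}
    {p : C(E, B)} {T : ι → H E} (h : Function.Bijective (H.lh p T)) {f : κ → H B}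
    (hf : IsBasis f) : IsBasis fun q : ι × κ => H.map p (f q.2) * T q.1 := by
  have := (hf.finsupp (ι := ι)).map h
  simpa only [H.lh_single] using this

end Vale.Agent.P291Z.Fl
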