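import Vale.Agent.P291Z.Fl0

set_option linter.all false

/-!
# Rank one projectors, the hyperplane class, the cohomology of projective spaces
-/

namespace Vale.Agent.P291Z.Fl

open Topology Set Filter TopologicalSpace Matrix

variable {m : Type} [Fintype m] {X Y : Type}

instance {k l : Type} [Finite k] [Finite l] : MetrizableSpace (Matrix k l ℂ) :=
  inferInstanceAs (MetrizableSpace (k → l → ℂ))

instance {k l : Type} [Finite k] [Finite l] : SecondCountableTopology (Matrix k l ℂ) :=
  inferInstanceAs (SecondCountableTopology (k → l → ℂ))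

instance {k l : Type} [Finite k] [Finite l] : LocallyCompactSpace (Matrix k l ℂ) :=
  inferInstanceAs (LocallyCompactSpace (k → l → ℂ))

/-- the Hermitian product -/
def ip (u v : m → ℂ) : ℂ := star u ⬝ᵥ v

theorem ip_add (u v w : m → ℂ) : ip u (v + w) = ip u v + ip u w := dotProduct_add _ _ _

theorem ip_sub (u v w : m → ℂ) : ip u (v - w) = ip u v - ip u w := dotProduct_sub _ _ _

theorem ip_smul (u v : m → ℂ) (c : ℂ) : ip u (c • v) = c * ip u v := dotProduct_smul _ _ _

theorem ip_zero (u : m → ℂ) : ip u 0 = 0 := dotProduct_zero _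

theorem ip_sum {ι : Type*} (u : m → ℂ) (s : Finset ι) (v : ι → m → ℂ) :
    ip u (∑ i ∈ s, v i) = ∑ i ∈ s, ip u (v i) := dotProduct_sum _ _ _

theorem star_ip (u v : m → ℂ) : star (ip u v) = ip v u := by
  rw [ip, ip, star_dotProduct, star_star]

theorem smul_ip (u v : m → ℂ) (c : ℂ) : ip (c • u) v = star c * ip u v := by
  rw [ip, star_smul, smul_dotProduct]; rfl

theorem ip_eq_zero_comm {u v : m → ℂ} : ip u v = 0 ↔ ip v u = 0 := by
  rw [← star_ip u v, star_eq_zero]

open scoped ComplexOrder in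
theorem ip_self_ne {u : m → ℂ} (h : u ≠ 0) : ip u u ≠ 0 := fun h0 =>
  h (dotProduct_star_self_eq_zero.1 h0)

theorem ip_self (u : m → ℂ) : ip u u = ((∑ i, ‖u i‖ ^ 2 : ℝ) : ℂ) := by
  simp only [ip, dotProduct, Pi.star_apply]
  push_cast
  exact Finset.sum_congr rfl fun i _ => by rw [Complex.star_def, Complex.conj_mul']

@[fun_prop] theorem continuous_ip [TopologicalSpace X] {f g : X → m → ℂ} (hf : Continuous f)
    (hg : Continuous g) : Continuous fun x => ip (f x) (g x) := hf.star.dotProduct hg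

/-- the linear form `ip u` -/
def ipL (u : m → ℂ) : (m → ℂ) →ₗ[ℂ] ℂ := ⟨⟨ip u, ip_add u⟩, fun c v => ip_smul u v c⟩

/-- the orthogonal projector onto the line spanned by `u` -/
noncomputable def prj (u : m → ℂ) : Matrix m m ℂ := (ip u u)⁻¹ • vecMulVec u (star u)

theorem prj_mulVec (u w : m → ℂ) : prj u *ᵥ w = (ip u w / ip u u) • u := by
  rw [prj, smul_mulVec, vecMulVec_mulVec, op_smul_eq_smul, smul_smul, div_eq_inv_mul]
  rfl

theorem prj_self {u : m → ℂ} (h : u ≠ 0) : prj u *ᵥ u = u := by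
  rw [prj_mulVec, div_self (ip_self_ne h), one_smul]

theorem prj_smul {c : ℂ} (hc : c ≠ 0) (u : m → ℂ) : prj (c • u) = prj u := by
  by_cases h : u = 0
  · rw [h, smul_zero]
  · refine Matrix.ext_iff_mulVec.2 fun w => ?_
    have := ip_self_ne h
    have := star_ne_zero.2 hc
    rw [prj_mulVec, prj_mulVec, smul_smul, smul_ip, smul_ip, ip_smul]
    congr 1
    field_simp

theorem prj_mul_prj (a b : m → ℂ) :
    prj a * prj b = (ip a b / (ip a a * ip b b)) • vecMulVec a (star b) := by
  rw [prj, prj, smul_mul_smul_comm, vecMulVec_mul_vecMulVec, vecMulVec_smul, smul_smul]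
  congr 1
  rw [div_eq_mul_inv, mul_inv, mul_comm]
  rfl

theorem prj_mul_prj_eq_zero {a b : m → ℂ} (ha : a ≠ 0) (hb : b ≠ 0) :
    prj a * prj b = 0 ↔ ip a b = 0 := by
  constructor
  · intro h
    have := congrArg (fun A => ip a (A *ᵥ b)) h
    simp only [← mulVec_mulVec, prj_self hb, prj_mulVec, ip_smul, zero_mulVec, ip_zero] at this
    rwa [div_mul_cancel₀ _ (ip_self_ne ha)] at this
  · intro h
    rw [prj_mul_prj, h, zero_div, zero_smul]

theorem prj_mulVec_eq_zero {a : m → ℂ} (ha : a ≠ 0) (b : m → ℂ) : prj a *ᵥ b = 0 ↔ ip a b = 0 := by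
  rw [prj_mulVec, smul_eq_zero, or_iff_left ha, div_eq_zero_iff, or_iff_left (ip_self_ne ha)]

theorem exists_smul_of_prj {a b : m → ℂ} (hb : b ≠ 0) (h : prj a = prj b) : ∃ c : ℂ, b = c • a :=
  ⟨_, by rw [← prj_mulVec, h, prj_self hb]⟩

theorem trace_two (a b : m → ℂ) :
    trace (prj a * prj b) = ip a b * ip b a / (ip a a * ip b b) := by
  rw [prj_mul_prj, trace_smul, trace_vecMulVec, dotProduct_comm, smul_eq_mul, div_mul_eq_mul_div]
  rfl

theorem trace_three (a b c : m → ℂ) : trace (prj a * prj b * prj c) =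
    ip a b * ip b c * ip c a / (ip a a * ip b b * ip c c) := by
  rw [prj_mul_prj, prj, smul_mul_smul_comm, vecMulVec_mul_vecMulVec, vecMulVec_smul, smul_smul,
    trace_smul, trace_vecMulVec, dotProduct_comm a, smul_eq_mul]
  change _ * ip b c * ip c a = _
  ring

theorem continuousAt_prj [TopologicalSpace X] {f : X → m → ℂ} {x : X} (hf : ContinuousAt f x)
    (h : f x ≠ 0) : ContinuousAt (fun x => prj (f x)) x := by
  have h1 : ContinuousAt (prj : (m → ℂ) → _) (f x) :=
    ((continuous_ip continuous_id continuous_id).continuousAt.inv₀ (ip_self_ne h)).smul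
      (continuous_id.matrix_vecMulVec continuous_star).continuousAt
  exact h1.comp hf

/-- the projective space of `V` -/
def PV (V : Submodule ℂ (m → ℂ)) : Set (Matrix m m ℂ) := {A | ∃ u ∈ V, u ≠ 0 ∧ A = prj u}

theorem PV_mono {V V' : Submodule ℂ (m → ℂ)} (h : V ≤ V') : PV V ⊆ PV V' :=
  fun _ ⟨u, h1, h2⟩ => ⟨u, h h1, h2⟩

theorem exists_unit {u : m → ℂ} (h : u ≠ 0) : ∃ c : ℂ, c ≠ 0 ∧ ip (c • u) (c • u) = 1 := by
  have h1 : (∑ i, ‖u i‖ ^ 2 : ℝ) ≠ 0 := fun h0 => ip_self_ne h (by rw [ip_self, h0]; rfl)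
  have h2 : (0 : ℝ) < ∑ i, ‖u i‖ ^ 2 := lt_of_le_of_ne (by positivity) h1.symm
  refine ⟨((Real.sqrt (∑ i, ‖u i‖ ^ 2))⁻¹ : ℝ), by
    exact_mod_cast (inv_pos.2 (Real.sqrt_pos.2 h2)).ne', ?_⟩
  rw [smul_ip, ip_smul, ip_self, Complex.star_def, Complex.conj_ofReal, ← mul_assoc,
    ← Complex.ofReal_mul, ← Complex.ofReal_mul, ← mul_inv, Real.mul_self_sqrt h2.le,
    inv_mul_cancel₀ h1, Complex.ofReal_one]

theorem PV.exists_unit {V : Submodule ℂ (m → ℂ)} {A : Matrix m m ℂ} (h : A ∈ PV V) :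
    ∃ u ∈ V, ip u u = 1 ∧ A = prj u := by
  obtain ⟨u, h1, h2, rfl⟩ := h
  obtain ⟨c, hc, h3⟩ := Fl.exists_unit h2
  exact ⟨c • u, V.smul_mem c h1, h3, (prj_smul hc u).symm⟩

theorem ne_zero_of_unit {u : m → ℂ} (h : ip u u = 1) : u ≠ 0 := fun h0 => by
  rw [h0, ip_zero] at h
  exact zero_ne_one h

theorem norm_le_of_unit {u : m → ℂ} (h : ip u u = 1) : ‖u‖ ≤ 1 := by
  rw [ip_self] at h
  have h' : ∑ i, ‖u i‖ ^ 2 = 1 := by exact_mod_cast h
  refine (pi_norm_le_iff_of_nonneg zero_le_one).2 fun i => ?_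
  rw [← sq_le_one_iff₀ (norm_nonneg _), ← h']
  exact Finset.single_le_sum (f := fun i => ‖u i‖ ^ 2) (fun _ _ => by positivity)
    (Finset.mem_univ i)

theorem isCompact_unit : IsCompact {u : m → ℂ | ip u u = 1} :=
  (isCompact_closedBall (0 : m → ℂ) 1).of_isClosed_subset
    (isClosed_eq (continuous_ip continuous_id continuous_id) continuous_const)
    fun _ hu => mem_closedBall_zero_iff.2 (norm_le_of_unit hu)

theorem isCompact_PV (V : Submodule ℂ (m → ℂ)) : IsCompact (PV V) := by
  have : PV V = prj '' ({u | ip u u = 1} ∩ V) := Subset.antisymm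
    (fun A hA => by
      obtain ⟨u, h1, h2, h3⟩ := PV.exists_unit hA
      exact ⟨u, ⟨h2, h1⟩, h3.symm⟩)
    (by
      rintro _ ⟨u, ⟨h1, h2⟩, rfl⟩
      exact ⟨u, h2, ne_zero_of_unit h1, rfl⟩)
  rw [this]
  exact (isCompact_unit.inter_right V.closed_of_finiteDimensional).image_of_continuousOn
    fun u hu => (continuousAt_prj continuousAt_id (ne_zero_of_unit hu.1)).continuousWithinAt

instance (V : Submodule ℂ (m → ℂ)) : CompactSpace (PV V) :=
  isCompact_iff_compactSpace.1 (isCompact_PV V)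

/-! ### the hyperplane class -/

/-- the multiplicative cocycle of three lines -/
noncomputable def kap (A B C : Matrix m m ℂ) : ℂ := trace (A * B * C) / trace (A * C)

/-- its trivialization away from the hyperplane orthogonal to `e` -/
noncomputable def gg (e : m → ℂ) (A B : Matrix m m ℂ) : ℂ := ip e (A *ᵥ B *ᵥ e) / ip e (B *ᵥ e)

theorem kap_prj {a c : m → ℂ} (ha : a ≠ 0) (b : m → ℂ) (hc : c ≠ 0) :
    kap (prj a) (prj b) (prj c) = ip a b * ip b c / (ip b b * ip a c) := by
  rw [kap, trace_three, trace_two]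
  by_cases h : ip a c = 0
  · rw [h, ip_eq_zero_comm.1 h]
    simp
  · have := ip_self_ne ha
    have := ip_self_ne hc
    have := mt ip_eq_zero_comm.2 h
    field_simp

theorem gg_prj (e a : m → ℂ) {b : m → ℂ} (hb : b ≠ 0) :
    gg e (prj a) (prj b) = ip e a * ip a b / (ip a a * ip e b) := by
  simp only [gg, prj_mulVec, ip_smul]
  by_cases h : ip e b = 0
  · rw [h, ip_eq_zero_comm.1 h]
    simp
  · have := ip_self_ne hb
    have := mt ip_eq_zero_comm.2 h
    field_simp

variable [TopologicalSpace X] [TopologicalSpace Y]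

theorem triv_gg {g : X → Matrix m m ℂ} (hg : Continuous g) (hP : ∀ y, g y ∈ PV ⊤) {e : m → ℂ}
    {x : X} (he : g x *ᵥ e ≠ 0) :
    Triv (fun a b c => kap (g a) (g b) (g c)) (fun a b => gg e (g a) (g b)) x := by
  have h1 : ∀ {y}, g y *ᵥ e ≠ 0 → ip e (g y *ᵥ e) ≠ 0 := fun {y} h => by
    obtain ⟨u, -, hu, e1⟩ := hP y
    rw [e1, Ne, prj_mulVec_eq_zero hu] at h
    rw [e1, prj_mulVec, ip_smul]
    exact mul_ne_zero (div_ne_zero h (ip_self_ne hu)) (mt ip_eq_zero_comm.1 h)
  have h2 : g x * g x = g x := by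
    obtain ⟨u, -, hu, e1⟩ := hP x
    rw [e1, prj_mul_prj, prj, div_mul_cancel_left₀ (ip_self_ne hu)]
  have h3 : trace (g x * g x) ≠ 0 := by
    obtain ⟨u, -, hu, e1⟩ := hP x
    rw [e1, trace_two]
    exact div_ne_zero (mul_ne_zero (ip_self_ne hu) (ip_self_ne hu))
      (mul_ne_zero (ip_self_ne hu) (ip_self_ne hu))
  have c1 : Continuous fun y => g y *ᵥ e := hg.matrix_mulVec continuous_const
  constructor
  · have : ContinuousAt (fun p : X × X => gg e (g p.1) (g p.2)) (x, x) :=
      (continuous_ip continuous_const ((hg.comp continuous_fst).matrix_mulVec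
        (c1.comp continuous_snd))).continuousAt.div
        (continuous_ip continuous_const (c1.comp continuous_snd)).continuousAt (h1 he)
    have e1 : gg e (g x) (g x) = 1 := by rw [gg, mulVec_mulVec, h2, div_self (h1 he)]
    rw [← e1]
    exact this
  · have h4 : ∀ᶠ y in 𝓝 x, g y *ᵥ e ≠ 0 := c1.continuousAt.eventually_ne he
    have h5 : ∀ᶠ p : X × X in 𝓝 (x, x), trace (g p.1 * g p.2) ≠ 0 :=
      ((hg.comp continuous_fst).matrix_mul (hg.comp continuous_snd)).matrix_trace.continuousAt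
        |>.eventually_ne h3
    filter_upwards [continuous_fst.continuousAt.eventually h4,
      (continuous_fst.comp continuous_snd).continuousAt.eventually h4,
      (continuous_snd.comp continuous_snd).continuousAt.eventually h4,
      (tendsto_13 x).eventually h5] with p k1 k2 k3 k4
    obtain ⟨a, -, ha, e1⟩ := hP p.1
    obtain ⟨b, -, hb, e2⟩ := hP p.2.1
    obtain ⟨c, -, hc, e3⟩ := hP p.2.2
    simp only [Function.comp_apply] at k1 k2 k3 k4
    rw [e1, Ne, prj_mulVec_eq_zero ha, ip_eq_zero_comm] at k1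
    rw [e2, Ne, prj_mulVec_eq_zero hb, ip_eq_zero_comm] at k2
    rw [e3, Ne, prj_mulVec_eq_zero hc, ip_eq_zero_comm] at k3
    have k5 : ip a c ≠ 0 := fun h => k4 (by rw [e1, e3, trace_two, h, zero_mul, zero_div])
    rw [e1, e2, e3, kap_prj ha b hc, gg_prj e a hb, gg_prj e b hc, gg_prj e a hc]
    have := ip_self_ne ha
    have := ip_self_ne hb
    field_simp

/-- the cocycle of the hyperplane class of a family of lines -/
noncomputable def xi (g : X → Matrix m m ℂ) : Coch X := lg3 fun a b c => kap (g a) (g b) (g c)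

/-- a cohomologous cocycle with support in a hyperplane -/
noncomputable def hyp (e : m → ℂ) (g : X → Matrix m m ℂ) : Coch X :=
  xi g - δ (lg2 fun a b => gg e (g a) (g b))

omit [TopologicalSpace X] [TopologicalSpace Y] in
theorem pull_xi (f : X → Y) (g : Y → Matrix m m ℂ) : pull f (xi g) = xi (g ∘ f) := pull_fn3 _ _

omit [TopologicalSpace X] [TopologicalSpace Y] in
theorem pull_hyp (e : m → ℂ) (f : X → Y) (g : Y → Matrix m m ℂ) :
    pull f (hyp e g) = hyp e (g ∘ f) := by
  rw [hyp, map_sub, pull_xi, ← δ_pull, lg2, pull_fn2]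
  rfl

omit [TopologicalSpace X] in
theorem xi_deg (g : X → Matrix m m ℂ) : IsDeg 2 (xi g) := isDeg_fn3 _

omit [TopologicalSpace X] in
theorem hyp_deg (e : m → ℂ) (g : X → Matrix m m ℂ) : IsDeg 2 (hyp e g) :=
  (xi_deg g).sub (isDeg_fn2 _).δ

section line

variable {g : X → Matrix m m ℂ} (hg : Continuous g) (hP : ∀ y, g y ∈ PV ⊤)
include hg hP

theorem xi_cocycle : supp (δ (xi g)) = ∅ := supp_eq_empty.2 fun x => by
  obtain ⟨u, -, hu, e⟩ := hP x
  exact (triv_gg hg hP (e := u) (by rwa [e, prj_self hu])).δ_van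

theorem hyp_cocycle (e : m → ℂ) : supp (δ (hyp e g)) = ∅ :=
  cocycle_sub (xi_cocycle hg hP) (cocycle_δ _)

theorem supp_hyp (e : m → ℂ) : supp (hyp e g) ⊆ {x | g x *ᵥ e = 0} := fun _ hx =>
  by_contra fun h => (triv_gg hg hP h).van hx

end line

/-- the hyperplane class of a family of lines -/
noncomputable def xc (g : X → Matrix m m ℂ) : H X := hcls (xi g)

theorem xc_deg (g : X → Matrix m m ℂ) : H.IsDeg 2 (xc g) := hcls_isDeg (xi_deg g)

theorem map_xc (f : C(X, Y)) {g : Y → Matrix m m ℂ} (hg : Continuous g) (hP : ∀ y, g y ∈ PV ⊤) :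
    H.map f (xc g) = xc (g ∘ f) := by
  rw [xc, H.map_hcls f (xi_cocycle hg hP), pull_xi, xc]

theorem hcls_hyp {g : X → Matrix m m ℂ} (hg : Continuous g) (hP : ∀ y, g y ∈ PV ⊤) (e : m → ℂ) :
    hcls (hyp e g) = xc g :=
  (hcls_eq_of_cohom (c := lg2 fun a b => gg e (g a) (g b)) (hyp_cocycle hg hP e) (by
    rw [hyp, sub_sub_cancel, sub_self, supp_zero])).symm

/-- in terms of a local nonvanishing vector field, the cocycle with support in a hyperplane is the
pull-back of the orientation cocycle of the line -/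
theorem hyp_cohom {u : X → m → ℂ} (hu : Continuous u) (h0 : ∀ x, u x ≠ 0) (e : m → ℂ) :
    Cohom {x | ip e (u x) = 0} (hyp e fun x => prj (u x))
      (pull (fun x => ip e (u x)) (δ wind)) := by
  have hg : Continuous fun x => prj (u x) :=
    continuous_iff_continuousAt.2 fun x => continuousAt_prj hu.continuousAt (h0 x)
  have hP : ∀ y, prj (u y) ∈ PV ⊤ := fun y => ⟨u y, trivial, h0 y, rfl⟩
  let f : X → X → ℂ := fun a b => ip (u a) (u b) / ip (u a) (u a)
  have hf : ∀ x, Triv (fun a b c => kap (prj (u a)) (prj (u b)) (prj (u c))) f x := fun x => by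
    have c1 : Continuous fun p : X × X => ip (u p.1) (u p.2) := by fun_prop
    constructor
    · have : ContinuousAt (fun p : X × X => f p.1 p.2) (x, x) :=
        c1.continuousAt.div (by fun_prop) (ip_self_ne (h0 x))
      have e1 : f x x = 1 := div_self (ip_self_ne (h0 x))
      rw [← e1]
      exact this
    · filter_upwards [(tendsto_13 x).eventually (c1.continuousAt.eventually_ne
        (ip_self_ne (h0 x)))] with p hp
      rw [kap_prj (h0 _) _ (h0 _)]
      have := ip_self_ne (h0 p.1)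
      have := ip_self_ne (h0 p.2.1)
      simp only [f]
      field_simp
  refine ⟨lg2 f - (lg2 fun a b => gg e (prj (u a)) (prj (u b))) -
    pull (fun x => ip e (u x)) wind, fun x hx => by_contra fun h => ?_,
    supp_eq_empty.2 fun x => ?_⟩
  · refine van_one (((isDeg_fn2 _).sub (isDeg_fn2 _)).sub (isDeg_wind.pull _)) ?_ hx
    have ht := triv_gg hg hP (e := e) (x := x) (by
      rwa [Ne, prj_mulVec_eq_zero (h0 x), ip_eq_zero_comm])
    have c2 : Continuous fun y => ip e (u y) := by fun_prop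
    filter_upwards [lg_div (hf x).lim ht.lim,
      (hf x).lim.eventually_ne one_ne_zero,
      continuous_fst.continuousAt.eventually (c2.continuousAt.eventually_ne h),
      continuous_snd.continuousAt.eventually (c2.continuousAt.eventually_ne h)] with p k1 k2 k3 k4
    change lg (f _ _) - lg (gg _ _ _) - lg (ip e (u p.2) / ip e (u p.1)) = 0
    rw [← k1, sub_eq_zero, gg_prj _ _ (h0 _)]
    congr 1
    have k5 : ip (u p.1) (u p.2) ≠ 0 := fun h => k2 (by simp only [f]; rw [h, zero_div])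
    have := ip_self_ne (h0 p.1)
    simp only [f]
    field_simp
  · have := (hf x).van
    rw [hyp, map_sub, map_sub, δ_pull]
    rwa [show ∀ a b c d : Coch X, a - b - c - (d - b - c) = a - d from fun _ _ _ _ => by abel]

end Vale.Agent.P291Z.Fl
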