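import Vale.Agent.P291Z.Fl1

set_option linter.all false

/-!
# The cohomology of projective spaces
-/

namespace Vale.Agent.P291Z.Fl

open Topology Set Filter TopologicalSpace Matrix

variable {m : Type} [Fintype m] {X Y : Type}

/-- orthonormal families -/
def ON {ι : Type*} (e : ι → m → ℂ) : Prop :=
  (∀ i, ip (e i) (e i) = 1) ∧ ∀ i j, i ≠ j → ip (e i) (e j) = 0

theorem ON.ip_sum {ι : Type*} [Fintype ι] {e : ι → m → ℂ} (h : ON e) (a : ι → ℂ) (i : ι) :
    ip (e i) (∑ j, a j • e j) = a i := by
  rw [Fl.ip_sum, Finset.sum_eq_single i (fun j _ hj => by rw [ip_smul, h.2 i j hj.symm, mul_zero])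
    (fun h => absurd (Finset.mem_univ i) h), ip_smul, h.1, mul_one]

theorem exists_on (V : Submodule ℂ (m → ℂ)) :
    ∃ e : Fin (Module.finrank ℂ V) → m → ℂ, ON e ∧ Submodule.span ℂ (range e) = V := by
  let φ := (WithLp.linearEquiv 2 ℂ (m → ℂ)).symm
  let V' : Submodule ℂ (EuclideanSpace ℂ m) := V.map φ.toLinearMap
  have hV : Module.finrank ℂ V = Module.finrank ℂ V' := (LinearEquiv.finrank_map_eq φ V).symm
  let b := (stdOrthonormalBasis ℂ V').reindex (finCongr hV.symm)
  have hb : ∀ i j, ip (φ.symm (b i).1) (φ.symm (b j).1) = inner ℂ (b i) (b j) := fun i j => by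
    rw [Submodule.coe_inner, EuclideanSpace.inner_eq_star_dotProduct, dotProduct_comm]
    rfl
  refine ⟨fun i => φ.symm (b i).1, ⟨fun i => ?_, fun i j hij => ?_⟩, ?_⟩
  · rw [hb, orthonormal_iff_ite.1 b.orthonormal, if_pos rfl]
  · rw [hb, b.orthonormal.2 hij]
  · have h1 : Submodule.span ℂ (range fun i => (b i).1) = V' := by
      rw [show (fun i => (b i).1) = V'.subtype ∘ b.toBasis from rfl, range_comp,
        ← Submodule.map_span, b.toBasis.span_eq, Submodule.map_subtype_top]
    rw [show (fun i => φ.symm (b i).1) = φ.symm.toLinearMap ∘ fun i => (b i).1 from rfl,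
      range_comp, ← Submodule.map_span, h1, ← Submodule.map_comp]
    simp

theorem isEmbedding_of_leftInverse [TopologicalSpace X] [TopologicalSpace Y] {φ : X → Y}
    {ψ : Y → X} (hφ : Continuous φ) (hl : ∀ x, ψ (φ x) = x) (hψ : ∀ x, ContinuousAt ψ (φ x)) :
    IsEmbedding φ := by
  have h1 : Continuous fun y : range φ => ψ y := continuous_iff_continuousAt.2 <| by
    rintro ⟨_, x, rfl⟩
    exact ContinuousAt.comp (f := Subtype.val) (hψ x) continuous_subtype_val.continuousAt
  exact IsEmbedding.subtypeVal.comp (Function.LeftInverse.isEmbedding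
    (f := fun y : range φ => ψ y) (g := rangeFactorization φ) hl h1 (hφ.subtype_mk _))

theorem PV.mem_top {V : Submodule ℂ (m → ℂ)} (A : PV V) : A.1 ∈ PV (⊤ : Submodule ℂ (m → ℂ)) :=
  PV_mono le_top A.2

/-- the hyperplane class of a projective space -/
noncomputable def xP (V : Submodule ℂ (m → ℂ)) : H (PV V) := xc Subtype.val

theorem isBasis_PV_on (k : ℕ) (e : Fin k → m → ℂ) (he : ON e) :
    IsBasis fun i : Fin k => xP (Submodule.span ℂ (range e)) ^ (i : ℕ) := by
  induction k with
  | zero =>
    haveI : IsEmpty (PV (Submodule.span ℂ (range e))) := ⟨by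
      rintro ⟨_, u, h1, h2, -⟩
      rw [range_eq_empty, Submodule.span_empty] at h1
      exact h2 h1⟩
    refine IsBasis.mk linearIndependent_empty_type fun c _ => ?_
    obtain ⟨a, -, rfl⟩ := hcls_surj c
    rw [Subsingleton.elim a 0, hcls_zero]
    exact Submodule.zero_mem _
  | succ k ih =>
    have he' : ON fun i : Fin k => e i.succ :=
      ⟨fun i => he.1 _, fun i j h => he.2 _ _ (mt (Fin.succ_inj.1) h)⟩
    have ih := ih _ he'
    set V := Submodule.span ℂ (range e) with hV
    set V' := Submodule.span ℂ (range fun i : Fin k => e i.succ) with hV'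
    have hle : V' ≤ V := Submodule.span_mono (by rintro _ ⟨i, rfl⟩; exact ⟨_, rfl⟩)
    let i : C(PV V', PV V) := ⟨inclusion (PV_mono hle), continuous_inclusion _⟩
    have hi : IsClosedEmbedding i := IsClosedEmbedding.inclusion (PV_mono hle)
      ((isCompact_PV V').isClosed.preimage continuous_subtype_val)
    let u : (Fin k → ℂ) → m → ℂ := fun w => ∑ j, (Fin.cons 1 w : Fin (k + 1) → ℂ) j • e j
    have hu0 : ∀ w, ip (e 0) (u w) = 1 := fun w => he.ip_sum _ 0
    have hus : ∀ w (j : Fin k), ip (e j.succ) (u w) = w j := fun w j => he.ip_sum _ j.succ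
    have hun : ∀ w, u w ≠ 0 := fun w h => by
      have := hu0 w
      rw [h, ip_zero] at this
      exact zero_ne_one this
    have huc : Continuous u := by
      refine continuous_finset_sum Finset.univ fun j _ => ?_
      refine Fin.cases ?_ (fun j => ?_) j
      · simp only [Fin.cons_zero]
        fun_prop
      · simp only [Fin.cons_succ]
        fun_prop
    have huV : ∀ w, u w ∈ V := fun w =>
      V.sum_mem fun j _ => V.smul_mem _ (Submodule.subset_span ⟨j, rfl⟩)
    let φ : (Fin k → ℂ) → PV V := fun w => ⟨prj (u w), u w, huV w, hun w, rfl⟩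
    have hφ : Continuous φ := (continuous_iff_continuousAt.2 fun w =>
      continuousAt_prj huc.continuousAt (hun w)).subtype_mk _
    have h0V' : ∀ v ∈ V', ip (e 0) v = 0 := fun v hv => by
      obtain ⟨a, rfl⟩ := (Submodule.mem_span_range_iff_exists_fun ℂ).1 hv
      rw [ip_sum]
      exact Finset.sum_eq_zero fun j _ => by rw [ip_smul, he.2 _ _ (Fin.succ_ne_zero j).symm, mul_zero]
    have hr0 : ∀ v (hv : v ∈ V) (h : v ≠ 0), ip (e 0) v ≠ 0 →
        (⟨prj v, v, hv, h, rfl⟩ : PV V) ∈ range φ := fun v hv h h0 => by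
      obtain ⟨a, rfl⟩ := (Submodule.mem_span_range_iff_exists_fun ℂ).1 hv
      rw [he.ip_sum] at h0
      refine ⟨fun j => a j.succ / a 0, Subtype.ext ?_⟩
      show prj _ = prj _
      rw [← prj_smul h0, Finset.smul_sum]
      congr 1
      refine Finset.sum_congr rfl fun j _ => ?_
      rw [smul_smul]
      congr 1
      refine Fin.cases ?_ (fun j => ?_) j
      · simp
      · simp only [Fin.cons_succ]
        field_simp
    have hr : range φ = (range i)ᶜ := by
      ext ⟨A, v, hv, h, rfl⟩
      constructor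
      · rintro ⟨w, hw⟩ ⟨⟨B, v', hv', h', rfl⟩, hB⟩
        have e1 : prj v' = prj (u w) := (congrArg Subtype.val hB).trans (congrArg Subtype.val hw).symm
        obtain ⟨c, hc⟩ := exists_smul_of_prj (hun w) e1
        have := hu0 w
        rw [hc, ip_smul, h0V' v' hv', mul_zero] at this
        exact zero_ne_one this
      · intro hA
        refine hr0 v hv h fun h0 => hA ⟨⟨prj v, v, ?_, h, rfl⟩, rfl⟩
        obtain ⟨a, rfl⟩ := (Submodule.mem_span_range_iff_exists_fun ℂ).1 hv
        rw [he.ip_sum] at h0
        rw [Fin.sum_univ_succ, h0, zero_smul, zero_add]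
        exact V'.sum_mem fun j _ => V'.smul_mem _ (Submodule.subset_span ⟨j, rfl⟩)
    have hd : ∀ w, ip (e 0) (prj (u w) *ᵥ e 0) ≠ 0 := fun w => by
      rw [prj_mulVec, ip_smul, hu0, mul_one]
      exact div_ne_zero (mt ip_eq_zero_comm.1 (by rw [hu0]; exact one_ne_zero)) (ip_self_ne (hun w))
    have hj : IsOpenEmbedding φ := ⟨isEmbedding_of_leftInverse
      (ψ := fun A j => ip (e j.succ) (A.1 *ᵥ e 0) / ip (e 0) (A.1 *ᵥ e 0)) hφ
      (fun w => funext fun j => by
        rw [div_eq_iff (hd w)]
        simp only [φ, prj_mulVec, ip_smul, hu0, hus]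
        ring)
      (fun w => continuousAt_pi.2 fun j => by
        have c1 : Continuous fun A : PV V => A.1 *ᵥ e 0 :=
          continuous_subtype_val.matrix_mulVec continuous_const
        exact (continuous_ip continuous_const c1).continuousAt.div
          (continuous_ip continuous_const c1).continuousAt (hd w)), by
      rw [hr]; exact hi.isClosed_range.isOpen_compl⟩
    have hx : H.map i (xP V) = xP V' := map_xc i continuous_subtype_val PV.mem_top
    have hip := IsPr.of_isClosedEmbedding hi
    have hsurj : Function.Surjective (H.mapA i) := by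
      rw [← AlgHom.coe_toLinearMap, ← LinearMap.range_eq_top, ← top_le_iff]
      refine ih.span.trans (Submodule.span_le.2 ?_)
      rintro _ ⟨j, rfl⟩
      exact ⟨xP V ^ (j : ℕ), by rw [AlgHom.toLinearMap_apply, map_pow, H.mapA_apply, hx]⟩
    have hinj : Function.Injective (Hc.push hj) := (injective_iff_map_eq_zero _).2 fun c hc => by
      obtain ⟨d, rfl⟩ := (Hc.exact_conn_push hi hj hr c).1 hc
      obtain ⟨d', hd'⟩ := hsurj (toH d)
      obtain ⟨d', rfl⟩ := toH_bijective.2 d'
      rw [H.mapA_apply, ← toH_pull hip] at hd'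
      exact (Hc.exact_pull_conn hi hj hr d).2 ⟨d', toH_bijective.1 hd'⟩
    let t : Coch (PV V) := (List.ofFn fun j : Fin k => hyp (e j.succ) Subtype.val).prod
    have ht : supp (δ t) = ∅ :=
      cocycle_ofFn_prod fun j => hyp_cocycle continuous_subtype_val PV.mem_top _
    have hts : supp t ⊆ range φ := by
      rintro ⟨A, v, hv, h, rfl⟩ hA
      have h1 := supp_ofFn_prod (fun j : Fin k =>
        supp_hyp continuous_subtype_val PV.mem_top (e j.succ)) hA
      refine hr0 v hv h fun h0 => h ?_
      have h2 : ∀ j, ip (e j) v = 0 := fun j => Fin.cases h0 (fun j =>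
        ip_eq_zero_comm.1 ((prj_mulVec_eq_zero h _).1 (mem_iInter.1 h1 j))) j
      obtain ⟨a, rfl⟩ := (Submodule.mem_span_range_iff_exists_fun ℂ).1 hv
      exact Finset.sum_eq_zero fun j _ => by rw [← he.ip_sum a j, h2 j, zero_smul]
    have htc : cls (pull φ t) = cls (tau k) := by
      have h1 := cohom_prod (fun j : Fin k => hyp_cohom huc hun (e j.succ))
        (fun j => hyp_cocycle (continuous_subtype_val.comp hφ) (fun w => PV.mem_top (φ w)) _)
        (fun j => cocycle_pull (by fun_prop) (cocycle_δ _))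
        (fun j w hw => ip_eq_zero_comm.1 ((prj_mulVec_eq_zero (hun w) _).1
          (supp_hyp (continuous_subtype_val.comp hφ) (fun w => PV.mem_top (φ w)) _ hw)))
        (fun j w hw => supp_δ_wind (supp_pull (f := fun w => ip (e j.succ) (u w)) (by fun_prop) _ hw))
      have h2 : (⋂ j : Fin k, {w | ip (e j.succ) (u w) = 0}) = {0} := by
        ext w
        simp only [mem_iInter, mem_setOf_eq, hus, mem_singleton_iff]
        exact funext_iff.symm
      rw [h2] at h1
      have h3 := cls_eq_of_cohom isCompact_singleton h1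
      simp only [hus] at h3
      rw [map_list_prod, List.map_ofFn]
      refine Eq.trans ?_ h3
      congr 3
      funext j
      exact pull_hyp _ _ _
    have htx : toH (Hc.push hj (cls (tau k))) = xP V ^ k := by
      rw [← htc, Hc.push_cls hj (Zc_of_compact ht) hts, toH_cls (Zc_of_compact ht),
        hcls_ofFn_prod fun j => hyp_cocycle continuous_subtype_val PV.mem_top _]
      simp only [hcls_hyp continuous_subtype_val PV.mem_top, List.ofFn_const, List.prod_replicate]
      rfl
    have hne : xP V ^ k ≠ 0 := fun h => (isGen_tau k).ne (hinj (toH_bijective.1 (by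
      rw [htx, h, map_zero, map_zero])))
    have hker : ∀ c, H.mapA i c = 0 ↔ ∃ z : ℂ, c = z • xP V ^ k := fun c => by
      obtain ⟨c, rfl⟩ := toH_bijective.2 c
      rw [H.mapA_apply, ← toH_pull hip, ← htx, map_eq_zero_iff _ toH_bijective.1,
        Hc.exact_push_pull hi hj hr c]
      constructor
      · rintro ⟨d, rfl⟩
        obtain ⟨z, rfl⟩ := (isGen_tau k).span d
        exact ⟨z, by rw [map_smul, map_smul]⟩
      · rintro ⟨z, hz⟩
        exact ⟨z • cls (tau k), toH_bijective.1 (by rw [hz, map_smul, map_smul])⟩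
    have hmap : ∀ a : Fin k → ℂ, H.mapA i (∑ j, a j • xP V ^ (j : ℕ)) =
        ∑ j, a j • xP V' ^ (j : ℕ) := fun a => by
      rw [map_sum]
      exact Finset.sum_congr rfl fun j _ => by rw [map_smul, map_pow, H.mapA_apply, hx]
    refine IsBasis.mk (Fintype.linearIndependent_iff.2 fun a ha => ?_) fun c _ => ?_
    · rw [Fin.sum_univ_castSucc] at ha
      simp only [Fin.val_castSucc, Fin.val_last] at ha
      have h1 := congrArg (H.mapA i) ha
      rw [map_add, hmap, map_smul, (hker _).2 ⟨1, (one_smul _ _).symm⟩, smul_zero, add_zero,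
        map_zero] at h1
      have h2 := Fintype.linearIndependent_iff.1 ih.li _ h1
      simp only [h2, zero_smul, Finset.sum_const_zero, zero_add] at ha
      exact Fin.lastCases ((smul_eq_zero.1 ha).resolve_right hne) h2
    · obtain ⟨a, ha⟩ := (Submodule.mem_span_range_iff_exists_fun ℂ).1
        (ih.span (Submodule.mem_top : H.mapA i c ∈ ⊤))
      obtain ⟨z, hz⟩ := (hker (c - ∑ j, a j • xP V ^ (j : ℕ))).1 (by
        rw [map_sub, hmap, ha, sub_self])
      rw [sub_eq_iff_eq_add.1 hz]
      exact Submodule.add_mem _ (Submodule.smul_mem _ _ (Submodule.subset_span ⟨Fin.last k, rfl⟩))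
        (Submodule.sum_mem _ fun j _ => Submodule.smul_mem _ _
          (Submodule.subset_span ⟨j.castSucc, rfl⟩))

/-- **The cohomology of a projective space** -/
theorem isBasis_PV (V : Submodule ℂ (m → ℂ)) {k : ℕ} (hk : Module.finrank ℂ V = k) :
    IsBasis fun i : Fin k => xP V ^ (i : ℕ) := by
  subst hk
  obtain ⟨e, h1, h2⟩ := exists_on V
  have := isBasis_PV_on _ e h1
  rwa [h2] at this

end Vale.Agent.P291Z.Fl
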