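import Vale.Agent.P291Z.Fl2

set_option linter.all false

/-!
# Polynomials in classes of degree two, the cohomology of flag manifolds
-/

namespace Vale.Agent.P291Z.Fl

open Topology Set Filter TopologicalSpace Matrix MvPolynomial

variable {X Y : Type} [TopologicalSpace X] [TopologicalSpace Y] {C : Type}

/-- the evaluation of polynomials at classes of degree two -/
noncomputable def ev (x : C → H X) (hx : ∀ c, H.IsDeg 2 (x c)) : MvPolynomial C ℂ →ₐ[ℂ] H X :=
  (Subalgebra.center ℂ (H X)).val.comp (aeval fun c => (⟨x c, Subalgebra.mem_center_iff.2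
    fun b => ((hx c).commute even_two b).symm⟩ : Subalgebra.center ℂ (H X)))

section ev

variable {x : C → H X} (hx : ∀ c, H.IsDeg 2 (x c))

theorem ev_X (c : C) : ev x hx (MvPolynomial.X c) = x c := by simp [ev]

theorem ev_comm (p : MvPolynomial C ℂ) (y : H X) : ev x hx p * y = y * ev x hx p :=
  (Subalgebra.mem_center_iff.1 (aeval _ p : Subalgebra.center ℂ (H X)).2 y).symm

theorem map_ev (f : C(Y, X)) (p : MvPolynomial C ℂ) :
    H.map f (ev x hx p) = ev (fun c => H.map f (x c)) (fun c => (hx c).map f) p :=
  AlgHom.congr_fun (algHom_ext (f := (H.mapA f).comp (ev x hx)) fun c => by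
    rw [AlgHom.comp_apply, ev_X, ev_X, H.mapA_apply]) p

theorem ev_rename {C' : Type} (σ : C' → C) (p : MvPolynomial C' ℂ) :
    ev x hx (rename σ p) = ev (fun c => x (σ c)) (fun c => hx (σ c)) p :=
  AlgHom.congr_fun (algHom_ext (f := (ev x hx).comp (rename σ)) fun c => by
    rw [AlgHom.comp_apply, rename_X, ev_X, ev_X]) p

theorem ev_congr {x' : C → H X} (hx' : ∀ c, H.IsDeg 2 (x' c)) {a : C →₀ ℕ}
    (h : ∀ c, a c ≠ 0 → x c = x' c) : ev x hx (monomial a 1) = ev x' hx' (monomial a 1) := by
  simp only [ev, AlgHom.comp_apply, aeval_monomial]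
  congr 2
  refine Finsupp.prod_congr fun c hc => ?_
  congr 2
  exact h c (Finsupp.mem_support_iff.1 hc)

theorem ev_monomial_deg (a : C →₀ ℕ) : H.IsDeg (2 * a.degree) (ev x hx (monomial a 1)) := by
  induction a using Finsupp.induction_linear with
  | zero => simpa using H.isDeg_one
  | add a b ha hb =>
    rw [← one_mul (1 : ℂ), ← monomial_mul, map_mul, map_add, Nat.cast_add, mul_add]
    exact ha.mul hb
  | single c k =>
    rw [← X_pow_eq_monomial, map_pow, ev_X, Finsupp.degree_single]
    induction k with
    | zero => simpa using H.isDeg_one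
    | succ k ih =>
      rw [pow_succ, Nat.cast_succ, mul_add, mul_one]
      exact ih.mul (hx c)

theorem ev_deg {p : MvPolynomial C ℂ} {k : ℕ} (hp : p.IsHomogeneous k) :
    H.IsDeg (2 * k) (ev x hx p) := by
  rw [p.as_sum, map_sum]
  refine (H.deg X _).sum_mem fun a ha => ?_
  rw [show monomial a (coeff a p) = coeff a p • monomial a (1 : ℂ) from by
    rw [smul_monomial, smul_eq_mul, mul_one], map_smul]
  refine (H.deg X _).smul_mem _ ?_
  have h1 : a.degree = k := by
    rw [← hp (mem_support_iff.1 ha), Finsupp.degree_eq_weight_one]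
    rfl
  rw [← h1]
  exact ev_monomial_deg hx a

end ev

/-- the exponents in a box -/
def Box (β : C → ℕ) : Set (C →₀ ℕ) := {a | ∀ c, a c < β c}

/-- the largest exponent in a box -/
noncomputable def top [Finite C] (β : C → ℕ) : C →₀ ℕ :=
  Finsupp.equivFunOnFinite.symm fun c => β c - 1

theorem top_apply [Finite C] (β : C → ℕ) (c : C) : top β c = β c - 1 := rfl

instance [Finite C] (β : C → ℕ) : Finite (Box β) :=
  Finite.of_injective (fun (a : Box β) c => (⟨a.1 c, a.2 c⟩ : Fin (β c))) fun a b h =>
    Subtype.ext (Finsupp.ext fun c => congrArg Fin.val (congrFun h c))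

open Classical in
/-- the monomials of a box are a basis, and Poincare duality holds for the coefficient of the
largest monomial -/
structure Good [Finite C] (x : C → H X) (hx : ∀ c, H.IsDeg 2 (x c)) (β : C → ℕ) : Prop where
  basis : IsBasis fun a : Box β => ev x hx (monomial a.1 1)
  pd : ∃ I : H X →ₗ[ℂ] ℂ,
    (∀ a ∈ Box β, I (ev x hx (monomial a 1)) = if a = top β then 1 else 0) ∧
      ∀ y, y ≠ 0 → ∃ y', I (y * y') ≠ 0

theorem Good.step [Finite C] {x : C → H X} {hx : ∀ c, H.IsDeg 2 (x c)} {β : C → ℕ}
    (h : Good x hx β) {x' : C → H Y} (hx' : ∀ c, H.IsDeg 2 (x' c)) {β' : C → ℕ} {a : C}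
    (h1 : β a = 1) (h2 : ∀ c, c ≠ a → β' c = β c) (p : C(Y, X))
    (h3 : ∀ c, 1 < β c → H.map p (x c) = x' c)
    (h4 : Function.Bijective (H.lh p fun i : Fin (β' a) => x' a ^ (i : ℕ))) : Good x' hx' β' := by
  classical
  have ha0 : ∀ b ∈ Box β, b a = 0 := fun b hb => by
    have := hb a
    omega
  have hm : ∀ b ∈ Box β, ∀ i : ℕ, ev x' hx' (monomial (b + Finsupp.single a i) 1) =
      H.map p (ev x hx (monomial b 1)) * x' a ^ i := fun b hb i => by
    rw [← one_mul (1 : ℂ), ← monomial_mul, map_mul, ← X_pow_eq_monomial, map_pow, ev_X, one_mul,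
      map_ev]
    congr 1
    exact ev_congr _ _ fun c hc => (h3 c (by have := hb c; omega)).symm
  have her : ∀ b ∈ Box β', b.erase a ∈ Box β := fun b hb c => by
    by_cases hc : c = a
    · rw [hc, Finsupp.erase_same, h1]; exact zero_lt_one
    · rw [Finsupp.erase_ne hc, ← h2 c hc]; exact hb c
  let e : Fin (β' a) × Box β → Box β' := fun q => ⟨q.2.1 + Finsupp.single a q.1.1, fun c => by
    by_cases hc : c = a
    · rw [hc, Finsupp.add_apply, ha0 _ q.2.2, Finsupp.single_eq_same, zero_add]; exact q.1.2
    · rw [Finsupp.add_apply, Finsupp.single_eq_of_ne hc, add_zero, h2 c hc]; exact q.2.2 c⟩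
  have he : Function.Bijective e := ⟨fun q q' hq => by
    have h5 : q.2.1 + Finsupp.single a q.1.1 = q'.2.1 + Finsupp.single a q'.1.1 :=
      congrArg Subtype.val hq
    have h6 := DFunLike.congr_fun h5 a
    rw [Finsupp.add_apply, Finsupp.add_apply, ha0 _ q.2.2, ha0 _ q'.2.2, Finsupp.single_eq_same,
      Finsupp.single_eq_same, zero_add, zero_add] at h6
    rw [h6] at h5
    exact Prod.ext (Fin.ext h6) (Subtype.ext (add_right_cancel h5)),
    fun b => ⟨(⟨b.1 a, b.2 a⟩, ⟨b.1.erase a, her _ b.2⟩),
      Subtype.ext (Finsupp.erase_add_single a b.1)⟩⟩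
  refine ⟨IsBasis.of_comp he ?_, ?_⟩
  · have := IsBasis.lh h4 h.basis
    rwa [show (fun q : Fin (β' a) × Box β => H.map p (ev x hx (monomial q.2.1 1)) *
      x' a ^ (q.1 : ℕ)) = fun q => ev x' hx' (monomial (e q).1 1) from
        funext fun q => (hm _ q.2.2 _).symm] at this
  · obtain ⟨I, hI, hpd⟩ := h.pd
    let E := LinearEquiv.ofBijective _ h4
    rcases Nat.eq_zero_or_pos (β' a) with h0 | h0
    · refine ⟨0, fun b hb => absurd (hb a) (by omega), fun y hy => absurd ?_ hy⟩
      obtain ⟨b, rfl⟩ := h4.2 y
      rw [show b = 0 from Finsupp.ext fun i => absurd i.2 (by omega), map_zero]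
    · let l : Fin (β' a) := ⟨β' a - 1, by omega⟩
      let I' : H Y →ₗ[ℂ] ℂ := I ∘ₗ Finsupp.lapply l ∘ₗ E.symm.toLinearMap
      have hI' : ∀ c (i : ℕ), i < β' a →
          I' (H.map p c * x' a ^ i) = if i = β' a - 1 then I c else 0 := fun c i hi => by
        have : E.symm (H.map p c * x' a ^ i) = Finsupp.single ⟨i, hi⟩ c := by
          rw [LinearEquiv.symm_apply_eq]
          exact (H.lh_single p (fun i : Fin (β' a) => x' a ^ (i : ℕ)) ⟨i, hi⟩ c).symm
        simp only [I', LinearMap.comp_apply, LinearEquiv.coe_toLinearMap, this,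
          Finsupp.lapply_apply, Finsupp.single_apply, l, Fin.mk.injEq]
        split_ifs
        · rfl
        · exact map_zero _
      refine ⟨I', fun b hb => ?_, fun y hy => ?_⟩
      · conv_lhs => rw [← Finsupp.erase_add_single a b]
        rw [hm _ (her b hb), hI' _ _ (hb a), hI _ (her b hb), ← ite_and]
        refine if_congr ⟨fun h5 => Finsupp.ext fun c => ?_, fun h5 => ⟨by rw [h5, top_apply],
          Finsupp.ext fun c => ?_⟩⟩ rfl rfl
        · by_cases hc : c = a
          · rw [hc, h5.1, top_apply]
          · rw [top_apply, h2 c hc, ← top_apply, ← h5.2, Finsupp.erase_ne hc]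
        · by_cases hc : c = a
          · rw [hc, Finsupp.erase_same, top_apply, h1, Nat.sub_self]
          · rw [Finsupp.erase_ne hc, h5, top_apply, top_apply, h2 c hc]
      · obtain ⟨b, rfl⟩ := h4.2 y
        have hb : b.support.Nonempty := Finsupp.support_nonempty_iff.2 fun h => hy (by
          rw [h, map_zero])
        obtain ⟨i₀, hi₀, hmax⟩ := b.support.exists_max_image id hb
        obtain ⟨c, hc⟩ := hpd _ (Finsupp.mem_support_iff.1 hi₀)
        refine ⟨H.map p c * x' a ^ (β' a - 1 - i₀), ?_⟩
        rw [H.lh_apply, Finset.sum_mul, map_sum, Finset.sum_eq_single_of_mem i₀ hi₀]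
        · rwa [mul_assoc, ← mul_assoc (x' a ^ _), ((Commute.pow_left
            ((hx' a).commute even_two _) _).eq :), mul_assoc, ← pow_add, ← mul_assoc, ← map_mul,
            hI' _ _ (by omega), if_pos (by omega)]
        · intro i hi hne
          have h5 : (i : ℕ) < i₀ := lt_of_le_of_ne (hmax i hi) fun h => hne (Fin.ext h)
          rw [mul_assoc, ← mul_assoc (x' a ^ _), ((Commute.pow_left
            ((hx' a).commute even_two _) _).eq :), mul_assoc, ← pow_add, ← mul_assoc, ← map_mul,
            hI' _ _ (by omega), if_neg (by omega)]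

theorem good_of_unique [Finite C] [Unique X] {x : C → H X} (hx : ∀ c, H.IsDeg 2 (x c)) :
    Good x hx fun _ => 1 := by
  classical
  have h0 : ∀ a ∈ Box fun _ : C => 1, a = 0 := fun a ha =>
    Finsupp.ext fun c => Nat.lt_one_iff.1 (ha c)
  haveI : Unique (Box fun _ : C => 1) :=
    ⟨⟨⟨0, fun _ => zero_lt_one⟩⟩, fun a => Subtype.ext (h0 _ a.2)⟩
  have hb : IsBasis fun a : Box fun _ : C => 1 => ev x hx (monomial a.1 1) := by
    have e : (fun a : Box fun _ : C => 1 => ev x hx (monomial a.1 1)) = fun _ => 1 :=
      funext fun a => by rw [h0 _ a.2, monomial_zero', map_one, map_one]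
    rw [e]
    refine IsBasis.mk (linearIndependent_unique_iff.2 hcls_one_ne_zero) fun c _ => ?_
    obtain ⟨z, rfl⟩ := acyc_of_subsingleton c
    exact Submodule.smul_mem _ _ (Submodule.subset_span ⟨default, rfl⟩)
  have h1 : hb.basis.coord default 1 = 1 := by
    have := hb.basis.repr_self_apply default default
    rwa [if_pos rfl, hb.basis_apply, h0 _ (default : Box fun _ : C => 1).2, monomial_zero', map_one,
      map_one] at this
  refine ⟨hb, hb.basis.coord default, fun a ha => ?_, fun y hy => ⟨1, ?_⟩⟩
  · rw [if_pos (show a = top fun _ => 1 from (h0 a ha).trans (Finsupp.ext fun _ => rfl)), h0 a ha,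
      monomial_zero', map_one, map_one, h1]
  · obtain ⟨z, rfl⟩ := acyc_of_subsingleton y
    rw [mul_one, map_smul, h1, smul_eq_mul, mul_one]
    exact fun h => hy (by rw [h, zero_smul])

/-! ### flag manifolds -/

variable {m : Type} [Fintype m] {J : Type} {n : J → ℕ}

/-- the index set of the coordinates of the maximal torus -/
abbrev CC (n : J → ℕ) : Type := Σ j, Fin (n j)

/-- families of lines, orthogonal in each block -/
def FL (V : J → Submodule ℂ (m → ℂ)) (s : Finset (CC n)) : Set (CC n → Matrix m m ℂ) :=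
  {L | (∀ c ∈ s, L c ∈ PV (V c.1)) ∧ (∀ c ∉ s, L c = 0) ∧
    ∀ c d, c.1 = d.1 → c ≠ d → L c * L d = 0}

theorem isCompact_FL (V : J → Submodule ℂ (m → ℂ)) (s : Finset (CC n)) : IsCompact (FL V s) := by
  refine (isCompact_univ_pi fun c : CC n => (isCompact_PV (V c.1)).union
    (isCompact_singleton (x := 0))).of_isClosed_subset ?_ fun L hL c _ => ?_
  · simp only [FL, setOf_and, setOf_forall]
    refine IsClosed.inter (isClosed_iInter fun c => isClosed_iInter fun _ =>
      (isCompact_PV _).isClosed.preimage (continuous_apply c)) (IsClosed.inter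
        (isClosed_iInter fun c => isClosed_iInter fun _ =>
          isClosed_eq (continuous_apply c) continuous_const)
        (isClosed_iInter fun c => isClosed_iInter fun d => isClosed_iInter fun _ =>
          isClosed_iInter fun _ => isClosed_eq
            ((continuous_apply c).matrix_mul (continuous_apply d)) continuous_const))
  · by_cases hc : c ∈ s
    · exact Or.inl (hL.1 c hc)
    · exact Or.inr (hL.2.1 c hc)

instance (V : J → Submodule ℂ (m → ℂ)) (s : Finset (CC n)) : CompactSpace (FL V s) :=
  isCompact_iff_compactSpace.1 (isCompact_FL V s)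

theorem continuous_FL (V : J → Submodule ℂ (m → ℂ)) (s : Finset (CC n)) (c : CC n) :
    Continuous fun L : FL V s => L.1 c := (continuous_apply c).comp continuous_subtype_val

/-- the hyperplane classes of a flag manifold -/
noncomputable def xF (V : J → Submodule ℂ (m → ℂ)) (s : Finset (CC n)) (c : CC n) : H (FL V s) :=
  xc fun L => L.1 c

theorem xF_deg (V : J → Submodule ℂ (m → ℂ)) (s : Finset (CC n)) (c : CC n) :
    H.IsDeg 2 (xF V s c) := xc_deg _

open Classical in
/-- the bounds for the exponents -/
noncomputable def bd (r : J → ℕ) (s : Finset (CC n)) (c : CC n) : ℕ :=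
  if c ∈ s then r c.1 - (s.filter fun d => d.1 = c.1 ∧ (d.2 : ℕ) < c.2).card else 1

/-- the vectors of `V` orthogonal to the lines of a block -/
def perp (V : Submodule ℂ (m → ℂ)) (L : CC n → Matrix m m ℂ) (j : J) : Submodule ℂ (m → ℂ) :=
  V ⊓ ⨅ (d : CC n) (_ : d.1 = j), LinearMap.ker (L d).mulVecLin

theorem mem_perp {V : Submodule ℂ (m → ℂ)} {L : CC n → Matrix m m ℂ} {j : J} {v : m → ℂ} :
    v ∈ perp V L j ↔ v ∈ V ∧ ∀ d : CC n, d.1 = j → L d *ᵥ v = 0 := by
  simp [perp]

open Classical in
theorem finrank_perp {V : J → Submodule ℂ (m → ℂ)} {s : Finset (CC n)} (L : FL V s) (j : J) :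
    Module.finrank ℂ (perp (V j) L.1 j) =
      Module.finrank ℂ (V j) - (s.filter fun d => d.1 = j).card := by
  have ex : ∀ d : s.filter fun d => d.1 = j, ∃ u ∈ V j, ip u u = 1 ∧ L.1 d = prj u := fun d => by
    obtain ⟨h1, h2⟩ := Finset.mem_filter.1 d.2
    have h3 := L.2.1 d h1
    rw [h2] at h3
    exact PV.exists_unit h3
  choose u h1 h2 h3 using ex
  have hon : ON u := ⟨h2, fun c d h => (prj_mul_prj_eq_zero (ne_zero_of_unit (h2 c))
    (ne_zero_of_unit (h2 d))).1 (by
      rw [← h3, ← h3]
      exact L.2.2.2 _ _ ((Finset.mem_filter.1 c.2).2.trans (Finset.mem_filter.1 d.2).2.symm)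
        fun h' => h (Subtype.ext h'))⟩
  let φ : V j →ₗ[ℂ] ((s.filter fun d => d.1 = j) → ℂ) :=
    (LinearMap.pi fun d => ipL (u d)) ∘ₗ (V j).subtype
  have hφ : LinearMap.range φ = ⊤ := LinearMap.range_eq_top.2 fun a =>
    ⟨⟨∑ d, a d • u d, (V j).sum_mem fun d _ => (V j).smul_mem _ (h1 d)⟩,
      funext fun d => hon.ip_sum a d⟩
  have hk : (LinearMap.ker φ).map (V j).subtype = perp (V j) L.1 j := by
    ext v
    rw [mem_perp]
    constructor
    · rintro ⟨v, hv, rfl⟩
      refine ⟨v.2, fun d hd => ?_⟩
      by_cases hs : d ∈ s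
      · have := h3 ⟨d, Finset.mem_filter.2 ⟨hs, hd⟩⟩
        rw [this, prj_mulVec_eq_zero (ne_zero_of_unit (h2 _))]
        exact congrFun (LinearMap.mem_ker.1 hv) _
      · rw [L.2.2.1 d hs, zero_mulVec]
    · rintro ⟨h4, h5⟩
      refine ⟨⟨v, h4⟩, LinearMap.mem_ker.2 (funext fun d => ?_), rfl⟩
      have := h5 d (Finset.mem_filter.1 d.2).2
      rwa [h3, prj_mulVec_eq_zero (ne_zero_of_unit (h2 _))] at this
  have := LinearMap.finrank_range_add_finrank_ker φ
  rw [hφ, finrank_top, Module.finrank_fintype_fun_eq_card, Fintype.card_coe] at this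
  rw [← hk, Submodule.finrank_map_subtype_eq]
  omega

variable [Finite J]

theorem good_FL (V : J → Submodule ℂ (m → ℂ)) {r : J → ℕ}
    (hV : ∀ j, Module.finrank ℂ (V j) = r j) (s : Finset (CC n)) :
    Good (xF V s) (xF_deg V s) (bd r s) := by
  classical
  induction s using Finset.induction_on_max_value (fun c : CC n => (c.2 : ℕ)) with
  | empty =>
    haveI : Unique (FL V (∅ : Finset (CC n))) :=
      ⟨⟨⟨0, fun _ h => absurd h (Finset.notMem_empty _), fun _ _ => rfl,
        fun _ _ _ _ => Matrix.mul_zero _⟩⟩,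
        fun L => Subtype.ext (funext fun c => L.2.2.1 c (Finset.notMem_empty _))⟩
    have := good_of_unique (xF_deg V (∅ : Finset (CC n)))
    rwa [show (fun _ => 1) = bd r (∅ : Finset (CC n)) from
      funext fun c => (if_neg (Finset.notMem_empty _)).symm] at this
  | insert a s ha hmax ih =>
    have hne : ∀ c ∈ s, c ≠ a := fun c hc h => ha (h ▸ hc)
    let p : C(FL V (insert a s), FL V s) := ⟨fun L => ⟨Function.update L.1 a 0, fun c hc => by
        rw [Function.update_of_ne (hne c hc)]
        exact L.2.1 c (Finset.mem_insert_of_mem hc), fun c hc => by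
        by_cases h : c = a
        · rw [h, Function.update_self]
        · rw [Function.update_of_ne h]
          exact L.2.2.1 c fun h' => (Finset.mem_insert.1 h').elim h hc, fun c d h1 h2 => by
        by_cases hc : c = a
        · rw [hc, Function.update_self, Matrix.zero_mul]
        · by_cases hd : d = a
          · rw [hd, Function.update_self, Matrix.mul_zero]
          · rw [Function.update_of_ne hc, Function.update_of_ne hd]
            exact L.2.2.2 c d h1 h2⟩,
      (continuous_subtype_val.update a continuous_const).subtype_mk _⟩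
    have hor : ∀ (L : FL V s) (A : PV (perp (V a.1) L.1 a.1)) (d : CC n), d.1 = a.1 →
        A.1 * L.1 d = 0 ∧ L.1 d * A.1 = 0 := by
      rintro L ⟨_, v, h1, h2, rfl⟩ d hd
      by_cases hs : d ∈ s
      · obtain ⟨u, -, h3, h4⟩ := L.2.1 d hs
        have h5 := (mem_perp.1 h1).2 d hd
        rw [h4, prj_mulVec_eq_zero h3] at h5
        rw [h4, prj_mul_prj_eq_zero h2 h3, prj_mul_prj_eq_zero h3 h2]
        exact ⟨ip_eq_zero_comm.1 h5, h5⟩
      · rw [L.2.2.1 d hs, Matrix.mul_zero, Matrix.zero_mul]
        exact ⟨rfl, rfl⟩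
    let i : ∀ L : FL V s, C(PV (perp (V a.1) L.1 a.1), FL V (insert a s)) := fun L =>
      ⟨fun A => ⟨Function.update L.1 a A.1, fun c hc => by
        by_cases h : c = a
        · rw [h, Function.update_self]
          exact PV_mono inf_le_left A.2
        · rw [Function.update_of_ne h]
          exact L.2.1 c ((Finset.mem_insert.1 hc).resolve_left h), fun c hc => by
        rw [Function.update_of_ne fun h : c = a => hc (h ▸ Finset.mem_insert_self a s)]
        exact L.2.2.1 c fun h => hc (Finset.mem_insert_of_mem h), fun c d h1 h2 => by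
        by_cases hc : c = a
        · subst hc
          rw [Function.update_self, Function.update_of_ne h2.symm]
          exact (hor L A d h1.symm).1
        · by_cases hd : d = a
          · subst hd
            rw [Function.update_self, Function.update_of_ne hc]
            exact (hor L A c h1).2
          · rw [Function.update_of_ne hc, Function.update_of_ne hd]
            exact L.2.2.2 c d h1 h2⟩,
      Continuous.subtype_mk (by exact continuous_const.update a continuous_subtype_val) _⟩
    have hia : ∀ L A, (i L A).1 a = A.1 := fun L A => Function.update_self _ _ _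
    have hi : ∀ L, IsFib p L (i L) := fun L => ⟨(i L).continuous.isClosedEmbedding
      fun A B h => Subtype.ext (by rw [← hia L A, h, hia]), by
      ext L'
      constructor
      · rintro ⟨A, rfl⟩
        refine Subtype.ext ?_
        show Function.update (Function.update L.1 a A.1) a 0 = L.1
        rw [Function.update_idem, ← L.2.2.1 a ha, Function.update_eq_self]
      · rintro rfl
        obtain ⟨v, h1, h2, h3⟩ := L'.2.1 a (Finset.mem_insert_self a s)
        refine ⟨⟨L'.1 a, v, mem_perp.2 ⟨h1, fun d hd => ?_⟩, h2, h3⟩, Subtype.ext ?_⟩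
        · show Function.update L'.1 a 0 d *ᵥ v = 0
          by_cases h : d = a
          · rw [h, Function.update_self, zero_mulVec]
          · rw [Function.update_of_ne h, ← prj_self h2, ← h3, mulVec_mulVec, L'.2.2.2 d a hd h,
              zero_mulVec]
        · show Function.update (Function.update L'.1 a 0) a (L'.1 a) = L'.1
          rw [Function.update_idem, Function.update_eq_self]⟩
    have hbd : bd r (insert a s) a = r a.1 - (s.filter fun d => d.1 = a.1).card := by
      rw [bd, if_pos (Finset.mem_insert_self a s), Finset.filter_insert,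
        if_neg fun h => lt_irrefl _ h.2]
      congr 2
      refine Finset.filter_congr fun d hd => and_iff_left_of_imp fun h => ?_
      refine lt_of_le_of_ne (hmax d hd) fun h' => hne d hd ?_
      obtain ⟨j, k⟩ := d
      obtain ⟨j', k'⟩ := a
      obtain rfl : j = j' := h
      rw [show k = k' from Fin.ext h']
    refine ih.step _ (a := a) (if_neg ha) (fun c hc => ?_) p (fun c hc => ?_)
      (lh_bijective (IsPr.of_compact p.continuous) hi (d := fun k => 2 * (k : ℕ))
        (fun k => ?_) (fun _ => by positivity) fun L => ?_)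
    · simp only [bd, Finset.mem_insert, hc, false_or]
      split_ifs with h
      · rw [Finset.filter_insert, if_neg fun h' => not_lt.2 (hmax c h) h'.2]
      · rfl
    · have hs : c ∈ s := by_contra fun h => by
        rw [bd, if_neg h] at hc
        exact lt_irrefl _ hc
      rw [xF, map_xc p (continuous_FL V s c)
        fun L => PV_mono le_top (L.2.1 c hs), xF]
      congr 1
      exact funext fun L => Function.update_of_ne (hne c hs) _ _
    · have := ev_monomial_deg (xF_deg V (insert a s)) (Finsupp.single a k)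
      rwa [← X_pow_eq_monomial, map_pow, ev_X, Finsupp.degree_single] at this
    · have := isBasis_PV (perp (V a.1) L.1 a.1) (k := bd r (insert a s) a)
        (by rw [finrank_perp, hV, hbd])
      rwa [show xP (perp (V a.1) L.1 a.1) = H.map (i L) (xF V (insert a s) a) from by
        rw [xF, map_xc (i L) (continuous_FL V _ a)
          fun L => PV_mono le_top (L.2.1 a (Finset.mem_insert_self a s)), xP]
        congr 1
        exact funext fun A => (hia L A).symm, funext fun k : Fin _ => (map_pow _ _ k.1).symm] at this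

theorem bd_univ [Fintype J] (r : J → ℕ) (c : CC n) :
    bd r Finset.univ c = r c.1 - c.2 := by
  classical
  rw [bd, if_pos (Finset.mem_univ c)]
  congr 1
  obtain ⟨j, k⟩ := c
  refine Eq.trans (Eq.symm ?_) (Fin.card_Iio k)
  refine Finset.card_bij (fun l _ => (⟨j, l⟩ : CC n)) (fun l hl => ?_) (fun l _ l' _ h => ?_)
    fun d hd => ?_
  · exact Finset.mem_filter.2 ⟨Finset.mem_univ _, rfl, (Finset.mem_Iio.1 hl : l < k)⟩
  · exact sigma_mk_injective (β := fun j => Fin (n j)) h
  · obtain ⟨j', l⟩ := d
    obtain ⟨-, h1, h2⟩ := Finset.mem_filter.1 hd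
    obtain rfl : j' = j := h1
    exact ⟨l, Finset.mem_Iio.2 h2, rfl⟩

end Vale.Agent.P291Z.Fl
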