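import Vale.Agent.P291Z.T11

set_option linter.all false

/-!
# Thom cocycles: existence, uniqueness, the Thom isomorphism, naturality, extensions
-/

namespace Vale.Agent.P291Z

open Topology Set Filter TopologicalSpace

variable {X Y W E B E₁ E₂ : Type} [TopologicalSpace X] [TopologicalSpace Y] [TopologicalSpace W]
  [TopologicalSpace E] [TopologicalSpace B] [TopologicalSpace E₁] [TopologicalSpace E₂]

/-- the Gysin map on a cochain whose support meets the image of `i` in a compact set -/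
theorem Hc.gys_cls' [MetrizableSpace X] [LocallyCompactSpace X] {i : W → X}
    (hi : IsClosedEmbedding i) {t : Coch X} (ht : supp (δ t) = ∅) (hs : supp t ⊆ range i)
    {a : Coch X} (ha : ∀ z, δ a ∈ Van (i z)) {K : Set W} (hK : IsCompact K)
    (hc : i ⁻¹' supp a ⊆ K) : Hc.gys hi ht hs (cls (P291Z.pull i a)) = cls (a * t) := by
  obtain ⟨N, h1, -, h2⟩ := exists_cut_compact (hK.image hi.continuous) isOpen_univ
    (subset_univ _) a
  have h3 : ∀ z, a - cut N a ∈ Van (i z) := fun z => h2 _ (by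
    by_cases hz : z ∈ K
    · exact Or.inl (mem_image_of_mem i hz)
    · exact Or.inr fun h => hz (hc h))
  have h4 : cut N a ∈ Near i := ⟨h1, fun z => by
    have := (Van _).sub_mem (ha z) (Van.δ (h3 z))
    rwa [map_sub, sub_sub_cancel] at this⟩
  rw [cls_eq_of_null (b := P291Z.pull i (cut N a)) fun z => by
    rw [← map_sub]; exact Van.pull hi.continuous.continuousAt (h3 z), Hc.gys_cls hi ht hs h4]
  refine (cls_eq_of_null fun x => ?_).symm
  rw [← sub_mul]
  by_cases hx : x ∈ range i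
  · obtain ⟨z, rfl⟩ := hx
    exact Van.mul_right (h3 z) _
  · exact Van.mul_left (fun h => hx (hs h)) _

/-- the Gysin map of a section -/
theorem Hc.gys_eq_pullMul [MetrizableSpace E] [LocallyCompactSpace E] {p : E → B}
    (hp : Continuous p) {s : B → E} (hi : IsClosedEmbedding s) (hps : ∀ x, p (s x) = x)
    {t : Coch E} (ht : supp (δ t) = ∅) (hs : supp t ⊆ range s)
    (htp : (Fam.prop p).mem (supp t)) : Hc.gys hi ht hs = Hc.pullMul hp ht htp :=
  Hc.hom_ext fun a ha => by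
    have e : P291Z.pull s (P291Z.pull p a) = a := by
      rw [P291Z.pull_pull, show p ∘ s = id from funext hps, P291Z.pull_id]
    rw [Hc.pullMul_cls _ _ _ ha, ← Hc.gys_cls' hi ht hs (a := P291Z.pull p a)
      (fun z => supp_eq_empty.1 (cocycle_pull hp ha.2) _) ha.1 fun z hz => by
        have := supp_pull hp a hz
        rwa [mem_preimage, hps] at this, e]

theorem prop_of_section {p : E → B} {s : B → E} (hi : Continuous s) (hps : ∀ x, p (s x) = x)
    {A : Set E} (hA : IsClosed A) (hs : A ⊆ range s) : (Fam.prop p).mem A := fun K hK => by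
  have := (hK.image hi).inter_left hA
  rwa [show A ∩ s '' K = A ∩ p ⁻¹' K from Subset.antisymm (by
    rintro _ ⟨h1, x, hx, rfl⟩
    exact ⟨h1, by rwa [mem_preimage, hps]⟩) fun e he => ⟨he.1, by
      obtain ⟨x, rfl⟩ := hs he.1
      exact ⟨x, by simpa [hps] using he.2, rfl⟩⟩] at this

/-- naturality of Thom cocycles -/
theorem IsThom.pull {Z : Set E} {chart : (r : ℕ) → ((Fin r → ℂ) → E) → Prop} {t : Coch E}
    (h : IsThom Z chart t) {f : X → E} (hf : Continuous f) {Z' : Set X}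
    {chart' : (r : ℕ) → ((Fin r → ℂ) → X) → Prop} (hZ : f ⁻¹' Z ⊆ Z')
    (hc : ∀ r φ, chart' r φ → chart r (f ∘ φ)) : IsThom Z' chart' (pull f t) :=
  ⟨cocycle_pull hf h.1, (supp_pull hf t).trans ((preimage_mono h.2.1).trans hZ), fun r φ hφ =>
    ⟨by rw [pull_pull]; exact (h.2.2 r _ (hc r φ hφ)).1, fun z l hl =>
      (h.2.2 r _ (hc r φ hφ)).2 z (l.map f) (by simpa using hl)⟩⟩

theorem IsThom.cls_chart {Z : Set E} {chart : (r : ℕ) → ((Fin r → ℂ) → E) → Prop} {t : Coch E}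
    (h : IsThom Z chart t) {r : ℕ} {φ : (Fin r → ℂ) → E} (hφ : chart r φ) :
    cls (P291Z.pull φ t) = cls (tau r) := cls_eq_of_cohom isCompact_singleton (h.2.2 r φ hφ).1

/-- a complex vector bundle of rank `r` with zero section `Z` and linear parametrizations `chart`
of its fibres -/
structure IsVB (r : ℕ) (p : E → B) (Z : Set E) (chart : (r : ℕ) → ((Fin r → ℂ) → E) → Prop) :
    Prop where
  cont : Continuous p
  triv : ∀ x, ∃ (N : Set B) (Φ : N × (Fin r → ℂ) → E), x ∈ N ∧ IsTriv p Z N Φ ∧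
    ∀ y, chart r fun v => Φ (y, v)
  rank : ∀ r' φ, chart r' φ → r' = r
  trans : ∀ φ φ', chart r φ → chart r φ' → p (φ 0) = p (φ' 0) →
    ∃ g : (Fin r → ℂ) ≃ₗ[ℂ] (Fin r → ℂ), φ = φ' ∘ g

namespace IsVB

variable {r : ℕ} {p : E → B} {Z : Set E} {chart : (r : ℕ) → ((Fin r → ℂ) → E) → Prop}
  (h : IsVB r p Z chart)
include h

theorem locTriv : LocTriv (Fin r → ℂ) p Z :=
  ⟨h.cont, fun x => by
    obtain ⟨N, Φ, h1, h2, -⟩ := h.triv x
    exact ⟨N, Φ, h1, h2⟩⟩

theorem exists_chart (x : B) : ∃ φ, chart r φ ∧ p (φ 0) = x := by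
  obtain ⟨N, Φ, h1, h2, h3⟩ := h.triv x
  exact ⟨_, h3 ⟨x, h1⟩, h2.proj _⟩

theorem chart_zero {φ : (Fin r → ℂ) → E} (hφ : chart r φ) (v : Fin r → ℂ) : φ v ∈ Z ↔ v = 0 := by
  obtain ⟨N, Φ, h1, h2, h3⟩ := h.triv (p (φ 0))
  obtain ⟨g, hg⟩ := h.trans φ _ hφ (h3 ⟨_, h1⟩) (h2.proj (⟨_, h1⟩, 0)).symm
  rw [congrFun hg v]
  exact (h2.zero _).trans g.map_eq_zero_iff

theorem chart_fib [T1Space B] {φ : (Fin r → ℂ) → E} (hφ : chart r φ) : IsFib p (p (φ 0)) φ := by
  obtain ⟨N, Φ, h1, h2, h3⟩ := h.triv (p (φ 0))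
  obtain ⟨g, hg⟩ := h.trans φ _ hφ (h3 ⟨_, h1⟩) (h2.proj (⟨_, h1⟩, 0)).symm
  have := h2.isFib h.cont ⟨_, h1⟩
  refine ⟨?_, ?_⟩
  · rw [hg]
    exact this.emb.comp g.toContinuousLinearEquiv.toHomeomorph.isClosedEmbedding
  · conv_lhs => rw [hg]
    rw [g.surjective.range_comp]
    exact this.range_eq

theorem exists_chart_mem [T1Space B] (e : E) : ∃ φ v, chart r φ ∧ φ v = e := by
  obtain ⟨φ, h1, h2⟩ := h.exists_chart (p e)
  obtain ⟨v, hv⟩ := (h.chart_fib h1).exists_eq h2.symm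
  exact ⟨φ, v, h1, hv⟩

theorem thom_deg [T1Space B] {t : Coch E} (ht : IsThom Z chart t) : IsDeg (2 * r) t := by
  intro l hl
  cases l with
  | nil => exact t.2.1
  | cons e l =>
    obtain ⟨φ, v, h1, rfl⟩ := h.exists_chart_mem e
    exact (ht.2.2 r φ h1).2 v l fun h' => hl (by simp [h'])

theorem supp_chart [T1Space B] {t : Coch E} (hs : supp t ⊆ Z) {φ : (Fin r → ℂ) → E}
    (hφ : chart r φ) : supp (pull φ t) ⊆ {0} := fun v hv =>
  (h.chart_zero hφ v).1 (hs (supp_pull (h.chart_fib hφ).emb.continuous t hv))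

theorem cls_trans [T1Space B] {t : Coch E} {φ φ' : (Fin r → ℂ) → E} (hφ : chart r φ)
    (hφ' : chart r φ') (e : p (φ 0) = p (φ' 0)) (h1 : pull φ' t ∈ Zc _)
    (h2 : cls (pull φ' t) = cls (tau r)) : cls (pull φ t) = cls (tau r) := by
  obtain ⟨g, rfl⟩ := h.trans φ φ' hφ hφ' e
  have hg : IsPr g := IsPr.of_homeomorph g.toContinuousLinearEquiv.toHomeomorph
  rw [← pull_pull, ← Hc.pull_cls hg h1, h2, Hc.pull_cls hg (isGen_tau r).mem,
    cls_pull_linearEquiv g (tau_cocycle r) (supp_tau r)]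

/-- it is enough to check one parametrization of each fibre, with compact supports -/
theorem isThom_of [T1Space B] {t : Coch E} (ht : supp (δ t) = ∅) (hs : supp t ⊆ Z)
    (hd : IsDeg (2 * r) t)
    (hc : ∀ x, ∃ φ, chart r φ ∧ p (φ 0) = x ∧ cls (pull φ t) = cls (tau r)) :
    IsThom Z chart t := by
  refine ⟨ht, hs, fun r' φ hφ => ?_⟩
  obtain rfl := h.rank r' φ hφ
  refine ⟨?_, fun z l hl => hd _ (by simp only [List.length_cons]; omega)⟩
  obtain ⟨φ', h1, h2, h3⟩ := hc (p (φ 0))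
  exact cohom_zero_of_cls (cocycle_pull (h.chart_fib hφ).emb.continuous ht) (tau_cocycle _)
    (h.supp_chart hs hφ) (supp_tau _) (h.cls_trans hφ h1 h2.symm
      ⟨isCompact_supp_of_subset isCompact_singleton (h.supp_chart hs h1),
        cocycle_pull (h.chart_fib h1).emb.continuous ht⟩ h3)

theorem isGen_chart [T1Space B] {t : Coch E} (ht : IsThom Z chart t) {φ : (Fin r → ℂ) → E}
    (hφ : chart r φ) : IsGen (2 * r) (pull φ t) :=
  (isGen_tau r).of_ne ⟨isCompact_supp_of_subset isCompact_singleton (h.supp_chart ht.2.1 hφ),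
    cocycle_pull (h.chart_fib hφ).emb.continuous ht.1⟩ ((h.thom_deg ht).pull φ) (by
      rw [ht.cls_chart hφ]; exact (isGen_tau r).ne)

theorem exists_fib [T1Space B] :
    ∃ ψ : B → (Fin r → ℂ) → E, ∀ x, chart r (ψ x) ∧ p (ψ x 0) = x ∧ IsFib p x (ψ x) := by
  choose ψ h1 h2 using h.exists_chart
  exact ⟨ψ, fun x => ⟨h1 x, h2 x, by
    have := h.chart_fib (h1 x)
    rwa [h2 x] at this⟩⟩

theorem thom_prop [T2Space B] [LocallyCompactSpace B] {t : Coch E} (ht : IsThom Z chart t) :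
    (Fam.prop p).mem (supp t) := h.locTriv.prop_of_subset ht.2.1

variable [MetrizableSpace E] [LocallyCompactSpace E]

/-- **The Thom isomorphism** -/
theorem thom_iso [T2Space B] [LocallyCompactSpace B] {t : Coch E} (ht : IsThom Z chart t) :
    Function.Bijective (Hc.pullMul h.cont ht.1 (h.thom_prop ht)) := by
  obtain ⟨ψ, hψ⟩ := h.exists_fib
  exact Hc.pullMul_bijective_of_isGen h.cont (fun x => (hψ x).2.2) ht.1 _ (h.thom_deg ht)
    (by omega) fun x => h.isGen_chart ht (hψ x).1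

/-- the Gysin map of the zero section is bijective -/
theorem gys_bijective [T2Space B] [LocallyCompactSpace B] {t : Coch E} (ht : IsThom Z chart t)
    {s : B → E} (hi : IsClosedEmbedding s) (hps : ∀ x, p (s x) = x) (hs : supp t ⊆ range s) :
    Function.Bijective (Hc.gys hi ht.1 hs) := by
  rw [Hc.gys_eq_pullMul h.cont hi hps ht.1 hs (h.thom_prop ht)]
  exact h.thom_iso ht

variable [MetrizableSpace B] [LocallyCompactSpace B] [SigmaCompactSpace B]

/-- **Existence of Thom cocycles** -/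
theorem exists_thom : ∃ t, IsThom Z chart t := by
  obtain ⟨ψ, hψ⟩ := h.exists_fib
  suffices key : ∃ b ∈ (asSoft h.cont (Fam.prop p)).deg (2 * r), ∀ y,
      δ b ∈ VanB p y ∧ cls (pull (ψ y) b) = cls (tau r) by
    obtain ⟨b, hb, hP⟩ := key
    obtain ⟨a, h1, h2, h3, c, -, h4, h5⟩ := h.locTriv.surj hb.1 hb.2
      (supp_eq_empty.2 fun e => VanB.van (hP (p e)).1)
    refine ⟨a, h.isThom_of h3 h2 h1 fun x => ⟨ψ x, (hψ x).1, (hψ x).2.1, ?_⟩⟩
    rw [← (hP x).2]
    refine (cls_eq_of_Bc ?_).symm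
    rw [← map_sub]
    exact (hψ x).2.2.pull_mem_Bc h4 (VanB.of_null h5 x)
  refine (asSoft h.cont (Fam.prop p)).exists_section
    (asSoft_glue _ _ (Fam.local_prop h.cont)) (n := 2 * r)
    (fun y a => δ a ∈ VanB p y ∧ cls (pull (ψ y) a) = cls (tau r)) (fun x => ?_)
    (fun y a ha a' ha' h1 h2 => ?_) (fun y a ha a' ha' c hc h1 h2 => ?_) (fun A hA => ?_)
  · obtain ⟨N, Φ, h1, h2, h3⟩ := h.triv x
    obtain ⟨K, hKx, hKN, hK⟩ := local_compact_nhds (h2.isOpen.mem_nhds h1)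
    obtain ⟨b, h4, h5, h6, h7⟩ := (Taut.of_isOpenEmbedding h2.emb).surj
      ((tau_deg r).pull (Prod.snd : N × (Fin r → ℂ) → _))
    refine ⟨cut (p ⁻¹' K) b, ⟨h4.cut _, Fam.prop_of_isCompact h.cont (isCompact_supp_of_subset
      (h2.isCompact_image hK hKN (isCompact_singleton (x := 0))) fun e he => ?_)⟩, ?_⟩
    · obtain ⟨he1, he2⟩ := supp_cut _ _ he
      rw [(hK.isClosed.preimage h.cont).closure_eq] at he1
      obtain ⟨v, hv⟩ := h2.exists_eq (hKN he1)
      refine ⟨(⟨p e, hKN he1⟩, v), ⟨he1, by_contra fun h0 => ?_⟩, hv⟩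
      exact h6 (⟨p e, hKN he1⟩, v) (Van.pull continuous_snd.continuousAt
        fun h' => h0 (supp_tau r h')) (by rwa [hv])
    · filter_upwards [eventually_mem_nhds_iff.2 hKx] with y hy
      have hyN := hKN (mem_of_mem_nhds hy)
      have hc := (asSoft h.cont (Fam.all E)).cut_in K y b hy
      have hd : δ b ∈ VanB p y := Eventually.mono (h2.isOpen.mem_nhds hyN) fun z hz e he => by
        obtain ⟨v, hv⟩ := h2.exists_eq (show p e ∈ N from he ▸ hz)
        rw [← hv]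
        exact h7 _ (supp_eq_empty.1 (cocycle_pull continuous_snd (tau_cocycle r)) _)
      have hf := h2.isFib h.cont ⟨y, hyN⟩
      have e : pull (fun v => Φ (⟨y, hyN⟩, v)) b = tau r := by
        rw [show (fun v => Φ (⟨y, hyN⟩, v)) = Φ ∘ Prod.mk ⟨y, hyN⟩ from rfl, ← pull_pull, h5,
          pull_pull]
        exact pull_id _
      have e' : ∀ v, pull (fun v => Φ (⟨y, hyN⟩, v)) (cut (p ⁻¹' K) b) - tau r ∈ Van v :=
        fun v => by
          rw [← e, ← map_sub, ← neg_sub, map_neg]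
          exact (Van v).neg_mem (hf.pull_van hc v)
      refine ⟨?_, h.cls_trans (hψ y).1 (h3 ⟨y, hyN⟩) ((hψ y).2.1.trans (h2.proj (⟨y, hyN⟩, 0)).symm)
        (Zc.of_sub_Bc (isGen_tau r).mem (mem_Bc_of_null e')) (cls_eq_of_null e')⟩
      have := (VanB p y).sub_mem hd (VanB.of_imp hc fun _ => Van.δ)
      rwa [map_sub, sub_sub_cancel] at this
  · obtain ⟨c, h3, h4, h5⟩ := (hψ y).2.2.inj h.cont (IsDeg.sub ha.1 ha'.1)
      ((Fam.prop p).coch.sub_mem ha.2 ha'.2) (by rw [map_sub]; exact (VanB p y).sub_mem h1.1 h2.1)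
      (by
        rw [map_sub, ← cls_eq_iff ((hψ y).2.2.pull_mem_Zc ha.2 h1.1)
          ((hψ y).2.2.pull_mem_Zc ha'.2 h2.1), h1.2, h2.2])
    exact ⟨c, ⟨h3, Fam.prop_of_isCompact h.cont h4⟩, h5⟩
  · refine ⟨?_, ?_⟩
    · have := (VanB p y).add_mem (VanB.of_imp h2 fun _ => Van.δ) h1.1
      rwa [asSoft_δ, map_sub, map_sub, δ_δ, sub_zero, sub_add_cancel] at this
    · rw [← h1.2]
      refine cls_eq_of_Bc ?_
      rw [← map_sub]
      exact (hψ y).2.2.pull_mem_Bc hc.2 h2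
  · refine (asSoft h.cont (Fam.prop p)).exactOn_of_stalk (U := univ) (n₀ := 0) (k := 2 * r - 1)
      (fun n hn a ha => asSoft_low _ _ hn ha _) (fun x _ n _ hn a ha hd => ?_) _ le_rfl A
      (subset_univ _) hA
    obtain ⟨c, h3, h4, h5⟩ := (hψ x).2.2.inj h.cont ha.1 ha.2 hd
      ((cls_eq_zero ((hψ x).2.2.pull_mem_Zc ha.2 hd)).1 ((isGen_tau r).eq_zero (k := n) (by omega)
        (cls_mem_deg (IsDeg.pull ha.1 _))))
    exact ⟨c, ⟨h3, Fam.prop_of_isCompact h.cont h4⟩, h5⟩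

theorem epsilon_spec : IsThom Z chart (Classical.epsilon (IsThom Z chart)) :=
  Classical.epsilon_spec h.exists_thom

/-- **The Thom isomorphism with supports in the zero section**, surjectivity -/
theorem thom_surj {t : Coch E} (ht : IsThom Z chart t) {n : ℤ} {b : Coch E} (hb : supp (δ b) = ∅)
    (hs : supp b ⊆ Z) (hn : IsDeg n b) :
    ∃ a, supp (δ a) = ∅ ∧ IsDeg (n - 2 * r) a ∧ Cohom Z b (pull p a * t) := by
  obtain ⟨ψ, hψ⟩ := h.exists_fib
  have D : LHData p (fun _ : Unit => t) fun _ => 2 * r :=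
    ⟨h.cont, fun _ => ht.1, fun _ => h.thom_prop ht, fun _ => h.thom_deg ht, fun _ => by omega⟩
  obtain ⟨a, h1, c, -, h2, h3⟩ := D.surj_p (fun x => (hψ x).2.2) (k := n)
    (fun x _ _ c _ => (h.isGen_chart ht (hψ x).1).mem_span c)
    (fun x _ _ => (linearIndependent_unique_iff.2
      (h.isGen_chart ht (hψ x).1).ne).linearIndepOn _) (fun _ => toFinite _) le_rfl hb
    (h.locTriv.prop_of_subset hs) hn
  rw [Finsupp.unique_single a, lhMap_single] at h3
  obtain ⟨c', h4, h5⟩ := h.locTriv.inj ((supp_sub _ _).trans (union_subset hs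
    ((supp_mul _ _).trans (inter_subset_right.trans ht.2.1)))) h2 (supp_eq_empty.1 h3)
  exact ⟨a (), (h1 ()).1, (h1 ()).2, c', h4, supp_eq_empty.2 h5⟩

/-- **The Thom isomorphism with proper supports**, injectivity -/
theorem thom_inj {t : Coch E} (ht : IsThom Z chart t) {a : Coch B} (ha : supp (δ a) = ∅)
    {c : Coch E} (hc : (Fam.prop p).mem (supp c)) (e : supp (pull p a * t - δ c) = ∅) :
    hcls a = 0 := by
  obtain ⟨ψ, hψ⟩ := h.exists_fib
  have D : LHData p (fun _ : Unit => t) fun _ => 2 * r :=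
    ⟨h.cont, fun _ => ht.1, fun _ => h.thom_prop ht, fun _ => h.thom_deg ht, fun _ => by omega⟩
  refine H.ext_comp fun n => ?_
  rw [map_zero, H.comp_hcls n ha, hcls_eq_zero (cocycle_comp ha n)]
  obtain ⟨a', -, h1⟩ := D.inj_p (fun x => (hψ x).2.2) (k := n + 2 * r)
    (fun x _ _ c _ => (h.isGen_chart ht (hψ x).1).mem_span c)
    (fun x _ _ => (linearIndependent_unique_iff.2
      (h.isGen_chart ht (hψ x).1).ne).linearIndepOn _) (fun _ => toFinite _) (n := n + 2 * r)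
    (by omega) (a := Finsupp.single () (comp n a))
    (fun _ => by rw [Finsupp.single_eq_same]; exact cocycle_comp ha n)
    (fun _ => by rw [Finsupp.single_eq_same, add_sub_cancel_right]; exact isDeg_comp n a)
    (c := comp (n + 2 * r - 1) c) (Fam.coch_mono (Φ := Fam.prop p) hc (supp_comp _ c))
    (supp_eq_empty.2 fun x => by
      have := Van.comp (supp_eq_empty.1 e x) (n + 2 * r)
      rwa [map_sub, comp_mul_right (h.thom_deg ht), comp_pull, comp_δ', ← lhMap_single p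
        (fun _ : Unit => t) ()] at this) ()
  rw [Finsupp.single_eq_same] at h1
  exact ⟨a', h1⟩

/-- **Uniqueness of Thom cocycles** -/
theorem thom_unique {t t' : Coch E} (ht : IsThom Z chart t) (ht' : IsThom Z chart t') :
    Cohom Z t t' := by
  obtain ⟨a, h1, h2, c, h3, h4⟩ := h.thom_surj ht' ht.1 ht.2.1 (h.thom_deg ht)
  have : a = 1 := by
    refine IsDeg.ext_zero (h2.cast (sub_self _)) isDeg_one fun x => ?_
    obtain ⟨φ, h5, rfl⟩ := h.exists_chart x
    have hf := h.chart_fib h5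
    have h6 : cls (pull φ t) = cls (pull φ (pull p a * t')) := cls_eq_of_Bc (by
      rw [← map_sub]
      exact hf.pull_mem_Bc (h.locTriv.prop_of_subset h3) (VanB.of_null (supp_eq_empty.1 h4) _))
    have h7 : pull φ (pull p a) = a.1 [p (φ 0)] • 1 := by
      rw [pull_pull, ← fn_const]
      refine IsDeg.ext_zero ((h2.cast (sub_self _)).pull _) (isDeg_fn _) fun v => ?_
      rw [pull_val, List.map_singleton, Function.comp_apply, hf.apply, fn_val]
    rw [map_mul, h7, smul_mul_assoc, one_mul, cls_smul _ (h.isGen_chart ht' h5).mem,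
      ht.cls_chart h5, ht'.cls_chart h5] at h6
    have h8 : (1 - a.1 [p (φ 0)]) • cls (tau r) = 0 := by rw [sub_smul, one_smul, ← h6, sub_self]
    rw [← sub_eq_zero.1 ((smul_eq_zero.1 h8).resolve_right (isGen_tau r).ne), Coch.one_val]
    simp [unit]
  rw [this, map_one, one_mul] at h4
  exact ⟨c, h3, h4⟩

end IsVB

/-! ### sums and extensions -/

theorem continuous_append {E : Type} [TopologicalSpace E] {m n : ℕ} {f : X → Fin m → E}
    {g : X → Fin n → E} (hf : Continuous f) (hg : Continuous g) :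
    Continuous fun x => Fin.append (f x) (g x) := continuous_pi fun i => by
  refine Fin.addCases (fun i => ?_) (fun i => ?_) i
  · simp only [Fin.append_left]
    exact (continuous_apply i).comp hf
  · simp only [Fin.append_right]
    exact (continuous_apply i).comp hg

theorem isHomeomorph_append {E : Type} [TopologicalSpace E] (m n : ℕ) :
    IsHomeomorph fun z : Fin (m + n) → E =>
      (fun i : Fin m => z (Fin.castAdd n i), fun i : Fin n => z (Fin.natAdd m i)) :=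
  isHomeomorph_iff_exists_inverse.2 ⟨by fun_prop, fun z => Fin.append z.1 z.2,
    fun z => Fin.append_castAdd_natAdd, fun z => by simp,
    continuous_append continuous_fst continuous_snd⟩

theorem cls_mul_tau {m n : ℕ} {a : Coch (Fin (m + n) → ℂ)} {b : Coch (Fin n → ℂ)}
    (ha : ∀ v : Fin m → ℂ, δ a ∈ Van (Fin.append v 0))
    (ha' : ∀ v : Fin m → ℂ, v ≠ 0 → a ∈ Van (Fin.append v 0))
    (h1 : cls (pull (fun v : Fin m → ℂ => Fin.append v (0 : Fin n → ℂ)) a) = cls (tau m))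
    (hb : supp (δ b) = ∅) (hb' : supp b ⊆ {0}) (h2 : cls b = cls (tau n)) :
    cls (a * pull (fun z (i : Fin n) => z (Fin.natAdd m i)) b) = cls (tau (m + n)) := by
  have hh := isHomeomorph_append (E := ℂ) m n
  have hp := IsPr.of_isHomeomorph hh
  have hc : Continuous fun v : Fin m → ℂ => Fin.append v (0 : Fin n → ℂ) :=
    continuous_append continuous_id continuous_const
  have hl : ∀ v : Fin m → ℂ, (fun i => Fin.append v (0 : Fin n → ℂ) (Fin.castAdd n i)) = v :=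
    fun v => funext fun i => Fin.append_left _ _ i
  have hr : range (fun v : Fin m → ℂ => Fin.append v (0 : Fin n → ℂ)) =
      (fun z (i : Fin n) => z (Fin.natAdd m i)) ⁻¹' {0} := by
    ext z
    constructor
    · rintro ⟨v, rfl⟩
      exact funext fun i => Fin.append_right _ _ i
    · intro hz
      exact ⟨fun i => z (Fin.castAdd n i), by
        rw [← show (fun i => z (Fin.natAdd m i)) = 0 from hz]; exact Fin.append_castAdd_natAdd⟩
  have hi : IsClosedEmbedding fun v : Fin m → ℂ => Fin.append v (0 : Fin n → ℂ) :=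
    ⟨(Function.LeftInverse.isEmbedding (f := fun (z : Fin (m + n) → ℂ) (i : Fin m) =>
      z (Fin.castAdd n i)) hl
      hp.cont₁ hc), by
      rw [hr]; exact isClosed_singleton.preimage hp.cont₂⟩
  have hs : supp (pull (fun (z : Fin (m + n) → ℂ) (i : Fin n) => z (Fin.natAdd m i)) b) ⊆
      range fun v : Fin m → ℂ => Fin.append v (0 : Fin n → ℂ) := by
    rw [hr]
    exact (supp_pull hp.cont₂ b).trans (preimage_mono hb')
  have hbZ : b ∈ Zc _ := ⟨isCompact_supp_of_subset isCompact_singleton hb', hb⟩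
  rw [← Hc.gys_cls' hi (cocycle_pull hp.cont₂ hb) hs ha (isCompact_singleton (x := 0))
    fun v hv => by_contra fun h => ha' v h hv, h1, Hc.gys_eq_pullMul hp.cont₁ hi hl _ hs
      (hp.prop₂ hbZ.1), Hc.pullMul_cls _ _ _ (isGen_tau m).mem,
    ← Hc.cross_cls hp (isGen_tau m).mem hbZ, h2,
    Hc.cross_cls hp (isGen_tau m).mem (isGen_tau n).mem, tau_add]

/-- **The Thom cocycle of an extension** `E₁ → E → E₂`: `s` extends a Thom cocycle of `E₁`. -/
theorem IsVB.isThom_ext [T1Space B] {m n : ℕ} {p : E → B} {Z : Set E}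
    {chart : (r : ℕ) → ((Fin r → ℂ) → E) → Prop} (h : IsVB (m + n) p Z chart) {Z₁ : Set E₁}
    {chart₁ : (r : ℕ) → ((Fin r → ℂ) → E₁) → Prop} {Z₂ : Set E₂}
    {chart₂ : (r : ℕ) → ((Fin r → ℂ) → E₂) → Prop} {i : E₁ → E} {q : E → E₂} (hq : Continuous q)
    (hZ : q ⁻¹' Z₂ ⊆ range i) {s : Coch E} (hs : ∀ e, δ s ∈ Van (i e))
    (hs' : ∀ e, i e ∉ Z → s ∈ Van (i e)) (hd : IsDeg (2 * m) s)
    (h₁ : IsThom Z₁ chart₁ (pull i s)) {t : Coch E₂} (h₂ : IsThom Z₂ chart₂ t)
    (hd' : IsDeg (2 * n) t)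
    (hc : ∀ x, ∃ φ φ₁ φ₂, chart (m + n) φ ∧ chart₁ m φ₁ ∧ chart₂ n φ₂ ∧ p (φ 0) = x ∧
      (∀ v, φ (Fin.append v 0) = i (φ₁ v)) ∧ (∀ z, q (φ z) = φ₂ fun j => z (Fin.natAdd m j)) ∧
      Continuous φ₂ ∧ ∀ w, φ₂ w ∈ Z₂ → w = 0) :
    IsThom Z chart (s * pull q t) := by
  have hq' : supp (pull q t) ⊆ range i :=
    (supp_pull hq t).trans ((preimage_mono h₂.2.1).trans hZ)
  refine h.isThom_of (supp_eq_empty.2 fun e => ?_) (fun e he => ?_)
    ((hd.mul (hd'.pull q)).cast (by push_cast; ring)) fun x => ?_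
  · rw [δ_mul]
    refine (Van e).add_mem ?_ (Van.mul_left (supp_eq_empty.1 (cocycle_pull hq h₂.1) e) _)
    by_cases he : e ∈ range i
    · obtain ⟨e, rfl⟩ := he
      exact Van.mul_right (hs e) _
    · exact Van.mul_left (fun h => he (hq' h)) _
  · obtain ⟨e, rfl⟩ := hq' (supp_mul _ _ he).2
    exact by_contra fun h => hs' e h (supp_mul _ _ he).1
  · obtain ⟨φ, φ₁, φ₂, c, c₁, c₂, e, e₁, e₂, hc₂, hz₂⟩ := hc x
    have hφ := (h.chart_fib c).emb.continuous
    refine ⟨φ, c, e, ?_⟩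
    rw [map_mul, pull_pull, show q ∘ φ = φ₂ ∘ fun z j => z (Fin.natAdd m j) from funext e₂,
      ← pull_pull]
    refine cls_mul_tau (fun v => ?_) (fun v hv => ?_) ?_ (cocycle_pull hc₂ h₂.1)
      (fun w hw => hz₂ w (h₂.2.1 (supp_pull hc₂ t hw))) (h₂.cls_chart c₂)
    · rw [δ_pull]
      exact Van.pull hφ.continuousAt (e₁ v ▸ hs _)
    · refine Van.pull hφ.continuousAt ?_
      rw [e₁]
      refine hs' _ fun hZ' => hv ?_
      rw [← e₁, h.chart_zero c] at hZ'
      exact funext fun j => by simpa using congrFun hZ' (Fin.castAdd n j)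
    · rw [pull_pull, show (φ ∘ fun v => Fin.append v 0) = i ∘ φ₁ from funext e₁, ← pull_pull]
      exact h₁.cls_chart c₁

/-- **The Thom cocycle of a direct sum** -/
theorem IsVB.isThom_sum [T1Space B] {m n : ℕ} {p : E → B} {Z : Set E}
    {chart : (r : ℕ) → ((Fin r → ℂ) → E) → Prop} (h : IsVB (m + n) p Z chart) {Z₁ : Set E₁}
    {chart₁ : (r : ℕ) → ((Fin r → ℂ) → E₁) → Prop} {Z₂ : Set E₂}
    {chart₂ : (r : ℕ) → ((Fin r → ℂ) → E₂) → Prop} {q₁ : E → E₁} {q₂ : E → E₂}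
    (hq₁ : Continuous q₁) (hq₂ : Continuous q₂) (hZ : q₁ ⁻¹' Z₁ ∩ q₂ ⁻¹' Z₂ ⊆ Z) {s : Coch E₁}
    (h₁ : IsThom Z₁ chart₁ s) (hd : IsDeg (2 * m) s) {t : Coch E₂} (h₂ : IsThom Z₂ chart₂ t)
    (hd' : IsDeg (2 * n) t)
    (hc : ∀ x, ∃ φ φ₁ φ₂, chart (m + n) φ ∧ chart₁ m φ₁ ∧ chart₂ n φ₂ ∧ p (φ 0) = x ∧
      (∀ z, q₁ (φ z) = φ₁ fun j => z (Fin.castAdd n j)) ∧
      (∀ z, q₂ (φ z) = φ₂ fun j => z (Fin.natAdd m j)) ∧ pull φ₁ s ∈ Zc _ ∧ pull φ₂ t ∈ Zc _) :
    IsThom Z chart (pull q₁ s * pull q₂ t) := by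
  refine h.isThom_of (cocycle_mul (cocycle_pull hq₁ h₁.1) (cocycle_pull hq₂ h₂.1))
    (fun e he => hZ ⟨h₁.2.1 (supp_pull hq₁ s (supp_mul _ _ he).1),
      h₂.2.1 (supp_pull hq₂ t (supp_mul _ _ he).2)⟩)
    (((hd.pull q₁).mul (hd'.pull q₂)).cast (by push_cast; ring)) fun x => ?_
  obtain ⟨φ, φ₁, φ₂, c, c₁, c₂, e, e₁, e₂, z₁, z₂⟩ := hc x
  have hp := IsPr.of_isHomeomorph (isHomeomorph_append (E := ℂ) m n)
  refine ⟨φ, c, e, ?_⟩
  rw [map_mul, pull_pull, pull_pull,
    show q₁ ∘ φ = φ₁ ∘ fun z j => z (Fin.castAdd n j) from funext e₁,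
    show q₂ ∘ φ = φ₂ ∘ fun z j => z (Fin.natAdd m j) from funext e₂, ← pull_pull, ← pull_pull,
    ← Hc.cross_cls hp z₁ z₂, h₁.cls_chart c₁, h₂.cls_chart c₂,
    Hc.cross_cls hp (isGen_tau m).mem (isGen_tau n).mem, tau_add]

end Vale.Agent.P291Z
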