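import Vale.Agent.P291Z.Coul0
import Vale.Agent.P291Z.T12

/-!
# Proof-side definitions: nice spaces, total operations on Borel-Moore homology,
systems of approximations of universal bundles, equivariant families
-/

namespace Vale.Agent.P291Z

open Set Function Topology TopologicalSpace

/-- Hausdorff, locally compact, second countable. -/
class Nice (X : Type) [TopologicalSpace X] : Prop where
  t2 : T2Space X
  lc : LocallyCompactSpace X
  sc : SecondCountableTopology X

attribute [instance 100] Nice.t2 Nice.lc Nice.sc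

instance (priority := 100) Nice.metrizable (X : Type) [TopologicalSpace X] [Nice X] :
    MetrizableSpace X := inferInstance

/-- `P` is a principal `G`-bundle over a Hausdorff space. -/
class Prin (G P : Type) [Group G] [TopologicalSpace G] [MulAction G P] [TopologicalSpace P] :
    Prop where
  grp : IsTopologicalGroup G
  cont : ContinuousSMul G P
  loc : ∀ p : P, ∃ U : Set P, IsOpen U ∧ p ∈ U ∧ (∀ (h : G), ∀ u ∈ U, h • u ∈ U) ∧
    ∃ τ : P → G, ContinuousOn τ U ∧ ∀ (h : G), ∀ u ∈ U, τ (h • u) = h * τ u
  t2 : T2Space (MulAction.orbitRel.Quotient G P)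

section ops

variable {X Y U X₁ X₂ : Type} [TopologicalSpace X] [TopologicalSpace Y] [TopologicalSpace U]
  [TopologicalSpace X₁] [TopologicalSpace X₂]

open Classical in
/-- proper pull-back on `H_c` (zero if `f` is not proper) -/
noncomputable def cpull (f : X → Y) : Hc Y →ₗ[ℂ] Hc X := if h : IsPr f then Hc.pull h else 0

open Classical in
/-- extension by zero on `H_c` (zero if `j` is not an open embedding) -/
noncomputable def cext [Nice Y] (j : X → Y) : Hc X →ₗ[ℂ] Hc Y :=
  if h : IsOpenEmbedding j then Hc.push h else 0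

open Classical in
/-- Gysin map on `H_c` -/
noncomputable def cgys [Nice Y] (i : X → Y) (t : Coch Y) : Hc X →ₗ[ℂ] Hc Y :=
  if h : IsClosedEmbedding i ∧ supp (δ t) = ∅ ∧ supp t ⊆ range i then Hc.gys h.1 h.2.1 h.2.2 else 0

open Classical in
/-- connecting map on `H_c` -/
noncomputable def cconn [Nice Y] (i : X → Y) (j : U → Y) : Hc X →ₗ[ℂ] Hc U :=
  if h : IsClosedEmbedding i ∧ IsOpenEmbedding j ∧ range j = (range i)ᶜ then
    Hc.conn h.1 h.2.1 h.2.2 else 0

/-- proper push-forward -/
noncomputable def push (f : X → Y) : BM X →ₗ[ℂ] BM Y := (cpull f).dualMap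

/-- restriction to an open part -/
noncomputable def res [Nice Y] (j : X → Y) : BM Y →ₗ[ℂ] BM X := (cext j).dualMap

/-- Gysin pull-back -/
noncomputable def gys [Nice Y] (i : X → Y) (t : Coch Y) : BM Y →ₗ[ℂ] BM X := (cgys i t).dualMap

/-- boundary map -/
noncomputable def bdy [Nice Y] (i : X → Y) (j : U → Y) : BM U →ₗ[ℂ] BM X := (cconn i j).dualMap

/-- cap product -/
noncomputable def cap (c : H X) : BM X →ₗ[ℂ] BM X := (Hc.act c).dualMap

/-- cross product -/
noncomputable def cross (p₁ : X → X₁) (p₂ : X → X₂) : BM X₁ →ₗ[ℂ] BM X₂ →ₗ[ℂ] BM X :=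
  Classical.epsilon fun φ => ∀ β₁ β₂, Cross p₁ p₂ β₁ β₂ (φ β₁ β₂)

end ops

/-- A system of approximations `P M` of the universal bundle of `G`; `P M` is the zero set of the
section `col` of the representation `W` over `P (M + 1)`. -/
class Sys (G : Type) [Group G] [TopologicalSpace G] where
  /-- the approximations -/
  P : ℕ → Type
  [top : ∀ M, TopologicalSpace (P M)]
  [act : ∀ M, MulAction G (P M)]
  prin : ∀ M, Prin G (P M)
  nice : ∀ M, Nice (P M)
  cpt : ∀ M, CompactSpace (MulAction.orbitRel.Quotient G (P M))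
  /-- the inclusions -/
  inc : ∀ M, P M → P (M + 1)
  inc_smul : ∀ M (h : G) u, inc M (h • u) = h • inc M u
  inc_closed : ∀ M, IsClosedEmbedding (inc M)
  /-- the normal representation -/
  W : Type
  [wadd : AddCommGroup W]
  [wmod : Module ℂ W]
  [wtop : TopologicalSpace W]
  [wact : DistribMulAction G W]
  /-- its dimension -/
  rk : ℕ
  wlin : Nonempty (W ≃L[ℂ] (Fin rk → ℂ))
  wcomm : SMulCommClass G ℂ W
  wcont : ContinuousSMul G W
  /-- the section -/
  col : ∀ M, P (M + 1) → W
  col_smul : ∀ M (h : G) u, col M (h • u) = h • col M u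
  col_cont : ∀ M, Continuous (col M)
  col_zero : ∀ M u, col M u = 0 ↔ u ∈ range (inc M)
  /-- the complex dimension of `P M / G` -/
  dim : ℕ → ℤ
  dim_succ : ∀ M, dim (M + 1) = dim M + rk

attribute [instance_reducible] Sys.top Sys.act Sys.wadd Sys.wmod Sys.wtop Sys.wact

attribute [instance] Sys.top Sys.act Sys.prin Sys.nice Sys.cpt Sys.wadd Sys.wmod Sys.wtop Sys.wact
  Sys.wcomm Sys.wcont

/-- A finite dimensional continuous complex representation of dimension `r`. -/
structure IsRep (G W : Type) [Group G] [TopologicalSpace G] [AddCommGroup W] [Module ℂ W]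
    [TopologicalSpace W] [DistribMulAction G W] (r : ℕ) : Prop where
  lin : Nonempty (W ≃L[ℂ] (Fin r → ℂ))
  comm : SMulCommClass G ℂ W
  cont : ContinuousSMul G W

section fam

variable (G : Type) [Group G] [TopologicalSpace G] [Sys G] (Z : Type) [TopologicalSpace Z]
  [MulAction G Z]

/-- The `M`-th approximation of the Borel construction. -/
abbrev Bq (M : ℕ) : Type := Bor G Z (Sys.P G M)

/-- The inclusion of consecutive approximations. -/
def binc (M : ℕ) : Bq G Z M → Bq G Z (M + 1) :=
  Bor.map (MonoidHom.id G) (fun x => (x.1, Sys.inc M x.2))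
    fun h x => Prod.ext rfl (Sys.inc_smul M h x.2)

/-- The Euler cocycle that cuts out the `M`-th approximation in the next one. -/
noncomputable def ecol (M : ℕ) : Coch (Bq G Z (M + 1)) :=
  euler (fun x : Z × Sys.P G (M + 1) => Sys.col M x.2) fun h x => Sys.col_smul M h x.2

/-- The map to the classifying space. -/
def bpt (M : ℕ) : Bq G Z M → Bq G Unit M :=
  Bor.map (MonoidHom.id G) (fun x => ((), x.2)) fun _ _ => rfl

variable {G Z}

/-- The part of the Borel construction over a subset. -/
def bset (A : Set Z) (M : ℕ) : Set (Bq G Z M) := {x | ∃ y : Z × Sys.P G M, y.1 ∈ A ∧ x = Bor.mk G y}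

variable {Z' : Type} [TopologicalSpace Z'] [MulAction G Z']

/-- The map induced by an equivariant map. -/
def smap (f : Z →[G] Z') (M : ℕ) : Bq G Z M → Bq G Z' M :=
  Bor.map (MonoidHom.id G) (fun x => (f x.1, x.2)) fun h x => Prod.ext (f.map_smul h x.1) rfl

/-- Systems of cocycles of degree `2 d` with support over `A`, compatible with the inclusions. -/
structure IsCoc (A : Set Z) (d : ℕ) (t : ∀ M, Coch (Bq G Z M)) : Prop where
  cocycle : ∀ M, supp (δ (t M)) = ∅
  deg : ∀ M, IsDeg (2 * d) (t M)
  supp : ∀ M, supp (t M) ⊆ bset A M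
  compat : ∀ M, Cohom (bset A M) (pull (binc G Z M) (t (M + 1))) (t M)

/-- Cohomologous systems, with supports over `A`. -/
def Coh (A : Set Z) (t t' : ∀ M, Coch (Bq G Z M)) : Prop := ∀ M, Cohom (bset A M) (t M) (t' M)

variable {W : Type} [AddCommGroup W] [Module ℂ W] [DistribMulAction G W] [TopologicalSpace W]

/-- The Euler cocycles of an equivariant section. -/
noncomputable def eul (σ : Z →[G] W) (M : ℕ) : Coch (Bq G Z M) :=
  euler (fun x : Z × Sys.P G M => σ x.1) fun h x => σ.map_smul h x.1

/-- The Thom cocycles of an equivariant vector bundle. -/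
noncomputable def tho (V : SubMulAction G (Z × W)) (M : ℕ) : Coch (Bq G V M) := thom V (Sys.P G M)

/-- The zero section as an equivariant map. -/
def zs (V : SubMulAction G (Z × W)) (h0 : ∀ z, (z, 0) ∈ V) : Z →[G] V where
  toFun z := ⟨(z, 0), h0 z⟩
  map_smul' h _ := Subtype.ext (Prod.ext rfl (smul_zero h).symm)

/-- `V` is a closed family of subspaces of dimension `r`. -/
structure IsSubVB (V : SubMulAction G (Z × W)) (r : ℕ) : Prop where
  closed : IsClosed (V : Set (Z × W))
  fibre : ∀ z, ∃ S : Submodule ℂ W, Module.finrank ℂ S = r ∧ ∀ w, (z, w) ∈ V ↔ w ∈ S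

end fam

end Vale.Agent.P291Z
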