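import Vale.Agent.P291Z.Fl3
import Vale.Agent.P291Z.Sys0

set_option linter.all false

/-!
# The compact torus, unitary frames, the flag bundle over a Borel construction
-/

namespace Vale.Agent.P291Z.Fl

open Topology Set Filter TopologicalSpace Matrix MvPolynomial

variable {J : Type} {n m : J → ℕ} {M : ℕ}

/-! ### the groups -/

theorem continuous_gg (j : J) : Continuous fun g : GG n => (g j).1 :=
  Units.continuous_val.comp (continuous_apply j)

theorem continuous_mat (j : J) : Continuous fun u : Mat n m => u j := continuous_apply j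

theorem continuous_mat_iff {X : Type*} [TopologicalSpace X] {f : X → Mat n m} :
    Continuous f ↔ ∀ j, Continuous fun x => f x j := continuous_pi_iff

theorem mat_smul (g : GG n) (u : Mat n m) (j : J) : (g • u) j = (g j).1 * u j := rfl

instance : ContinuousSMul (GG n) (Mat n m) :=
  ⟨continuous_mat_iff.2 fun j => ((continuous_gg j).comp continuous_fst).matrix_mul
    ((continuous_mat j).comp continuous_snd)⟩

instance (priority := 100) subContinuousSMul {G X : Type} [SMul G X] [TopologicalSpace G]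
    [TopologicalSpace X] [ContinuousSMul G X] (S : SubMulAction G X) : ContinuousSMul G S :=
  ⟨(continuous_fst.smul (continuous_subtype_val.comp continuous_snd)).subtype_mk _⟩

/-- diagonal matrices -/
noncomputable def dg (n : J → ℕ) : (CC n → Circle) →* GG n where
  toFun θ j := ⟨diagonal fun r => (θ ⟨j, r⟩ : ℂ), diagonal fun r => ((θ ⟨j, r⟩)⁻¹ : Circle),
    by simp [diagonal_mul_diagonal], by simp [diagonal_mul_diagonal]⟩
  map_one' := funext fun j => Units.ext (by simp)
  map_mul' θ θ' := funext fun j => Units.ext (by simp [diagonal_mul_diagonal])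

theorem dg_val (θ : CC n → Circle) (j : J) : (dg n θ j).1 = diagonal fun r => (θ ⟨j, r⟩ : ℂ) := rfl

theorem continuous_dg : Continuous (dg n) := continuous_pi fun j => Units.continuous_iff.2
  ⟨Continuous.matrix_diagonal (by fun_prop), Continuous.matrix_diagonal (by fun_prop)⟩

/-- the compact maximal torus -/
noncomputable def Tc (n : J → ℕ) : Subgroup (GG n) := (dg n).range

instance : CompactSpace (Tc n) := isCompact_iff_compactSpace.1 (isCompact_range continuous_dg)

/-- the coordinates of the torus -/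
noncomputable def wt (c : CC n) : Tc n →* ℂ where
  toFun t := (t.1 c.1).1 c.2 c.2
  map_one' := one_apply_eq _
  map_mul' := by
    rintro ⟨_, θ, rfl⟩ ⟨_, θ', rfl⟩
    show (dg n θ * dg n θ') c.1 c.2 c.2 = dg n θ c.1 c.2 c.2 * dg n θ' c.1 c.2 c.2
    rw [← map_mul, dg_val, dg_val, dg_val, diagonal_apply_eq, diagonal_apply_eq, diagonal_apply_eq]
    rfl

theorem wt_dg (θ : CC n → Circle) (c : CC n) : wt c ⟨dg n θ, θ, rfl⟩ = θ c :=
  diagonal_apply_eq _ _

theorem Tc.val_eq (t : Tc n) (j : J) : (t.1 j).1 = diagonal fun r => wt ⟨j, r⟩ t := by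
  obtain ⟨_, θ, rfl⟩ := t
  simp only [wt_dg]
  rfl

theorem norm_wt (c : CC n) (t : Tc n) : ‖wt c t‖ = 1 := by
  obtain ⟨_, θ, rfl⟩ := t
  rw [wt_dg, Circle.norm_coe]

theorem wt_ne_zero (c : CC n) (t : Tc n) : wt c t ≠ 0 :=
  norm_ne_zero_iff.1 (by rw [norm_wt]; exact one_ne_zero)

theorem star_wt_mul (c : CC n) (t : Tc n) : star (wt c t) * wt c t = 1 := by
  rw [Complex.star_def, Complex.conj_mul', norm_wt]
  simp

theorem continuous_wt (c : CC n) : Continuous (wt c) :=
  ((continuous_gg c.1).comp continuous_subtype_val).matrix_elem _ _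

theorem exists_Tc {a : CC n → ℂ} (h : ∀ c, ‖a c‖ = 1) : ∃ t : Tc n, ∀ c, wt c t = a c :=
  ⟨⟨dg n fun c => ⟨a c, mem_sphere_zero_iff_norm.2 (h c)⟩, _, rfl⟩, fun c => wt_dg _ c⟩

/-! ### frames -/

/-- the rows of a tuple of matrices -/
def row (u : Mat n fun _ => M) (c : CC n) : Fin M → ℂ := u c.1 c.2

theorem continuous_row (c : CC n) : Continuous fun u : Mat n fun _ => M => row u c :=
  (continuous_apply c.2).comp (continuous_mat c.1)

theorem row_Tc (t : Tc n) (u : Mat n fun _ => M) (c : CC n) :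
    row (t • u) c = wt c t • row u c := by
  funext a
  show ((t.1 c.1).1 * u c.1) c.2 a = _
  rw [Tc.val_eq, diagonal_mul]
  rfl

theorem mat_ext {u v : Mat n fun _ => M} (h : ∀ c, row u c = row v c) : u = v :=
  funext fun j => funext fun r => h ⟨j, r⟩

theorem mul_conjTranspose_apply {k : ℕ} (A B : Matrix (Fin k) (Fin M) ℂ) (a b : Fin k) :
    (A * Bᴴ) a b = ip (B b) (A a) := by
  simp [Matrix.mul_apply, ip, dotProduct, mul_comm]

theorem on_iff {k : ℕ} {A : Matrix (Fin k) (Fin M) ℂ} : A * Aᴴ = 1 ↔ ON fun a => A a :=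
  ⟨fun h => ⟨fun a => by rw [← mul_conjTranspose_apply, h, one_apply_eq],
    fun a b hab => by rw [← mul_conjTranspose_apply, h, one_apply_ne hab.symm]⟩,
    fun h => Matrix.ext fun a b => by
      rw [mul_conjTranspose_apply]
      by_cases hab : a = b
      · rw [hab, h.1, one_apply_eq]
      · rw [h.2 b a (Ne.symm hab), one_apply_ne hab]⟩

theorem surj_of_mul {k : ℕ} {A : Matrix (Fin k) (Fin M) ℂ} {B : Matrix (Fin M) (Fin k) ℂ}
    (h : A * B = 1) : Function.Surjective A.mulVec := fun y =>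
  ⟨B *ᵥ y, by rw [mulVec_mulVec, h, one_mulVec]⟩

theorem exists_right_inv {k : ℕ} {A : Matrix (Fin k) (Fin M) ℂ}
    (h : Function.Surjective A.mulVec) : ∃ B : Matrix (Fin M) (Fin k) ℂ, A * B = 1 := by
  choose f hf using h
  refine ⟨(Matrix.of fun b => f (Pi.single b 1))ᵀ, Matrix.ext fun a b => ?_⟩
  have := congrFun (hf (Pi.single b 1)) a
  rw [one_apply, ← Pi.single_apply b (1 : ℂ) a, ← this]
  rfl

theorem row_ne_zero (u : EE n M) (c : CC n) : row u.1 c ≠ 0 := fun h => by
  obtain ⟨B, hB⟩ := exists_right_inv (u.2 c.1)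
  have := congrFun (congrFun hB c.2) c.2
  rw [Matrix.mul_apply, one_apply_eq, Finset.sum_eq_zero fun a _ => by
    rw [show u.1 c.1 c.2 a = 0 from congrFun h a, zero_mul]] at this
  exact zero_ne_one this

theorem ee_free {g g' : GG n} {u : EE n M} (h : g • u = g' • u) : g = g' :=
  funext fun j => Units.ext (by
    obtain ⟨B, hB⟩ := exists_right_inv (u.2 j)
    have h1 : (g j).1 * u.1 j = (g' j).1 * u.1 j := congrFun (congrArg Subtype.val h) j
    rw [← Matrix.mul_one (g j).1, ← hB, ← Matrix.mul_assoc, h1, Matrix.mul_assoc, hB,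
      Matrix.mul_one])

/-- unitary frames -/
noncomputable def St (n : J → ℕ) (M : ℕ) : SubMulAction (Tc n) (EE n M) where
  carrier := {u | ∀ j, u.1 j * (u.1 j)ᴴ = 1}
  smul_mem' t u hu j := on_iff.2 ⟨fun a => by
      show ip (row (t • u.1) ⟨j, a⟩) (row (t • u.1) ⟨j, a⟩) = 1
      rw [row_Tc, smul_ip, ip_smul, ← mul_assoc, star_wt_mul, one_mul]
      exact (on_iff.1 (hu j)).1 a, fun a b hab => by
      show ip (row (t • u.1) ⟨j, a⟩) (row (t • u.1) ⟨j, b⟩) = 0
      rw [row_Tc, row_Tc, smul_ip, ip_smul]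
      exact mul_eq_zero_of_right _ (mul_eq_zero_of_right _ ((on_iff.1 (hu j)).2 a b hab))⟩

theorem St.on (u : St n M) (j : J) : ON fun a => row u.1.1 ⟨j, a⟩ := on_iff.1 (u.2 j)

theorem St.unit (u : St n M) (c : CC n) : ip (row u.1.1 c) (row u.1.1 c) = 1 := (St.on u c.1).1 c.2

theorem continuous_St : Continuous fun u : St n M => u.1.1 :=
  continuous_subtype_val.comp continuous_subtype_val

theorem continuous_St_row (c : CC n) : Continuous fun u : St n M => row u.1.1 c :=
  (continuous_row c).comp continuous_St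

instance : CompactSpace (St n M) := by
  have h1 : IsCompact {u : Mat n fun _ => M | ∀ j, u j * (u j)ᴴ = 1} := by
    refine (isCompact_univ_pi fun j => isCompact_univ_pi fun _ : Fin (n j) =>
      isCompact_unit (m := Fin M)).of_isClosed_subset ?_ fun u hu j _ a _ => (on_iff.1 (hu j)).1 a
    simp only [setOf_forall]
    exact isClosed_iInter fun j => isClosed_eq ((continuous_mat j).matrix_mul
      (continuous_mat j).matrix_conjTranspose) continuous_const
  refine ⟨(IsInducing.subtypeVal.comp IsInducing.subtypeVal).isCompact_iff.2 ?_⟩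
  refine (congrArg IsCompact (Subset.antisymm ?_ ?_)).mpr h1
  · rintro _ ⟨u, -, rfl⟩
    exact u.2
  · exact fun u hu => ⟨⟨⟨u, fun j => surj_of_mul (hu j)⟩, hu⟩, trivial, rfl⟩

theorem St.exists_smul {u v : St n M} (h : ∀ c, prj (row u.1.1 c) = prj (row v.1.1 c)) :
    ∃ t : Tc n, v = t • u := by
  choose a ha using fun c => exists_smul_of_prj (row_ne_zero v.1 c) (h c)
  obtain ⟨t, ht⟩ := exists_Tc (a := a) fun c => by
    have := St.unit v c
    rw [ha, smul_ip, ip_smul, St.unit, mul_one, Complex.star_def, Complex.conj_mul'] at this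
    have h2 : ‖a c‖ ^ 2 = 1 := by exact_mod_cast this
    exact (pow_eq_one_iff_of_nonneg (norm_nonneg _) two_ne_zero).1 h2
  exact ⟨t, Subtype.ext (Subtype.ext (mat_ext fun c => by
    rw [ha, ← ht]; exact (row_Tc t u.1.1 c).symm))⟩

theorem exists_St [Fintype J] {V : J → Submodule ℂ (Fin M → ℂ)}
    (L : FL V (Finset.univ : Finset (CC n))) :
    ∃ u : St n M, (∀ c, row u.1.1 c ∈ V c.1) ∧ ∀ c, L.1 c = prj (row u.1.1 c) := by
  choose k h1 h2 h3 using fun c => PV.exists_unit (L.2.1 c (Finset.mem_univ c))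
  have h4 : ∀ j, (Matrix.of fun a => k ⟨j, a⟩) * (Matrix.of fun a => k ⟨j, a⟩)ᴴ = 1 := fun j =>
    on_iff.2 ⟨fun a => h2 _, fun a b hab => (prj_mul_prj_eq_zero (ne_zero_of_unit (h2 _))
      (ne_zero_of_unit (h2 _))).1 (by
        rw [← h3, ← h3]
        exact L.2.2.2 ⟨j, a⟩ ⟨j, b⟩ rfl fun h =>
          hab (sigma_mk_injective (β := fun j => Fin (n j)) h))⟩
  exact ⟨⟨⟨fun j => Matrix.of fun a => k ⟨j, a⟩, fun j => surj_of_mul (h4 j)⟩, h4⟩, h1, h3⟩

theorem St.mem_FL [Fintype J] {V : J → Submodule ℂ (Fin M → ℂ)} {u : St n M}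
    (h : ∀ c, row u.1.1 c ∈ V c.1) :
    (fun c => prj (row u.1.1 c)) ∈ FL V (Finset.univ : Finset (CC n)) :=
  ⟨fun c _ => ⟨_, h c, row_ne_zero _ c, rfl⟩, fun c hc => absurd (Finset.mem_univ c) hc, by
    rintro ⟨j, a⟩ ⟨j', b⟩ (rfl : j = j') hab
    exact (prj_mul_prj_eq_zero (row_ne_zero _ _) (row_ne_zero _ _)).2
      ((St.on u j).2 a b fun h => hab (by rw [h]))⟩

/-- the row spaces -/
noncomputable def rs (u : EE n M) (j : J) : Submodule ℂ (Fin M → ℂ) :=
  LinearMap.range (u.1 j).vecMulLinear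

theorem finrank_rs (u : EE n M) (j : J) : Module.finrank ℂ (rs u j) = n j := by
  obtain ⟨B, hB⟩ := exists_right_inv (u.2 j)
  rw [rs, LinearMap.finrank_range_of_inj, Module.finrank_fin_fun]
  refine (injective_iff_map_eq_zero _).2 fun a ha => ?_
  rw [← vecMul_one a, ← hB, ← vecMul_vecMul, show a ᵥ* u.1 j = 0 from ha, zero_vecMul]

theorem row_smul_mem (g : GG n) (u : EE n M) (c : CC n) : row (g • u).1 c ∈ rs u c.1 :=
  ⟨(g c.1).1 c.2, rfl⟩

theorem exists_smul_of_rs {u v : EE n M} (h : ∀ c, row v.1 c ∈ rs u c.1) :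
    ∃ g : GG n, v = g • u := by
  choose a ha using h
  have h1 : ∀ j, (Matrix.of fun r => a ⟨j, r⟩) * u.1 j = v.1 j := fun j =>
    funext fun r => ha ⟨j, r⟩
  choose B hB using fun j => exists_right_inv (v.2 j)
  have h2 : ∀ j, (Matrix.of fun r => a ⟨j, r⟩) * (u.1 j * B j) = 1 := fun j =>
    (Matrix.mul_assoc _ _ _).symm.trans ((congrArg (· * B j) (h1 j)).trans (hB j))
  exact ⟨fun j => ⟨_, _, h2 j, mul_eq_one_comm.1 (h2 j)⟩,
    Subtype.ext (funext fun j => (h1 j).symm)⟩

/-! ### Borel constructions for the torus -/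

theorem mk_eq_iff {G Z P : Type} [Group G] [MulAction G Z] [MulAction G P] {x y : Z × P} :
    Bor.mk G x = Bor.mk G y ↔ ∃ g : G, g • y = x := Quotient.eq''

theorem mk_surj {G Z P : Type} [Group G] [MulAction G Z] [MulAction G P] (x : Bor G Z P) :
    ∃ y, Bor.mk G y = x := Quotient.exists_rep x

theorem continuous_mk {G Z P : Type} [Group G] [MulAction G Z] [MulAction G P]
    [TopologicalSpace Z] [TopologicalSpace P] : Continuous (Bor.mk G : Z × P → _) :=
  continuous_quotient_mk'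

variable (n) in
/-- the Borel construction for the torus -/
abbrev BT (Z : Type) [MulAction (Tc n) Z] (M : ℕ) : Type := Bor (Tc n) Z (St n M)

section torus

variable {Z : Type} [MulAction (Tc n) Z]

/-- the tautological lines -/
noncomputable def ln (c : CC n) : BT n Z M → Matrix (Fin M) (Fin M) ℂ :=
  fun x => Quotient.liftOn' x (fun y => prj (row y.2.1.1 c)) (by
    rintro _ y ⟨t, rfl⟩
    exact (congrArg prj (row_Tc t y.2.1.1 c)).trans (prj_smul (wt_ne_zero c t) _))

theorem ln_mk (c : CC n) (y : Z × St n M) : ln c (Bor.mk (Tc n) y) = prj (row y.2.1.1 c) := rfl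

theorem ln_mem (c : CC n) (x : BT n Z M) : ln c x ∈ PV ⊤ := by
  obtain ⟨y, rfl⟩ := mk_surj x
  exact ⟨_, trivial, row_ne_zero _ c, rfl⟩

variable [TopologicalSpace Z]

theorem continuous_ln (c : CC n) : Continuous (ln c : BT n Z M → _) :=
  Continuous.quotient_liftOn' (continuous_iff_continuousAt.2 fun y => continuousAt_prj
    ((continuous_St_row c).comp continuous_snd).continuousAt (row_ne_zero _ c)) _

variable (Z) in
/-- the Chern roots -/
noncomputable def xT (M : ℕ) (c : CC n) : H (BT n Z M) := xc (ln c)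

theorem xT_deg (c : CC n) : H.IsDeg 2 (xT Z M c) := xc_deg _

variable (n Z) in
/-- polynomials in the Chern roots -/
noncomputable def evT (M : ℕ) : MvPolynomial (CC n) ℂ →ₐ[ℂ] H (BT n Z M) := ev (xT Z M) xT_deg

theorem evT_X (c : CC n) : evT n Z M (X c) = xT Z M c := ev_X _ c

theorem map_xT {X : Type} [TopologicalSpace X] (f : C(X, BT n Z M)) (c : CC n) :
    H.map f (xT Z M c) = xc (ln c ∘ f) := map_xc f (continuous_ln c) (ln_mem c)

end torus

theorem Good.of_bijective {X Y C : Type} [TopologicalSpace X] [TopologicalSpace Y] [Finite C]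
    {x : C → H X} {hx : ∀ c, H.IsDeg 2 (x c)} {β : C → ℕ} (h : Good x hx β) (f : C(Y, X))
    (hf : Function.Bijective (H.map f)) {x' : C → H Y} (hx' : ∀ c, H.IsDeg 2 (x' c))
    (e : ∀ c, H.map f (x c) = x' c) : Good x' hx' β := by
  obtain rfl : (fun c => H.map f (x c)) = x' := funext e
  have hf' : Function.Bijective (H.mapA f).toLinearMap := hf
  refine ⟨?_, ?_⟩
  · have := h.basis.map hf'
    simpa only [AlgHom.toLinearMap_apply, H.mapA_apply, map_ev] using this
  · obtain ⟨I, h1, h2⟩ := h.pd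
    let E := LinearEquiv.ofBijective _ hf'
    have hE : ∀ y, E.symm (H.map f y) = y := fun y => E.symm_apply_apply y
    refine ⟨I ∘ₗ E.symm.toLinearMap, fun a ha => ?_, fun y hy => ?_⟩
    · rw [← map_ev hx, LinearMap.comp_apply, LinearEquiv.coe_toLinearMap, hE, h1 a ha]
    · obtain ⟨y, rfl⟩ := hf.2 y
      obtain ⟨y', h3⟩ := h2 y fun h => hy (by rw [h, map_zero])
      exact ⟨H.map f y', by
        rwa [← map_mul, LinearMap.comp_apply, LinearEquiv.coe_toLinearMap, hE]⟩

theorem map_bijective_of_compact {X Y : Type} [TopologicalSpace X] [TopologicalSpace Y]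
    [CompactSpace X] [T2Space Y] (f : C(X, Y)) (hf : Function.Bijective f) :
    Function.Bijective (H.map f) :=
  H.map_bijective_of_homeomorph (f.continuous.homeoOfEquivCompactToT2
    (f := Equiv.ofBijective f hf))

instance : CompactSpace (BT n Unit M) := Quotient.compactSpace

/-- the bounds for the exponents on the classifying space of the torus -/
def bdT (r : J → ℕ) (c : CC n) : ℕ := r c.1 - c.2

variable [Fintype J]

theorem good_FL' (V : J → Submodule ℂ (Fin M → ℂ)) {r : J → ℕ}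
    (hV : ∀ j, Module.finrank ℂ (V j) = r j) :
    Good (xF V (Finset.univ : Finset (CC n))) (xF_deg V _) (bdT r) := by
  have := good_FL V hV (Finset.univ : Finset (CC n))
  rwa [show bd r (Finset.univ : Finset (CC n)) = bdT r from funext (bd_univ r)] at this

theorem ln_mem_FL (x : BT n Unit M) :
    (fun c => ln c x) ∈ FL (fun _ => ⊤) (Finset.univ : Finset (CC n)) := by
  obtain ⟨y, rfl⟩ := mk_surj x
  exact St.mem_FL fun _ => trivial

/-- **The cohomology of the approximations of the classifying space of the torus** -/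
theorem good_BT : Good (xT Unit M) (xT_deg (n := n)) (bdT fun _ => M) := by
  let f : C(BT n Unit M, FL (fun _ => ⊤) (Finset.univ : Finset (CC n))) :=
    ⟨fun x => ⟨fun c => ln c x, ln_mem_FL x⟩, (continuous_pi continuous_ln).subtype_mk _⟩
  refine (good_FL' (fun _ => ⊤) fun _ => by rw [finrank_top, Module.finrank_fin_fun]).of_bijective
    f (map_bijective_of_compact f ⟨fun x y h => ?_, fun L => ?_⟩) _ fun c =>
      map_xc f (continuous_FL _ _ c) fun L => L.2.1 c (Finset.mem_univ c)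
  · obtain ⟨x, rfl⟩ := mk_surj x
    obtain ⟨y, rfl⟩ := mk_surj y
    obtain ⟨t, ht⟩ := St.exists_smul fun c => congrFun (congrArg Subtype.val h.symm) c
    exact mk_eq_iff.2 ⟨t, Prod.ext rfl ht.symm⟩
  · obtain ⟨u, -, h⟩ := exists_St L
    exact ⟨Bor.mk _ ((), u), Subtype.ext (funext fun c => (h c).symm)⟩

/-! ### the flag bundle -/

section flag

variable (n) (Z : Type) [TopologicalSpace Z] [MulAction (GG n) Z]

omit [Fintype J] in
/-- the flag bundle -/
noncomputable def piT (M : ℕ) : C(BT n Z M, Bo n Z M) :=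
  Bor.mapC (Tc n).subtype ⟨fun x => (x.1, x.2.1), by fun_prop⟩ fun _ _ => rfl

variable {n Z}

omit [Fintype J] in
theorem piT_mk (y : Z × St n M) : piT n Z M (Bor.mk _ y) = Bor.mk _ (y.1, y.2.1) := rfl

theorem exists_compact_lift {X Y : Type} [TopologicalSpace X] [TopologicalSpace Y]
    [WeaklyLocallyCompactSpace X] {f : X → Y} (hf : IsOpenQuotientMap f) {K : Set Y}
    (hK : IsCompact K) : ∃ K', IsCompact K' ∧ K ⊆ f '' K' := by
  refine hK.induction_on (p := fun s => ∃ K', IsCompact K' ∧ s ⊆ f '' K')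
    ⟨∅, isCompact_empty, empty_subset _⟩ (fun s t hst ⟨K', h1, h2⟩ => ⟨K', h1, hst.trans h2⟩)
    (fun s t ⟨K₁, h1, h2⟩ ⟨K₂, h3, h4⟩ => ⟨K₁ ∪ K₂, h1.union h3, by
      rw [image_union]; exact union_subset_union h2 h4⟩) fun y _ => ?_
  obtain ⟨x, rfl⟩ := hf.surjective y
  obtain ⟨K', h1, h2⟩ := exists_compact_mem_nhds x
  exact ⟨f '' K', mem_nhdsWithin_of_mem_nhds (hf.isOpenMap.image_mem_nhds h2), K', h1, subset_rfl⟩

theorem isPr_piT [ContinuousSMul (GG n) Z] [T2Space (Bo n Z M)] [T2Space Z]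
    [WeaklyLocallyCompactSpace (Z × EE n M)] : IsPr (piT n Z M) := by
  refine ⟨(piT n Z M).continuous, fun K hK => ?_⟩
  obtain ⟨K', h1, h2⟩ := exists_compact_lift
    (MulAction.isOpenQuotientMap_quotientMk (Γ := GG n) (T := Z × EE n M)) hK
  let D : Set (St n M × Z × EE n M) :=
    {w | ∀ j, w.2.2.1 j * (w.1.1.1 j)ᴴ * w.1.1.1 j = w.2.2.1 j}
  have c1 : ∀ j, Continuous fun w : St n M × Z × EE n M => w.1.1.1 j := fun j =>
    (continuous_mat j).comp (continuous_St.comp continuous_fst)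
  have c2 : ∀ j, Continuous fun w : St n M × Z × EE n M => w.2.2.1 j := fun j =>
    (continuous_mat j).comp (by fun_prop)
  have hD : IsClosed D := by
    simp only [D, setOf_forall]
    exact isClosed_iInter fun j => isClosed_eq
      (((c2 j).matrix_mul (c1 j).matrix_conjTranspose).matrix_mul (c1 j)) (c2 j)
  have hu : ∀ (w : D) j, IsUnit (w.1.2.2.1 j * (w.1.1.1.1 j)ᴴ).det := fun w j => by
    obtain ⟨B, hB⟩ := exists_right_inv (w.1.2.2.2 j)
    refine isUnit_det_of_right_inverse (B := w.1.1.1.1 j * B) ?_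
    rw [← Matrix.mul_assoc, w.2 j, hB]
  let b : D → GG n := fun w j => ⟨w.1.2.2.1 j * (w.1.1.1.1 j)ᴴ, (w.1.2.2.1 j * (w.1.1.1.1 j)ᴴ)⁻¹,
    mul_nonsing_inv _ (hu w j), nonsing_inv_mul _ (hu w j)⟩
  have c3 : ∀ j, Continuous fun w : D => w.1.2.2.1 j * (w.1.1.1.1 j)ᴴ := fun j =>
    ((c2 j).matrix_mul (c1 j).matrix_conjTranspose).comp continuous_subtype_val
  have hb : Continuous b := continuous_pi fun j => Units.continuous_iff.2 ⟨c3 j,
    continuous_iff_continuousAt.2 fun w => ContinuousAt.comp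
      (f := fun w : D => w.1.2.2.1 j * (w.1.1.1.1 j)ᴴ) (continuousAt_matrix_inv _ (by
        rw [Ring.inverse_eq_inv']
        exact continuousAt_inv₀ (hu w j).ne_zero)) (c3 j).continuousAt⟩
  let Ψ : D → BT n Z M := fun w => Bor.mk _ ((b w)⁻¹ • w.1.2.1, w.1.1)
  have hΨ : Continuous Ψ := continuous_mk.comp (by fun_prop)
  refine ((hD.isClosedEmbedding_subtypeVal.isCompact_preimage
    (isCompact_univ.prod h1)).image hΨ).of_isClosed_subset
    (hK.isClosed.preimage (piT n Z M).continuous) fun x hx => ?_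
  obtain ⟨x, rfl⟩ := mk_surj x
  obtain ⟨y, hy, e⟩ := h2 hx
  obtain ⟨g, hg⟩ := mk_eq_iff.1 e
  have e1 : ∀ j, y.2.1 j * (x.2.1.1 j)ᴴ = (g j).1 := fun j => by
    rw [← hg]
    show (g j).1 * x.2.1.1 j * _ = _
    rw [Matrix.mul_assoc, x.2.2 j, Matrix.mul_one]
  refine ⟨⟨(x.2, y), fun j => by rw [e1, ← hg]; rfl⟩, ⟨trivial, hy⟩, ?_⟩
  have e2 : b ⟨(x.2, y), fun j => by rw [e1, ← hg]; rfl⟩ = g := funext fun j => Units.ext (e1 j)
  simp only [Ψ]
  rw [e2, ← hg]
  exact congrArg (Bor.mk _) (Prod.ext (inv_smul_smul g x.1) rfl)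

theorem ln_mem_fib {z : Z} {u : EE n M} {x : BT n Z M} (hx : piT n Z M x = Bor.mk _ (z, u)) :
    (fun c => ln c x) ∈ FL (rs u) (Finset.univ : Finset (CC n)) := by
  obtain ⟨y, rfl⟩ := mk_surj x
  obtain ⟨g, hg⟩ := mk_eq_iff.1 hx
  refine St.mem_FL fun c => ?_
  rw [← show g • u = y.2.1 from congrArg Prod.snd hg]
  exact row_smul_mem g u c

/-- the lines of a point of a fibre -/
noncomputable def fibL (z : Z) (u : EE n M) :
    C(piT n Z M ⁻¹' {Bor.mk _ (z, u)}, FL (rs u) (Finset.univ : Finset (CC n))) :=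
  ⟨fun x => ⟨fun c => ln c x.1, ln_mem_fib x.2⟩,
    (continuous_pi fun c => (continuous_ln c).comp continuous_subtype_val).subtype_mk _⟩

theorem fibL_bijective (z : Z) (u : EE n M) : Function.Bijective (fibL z u) := by
  refine ⟨fun x y h => ?_, fun L => ?_⟩
  · obtain ⟨x, hx⟩ := x
    obtain ⟨y, hy⟩ := y
    obtain ⟨x, rfl⟩ := mk_surj x
    obtain ⟨y, rfl⟩ := mk_surj y
    obtain ⟨t, ht⟩ := St.exists_smul (u := y.2) (v := x.2) fun c =>
      congrFun (congrArg Subtype.val h.symm) c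
    obtain ⟨g, hg⟩ := mk_eq_iff.1 (Eq.trans hx (Eq.symm hy))
    have e : g = t.1 := ee_free ((congrArg Prod.snd hg).trans (congrArg Subtype.val ht))
    subst e
    have e1 : t.1 • y.1 = x.1 := congrArg Prod.fst hg
    exact Subtype.ext (mk_eq_iff.2 ⟨t, Prod.ext e1 ht.symm⟩)
  · obtain ⟨k, h1, h2⟩ := exists_St L
    obtain ⟨g, hg⟩ := exists_smul_of_rs h1
    exact ⟨⟨Bor.mk _ (g • z, k), mk_eq_iff.2 ⟨g, Prod.ext rfl hg.symm⟩⟩,
      Subtype.ext (funext fun c => (h2 c).symm)⟩

theorem isBasis_fib (hp : IsPr (piT n Z M)) (x : Bo n Z M) :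
    IsBasis fun a : Box (bdT (n := n) n) =>
      H.map (⟨Subtype.val, continuous_subtype_val⟩ : C(piT n Z M ⁻¹' {x}, BT n Z M))
        (evT n Z M (monomial a.1 1)) := by
  obtain ⟨⟨z, u⟩, rfl⟩ := mk_surj x
  haveI : CompactSpace (piT n Z M ⁻¹' {Bor.mk _ (z, u)}) :=
    isCompact_iff_compactSpace.1 (hp.pre _ isCompact_singleton)
  let i : C(piT n Z M ⁻¹' {Bor.mk _ (z, u)}, BT n Z M) := ⟨Subtype.val, continuous_subtype_val⟩
  have h1 : ∀ c, H.map (fibL z u) (xF (rs u) Finset.univ c) = H.map i (xT Z M c) := fun c => by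
    rw [map_xT, xF, map_xc (fibL z u) (continuous_FL _ _ c) fun L =>
      PV_mono le_top (L.2.1 c (Finset.mem_univ c))]
    rfl
  have h2 := ((good_FL' (rs u) (finrank_rs u)).of_bijective (fibL z u)
    (map_bijective_of_compact _ (fibL_bijective z u)) (fun c => (xT_deg c).map i) h1).basis
  have h3 : ∀ a : CC n →₀ ℕ, H.map i (evT n Z M (monomial a 1)) =
      ev (fun c => H.map i (xT Z M c)) (fun c => (xT_deg c).map i) (monomial a 1) :=
    fun a => map_ev _ i _
  exact (congrArg IsBasis (funext fun a : Box (bdT (n := n) n) => h3 a.1)).mpr h2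

end flag

end Vale.Agent.P291Z.Fl
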