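import Vale.Agent.P291Z.Fl4

set_option linter.all false

/-!
# The system of unitary frames, the Weyl group action, Leray-Hirsch for the flag bundle
-/

namespace Vale.Agent.P291Z.Fl

open Topology Set Filter TopologicalSpace Matrix MvPolynomial

variable {J : Type} {n m : J → ℕ} {M : ℕ}

/-! ### adding a zero column -/

theorem row_addCol (u : EE n M) (c : CC n) : row (addCol M u).1 c = Fin.snoc (row u.1 c) 0 := rfl

theorem ip_snoc (a b : Fin M → ℂ) : ip (Fin.snoc a 0 : Fin (M + 1) → ℂ) (Fin.snoc b 0) = ip a b := by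
  simp [ip, dotProduct, Fin.sum_univ_castSucc]

/-- adding a zero column to a unitary frame -/
noncomputable def incS (M : ℕ) (u : St n M) : St n (M + 1) :=
  ⟨addCol M u.1, fun j => on_iff.2 ⟨fun a => (ip_snoc _ _).trans ((St.on u j).1 a),
    fun a b h => (ip_snoc _ _).trans ((St.on u j).2 a b h)⟩⟩

theorem continuous_incS : Continuous (incS (n := n) M) :=
  ((continuous_addCol M).comp continuous_subtype_val).subtype_mk _

theorem addCol_injective : Function.Injective (addCol (n := n) M) := fun u v h =>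
  Subtype.ext (mat_ext fun c => funext fun a => by
    have := congrFun (congrArg (fun w : EE n (M + 1) => row w.1 c) h) a.castSucc
    simpa only [row_addCol, Fin.snoc_castSucc] using this)

theorem incS_smul (t : Tc n) (u : St n M) : incS M (t • u) = t • incS M u :=
  Subtype.ext (addCol_smul M t.1 u.1)

theorem exists_incS {u : St n (M + 1)} (h : lastCol M u.1 = 0) : ∃ v, incS M v = u := by
  have h1 : ∀ c, row u.1.1 c = Fin.snoc (Fin.init (row u.1.1 c)) 0 := fun c => by
    conv_lhs => rw [← Fin.snoc_init_self (row u.1.1 c)]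
    congr 1
    exact congrFun (congrFun (congrFun h c.1) c.2) 0
  have h2 : ∀ j, (Matrix.of fun a => Fin.init (row u.1.1 ⟨j, a⟩)) *
      (Matrix.of fun a => Fin.init (row u.1.1 ⟨j, a⟩))ᴴ = 1 := fun j => on_iff.2
    ⟨fun a => (ip_snoc _ _).symm.trans (by
      have : ip (row u.1.1 ⟨j, a⟩) (row u.1.1 ⟨j, a⟩) = 1 := (St.on u j).1 a
      rwa [h1] at this), fun a b hab => (ip_snoc _ _).symm.trans (by
      have : ip (row u.1.1 ⟨j, a⟩) (row u.1.1 ⟨j, b⟩) = 0 := (St.on u j).2 a b hab
      rwa [h1 ⟨j, a⟩, h1 ⟨j, b⟩] at this)⟩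
  exact ⟨⟨⟨fun j => Matrix.of fun a => Fin.init (row u.1.1 ⟨j, a⟩), fun j => surj_of_mul (h2 j)⟩,
    h2⟩, Subtype.ext (Subtype.ext (mat_ext fun c => (h1 c).symm))⟩

theorem lastCol_addCol (u : EE n M) : lastCol M (addCol M u) = 0 :=
  funext fun j => Matrix.ext fun a b => by
    show (Fin.snoc (u.1 j a) 0 : Fin (M + 1) → ℂ) (Fin.last M) = 0
    rw [Fin.snoc_last]

theorem continuous_lastCol : Continuous (lastCol (n := n) M) :=
  continuous_mat_iff.2 fun j => continuous_matrix fun a _ =>
    ((continuous_mat j).comp continuous_subtype_val).matrix_elem a _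

/-! ### the principal bundle of unitary frames -/

instance : T2Space (Mat n m) := inferInstanceAs (T2Space (∀ j, Fin (n j) → Fin (m j) → ℂ))

instance [Finite J] : SecondCountableTopology (Mat n m) :=
  inferInstanceAs (SecondCountableTopology (∀ j, Fin (n j) → Fin (m j) → ℂ))

instance : IsTopologicalAddGroup (Mat n m) :=
  inferInstanceAs (IsTopologicalAddGroup (∀ j, Fin (n j) → Fin (m j) → ℂ))

instance : ContinuousSMul ℂ (Mat n m) :=
  inferInstanceAs (ContinuousSMul ℂ (∀ j, Fin (n j) → Fin (m j) → ℂ))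

instance [Finite J] : Module.Finite ℂ (Mat n m) :=
  inferInstanceAs (Module.Finite ℂ (∀ j, Fin (n j) → Fin (m j) → ℂ))

instance : SMulCommClass (GG n) ℂ (Mat n m) :=
  ⟨fun g c u => funext fun j => Matrix.mul_smul (g j).1 c (u j)⟩

theorem finrank_mat [Fintype J] : Module.finrank ℂ (Mat n m) = ∑ j, n j * m j := by
  show Module.finrank ℂ (∀ j, Matrix (Fin (n j)) (Fin (m j)) ℂ) = _
  simp [Module.finrank_pi_fintype, Module.finrank_matrix]

theorem isRep_mat [Fintype J] : IsRep (GG n) (Mat n m) (∑ j, n j * m j) :=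
  ⟨⟨ContinuousLinearEquiv.ofFinrankEq (by rw [finrank_mat, Module.finrank_fin_fun])⟩,
    inferInstance, inferInstance⟩

theorem IsRep.sub {G W : Type} [Group G] [TopologicalSpace G] [AddCommGroup W] [Module ℂ W]
    [TopologicalSpace W] [DistribMulAction G W] {r : ℕ} (h : IsRep G W r) (S : Subgroup G) :
    IsRep S W r :=
  haveI := h.comm
  haveI := h.cont
  ⟨h.lin, inferInstance, inferInstance⟩

instance [Finite J] : Nice (St n M) := ⟨inferInstance, inferInstance,
  (IsEmbedding.subtypeVal.comp IsEmbedding.subtypeVal).secondCountableTopology⟩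

/-- the lines of a unitary frame -/
noncomputable def lnS : MulAction.orbitRel.Quotient (Tc n) (St n M) → CC n →
    Matrix (Fin M) (Fin M) ℂ :=
  fun x c => Quotient.liftOn' x (fun u => prj (row u.1.1 c)) (by
    rintro _ u ⟨t, rfl⟩
    exact (congrArg prj (row_Tc t u.1.1 c)).trans (prj_smul (wt_ne_zero c t) _))

theorem t2_St : T2Space (MulAction.orbitRel.Quotient (Tc n) (St n M)) := by
  refine T2Space.of_injective_continuous (f := lnS) (fun x y => Quotient.inductionOn₂' x y
    fun u v h => ?_) (continuous_pi fun c => Continuous.quotient_liftOn'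
      (continuous_iff_continuousAt.2 fun u => continuousAt_prj
        (continuous_St_row c).continuousAt (row_ne_zero _ c)) _)
  obtain ⟨t, ht⟩ := St.exists_smul (u := v) (v := u) fun c => congrFun h.symm c
  exact Quotient.sound' ⟨t, ht.symm⟩

instance [Finite J] : Prin (Tc n) (St n M) where
  grp := inferInstance
  cont := inferInstance
  loc p := by
    classical
    have ex : ∀ c, ∃ a, row p.1.1 c a ≠ 0 := fun c => Function.ne_iff.1 (row_ne_zero p.1 c)
    choose κ hκ using ex
    have hc : ∀ c, Continuous fun u : St n M => row u.1.1 c (κ c) := fun c =>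
      (continuous_apply (κ c)).comp (continuous_St_row c)
    have hr : ∀ (t : Tc n) (u : St n M) c, row (t • u).1.1 c (κ c) = wt c t * row u.1.1 c (κ c) :=
      fun t u c => congrFun (row_Tc t u.1.1 c) _
    let ph : ℂ → Circle := fun z => if h : z = 0 then 1 else
      ⟨z / ‖z‖, mem_sphere_zero_iff_norm.2 (by
        rw [norm_div, Complex.norm_real, norm_norm, div_self (norm_ne_zero_iff.2 h)])⟩
    have hph : ∀ z, z ≠ 0 → (ph z : ℂ) = z / ‖z‖ := fun z h =>
      congrArg Subtype.val (dif_neg h : ph z = _)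
    refine ⟨{u | ∀ c, row u.1.1 c (κ c) ≠ 0}, ?_, hκ, fun t u hu c => ?_,
      fun u => ⟨dg n fun c => ph (row u.1.1 c (κ c)), _, rfl⟩, ?_, fun t u hu => ?_⟩
    · simp only [setOf_forall]
      exact isOpen_iInter_of_finite fun c => isOpen_ne_fun (hc c) continuous_const
    · rw [hr]
      exact mul_ne_zero (wt_ne_zero c t) (hu c)
    · rw [continuousOn_iff_continuous_restrict]
      refine Continuous.subtype_mk (continuous_dg.comp (continuous_pi fun c =>
        continuous_induced_rng.2 ?_)) _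
      have h1 := (hc c).comp (continuous_subtype_val (p := fun u => ∀ c, row u.1.1 c (κ c) ≠ 0))
      exact (h1.div (Complex.continuous_ofReal.comp h1.norm) fun u =>
        Complex.ofReal_ne_zero.2 (norm_ne_zero_iff.2 (u.2 c))).congr fun u => (hph _ (u.2 c)).symm
    · obtain ⟨_, θ, rfl⟩ := t
      refine Subtype.ext ((congrArg (dg n) (funext fun c => Circle.ext ?_)).trans (map_mul _ θ _))
      rw [Pi.mul_apply, Circle.coe_mul, hph _ (hu c), hr, hph _ (mul_ne_zero (wt_ne_zero _ _)
        (hu c)), norm_mul, norm_wt, one_mul, wt_dg, mul_div_assoc]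
  t2 := t2_St

/-- the dimension of the flag manifold -/
def dfl [Fintype J] (n : J → ℕ) : ℕ := ∑ j, n j * (n j - 1) / 2

noncomputable instance sysT [Fintype J] : Sys (Tc n) where
  P M := St n M
  prin _ := inferInstance
  nice _ := inferInstance
  cpt _ := Quotient.compactSpace
  inc := incS
  inc_smul _ := incS_smul
  inc_closed M := continuous_incS.isClosedEmbedding fun _ _ h =>
    Subtype.ext (addCol_injective (congrArg Subtype.val h))
  W := Mat n fun _ => 1
  rk := ∑ j, n j * 1
  wlin := isRep_mat.lin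
  wcomm := inferInstance
  wcont := inferInstance
  col M u := lastCol M u.1
  col_smul _ _ _ := rfl
  col_cont M := continuous_lastCol.comp continuous_subtype_val
  col_zero M u := ⟨exists_incS, by rintro ⟨v, rfl⟩; exact lastCol_addCol v.1⟩
  dim M := dimB n M + dfl n
  dim_succ M := by
    simp only [dimB]
    push_cast
    rw [add_right_comm, ← Finset.sum_add_distrib]
    congr 1
    exact Finset.sum_congr rfl fun j _ => by ring

/-! ### functoriality of the Chern roots -/

section torus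

variable {Z Z' : Type} [TopologicalSpace Z] [MulAction (Tc n) Z] [TopologicalSpace Z']
  [MulAction (Tc n) Z'] {M' : ℕ}

theorem map_xT_of_ip {n' : J → ℕ} {Z' : Type} [TopologicalSpace Z'] [MulAction (Tc n') Z']
    (f : C(BT n Z M, BT n' Z' M')) {c : CC n} {c' : CC n'}
    (r : Z × St n M → Z' × St n' M') (hr : ∀ x, f (Bor.mk _ x) = Bor.mk _ (r x))
    (hip : ∀ x y, ip (row (r x).2.1.1 c') (row (r y).2.1.1 c') =
      ip (row x.2.1.1 c) (row y.2.1.1 c)) : H.map f (xT Z' M' c') = xT Z M c := by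
  rw [map_xT, xT, xc, xc]
  congr 1
  refine ext_two (xi_deg _) (xi_deg _) fun x y z => ?_
  obtain ⟨x, rfl⟩ := mk_surj x
  obtain ⟨y, rfl⟩ := mk_surj y
  obtain ⟨z, rfl⟩ := mk_surj z
  change lg (kap (ln c' (f _)) (ln c' (f _)) (ln c' (f _))) = lg (kap _ _ _)
  rw [hr, hr, hr, ln_mk, ln_mk, ln_mk, ln_mk, ln_mk, ln_mk,
    kap_prj (row_ne_zero _ _) _ (row_ne_zero _ _), kap_prj (row_ne_zero _ _) _ (row_ne_zero _ _),
    hip, hip, hip, hip]

theorem map_evT_of_ip {n' : J → ℕ} {Z' : Type} [TopologicalSpace Z'] [MulAction (Tc n') Z']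
    (f : C(BT n Z M, BT n' Z' M')) (σ : CC n' → CC n)
    (r : Z × St n M → Z' × St n' M') (hr : ∀ x, f (Bor.mk _ x) = Bor.mk _ (r x))
    (hip : ∀ c x y, ip (row (r x).2.1.1 c) (row (r y).2.1.1 c) =
      ip (row x.2.1.1 (σ c)) (row y.2.1.1 (σ c))) (p : MvPolynomial (CC n') ℂ) :
    H.map f (evT n' Z' M' p) = evT n Z M (rename σ p) := by
  rw [evT, evT, map_ev, ev_rename]
  congr 2
  exact funext fun c => map_xT_of_ip f r hr (hip c)

theorem map_evT (f : C(BT n Z M, BT n Z' M')) (r : Z × St n M → Z' × St n M')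
    (hr : ∀ x, f (Bor.mk _ x) = Bor.mk _ (r x))
    (hip : ∀ c x y, ip (row (r x).2.1.1 c) (row (r y).2.1.1 c) =
      ip (row x.2.1.1 c) (row y.2.1.1 c)) (p : MvPolynomial (CC n) ℂ) :
    H.map f (evT n Z' M' p) = evT n Z M p := by
  rw [map_evT_of_ip f id r hr hip, rename_id, AlgHom.id_apply]

theorem evT_deg {p : MvPolynomial (CC n) ℂ} {k : ℕ} (hp : p.IsHomogeneous k) :
    H.IsDeg (2 * k) (evT n Z M p) := ev_deg _ hp

theorem evT_comm (p : MvPolynomial (CC n) ℂ) (y : H (BT n Z M)) :
    evT n Z M p * y = y * evT n Z M p := ev_comm _ p y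

end torus

/-! ### the Weyl group -/

/-- the Weyl group -/
abbrev Wy (n : J → ℕ) : Type := ∀ j, Equiv.Perm (Fin (n j))

/-- the Weyl group permutes the coordinates of the torus -/
def act (σ : Wy n) : Equiv.Perm (CC n) := Equiv.sigmaCongrRight σ

theorem act_mul (σ τ : Wy n) : act (σ * τ) = act σ * act τ := rfl

theorem act_one : act (1 : Wy n) = 1 := rfl

/-- permutation matrices -/
noncomputable def pm (σ : Wy n) : GG n := fun j =>
  ⟨(σ j).permMatrix ℂ, (σ j)⁻¹.permMatrix ℂ,
    by rw [← permMatrix_mul, inv_mul_cancel, permMatrix_one],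
    by rw [← permMatrix_mul, mul_inv_cancel, permMatrix_one]⟩

theorem pm_mul (σ τ : Wy n) : pm (σ * τ) = pm τ * pm σ :=
  funext fun j => Units.ext (permMatrix_mul _ _)

theorem pm_one : pm (1 : Wy n) = 1 := funext fun j => Units.ext permMatrix_one

theorem row_pm (σ : Wy n) (u : Mat n fun _ => M) (c : CC n) :
    row (pm σ • u) c = row u (act σ c) :=
  congrFun (PEquiv.toMatrix_toPEquiv_mul (σ c.1) (u c.1)) c.2

/-- permuting the vectors of a unitary frame -/
noncomputable def pmS (σ : Wy n) (u : St n M) : St n M :=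
  ⟨pm σ • u.1, fun j => on_iff.2 ⟨fun a => by
    show ip (row (pm σ • u.1.1) ⟨j, a⟩) (row (pm σ • u.1.1) ⟨j, a⟩) = 1
    rw [row_pm]
    exact St.unit u _, fun a b h => by
    show ip (row (pm σ • u.1.1) ⟨j, a⟩) (row (pm σ • u.1.1) ⟨j, b⟩) = 0
    rw [row_pm, row_pm]
    exact (St.on u j).2 _ _ ((σ j).injective.ne h)⟩⟩

theorem row_pmS (σ : Wy n) (u : St n M) (c : CC n) :
    row (pmS σ u).1.1 c = row u.1.1 (act σ c) := row_pm σ u.1.1 c

theorem continuous_pmS (σ : Wy n) : Continuous (pmS (M := M) σ) :=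
  (continuous_subtype_val.const_smul (pm σ)).subtype_mk _

theorem exists_pm_conj (σ : Wy n) (t : Tc n) :
    ∃ t' : Tc n, (∀ c, wt c t' = wt (act σ c) t) ∧ pm σ * t.1 = t'.1 * pm σ := by
  obtain ⟨t', ht'⟩ := exists_Tc (a := fun c => wt (act σ c) t) fun c => norm_wt _ t
  refine ⟨t', ht', funext fun j => Units.ext (Matrix.ext fun a b => ?_)⟩
  show ((σ j).permMatrix ℂ * (t.1 j).1) a b = ((t'.1 j).1 * (σ j).permMatrix ℂ) a b
  rw [Tc.val_eq, Tc.val_eq, mul_diagonal, diagonal_mul, ht']
  simp only [PEquiv.toMatrix_apply, Equiv.toPEquiv_apply, Option.mem_some_iff]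
  split_ifs with h
  · rw [one_mul, mul_one, ← h]
    rfl
  · rw [zero_mul, mul_zero]

section weyl

variable (Z : Type) [TopologicalSpace Z] [MulAction (GG n) Z] [ContinuousSMul (GG n) Z]

/-- the action of the Weyl group on the flag bundle -/
noncomputable def wT (M : ℕ) (σ : Wy n) : C(BT n Z M, BT n Z M) :=
  ⟨Quotient.map' (fun x => (pm σ • x.1, pmS σ x.2)) (by
    rintro _ x ⟨t, rfl⟩
    obtain ⟨t', -, ht⟩ := exists_pm_conj σ t
    exact ⟨t', Prod.ext ((smul_smul t'.1 _ x.1).trans (ht ▸ (smul_smul _ t.1 x.1).symm))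
      (Subtype.ext ((smul_smul t'.1 _ x.2.1).trans (ht ▸ (smul_smul _ t.1 x.2.1).symm)))⟩),
    Continuous.quotient_map' ((continuous_fst.const_smul _).prodMk
      ((continuous_pmS σ).comp continuous_snd)) _⟩

variable {Z}

theorem wT_mk (σ : Wy n) (x : Z × St n M) :
    wT Z M σ (Bor.mk _ x) = Bor.mk _ (pm σ • x.1, pmS σ x.2) := rfl

theorem piT_wT (σ : Wy n) (x : BT n Z M) : piT n Z M (wT Z M σ x) = piT n Z M x := by
  obtain ⟨x, rfl⟩ := mk_surj x
  exact mk_eq_iff.2 ⟨pm σ, rfl⟩

theorem wT_wT (σ τ : Wy n) (x : BT n Z M) : wT Z M τ (wT Z M σ x) = wT Z M (σ * τ) x := by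
  obtain ⟨x, rfl⟩ := mk_surj x
  rw [wT_mk, wT_mk, wT_mk, pm_mul]
  exact congrArg (Bor.mk _) (Prod.ext (smul_smul _ _ _) (Subtype.ext (by
    show pm τ • pm σ • x.2.1 = pm (σ * τ) • x.2.1
    rw [pm_mul, mul_smul])))

theorem wT_one (x : BT n Z M) : wT Z M 1 x = x := by
  obtain ⟨x, rfl⟩ := mk_surj x
  rw [wT_mk, pm_one]
  exact congrArg (Bor.mk _) (Prod.ext (one_smul _ _) (Subtype.ext (by
    show pm 1 • x.2.1 = x.2.1
    rw [pm_one, one_smul])))

theorem isHomeomorph_wT (σ : Wy n) : IsHomeomorph (wT Z M σ) :=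
  isHomeomorph_iff_exists_inverse.2 ⟨(wT Z M σ).continuous, wT Z M σ⁻¹,
    fun x => by rw [wT_wT, mul_inv_cancel, wT_one], fun x => by rw [wT_wT, inv_mul_cancel, wT_one],
    (wT Z M σ⁻¹).continuous⟩

theorem map_wT_evT (σ : Wy n) (p : MvPolynomial (CC n) ℂ) :
    H.map (wT Z M σ) (evT n Z M p) = evT n Z M (rename (act σ) p) :=
  map_evT_of_ip _ _ _ (wT_mk σ) (fun c x y => by rw [row_pmS, row_pmS]) p

theorem map_wT_piT (σ : Wy n) (c : H (Bo n Z M)) :
    H.map (wT Z M σ) (H.map (piT n Z M) c) = H.map (piT n Z M) c := by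
  rw [H.map_map]
  congr 2
  exact ContinuousMap.ext (piT_wT σ)

end weyl

/-! ### Leray-Hirsch for the flag bundle -/

/-- the exponents of the Artin monomials -/
abbrev Art (n : J → ℕ) : Type := Box (bdT (n := n) n)

section lh

variable [Fintype J] (Z : Type) [TopologicalSpace Z] [MulAction (GG n) Z] (M : ℕ)

/-- the Artin monomials in the Chern roots -/
noncomputable def artT (a : Art n) : H (BT n Z M) := evT n Z M (monomial a.1 1)

variable {Z M} [Nice (Bo n Z M)] [Nice (BT n Z M)] (hp : IsPr (piT n Z M))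
include hp

theorem lhc_piT : Function.Bijective (lhc hp (artT Z M)) :=
  lhc_bijective (i := fun x => ⟨Subtype.val, continuous_subtype_val⟩) hp
    (fun x => isFib_val hp.cont x) (d := fun a => 2 * a.1.degree)
    (fun a => ev_monomial_deg _ a.1) (fun _ => by positivity) (isBasis_fib hp)

theorem lh_piT : Function.Bijective (H.lh (piT n Z M) (artT Z M)) :=
  lh_bijective (i := fun x => ⟨Subtype.val, continuous_subtype_val⟩) hp
    (fun x => isFib_val hp.cont x) (d := fun a => 2 * a.1.degree)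
    (fun a => ev_monomial_deg _ a.1) (fun _ => by positivity) (isBasis_fib hp)

end lh

end Vale.Agent.P291Z.Fl
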