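import Vale.Agent.P291Z.Fl5

set_option linter.all false

/-!
# The polynomial ring over the invariants of the Weyl group
-/

namespace Vale.Agent.P291Z.Fl

open MvPolynomial

variable {J : Type} {n : J → ℕ}

/-- the invariants of the Weyl group -/
noncomputable def Inv (n : J → ℕ) : Subalgebra ℂ (MvPolynomial (CC n) ℂ) :=
  ⨅ σ : Wy n, AlgHom.equalizer (rename (act σ)) (AlgHom.id ℂ _)

theorem mem_Inv {f : MvPolynomial (CC n) ℂ} : f ∈ Inv n ↔ ∀ σ : Wy n, rename (act σ) f = f := by
  simp [Inv, Algebra.mem_iInf, AlgHom.mem_equalizer]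

theorem act_injective : Function.Injective (act : Wy n → _) := fun σ τ h =>
  funext fun j => Equiv.ext fun a =>
    sigma_mk_injective (β := fun j => Fin (n j)) (Equiv.congr_fun h ⟨j, a⟩)

variable [Fintype J]

noncomputable instance (β : CC n → ℕ) : Fintype (Box β) := Fintype.ofFinite _

theorem card_Box (β : CC n → ℕ) : Fintype.card (Box β) = ∏ c, β c := by
  classical
  have : Fintype.card (Box β) = Fintype.card (∀ c, Fin (β c)) := Fintype.card_congr
    ⟨fun a c => ⟨a.1 c, a.2 c⟩, fun a => ⟨Finsupp.equivFunOnFinite.symm fun c => a c,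
      fun c => (a c).2⟩, fun a => Subtype.ext (Finsupp.ext fun _ => rfl), fun _ => rfl⟩
  rw [this, Fintype.card_pi]
  simp

theorem card_Art [DecidableEq J] : Fintype.card (Art n) = Fintype.card (Wy n) := by
  rw [card_Box, Fintype.card_pi, Fintype.prod_sigma]
  refine Finset.prod_congr rfl fun j _ => ?_
  rw [Fintype.card_perm, Fintype.card_fin, ← Nat.descFactorial_self,
    Nat.descFactorial_eq_prod_range, Finset.prod_range]
  rfl

/-- the zero exponent -/
def art0 (n : J → ℕ) : Art n := ⟨0, fun c => Nat.sub_pos_of_lt c.2.2⟩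

/-- the largest exponent -/
noncomputable def artT0 (n : J → ℕ) : Art n :=
  ⟨top (bdT n), fun c => Nat.sub_one_lt (Nat.sub_pos_of_lt c.2.2).ne'⟩

/-- if the Artin monomials span over the invariants, they are independent over the invariants -/
theorem artin_li (hs : ∀ f : MvPolynomial (CC n) ℂ, ∃ c : Art n → MvPolynomial (CC n) ℂ,
      (∀ a, c a ∈ Inv n) ∧ f = ∑ a, c a * monomial a.1 1)
    (c : Art n → MvPolynomial (CC n) ℂ) (hc : ∀ a, c a ∈ Inv n)
    (h : ∑ a, c a * monomial a.1 1 = 0) : c = 0 := by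
  classical
  let e : Wy n ≃ Art n := Fintype.equivOfCardEq card_Art.symm
  let A : Matrix (Wy n) (Wy n) (MvPolynomial (CC n) ℂ) :=
    Matrix.of fun w a => rename (act w) (monomial (e a).1 1)
  have key : ∀ (c : Art n → MvPolynomial (CC n) ℂ), (∀ a, c a ∈ Inv n) → ∀ w : Wy n,
      rename (act w) (∑ a, c a * monomial a.1 1) = A.mulVec (fun a => c (e a)) w := fun c hc w => by
    rw [map_sum, Matrix.mulVec, dotProduct, ← e.sum_comp]
    exact Finset.sum_congr rfl fun a _ => by rw [map_mul, mem_Inv.1 (hc _), mul_comm]; rfl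
  have li := (linearIndependent_monoidHom (MvPolynomial (CC n) ℂ) (MvPolynomial (CC n) ℂ)).comp
    (fun w : Wy n => ((rename (act w) : MvPolynomial (CC n) ℂ →ₐ[ℂ] MvPolynomial (CC n) ℂ) :
      MvPolynomial (CC n) ℂ →* MvPolynomial (CC n) ℂ)) fun w w' h => act_injective
        (Equiv.ext fun c => X_injective (R := ℂ) (by
          have := DFunLike.congr_fun h (X c)
          simpa using this))
  have hdet : A.det ≠ 0 := fun h0 => by
    obtain ⟨v, hv, h1⟩ := Matrix.exists_vecMul_eq_zero_iff.2 h0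
    refine hv (funext (Fintype.linearIndependent_iff.1 li v (funext fun f => ?_)))
    obtain ⟨c, h2, rfl⟩ := hs f
    have : v ⬝ᵥ A.mulVec (fun a => c (e a)) = 0 := by
      rw [Matrix.dotProduct_mulVec, h1, zero_dotProduct]
    rw [Finset.sum_apply, Pi.zero_apply, ← this, dotProduct]
    exact Finset.sum_congr rfl fun w _ => by rw [← key c h2 w]; rfl
  have h3 := Matrix.eq_zero_of_mulVec_eq_zero hdet (v := fun a => c (e a))
    (funext fun w => by rw [← key c hc w, h, map_zero]; rfl)
  exact funext fun a => by simpa using congrFun h3 (e.symm a)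

theorem artin_coeff (hs : ∀ f : MvPolynomial (CC n) ℂ, ∃ c : Art n → MvPolynomial (CC n) ℂ,
      (∀ a, c a ∈ Inv n) ∧ f = ∑ a, c a * monomial a.1 1) {f : MvPolynomial (CC n) ℂ}
    (hf : f ∈ Inv n) {c : Art n → MvPolynomial (CC n) ℂ} (hc : ∀ a, c a ∈ Inv n)
    (h : f = ∑ a, c a * monomial a.1 1) : f = c (art0 n) := by
  classical
  have := congrFun (artin_li hs (c - Pi.single (art0 n) f) (fun a => (Inv n).sub_mem (hc a) (by
    rw [Pi.single_apply]
    split_ifs
    exacts [hf, (Inv n).zero_mem])) (by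
    simp only [Pi.sub_apply, sub_mul, Finset.sum_sub_distrib]
    rw [← h, Finset.sum_eq_single (art0 n) (fun a _ ha => by rw [Pi.single_eq_of_ne ha, zero_mul])
      (fun h => absurd (Finset.mem_univ _) h), Pi.single_eq_same]
    exact sub_eq_zero.2 (mul_one f).symm)) (art0 n)
  rw [Pi.sub_apply, Pi.single_eq_same, Pi.zero_apply, sub_eq_zero] at this
  exact this.symm

/-! ### the degree of the largest exponents -/

theorem degree_eq_sum (a : CC n →₀ ℕ) : a.degree = ∑ c, a c := Finsupp.degree_eq_sum a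

theorem degree_le_top {β : CC n → ℕ} {a : CC n →₀ ℕ} (ha : a ∈ Box β) :
    a.degree ≤ (top β).degree := by
  rw [degree_eq_sum, degree_eq_sum]
  exact Finset.sum_le_sum fun c _ => Nat.le_sub_one_of_lt (ha c)

theorem eq_top_of_degree {β : CC n → ℕ} {a : CC n →₀ ℕ} (ha : a ∈ Box β)
    (h : (top β).degree ≤ a.degree) : a = top β := by
  rw [degree_eq_sum, degree_eq_sum] at h
  have h1 : ∀ c ∈ Finset.univ, a c ≤ top β c := fun c _ => Nat.le_sub_one_of_lt (ha c)
  exact Finsupp.ext fun c => (Finset.sum_eq_sum_iff_of_le h1).1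
    (le_antisymm (Finset.sum_le_sum h1) h) c (Finset.mem_univ c)

theorem degree_artT0 : (artT0 n).1.degree = dfl n := by
  rw [degree_eq_sum, Fintype.sum_sigma, dfl]
  refine Finset.sum_congr rfl fun j _ => ?_
  rw [← Finset.sum_range_id, ← Finset.sum_range_reflect, Finset.sum_range]
  refine Finset.sum_congr rfl fun r _ => ?_
  show n j - r - 1 = n j - 1 - r
  omega

theorem top_bdT {M : ℕ} (h : ∀ j, n j ≤ M) : top (bdT (n := n) fun _ => M) =
    (Finsupp.equivFunOnFinite.symm fun c => M - n c.1) + (artT0 n).1 := Finsupp.ext fun c => by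
  show M - c.2 - 1 = M - n c.1 + (n c.1 - c.2 - 1)
  have := h c.1
  have := c.2.2
  omega

theorem degree_top_bdT {M : ℕ} (h : ∀ j, n j ≤ M) :
    ((top (bdT (n := n) fun _ => M)).degree : ℤ) = dimB n M + dfl n := by
  rw [top_bdT h, map_add, degree_artT0, Nat.cast_add, degree_eq_sum, Fintype.sum_sigma, dimB]
  push_cast
  congr 1
  refine Finset.sum_congr rfl fun j _ => ?_
  simp [Nat.cast_sub (h j), mul_sub]

end Vale.Agent.P291Z.Fl
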