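import Vale.Agent.P291Z.QL.Stab

/-!
# Invariance of the moment map equation and of stability under `G × F`
-/

namespace Vale.Agent.P291Z.Flav

variable {I E Φ : Type} {Q : Quiv I E} [Fintype Φ] [Fintype I] [Fintype E] {A : Flav Q Φ}

theorem mu_smul (g : GG (Q.nn Φ)) {z : A.NN × A.ND} (h : ∀ ξ, mu z ξ = 0) (ξ : Q.En ℂ) :
    mu (g • z) ξ = 0 :=
  (QL.mu_smul_eq g z ξ).trans (h _)

theorem St_smul (ν : I → ℤ) (g : GG (Q.nn Φ)) {z : A.NN × A.ND} (h : St ν z) : St ν (g • z) :=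
  QL.st_smul ν g h

end Vale.Agent.P291Z.Flav
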