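import Vale.Agent.P291Z.Sp1
import Vale.Agent.P291Z.Flow

/-!
# Spectral strata without cohomology with compact supports; the Cayley transform
-/

set_option linter.unusedSectionVars false

namespace Vale.Agent.P291Z

open Matrix Polynomial Filter Topology TopologicalSpace Set

instance {m n : Type} [Finite m] [Finite n] : MetrizableSpace (Matrix m n ℂ) :=
  inferInstanceAs (MetrizableSpace (m → n → ℂ))

instance {m n : Type} [Finite m] [Finite n] : LocallyCompactSpace (Matrix m n ℂ) :=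
  inferInstanceAs (LocallyCompactSpace (m → n → ℂ))

instance {m n : Type} [Finite m] [Finite n] : SecondCountableTopology (Matrix m n ℂ) :=
  inferInstanceAs (SecondCountableTopology (m → n → ℂ))

namespace Sp

variable {I : Type} {v : I → ℕ} [Fintype I]

/-- The closed ray of nonnegative real numbers. -/
def ray : Set ℂ := {t | 0 ≤ t.re ∧ t.im = 0}

/-- The closed unit interval. -/
def seg : Set ℂ := {t | 0 ≤ t.re ∧ t.re ≤ 1 ∧ t.im = 0}

theorem isClosed_ray : IsClosed ray :=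
  (isClosed_le continuous_const Complex.continuous_re).inter
    (isClosed_eq Complex.continuous_im continuous_const)

theorem isClosed_seg : IsClosed seg :=
  (isClosed_le continuous_const Complex.continuous_re).inter
    ((isClosed_le Complex.continuous_re continuous_const).inter
      (isClosed_eq Complex.continuous_im continuous_const))

theorem tot_mono {A B : Set ℂ} (h : A ⊆ B) (ξ : En v) : tot A ξ ≤ tot B ξ := by
  classical
  rw [(isRt_rt ξ).tot_eq, (isRt_rt ξ).tot_eq]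
  exact Finset.card_le_card fun c hc =>
    Finset.mem_filter.2 ⟨Finset.mem_univ _, h (Finset.mem_filter.1 hc).2⟩

theorem tot_le_tot_iff {A B : Set ℂ} (h : A ⊆ B) (ξ : En v) :
    tot B ξ ≤ tot A ξ ↔ ∀ s ∈ spec ξ, s ∈ B → s ∈ A := by
  classical
  constructor
  · rintro h1 _ ⟨c, rfl⟩ hc
    rw [(isRt_rt ξ).tot_eq, (isRt_rt ξ).tot_eq] at h1
    have := Finset.eq_of_subset_of_card_le (fun c hc =>
      Finset.mem_filter.2 ⟨Finset.mem_univ _, h (Finset.mem_filter.1 hc).2⟩) h1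
    have h2 : c ∈ Finset.univ.filter fun c => rt ξ c ∈ B :=
      Finset.mem_filter.2 ⟨Finset.mem_univ _, hc⟩
    rw [← this] at h2
    exact (Finset.mem_filter.1 h2).2
  · intro h1
    rw [tot, tot, dimA_congr (A := B) (B := A) fun s hs => ⟨h1 s hs, fun h2 => h h2⟩]

theorem tot_translate {A B : Set ℂ} {ξ : En v} {t : ℂ}
    (h : ∀ s ∈ spec ξ, s ∈ A → (s + t ∈ B ↔ s ∈ B)) : tot B (ξ + t • prj A ξ) = tot B ξ := by
  rw [tot, tot, dimA_translate h]

theorem lc_tot {O : Set ℂ} (hO : IsOpen O) (k : ℕ) : IsLocallyClosed {ξ : En v | tot O ξ = k} :=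
  isLocallyClosed_stratum (n := fun ξ : En v => tot O ξ) (isOpen_le_tot hO) k

/-- The pairing of `ξ` with a central element. -/
noncomputable def pr (θ : I → ℝ) (ξ : En v) : ℂ := ∑ i, (θ i : ℂ) * (ξ i).trace

theorem continuous_pr (θ : I → ℝ) : Continuous (pr θ : En v → ℂ) :=
  continuous_finsetSum _ fun i _ => continuous_const.mul (continuous_apply i).matrix_trace

theorem pr_translate (θ : I → ℝ) (A : Set ℂ) (ξ : En v) (t : ℂ) :
    pr θ (ξ + t • prj A ξ) = pr θ ξ + t * ((∑ i, θ i * (dimA A ξ i : ℝ) : ℝ) : ℂ) := by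
  simp only [pr, trace_translate, mul_add, Finset.sum_add_distrib, Complex.ofReal_sum,
    Complex.ofReal_mul, Complex.ofReal_natCast, Finset.mul_sum]
  congr 1
  exact Finset.sum_congr rfl fun i _ => by ring

section ray

variable {θ : I → ℝ} (hθ : ∀ d : I → ℕ, (∀ i, d i ≤ v i) → d ≠ 0 → ∑ i, θ i * (d i : ℝ) ≠ 0)
  {S : Set (En v)} (hS : IsLocallyClosed S)
  (hst : ∀ ξ ∈ S, ∀ A : Set ℂ, (0 : ℂ) ∉ A → ∀ t : ℂ, ξ + t • prj A ξ ∈ S)

include hθ hS hst

theorem null_left {k : ℕ} (hk : k ≠ 0) :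
    Null ((S ∩ {ξ | tot rayᶜ ξ = k} ∩ {ξ | tot {s : ℂ | s.re < 0} ξ = k}) ∩
      {ξ | 0 ≤ -(pr θ ξ).im}) := by
  set L : Set ℂ := {s : ℂ | s.re < 0} with hL
  have hLo : IsOpen L := isOpen_lt Complex.continuous_re continuous_const
  have hL0 : (0 : ℂ) ∉ L := by simp [hL]
  have hLt : ∀ (s : ℂ) (a : ℝ), s ∈ L → s + (a : ℂ) * Complex.I ∈ L := fun s a h => by
    simpa [hL] using h
  have hLr : L ⊆ rayᶜ := fun s hs h => not_lt.2 h.1 hs
  let c : En v → ℝ := fun ξ => ∑ i, θ i * (dimA L ξ i : ℝ)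
  have hc0 : ∀ ξ : En v, tot L ξ = k → c ξ ≠ 0 := fun ξ h =>
    hθ _ (dimA_le L ξ) fun h0 => hk (by rw [← h, tot, h0]; simp)
  have hd : ∀ (ξ : En v) (a : ℝ), dimA L (ξ + ((a : ℂ) * Complex.I) • prj L ξ) = dimA L ξ :=
    fun ξ a => dimA_translate fun s _ hs => iff_of_true (hLt s a hs) hs
  refine null_of_flow ((hS.inter (lc_tot isClosed_ray.isOpen_compl k)).inter
      (lc_tot hLo k))
    (fun t ξ => ξ + (((-(t / c ξ) : ℝ) : ℂ) * Complex.I) • prj L ξ) ?_ ?_ ?_ ?_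
    (f := fun ξ => -(pr θ ξ).im) ?_ ?_
  · rintro t ξ ⟨⟨h1, h2⟩, h3⟩
    refine ⟨⟨hst _ h1 _ hL0 _, ?_⟩, ?_⟩
    · exact (tot_translate fun s _ hs => iff_of_true (hLr (hLt s _ hs)) (hLr hs)).trans h2
    · exact (tot_translate fun s _ hs => iff_of_true (hLt s _ hs) hs).trans h3
  · have h1 : Continuous fun p : ℝ × ↥(S ∩ {ξ | tot rayᶜ ξ = k} ∩ {ξ | tot L ξ = k}) =>
        p.2.1 := continuous_subtype_val.comp continuous_snd
    have h2 := continuous_dimA hLo h1 fun p => p.2.2.2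
    have h3 : Continuous fun p : ℝ × ↥(S ∩ {ξ | tot rayᶜ ξ = k} ∩ {ξ | tot L ξ = k}) =>
        c p.2.1 := continuous_finsetSum _ fun i _ => continuous_const.mul
      (continuous_of_discreteTopology.comp ((continuous_apply i).comp h2))
    have h4 : Continuous fun p : ℝ × ↥(S ∩ {ξ | tot rayᶜ ξ = k} ∩ {ξ | tot L ξ = k}) =>
        ((-(p.1 / c p.2.1) : ℝ) : ℂ) * Complex.I := (Complex.continuous_ofReal.comp
      (continuous_fst.div h3 fun p => hc0 _ p.2.2.2).neg).mul continuous_const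
    exact h1.add (h4.smul (continuous_prj hLo h1 fun p => p.2.2.2))
  · intro ξ _
    simp
  · intro t ξ _
    have e : c (ξ + (((-(t / c ξ) : ℝ) : ℂ) * Complex.I) • prj L ξ) = c ξ := by
      simp only [c, hd]
    rw [e, translate_translate fun s _ hs => hLt s _ hs, ← add_mul, ← Complex.ofReal_add]
    simp [neg_div]
  · exact (Complex.continuous_im.comp ((continuous_pr θ).comp continuous_subtype_val)).neg
  · intro t ξ hξ
    have := hc0 _ hξ.2
    rw [pr_translate, mul_right_comm, ← Complex.ofReal_mul, Complex.add_im, Complex.mul_im,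
      Complex.ofReal_re, Complex.ofReal_im, Complex.I_re, Complex.I_im]
    change -((pr θ ξ).im + (-(t / c ξ) * c ξ * 1 + 0 * 0)) = _
    field_simp
    ring

omit hθ in
theorem null_up {k m : ℕ} (hm : m ≠ 0) :
    Null ((S ∩ {ξ | (pr θ ξ).im ≤ 0} ∩ {ξ | tot rayᶜ ξ = k} ∩
      {ξ | tot {s : ℂ | s.im ≠ 0} ξ = m}) ∩ {ξ | 0 ≤ mx {s : ℂ | s.im ≠ 0} Complex.re ξ}) := by
  set L : Set ℂ := {s : ℂ | s.im ≠ 0} with hL
  have hLo : IsOpen L := isOpen_ne_fun Complex.continuous_im continuous_const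
  have hL0 : (0 : ℂ) ∉ L := by simp [hL]
  have hLt : ∀ (s : ℂ) (a : ℝ), s ∈ L → s + (a : ℂ) ∈ L := fun s a h => by
    simpa [hL] using h
  have hLr : L ⊆ rayᶜ := fun s hs h => hs h.2
  refine null_of_flow (((hS.inter (isClosed_le (Complex.continuous_im.comp (continuous_pr θ))
      continuous_const).isLocallyClosed).inter (lc_tot isClosed_ray.isOpen_compl k)).inter
      (lc_tot hLo m))
    (fun t ξ => ξ + (t : ℂ) • prj L ξ) ?_ ?_ ?_ ?_ ?_ ?_
  · rintro t ξ ⟨⟨⟨h1, h4⟩, h2⟩, h3⟩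
    refine ⟨⟨⟨hst _ h1 _ hL0 _, ?_⟩, ?_⟩, ?_⟩
    · change (pr θ _).im ≤ 0
      rw [pr_translate, ← Complex.ofReal_mul, Complex.add_im, Complex.ofReal_im, add_zero]
      exact h4
    · exact (tot_translate fun s _ hs => iff_of_true (hLr (hLt s _ hs)) (hLr hs)).trans h2
    · exact (tot_translate fun s _ hs => iff_of_true (hLt s _ hs) hs).trans h3
  · have h1 : Continuous fun p : ℝ × ↥(S ∩ {ξ | (pr θ ξ).im ≤ 0} ∩ {ξ | tot rayᶜ ξ = k} ∩
        {ξ | tot L ξ = m}) => p.2.1 := continuous_subtype_val.comp continuous_snd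
    exact h1.add ((Complex.continuous_ofReal.comp continuous_fst).smul
      (continuous_prj hLo h1 fun p => p.2.2.2))
  · intro ξ _
    simp
  · intro t ξ _
    rw [translate_translate fun s _ hs => hLt s _ hs]
    simp
  · exact continuous_mx hLo Complex.continuous_re continuous_subtype_val fun p => p.2.2
  · intro t ξ hξ
    exact mx_translate (fun s _ hs => hLt s _ hs) (fun h => hm (hξ.2.symm.trans h)) fun s => by simp

/-- **Reduction to the ray.** -/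
theorem null_off_ray : Null {ξ | ξ ∈ S ∧ (pr θ ξ).im ≤ 0 ∧ ¬spec ξ ⊆ ray} := by
  have hcl : IsClosed {ξ : En v | (pr θ ξ).im ≤ 0} :=
    isClosed_le (Complex.continuous_im.comp (continuous_pr θ)) continuous_const
  have h1 : IsLocallyClosed {ξ | ξ ∈ S ∧ (pr θ ξ).im ≤ 0 ∧ ¬spec ξ ⊆ ray} :=
    hS.inter (hcl.isLocallyClosed.inter
      (isClosed_spec_subset isClosed_ray).isOpen_compl.isLocallyClosed)
  have hray : ∀ ξ : En v, spec ξ ⊆ ray ↔ tot rayᶜ ξ = 0 := fun ξ => by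
    rw [tot_eq_zero, disjoint_compl_right_iff_subset]
  have hLo : IsOpen {s : ℂ | s.re < 0} := isOpen_lt Complex.continuous_re continuous_const
  have hLr : {s : ℂ | s.re < 0} ⊆ rayᶜ := fun s hs h => not_lt.2 h.1 hs
  have hMo : IsOpen {s : ℂ | s.im ≠ 0} := isOpen_ne_fun Complex.continuous_im continuous_const
  refine null_of_strata h1 (isOpen_le_tot isClosed_ray.isOpen_compl) (fun ξ _ => tot_le _ ξ)
    fun k => ?_
  by_cases hk : k = 0
  · exact null_of_forall_not fun ξ hξ => hξ.1.2.2 ((hray ξ).2 (hξ.2.trans hk))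
  have h2 := h1.inter (lc_tot isClosed_ray.isOpen_compl k)
  refine null_union h2 (isOpen_le_tot hLo k) ((null_left hθ hS hst hk).congr fun ξ => ?_) ?_
  · constructor
    · rintro ⟨⟨⟨h3, h4, -⟩, h5⟩, h6⟩
      exact ⟨⟨⟨h3, h5⟩, le_antisymm ((tot_mono hLr ξ).trans h5.le) h6⟩, neg_nonneg.2 h4⟩
    · rintro ⟨⟨⟨h3, h5⟩, h6⟩, h4⟩
      exact ⟨⟨⟨h3, neg_nonneg.1 h4, fun h => hk (h5.symm.trans ((hray ξ).1 h))⟩, h5⟩, h6.ge⟩
  · refine null_of_strata (h2.inter (isOpen_le_tot hLo k).isClosed_compl.isLocallyClosed)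
      (isOpen_le_tot hMo) (fun ξ _ => tot_le _ ξ) fun m => ?_
    have key : ∀ ξ : En v, tot rayᶜ ξ = k → (¬k ≤ tot {s : ℂ | s.re < 0} ξ ↔
        ∃ s ∈ spec ξ, s.im ≠ 0 ∧ 0 ≤ s.re) := by
      intro ξ h
      rw [← h, tot_le_tot_iff hLr]
      push Not
      refine exists_congr fun s => and_congr_right fun _ => ⟨fun h3 => ?_, fun h3 => ?_⟩
      · have h4 : 0 ≤ s.re := not_lt.1 h3.2
        exact ⟨fun h5 => h3.1 ⟨h4, h5⟩, h4⟩
      · exact ⟨fun h4 => h3.1 h4.2, not_lt.2 h3.2⟩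
    by_cases hm : m = 0
    · refine null_of_forall_not fun ξ hξ => ?_
      obtain ⟨s, h3, h4, -⟩ := (key ξ hξ.1.1.2).1 hξ.1.2
      exact disjoint_left.1 (tot_eq_zero.1 (hξ.2.trans hm)) h3 h4
    refine (null_up (θ := θ) hS hst (k := k) hm).congr fun ξ => ?_
    constructor
    · rintro ⟨⟨⟨⟨h3, h4, -⟩, h5⟩, h6⟩, h7⟩
      obtain ⟨s, h8, h9, h10⟩ := (key ξ h5).1 h6
      exact ⟨⟨⟨⟨h3, h4⟩, h5⟩, h7⟩, h10.trans (le_mx Complex.re h8 h9)⟩
    · rintro ⟨⟨⟨⟨h3, h4⟩, h5⟩, h7⟩, h6⟩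
      obtain ⟨s, h8, h9, h10⟩ := exists_mx (A := {s : ℂ | s.im ≠ 0}) Complex.re
        fun h => hm (h7.symm.trans h)
      exact ⟨⟨⟨⟨h3, h4, fun h => hk (h5.symm.trans ((hray ξ).1 h))⟩, h5⟩,
        (key ξ h5).2 ⟨s, h8, h9, h10 ▸ h6⟩⟩, h7⟩

end ray

theorem pr_im_of_ray (θ : I → ℝ) {ξ : En v} (h : spec ξ ⊆ ray) : (pr θ ξ).im = 0 := by
  rw [pr, Complex.im_sum]
  refine Finset.sum_eq_zero fun i _ => ?_
  rw [(isRt_rt ξ).trace, Complex.im_ofReal_mul, Complex.im_sum,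
    Finset.sum_eq_zero fun p _ => (h ⟨_, rfl⟩).2, mul_zero]

/-- **Reduction from the unit interval to the nilpotent cone.** -/
theorem null_off_nil {S : Set (En v)} (hS : IsLocallyClosed S)
    (hst : ∀ ξ ∈ S, ∀ a : ℝ, 0 < a → (a : ℂ) • ξ ∈ S) :
    Null {ξ | ξ ∈ S ∧ spec ξ ⊆ seg ∧ ¬spec ξ ⊆ {0}} := by
  have hpos : ∀ ξ : En v, spec ξ ⊆ ray → ¬spec ξ ⊆ {0} → 0 < mx univ Complex.re ξ := by
    intro ξ h1 h2
    obtain ⟨s, hs, h0⟩ := not_subset.1 h2
    refine lt_of_lt_of_le (lt_of_le_of_ne (h1 hs).1 fun h => h0 ?_) (le_mx _ hs trivial)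
    exact Complex.ext h.symm (h1 hs).2
  have hsm : ∀ (ξ : En v) (a : ℝ), 0 < a → ¬spec ξ ⊆ {0} →
      mx univ Complex.re ((a : ℂ) • ξ) = a * mx univ Complex.re ξ := by
    intro ξ a ha h2
    obtain ⟨s, hs, -, e⟩ := exists_mx (A := univ) (ξ := ξ) Complex.re fun h => h2 (by
      rw [tot_eq_zero, disjoint_univ] at h
      rw [h]; exact empty_subset _)
    refine mx_eq ⟨a * s, by rw [spec_smul]; exact ⟨s, hs, rfl⟩, trivial, by simp [e]⟩ ?_
    rw [spec_smul]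
    rintro _ ⟨u, hu, rfl⟩ -
    rw [Complex.re_ofReal_mul]
    exact mul_le_mul_of_nonneg_left (le_mx _ hu trivial) ha.le
  refine (null_of_flow (S := S ∩ {ξ | spec ξ ⊆ ray} ∩ {ξ | spec ξ ⊆ {0}}ᶜ)
    ((hS.inter (isClosed_spec_subset isClosed_ray).isLocallyClosed).inter
      (isClosed_spec_subset isClosed_singleton).isOpen_compl.isLocallyClosed)
    (fun t ξ => ((Real.exp (-t) : ℝ) : ℂ) • ξ) ?_ (by fun_prop) (fun ξ _ => by simp)
    (fun t ξ _ => by
      rw [smul_smul, ← Complex.ofReal_mul, ← Real.exp_add]; simp)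
    (f := fun ξ => -Real.log (mx univ Complex.re ξ)) ?_ ?_).congr fun ξ => ?_
  · rintro t ξ ⟨⟨h1, h2⟩, h3⟩
    have hp := Real.exp_pos (-t)
    refine ⟨⟨hst _ h1 _ hp, ?_⟩, fun h => h3 fun s hs => ?_⟩
    · change spec _ ⊆ ray
      rw [spec_smul]
      rintro _ ⟨u, hu, rfl⟩
      refine ⟨?_, ?_⟩
      · rw [Complex.re_ofReal_mul]; exact mul_nonneg hp.le (h2 hu).1
      · rw [Complex.im_ofReal_mul, (h2 hu).2, mul_zero]
    · have h4 : ((Real.exp (-t) : ℝ) : ℂ) * s = 0 := h (by rw [spec_smul]; exact ⟨s, hs, rfl⟩)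
      exact (mul_eq_zero.1 h4).resolve_left (Complex.ofReal_ne_zero.2 hp.ne')
  · exact (((continuous_mx_univ Complex.continuous_re).comp continuous_subtype_val).log
      fun x => (hpos _ x.2.1.2 x.2.2).ne').neg
  · intro t ξ hξ
    rw [hsm ξ _ (Real.exp_pos _) hξ.2, Real.log_mul (Real.exp_pos _).ne'
      (hpos _ hξ.1.2 hξ.2).ne', Real.log_exp]
    ring
  · constructor
    · rintro ⟨h1, h2, h3⟩
      have h4 : spec ξ ⊆ ray := fun s hs => ⟨(h2 hs).1, (h2 hs).2.2⟩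
      refine ⟨⟨⟨h1, h4⟩, h3⟩, neg_nonneg.2 (Real.log_nonpos (hpos _ h4 h3).le ?_)⟩
      obtain ⟨s, hs, -, e⟩ := exists_mx (A := univ) (ξ := ξ) Complex.re fun h => h3 (by
        rw [tot_eq_zero, disjoint_univ] at h
        rw [h]; exact empty_subset _)
      exact e ▸ (h2 hs).2.1
    · rintro ⟨⟨⟨h1, h4⟩, h3⟩, h5⟩
      refine ⟨h1, fun s hs => ⟨(h4 hs).1, (le_mx Complex.re hs (mem_univ _)).trans ?_, (h4 hs).2⟩, h3⟩
      exact (Real.log_nonpos_iff (hpos _ h4 h3).le).1 (neg_nonneg.1 h5)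

/-! ### The Cayley transform -/

/-- `ξ (1 + a ξ)⁻¹` -/
noncomputable def mob (a : ℂ) (ξ : En v) : En v := fun i => ξ i * (1 + a • ξ i)⁻¹

theorem IsRt.det_one_add {ξ : En v} {r : Cl v → ℂ} (hr : IsRt ξ r) (a : ℂ) (i : I) :
    (1 + a • ξ i).det = ∏ p, (1 + a * r ⟨i, p⟩) := by
  have := det_aeval (hr i) (1 + C a * X)
  simpa [← Algebra.smul_def] using this

theorem isUnit_det_one_add {a : ℂ} {ξ : En v} (h : ∀ s ∈ spec ξ, 1 + a * s ≠ 0) (i : I) :
    IsUnit (1 + a • ξ i).det := by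
  rw [(isRt_rt ξ).det_one_add]
  exact (Finset.prod_ne_zero_iff.2 fun p _ => h _ ⟨_, rfl⟩).isUnit

theorem IsRt.mob {ξ : En v} {r : Cl v → ℂ} (hr : IsRt ξ r) {a : ℂ}
    (h : ∀ s ∈ spec ξ, 1 + a * s ≠ 0) : IsRt (mob a ξ) fun c => r c / (1 + a * r c) := by
  intro i
  refine (charpoly_eq_iff _ _).2 fun t => ?_
  have hu := isUnit_det_one_add h i
  have h0 : ∀ p, 1 + a * r ⟨i, p⟩ ≠ 0 := fun p => h _ (hr.spec_eq ▸ ⟨_, rfl⟩)
  have h1 := det_aeval (hr i) (C t * (1 + C a * X) - X)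
  have h2 : Polynomial.aeval (ξ i) (C t * (1 + C a * X) - X) =
      (scalar _ t - Sp.mob a ξ i) * (1 + a • ξ i) := by
    rw [Matrix.sub_mul, Sp.mob, Matrix.nonsing_inv_mul_cancel_right _ _ hu]
    simp [← Algebra.smul_def, Matrix.smul_eq_diagonal_mul, Matrix.mul_add]
  rw [h2, det_mul, hr.det_one_add] at h1
  refine mul_right_cancel₀ (Finset.prod_ne_zero_iff.2 fun p _ => h0 p) (h1.trans ?_)
  rw [← Finset.prod_mul_distrib]
  refine Finset.prod_congr rfl fun p _ => ?_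
  have := h0 p
  simp only [eval_sub, eval_mul, eval_C, eval_add, eval_one, eval_X]
  field_simp

theorem spec_mob {a : ℂ} {ξ : En v} (h : ∀ s ∈ spec ξ, 1 + a * s ≠ 0) :
    spec (mob a ξ) = (fun s => s / (1 + a * s)) '' spec ξ := by
  rw [((isRt_rt ξ).mob h).spec_eq, spec, ← Set.range_comp]
  rfl

theorem mob_mob {a : ℂ} {ξ : En v} (h : ∀ s ∈ spec ξ, 1 + a * s ≠ 0) :
    mob (-a) (mob a ξ) = ξ := by
  funext i
  have hu := isUnit_det_one_add h i
  have h1 : 1 + (-a) • mob a ξ i = (1 + a • ξ i)⁻¹ := by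
    have h2 := Matrix.mul_nonsing_inv _ hu
    rw [Matrix.add_mul, Matrix.one_mul, Matrix.smul_mul] at h2
    rw [mob, neg_smul, add_neg_eq_iff_eq_add, h2]
  change mob a ξ i * (1 + (-a) • mob a ξ i)⁻¹ = _
  rw [h1, Matrix.nonsing_inv_nonsing_inv _ hu, mob, Matrix.nonsing_inv_mul_cancel_right _ _ hu]

theorem mob_intertwine {a : ℂ} {ξ : En v} (h : ∀ s ∈ spec ξ, 1 + a * s ≠ 0) {i j : I}
    {x : Matrix (Fin (v i)) (Fin (v j)) ℂ} (e : ξ i * x = x * ξ j) :
    mob a ξ i * x = x * mob a ξ j := by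
  have hi := isUnit_det_one_add h i
  have hj := isUnit_det_one_add h j
  have h1 : (1 + a • ξ i) * x = x * (1 + a • ξ j) := by
    rw [Matrix.add_mul, Matrix.mul_add, Matrix.smul_mul, Matrix.mul_smul, e, Matrix.one_mul,
      Matrix.mul_one]
  have h2 : (1 + a • ξ i)⁻¹ * x = x * (1 + a • ξ j)⁻¹ := by
    conv_lhs => rw [← Matrix.mul_nonsing_inv_cancel_right _ x hj, ← h1, ← Matrix.mul_assoc,
      Matrix.nonsing_inv_mul_cancel_left _ _ hi]
  rw [mob, mob, Matrix.mul_assoc, h2, ← Matrix.mul_assoc, e, Matrix.mul_assoc]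

theorem mul_mob_eq_zero (a : ℂ) (ξ : En v) {i : I} {m : Type} {x : Matrix m (Fin (v i)) ℂ}
    (h : x * ξ i = 0) : x * mob a ξ i = 0 := by
  rw [mob, ← Matrix.mul_assoc, h, Matrix.zero_mul]

theorem mob_conj (a : ℂ) (ξ : En v) {g h : En v} (hg : g * h = 1) :
    mob a (g * ξ * h) = g * mob a ξ * h := by
  funext i
  have h0 : g i * h i = 1 := congrFun hg i
  have h1 : h i * g i = 1 := mul_eq_one_comm.1 h0
  have e : 1 + a • (g * ξ * h) i = g i * (1 + a • ξ i) * h i := by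
    rw [Matrix.mul_add, Matrix.add_mul, Matrix.mul_one, h0, Matrix.mul_smul, Matrix.smul_mul]
    rfl
  unfold mob
  rw [e, Matrix.mul_inv_rev, Matrix.mul_inv_rev, Matrix.inv_eq_left_inv h0,
    Matrix.inv_eq_left_inv h1]
  simp only [Pi.mul_apply, Matrix.mul_assoc]
  rw [← Matrix.mul_assoc (h i) (g i), h1, Matrix.one_mul]

theorem continuous_mob {T : Type*} [TopologicalSpace T] (a : ℂ) {ξ : T → En v}
    (hξ : Continuous ξ) (h : ∀ τ, ∀ s ∈ spec (ξ τ), 1 + a * s ≠ 0) :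
    Continuous fun τ => mob a (ξ τ) := by
  refine continuous_pi fun i => ?_
  have h1 : Continuous fun τ => ξ τ i := (continuous_apply i).comp hξ
  refine h1.matrix_mul (continuous_iff_continuousAt.2 fun τ => ?_)
  refine ContinuousAt.comp (g := Inv.inv) (continuousAt_matrix_inv _ ?_)
    (continuous_const.add (h1.const_smul a)).continuousAt
  rw [Ring.inverse_eq_inv']
  exact continuousAt_inv₀ (isUnit_det_one_add (h τ) i).ne_zero

theorem ray_ne {s : ℂ} (h : s ∈ ray) : 1 + 1 * s ≠ 0 := fun h0 => by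
  have := congrArg Complex.re h0
  simp only [one_mul, Complex.add_re, Complex.one_re, Complex.zero_re] at this
  linarith [h.1]

theorem seg_ne {s : ℂ} (h : s ≠ 1) : 1 + -1 * s ≠ 0 := fun h0 => h (by linear_combination -h0)

theorem spec_mob_ray {ξ : En v} (h : spec ξ ⊆ ray) : spec (mob 1 ξ) ⊆ seg \ {1} := by
  rw [spec_mob fun s hs => ray_ne (h hs)]
  rintro _ ⟨s, hs, rfl⟩
  obtain ⟨h1, h2⟩ := h hs
  have e : s / (1 + 1 * s) = ((s.re / (1 + s.re) : ℝ) : ℂ) := by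
    have : s = (s.re : ℂ) := Complex.ext rfl (by simp [h2])
    rw [this]; simp
  have h3 : s.re / (1 + s.re) < 1 := by rw [div_lt_one (by linarith)]; linarith
  beta_reduce
  rw [e]
  refine ⟨⟨?_, ?_, Complex.ofReal_im _⟩, fun h4 => h3.ne (Complex.ofReal_injective h4)⟩
  · rw [Complex.ofReal_re]; positivity
  · rw [Complex.ofReal_re]; exact h3.le

theorem spec_mob_seg {ξ : En v} (h : spec ξ ⊆ seg \ {1}) : spec (mob (-1) ξ) ⊆ ray := by
  rw [spec_mob fun s hs => seg_ne (h hs).2]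
  rintro _ ⟨s, hs, rfl⟩
  obtain ⟨⟨h1, h2, h3⟩, -⟩ := h hs
  have e : s / (1 + -1 * s) = ((s.re / (1 - s.re) : ℝ) : ℂ) := by
    have : s = (s.re : ℂ) := Complex.ext rfl (by simp [h3])
    rw [this]; simp [sub_eq_add_neg]
  beta_reduce
  rw [e]
  refine ⟨?_, Complex.ofReal_im _⟩
  rw [Complex.ofReal_re]
  exact div_nonneg h1 (sub_nonneg.2 h2)

end Sp

end Vale.Agent.P291Z
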