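import Vale.Agent.P291Z.KNB2
import Vale.Agent.P291Z.Sp2
import Vale.Agent.P291Z.Sys0
import Vale.Agent.P291Z.Quiv0Lem

/-!
# The adjoint representation and the commuting pairs with given spectrum
-/

set_option linter.unusedSectionVars false

namespace Vale.Agent.P291Z.Four

open Matrix Module Set Function Topology Quiv Flav KN

variable {I E Φ : Type} {Q : Quiv I E} [Fintype Φ] [Fintype I] [Fintype E] {A : Flav Q Φ}

/-- The adjoint representation of `G × F` on the Lie algebra of `G`. -/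
def Ad (Q : Quiv I E) (_ : Type) : Type := Q.En ℂ

noncomputable instance : AddCommGroup (Ad Q Φ) := inferInstanceAs (AddCommGroup (Q.En ℂ))

noncomputable instance : Module ℂ (Ad Q Φ) := inferInstanceAs (Module ℂ (Q.En ℂ))

noncomputable instance : TopologicalSpace (Ad Q Φ) := inferInstanceAs (TopologicalSpace (Q.En ℂ))

/-- The underlying family of matrices. -/
def Ad.en (ξ : Ad Q Φ) : Q.En ℂ := ξ

noncomputable instance : DistribMulAction (GG (Q.nn Φ)) (Ad Q Φ) where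
  smul g ξ := ga Q Φ g * ξ.en * ga Q Φ g⁻¹
  one_smul ξ := by
    change ga Q Φ 1 * ξ.en * ga Q Φ 1⁻¹ = ξ.en
    rw [inv_one, map_one, one_mul, mul_one]
  mul_smul g h ξ := by
    change ga Q Φ (g * h) * ξ.en * ga Q Φ (g * h)⁻¹ =
      ga Q Φ g * (ga Q Φ h * ξ.en * ga Q Φ h⁻¹) * ga Q Φ g⁻¹
    simp only [_root_.mul_inv_rev, map_mul, mul_assoc]
  smul_zero g := by
    change ga Q Φ g * (0 : Q.En ℂ) * ga Q Φ g⁻¹ = (0 : Q.En ℂ)
    rw [mul_zero, zero_mul]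
  smul_add g ξ η := by
    change ga Q Φ g * (ξ.en + η.en) * ga Q Φ g⁻¹ =
      ga Q Φ g * ξ.en * ga Q Φ g⁻¹ + ga Q Φ g * η.en * ga Q Φ g⁻¹
    rw [mul_add, add_mul]

theorem en_smul (g : GG (Q.nn Φ)) (ξ : Ad Q Φ) : (g • ξ).en = ga Q Φ g * ξ.en * ga Q Φ g⁻¹ := rfl

theorem continuous_en : Continuous (Ad.en : Ad Q Φ → Q.En ℂ) := continuous_id

theorem continuous_ga : Continuous (ga Q Φ) :=
  continuous_pi fun i => Units.continuous_val.comp (continuous_apply (Sum.inl i))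

instance : ContinuousSMul (GG (Q.nn Φ)) (Ad Q Φ) :=
  ⟨continuous_mulE (Q := Q.qd) (continuous_mulE (Q := Q.qd) (continuous_ga.comp continuous_fst)
    (continuous_en.comp continuous_snd)) (continuous_ga.comp continuous_fst.inv)⟩

instance : ContinuousSMul (GG (Q.nn Φ)) A.NN := continuousSMul_NN

instance : ContinuousSMul (GG (Q.nn Φ)) A.ND := continuousSMul_ND

theorem isRep_Ad : IsRep (GG (Q.nn Φ)) (Ad Q Φ) (finrank ℂ (Q.En ℂ)) :=
  ⟨(show Nonempty (Q.En ℂ ≃L[ℂ] (Fin (finrank ℂ (Q.En ℂ)) → ℂ)) from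
      ⟨ContinuousLinearEquiv.ofFinrankEq (finrank_fin_fun ℂ).symm⟩),
    ⟨fun g c ξ => by
      change ga Q Φ g * (c • ξ.en) * ga Q Φ g⁻¹ = c • (ga Q Φ g * ξ.en * ga Q Φ g⁻¹)
      rw [mul_smul_comm, smul_mul_assoc]⟩, inferInstance⟩

theorem isRep_NN : IsRep (GG (Q.nn Φ)) A.NN (finrank ℂ (Q.N ℂ)) :=
  ⟨(show Nonempty (Q.N ℂ ≃L[ℂ] (Fin (finrank ℂ (Q.N ℂ)) → ℂ)) from
      ⟨ContinuousLinearEquiv.ofFinrankEq (finrank_fin_fun ℂ).symm⟩),
    ⟨fun g c s => map_smul (A.rep g) c s⟩, inferInstance⟩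

theorem isRep_ND : IsRep (GG (Q.nn Φ)) A.ND (finrank ℂ (Q.N ℂ)) :=
  ⟨(show Nonempty ((Q.N ℂ →L[ℂ] ℂ) ≃L[ℂ] (Fin (finrank ℂ (Q.N ℂ)) → ℂ)) from
      ⟨ContinuousLinearEquiv.ofFinrankEq (by
      rw [finrank_fin_fun, ← (LinearMap.toContinuousLinearMap (𝕜 := ℂ) (E := Q.N ℂ)
        (F' := ℂ)).finrank_eq]
      exact Subspace.dual_finrank_eq)⟩),
    ⟨fun _ _ _ => rfl⟩, inferInstance⟩

instance : Nice (Q.En ℂ) := ⟨inferInstance, inferInstance, inferInstance⟩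

instance : Nice (Q.N ℂ) := ⟨inferInstance, inferInstance, inferInstance⟩

instance : Nice (Ad Q Φ) := inferInstanceAs (Nice (Q.En ℂ))

instance : Nice A.NN := inferInstanceAs (Nice (Q.N ℂ))

instance : Nice A.ND := by
  obtain ⟨e⟩ := (isRep_ND (A := A)).lin
  exact ⟨e.toHomeomorph.symm.t2Space, e.toHomeomorph.isClosedEmbedding.locallyCompactSpace,
    e.toHomeomorph.secondCountableTopology⟩

theorem lie_conj (g : GG (Q.nn Φ)) (ξ : Q.En ℂ) (s : Q.N ℂ) :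
    Q.lie (ga Q Φ g * ξ * ga Q Φ g⁻¹) (A.rep g s) = A.rep g (Q.lie ξ s) := by
  rw [QL.rep_lie]
  congr 2
  funext i
  exact congrArg (ga Q Φ g i * ξ i * ·) (Matrix.inv_eq_right_inv (congrFun (ga_inv g) i)).symm

theorem lie_eq_zero {ξ : Q.En ℂ} {s : Q.N ℂ} : Q.lie ξ s = 0 ↔
    (∀ e, ξ (Q.t e) * s.1 e = s.1 e * ξ (Q.s e)) ∧ ∀ i, s.2 i * ξ i = 0 := by
  rw [Prod.ext_iff, funext_iff, funext_iff]
  exact and_congr (forall_congr' fun e => sub_eq_zero) (forall_congr' fun i => neg_eq_zero)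

theorem continuous_lie {T : Type*} [TopologicalSpace T] {ξ : T → Q.En ℂ} {s : T → Q.N ℂ}
    (hξ : Continuous ξ) (hs : Continuous s) : Continuous fun τ => Q.lie (ξ τ) (s τ) := by
  simp only [Quiv.lie, LinearMap.coe_mk, AddHom.coe_mk]
  fun_prop

/-- Pairs `(s, ξ)` with `ξ s = 0` such that the spectrum of `ξ` lies in `K`. -/
noncomputable def Cm (A : Flav Q Φ) (K : Set ℂ) :
    SubMulAction (GG (Q.nn Φ)) (A.NN × Ad Q Φ) where
  carrier := {x | Q.lie x.2.en x.1 = 0 ∧ Sp.spec x.2.en ⊆ K}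
  smul_mem' g x h := ⟨(lie_conj g x.2.en x.1).trans (by rw [h.1, map_zero]),
    (Sp.spec_conj x.2.en (ga_inv g)).subset.trans h.2⟩

theorem mem_Cm {K : Set ℂ} {x : A.NN × Ad Q Φ} :
    x ∈ Cm A K ↔ Q.lie x.2.en x.1 = 0 ∧ Sp.spec x.2.en ⊆ K := Iff.rfl

theorem Cm_mono (A : Flav Q Φ) {K K' : Set ℂ} (h : K ⊆ K') : Cm A K ≤ Cm A K' :=
  fun _ hx => ⟨hx.1, hx.2.trans h⟩

theorem isClosed_lie : IsClosed {x : A.NN × Ad Q Φ | Q.lie x.2.en x.1 = 0} :=
  isClosed_eq (continuous_lie (continuous_en.comp continuous_snd) continuous_fst) continuous_const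

theorem isClosed_Cm {K : Set ℂ} (hK : IsClosed K) : IsClosed (Cm A K : Set (A.NN × Ad Q Φ)) :=
  isClosed_lie.inter ((Sp.isClosed_spec_subset hK).preimage (continuous_en.comp continuous_snd))

theorem isLocallyClosed_Cm {K : Set ℂ} (hK : IsLocallyClosed K) :
    IsLocallyClosed (Cm A K : Set (A.NN × Ad Q Φ)) := by
  obtain ⟨O, C, hO, hC, rfl⟩ := hK
  refine ⟨_, _, (Sp.isOpen_spec_subset hO).preimage (continuous_en.comp continuous_snd),
    isClosed_Cm hC, Set.ext fun x => ?_⟩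
  exact ⟨fun h => ⟨h.2.trans inter_subset_left, h.1, h.2.trans inter_subset_right⟩,
    fun h => ⟨h.2.1, subset_inter h.1 h.2.2⟩⟩

theorem nice_of_lc {X : Type} [TopologicalSpace X] [Nice X] {S : Set X} (h : IsLocallyClosed S) :
    Nice S := ⟨inferInstance, h.locallyCompactSpace, inferInstance⟩

theorem nice_prod (A : Flav Q Φ) : Nice (A.NN × Ad Q Φ) :=
  ⟨inferInstance, inferInstance, inferInstance⟩

theorem nice_Cm {K : Set ℂ} (hK : IsLocallyClosed K) : Nice (Cm A K) :=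
  have := nice_prod A
  nice_of_lc (isLocallyClosed_Cm hK)

instance : Nice (Cm A Sp.ray) := nice_Cm Sp.isClosed_ray.isLocallyClosed

instance : Nice (Cm A Sp.seg) := nice_Cm Sp.isClosed_seg.isLocallyClosed

instance : Nice (Cm A {0}) := nice_Cm isClosed_singleton.isLocallyClosed

instance : Nice (Cm A (Sp.seg \ {1})) :=
  nice_Cm (Sp.isClosed_seg.isLocallyClosed.inter isOpen_compl_singleton.isLocallyClosed)

theorem continuous_mu {T : Type*} [TopologicalSpace T] {z : T → A.NN × A.ND} {ξ : T → Q.En ℂ}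
    (hz : Continuous z) (hξ : Continuous ξ) : Continuous fun τ => mu (z τ) (ξ τ) :=
  continuous_lf₂ (p := fun τ => (z τ).2) (s := fun τ => Q.lie (ξ τ) (z τ).1) hz.snd
    (continuous_lie hξ hz.fst)

theorem isClosed_Zlev (θ : I → ℝ) : IsClosed (Zlev A θ : Set (A.NN × A.ND)) := by
  have : (Zlev A θ : Set (A.NN × A.ND)) = ⋂ ξ, {z | mu z ξ = cen (Q := Q.qd) θ ξ} :=
    Set.ext fun _ => ⟨fun h => mem_iInter.2 h, fun h => mem_iInter.1 h⟩
  exact this ▸ isClosed_iInter fun ξ =>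
    isClosed_eq (continuous_mu continuous_id continuous_const) continuous_const

instance (θ : I → ℝ) : Nice (Zlev A θ) :=
  have : Nice (A.NN × A.ND) := ⟨inferInstance, inferInstance, inferInstance⟩
  nice_of_lc (isClosed_Zlev θ).isLocallyClosed

/-- The annihilator of a vector is stable under translation of spectral parts. -/
theorem lie_translate {ξ : Q.En ℂ} {s : Q.N ℂ} (h : Q.lie ξ s = 0) {B : Set ℂ} (hB : (0 : ℂ) ∉ B)
    (t : ℂ) : Q.lie (ξ + t • Sp.prj B ξ) s = 0 := by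
  have h1 : Q.lie (Sp.prj B ξ) s = 0 := lie_eq_zero.2
    ⟨fun e => Sp.prj_intertwine B ξ ((lie_eq_zero.1 h).1 e),
      fun i => Sp.mul_prj_eq_zero hB ξ ((lie_eq_zero.1 h).2 i)⟩
  rw [KN.lie_add, KN.lie_smul, LinearMap.add_apply, LinearMap.smul_apply, h, h1, smul_zero, add_zero]

theorem lie_mob {ξ : Q.En ℂ} {s : Q.N ℂ} (h : Q.lie ξ s = 0) {a : ℂ}
    (ha : ∀ t ∈ Sp.spec ξ, 1 + a * t ≠ 0) : Q.lie (Sp.mob a ξ) s = 0 := lie_eq_zero.2
  ⟨fun e => Sp.mob_intertwine ha ((lie_eq_zero.1 h).1 e),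
    fun i => Sp.mul_mob_eq_zero a ξ ((lie_eq_zero.1 h).2 i)⟩

end Vale.Agent.P291Z.Four
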