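import Vale.Agent.P291Z.Fou0
import Vale.Agent.P291Z.FouG

/-!
# The Fourier transform step
-/

set_option linter.unusedSectionVars false

namespace Vale.Agent.P291Z.Four

open Matrix Module Set Function Topology Quiv Flav KN

theorem null_half {W : Type} [AddCommGroup W] [Module ℂ W] [TopologicalSpace W]
    [IsTopologicalAddGroup W] [ContinuousSMul ℂ W] [Nice W] {ℓ : W →ₗ[ℂ] ℂ} (hℓ : Continuous ℓ)
    {w₀ : W} (h : ℓ w₀ ≠ 0) (c : ℝ) : Null {w | 0 ≤ (ℓ w).im + c} := by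
  have h1 := null_of_flow (S := (univ : Set W)) isClosed_univ.isLocallyClosed
    (fun t w => w + ((t : ℂ) * (Complex.I / ℓ w₀)) • w₀) (fun _ _ _ => trivial) (by fun_prop)
    (fun w _ => by simp) (fun t w _ => by simp) (f := fun w => (ℓ w).im + c) (by fun_prop)
    fun t w _ => by
      rw [map_add, map_smul, smul_eq_mul, mul_assoc, div_mul_cancel₀ _ h]
      simp only [Complex.add_im, Complex.mul_im, Complex.ofReal_re, Complex.I_im, mul_one,
        Complex.ofReal_im, Complex.I_re, mul_zero, add_zero]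
      ring
  rwa [univ_inter] at h1

variable {I E Φ : Type} {Q : Quiv I E} [Fintype Φ] [Fintype I] [Fintype E] {A : Flav Q Φ}

instance : IsTopologicalAddGroup (Ad Q Φ) := inferInstanceAs (IsTopologicalAddGroup (Q.En ℂ))

instance : ContinuousSMul ℂ (Ad Q Φ) := inferInstanceAs (ContinuousSMul ℂ (Q.En ℂ))

instance : IsTopologicalAddGroup A.NN := inferInstanceAs (IsTopologicalAddGroup (Q.N ℂ))

instance : ContinuousSMul ℂ A.NN := inferInstanceAs (ContinuousSMul ℂ (Q.N ℂ))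

instance : IsTopologicalAddGroup A.ND := inferInstanceAs (IsTopologicalAddGroup (Q.N ℂ →L[ℂ] ℂ))

instance : ContinuousSMul ℂ A.ND := inferInstanceAs (ContinuousSMul ℂ (Q.N ℂ →L[ℂ] ℂ))

theorem continuous_cen (θ : I → ℝ) : Continuous (cen (Q := Q.qd) θ) := Sp.continuous_pr θ

theorem conj_conj (g : GG (Q.nn Φ)) (ξ : Q.En ℂ) :
    ga Q Φ g⁻¹ * (ga Q Φ g * ξ * ga Q Φ g⁻¹) * ga Q Φ g = ξ := by
  have h := End.mul_eq_one_comm (Q := Q.qd) (ga_inv g)
  rw [← mul_assoc, ← mul_assoc, h, one_mul, mul_assoc, h, mul_one]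

theorem cen_smul' (θ : I → ℝ) (g : GG (Q.nn Φ)) (ξ : Ad Q Φ) :
    cen (Q := Q.qd) θ (g • ξ).en = cen (Q := Q.qd) θ ξ.en :=
  cen_conj θ (End.mul_eq_one_comm (Q := Q.qd) (ga_inv g)) ξ.en

/-- The total space of the Fourier transform. -/
noncomputable def Zf (A : Flav Q Φ) (θ : I → ℝ) :
    SubMulAction (GG (Q.nn Φ)) ((A.NN × A.ND) × Ad Q Φ) where
  carrier := {x | 0 ≤ (mu x.1 x.2.en - cen (Q := Q.qd) θ x.2.en).im}
  smul_mem' g x h := by
    change 0 ≤ (mu (g • x.1) (g • x.2).en - cen (Q := Q.qd) θ (g • x.2).en).im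
    rwa [cen_smul', KN.mu_smul_eq, en_smul, conj_conj]

/-- The commuting pairs in a half-space. -/
noncomputable def Cle (A : Flav Q Φ) (θ : I → ℝ) : SubMulAction (GG (Q.nn Φ)) (A.NN × Ad Q Φ) where
  carrier := {x | Q.lie x.2.en x.1 = 0 ∧ (cen (Q := Q.qd) θ x.2.en).im ≤ 0}
  smul_mem' g x h := ⟨(lie_conj g x.2.en x.1).trans (by rw [h.1, map_zero]),
    (congrArg Complex.im (cen_smul' θ g x.2)).trans_le h.2⟩

theorem isClosed_Cle (θ : I → ℝ) : IsClosed (Cle A θ : Set (A.NN × Ad Q Φ)) :=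
  isClosed_lie.inter (isClosed_le (Complex.continuous_im.comp ((continuous_cen θ).comp
    (continuous_en.comp continuous_snd))) continuous_const)

instance (θ : I → ℝ) : Nice (Cle A θ) :=
  Nice.of_isLocallyClosed (isClosed_Cle θ).isLocallyClosed

instance (θ : I → ℝ) : Nice (Zf A θ) :=
  Nice.of_isLocallyClosed (isClosed_le continuous_const (Complex.continuous_im.comp
    ((continuous_mu continuous_fst (continuous_en.comp continuous_snd)).sub
      ((continuous_cen θ).comp (continuous_en.comp continuous_snd))))).isLocallyClosed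

variable [Sys (GG (Q.nn Φ))]

theorem iso_Zf_Zlev (θ : I → ℝ) :
    EHIso (GG (Q.nn Φ)) (Zf A θ) (Zlev A θ) (-(2 * (finrank ℂ (Q.En ℂ) : ℕ))) := by
  refine ehIso_half isRep_Ad (p := ⟨Prod.fst, fun _ _ => rfl⟩) (κ := ⟨Prod.snd, fun _ _ => rfl⟩)
    IsHomeomorph.id (s := ⟨fun z => (z, 0), fun g z => Prod.ext rfl (smul_zero g).symm⟩)
    (fun _ => rfl) (fun _ => rfl) (isClosed_Zlev θ) (fun x hx => ?_) fun b hb => ?_
  · change 0 ≤ (mu x.1 x.2.en - cen (Q := Q.qd) θ x.2.en).im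
    rw [show mu x.1 x.2.en = _ from hx x.2.en, sub_self, Complex.zero_im]
  · obtain ⟨ξ₀, h⟩ := not_forall.1 hb
    let ℓ : Ad Q Φ →ₗ[ℂ] ℂ :=
      { toFun := fun ξ => mu b ξ.en - cen (Q := Q.qd) θ ξ.en
        map_add' := fun ξ η => by
          change mu b (ξ.en + η.en) - cen (Q := Q.qd) θ (ξ.en + η.en) = _
          rw [← mu_pt, ← mu_pt, ← mu_pt, mu_add, cen_add]
          ring
        map_smul' := fun c ξ => by
          change mu b (c • ξ.en) - cen (Q := Q.qd) θ (c • ξ.en) = c * _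
          rw [← mu_pt, ← mu_pt, KN.mu_smul, cen_smul, mul_sub] }
    have h1 : Continuous ℓ :=
      (continuous_mu continuous_const continuous_en).sub ((continuous_cen θ).comp continuous_en)
    refine (Null.of_embedding (isEmbedding_prodMkRight b)
      (null_half h1 (w₀ := ξ₀) (sub_ne_zero.2 h) 0)).congr fun x => ⟨?_, ?_⟩
    · rintro ⟨rfl, hx⟩
      exact ⟨x.2, le_of_le_of_eq hx (add_zero (ℓ x.2).im).symm, rfl⟩
    · rintro ⟨ξ, hξ, rfl⟩
      exact ⟨rfl, le_of_le_of_eq hξ (add_zero (ℓ ξ).im)⟩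

theorem iso_Zf_Cle (θ : I → ℝ) :
    EHIso (GG (Q.nn Φ)) (Zf A θ) (Cle A θ) (-(2 * (finrank ℂ (Q.N ℂ) : ℕ))) := by
  refine ehIso_half isRep_ND (p := ⟨fun x => (x.1.1, x.2), fun _ _ => rfl⟩)
    (κ := ⟨fun x => x.1.2, fun _ _ => rfl⟩) ?_
    (s := ⟨fun y => ((y.1, 0), y.2), fun g z => Prod.ext (Prod.ext rfl (smul_zero g).symm) rfl⟩)
    (fun _ => rfl) (fun _ => rfl) (isClosed_Cle θ) (fun x hx => ?_) fun b hb => ?_
  · exact isHomeomorph_iff_exists_inverse.2 ⟨(continuous_fst.fst.prodMk continuous_snd).prodMk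
      continuous_fst.snd, fun y => ((y.1.1, y.2), y.1.2), fun _ => rfl, fun _ => rfl, by fun_prop⟩
  · change 0 ≤ (lf x.1.2 (Q.lie x.2.en x.1.1) - cen (Q := Q.qd) θ x.2.en).im
    rw [show Q.lie x.2.en x.1.1 = 0 from hx.1, map_zero, zero_sub, Complex.neg_im]
    exact neg_nonneg.2 hx.2
  · by_cases h : Q.lie b.2.en b.1 = 0
    · refine null_of_forall_not ?_
      rintro x ⟨rfl, hx⟩
      refine hb ⟨h, ?_⟩
      change 0 ≤ (lf x.1.2 (Q.lie x.2.en x.1.1) - cen (Q := Q.qd) θ x.2.en).im at hx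
      rw [show Q.lie x.2.en x.1.1 = 0 from h, map_zero, zero_sub, Complex.neg_im] at hx
      exact neg_nonneg.1 hx
    · let ℓ : A.ND →ₗ[ℂ] ℂ := ⟨⟨fun p => lf p (Q.lie b.2.en b.1), fun _ _ => rfl⟩, fun _ _ => rfl⟩
      obtain ⟨p₀, h0⟩ : ∃ p, ℓ p ≠ 0 := by
        by_contra h1
        refine h (hN_ext fun s => ?_)
        have h2 : hN (Q.lie b.2.en b.1) s = 0 := not_not.1 fun h2 => h1 ⟨flat A s, h2⟩
        rw [← star_hN, h2, star_zero]
        simp [hN]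
      have he : IsEmbedding fun p : A.ND => ((b.1, p), b.2) :=
        (isEmbedding_prodMkLeft b.2).comp (isEmbedding_prodMkRight b.1)
      have h3 : ∀ p : A.ND, ((b.1, p), b.2) ∈ Zf A θ ↔
          0 ≤ (ℓ p).im + -(cen (Q := Q.qd) θ b.2.en).im := fun p => by
        rw [← sub_eq_add_neg, ← Complex.sub_im]
        rfl
      refine (Null.of_embedding he (null_half (continuous_lf _) h0
        (-(cen (Q := Q.qd) θ b.2.en).im))).congr fun x => ⟨?_, ?_⟩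
      · rintro ⟨rfl, hx⟩
        exact ⟨x.1.2, (h3 _).1 hx, rfl⟩
      · rintro ⟨p, hp, rfl⟩
        exact ⟨rfl, (h3 p).2 hp⟩

theorem isClosed_ann (s : Q.N ℂ) : IsClosed {ξ : Q.En ℂ | Q.lie ξ s = 0} :=
  isClosed_eq (continuous_lie continuous_id continuous_const) continuous_const

theorem ray_le_Cle (θ : I → ℝ) : Cm A Sp.ray ≤ Cle A θ :=
  fun _ h => ⟨h.1, (Sp.pr_im_of_ray θ h.2).le⟩

theorem iso_ray_Cle {θ : I → ℝ} (hθ : Gen Q.qd θ) :
    IsoEH (epush (sincl (ray_le_Cle (A := A) θ))) 0 := by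
  refine isoEH_sincl _ (isClosed_Cm Sp.isClosed_ray) (fun _ _ => Iff.rfl)
    (p := ⟨Prod.fst, fun _ _ => rfl⟩) continuous_fst fun s => ?_
  refine (Null.of_embedding (e := fun ξ : Q.En ℂ => ((s, ξ) : A.NN × Ad Q Φ))
    (isEmbedding_prodMkRight s) (Sp.null_off_ray hθ (isClosed_ann s).isLocallyClosed
      fun ξ h B hB t => lie_translate h hB t)).congr fun x => ⟨?_, ?_⟩
  · rintro ⟨rfl, h1, h2⟩
    exact ⟨x.2, ⟨h1.1, h1.2, fun h => h2 ⟨h1.1, h⟩⟩, rfl⟩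
  · rintro ⟨ξ, h, rfl⟩
    exact ⟨rfl, ⟨h.1, h.2.1⟩, fun h' => h.2.2 h'.2⟩

/-- **The Fourier transform.** -/
theorem iso_Zlev_ray {θ : I → ℝ} (hθ : Gen Q.qd θ) : EHIso (GG (Q.nn Φ)) (Zlev A θ) (Cm A Sp.ray)
    (2 * (finrank ℂ (Q.En ℂ) : ℕ) - 2 * (finrank ℂ (Q.N ℂ) : ℕ)) :=
  ((iso_Zf_Zlev θ).symm.trans (iso_Zf_Cle θ) rfl).trans ⟨_, (iso_ray_Cle hθ).symm⟩ (by ring)

/-- The Cayley transform. -/
noncomputable def cay (A : Flav Q Φ) : Cm A Sp.ray →[GG (Q.nn Φ)] Cm A (Sp.seg \ {1}) where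
  toFun x := ⟨(x.1.1, Sp.mob 1 x.1.2.en), lie_mob x.2.1 fun _ h => Sp.ray_ne (x.2.2 h),
    Sp.spec_mob_ray x.2.2⟩
  map_smul' g x := Subtype.ext (Prod.ext rfl (Sp.mob_conj 1 x.1.2.en (ga_inv g)))

theorem isHomeomorph_cay : IsHomeomorph (cay A) := by
  refine isHomeomorph_iff_exists_inverse.2 ⟨?_, fun x => ⟨(x.1.1, Sp.mob (-1) x.1.2.en),
    lie_mob x.2.1 fun _ h => Sp.seg_ne (x.2.2 h).2, Sp.spec_mob_seg x.2.2⟩,
    fun x => Subtype.ext (Prod.ext rfl (Sp.mob_mob fun _ h => Sp.ray_ne (x.2.2 h))),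
    fun x => Subtype.ext (Prod.ext rfl ?_), ?_⟩
  · exact (continuous_subtype_val.fst.prodMk (Sp.continuous_mob 1
      (continuous_en.comp continuous_subtype_val.snd) fun x _ h => Sp.ray_ne (x.2.2 h))).subtype_mk _
  · have := Sp.mob_mob (a := -1) fun _ h => Sp.seg_ne (x.2.2 h).2
    rwa [neg_neg] at this
  · exact (continuous_subtype_val.fst.prodMk (Sp.continuous_mob (-1)
      (continuous_en.comp continuous_subtype_val.snd)
        fun x _ h => Sp.seg_ne (x.2.2 h).2)).subtype_mk _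

theorem iso_cay : IsoEH (epush (cay A)) 0 := isoEH_homeo isHomeomorph_cay

theorem zero_subset_seg : ({0} : Set ℂ) ⊆ Sp.seg := by
  rintro _ rfl
  exact ⟨le_rfl, zero_le_one, rfl⟩

/-- **The interval trick.** -/
theorem iso_nil_seg : IsoEH (epush (sincl (Cm_mono A zero_subset_seg))) 0 := by
  refine isoEH_sincl _ (isClosed_Cm isClosed_singleton) (fun _ _ => Iff.rfl)
    (p := ⟨Prod.fst, fun _ _ => rfl⟩) continuous_fst fun s => ?_
  refine (Null.of_embedding (e := fun ξ : Q.En ℂ => ((s, ξ) : A.NN × Ad Q Φ))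
    (isEmbedding_prodMkRight s) (Sp.null_off_nil (isClosed_ann s).isLocallyClosed
      fun ξ h a _ => ?_)).congr fun x => ⟨?_, ?_⟩
  · change Q.lie ((a : ℂ) • ξ) s = 0
    rw [KN.lie_smul]
    exact (congrArg ((a : ℂ) • ·) h).trans (smul_zero _)
  · rintro ⟨rfl, h1, h2⟩
    exact ⟨x.2, ⟨h1.1, h1.2, fun h => h2 ⟨h1.1, h⟩⟩, rfl⟩
  · rintro ⟨ξ, h, rfl⟩
    exact ⟨rfl, ⟨h.1, h.2.1⟩, fun h' => h.2.2 h'.2⟩

end Vale.Agent.P291Z.Four
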