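import Vale.Agent.P291Z.Fou1
import Vale.Agent.P291Z.KNB3

/-!
# The Kempf-Ness homeomorphism on equivariant homology
-/

set_option linter.unusedSectionVars false

namespace Vale.Agent.P291Z

open Set Function Topology

section general

variable {G : Type} [Group G] [TopologicalSpace G] [Sys G] {X Y : Type} [TopologicalSpace X]
  [MulAction G X] [Nice X] [ContinuousSMul G X] [TopologicalSpace Y] [MulAction G Y] [Nice Y]
  [ContinuousSMul G Y]

theorem zset_col (M : ℕ) :
    zset G (fun x : X × Sys.P G (M + 1) => Sys.col M x.2) = range (binc G X M) := by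
  refine Set.ext fun x => ⟨?_, ?_⟩
  · rintro ⟨y, hy, rfl⟩
    obtain ⟨u, hu⟩ := (Sys.col_zero M y.2).1 hy
    exact ⟨Bor.mk G (y.1, u), congrArg (Bor.mk G) (Prod.ext rfl hu)⟩
  · rintro ⟨y, rfl⟩
    induction y using Quotient.inductionOn' with | h y =>
    exact ⟨(y.1, Sys.inc M y.2), (Sys.col_zero M _).2 ⟨_, rfl⟩, rfl⟩

variable {f : ∀ M, X × Sys.P G M → Y}
  (hf : ∀ M (g : G) x, (f M (g • x), (g • x).2) = (MonoidHom.id G) g • (f M x, x.2))
  (hi : ∀ M x u, f (M + 1) (x, Sys.inc M u) = f M (x, u))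
include hi

/-- Maps over the classifying spaces. -/
theorem isLev_over (hc : ∀ M, Continuous (f M)) :
    IsLev (fun M => Bor.map (MonoidHom.id G) (fun x => (f M x, x.2)) (hf M)) 0 where
  cont M := Bor.continuous_map (hf M) (hc M)
  comm M x := by
    induction x using Quotient.inductionOn' with | h x =>
    exact congrArg (Bor.mk G) (Prod.ext (hi M x.1 x.2) rfl)
  cart M x hx := by
    induction x using Quotient.inductionOn' with | h x =>
    rw [← zset_col] at hx ⊢
    obtain ⟨y, hy, e⟩ := hx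
    obtain ⟨g, hg⟩ := Bor.mk_eq_iff.1 e
    refine ⟨x, ?_, rfl⟩
    change Sys.col M x.2 = 0
    rw [← show g • y.2 = x.2 from congrArg Prod.snd hg, Sys.col_smul,
      show Sys.col M y.2 = 0 from hy, smul_zero]
  col M := by
    rw [← zset_col]
    exact euler_pull isRep_sysW isRep_sysW (MonoidHom.id G) (hf (M + 1))
      ((hc _).prodMk continuous_snd) _ ((Sys.col_cont M).comp continuous_snd) _
      ((Sys.col_cont M).comp continuous_snd) (fun _ => LinearMap.id) continuous_snd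
      (fun _ => bijective_id) (fun _ _ _ => rfl) fun _ => rfl
  dim _ := (add_zero _).symm

theorem isoEH_over (h : ∀ M, IsHomeomorph fun x : X × Sys.P G M => (f M x, x.2)) :
    IsoEH (lpush fun M => Bor.map (MonoidHom.id G) (fun x => (f M x, x.2)) (hf M)) 0 := by
  have h1 := isLev_over hf hi fun M => continuous_fst.comp (h M).continuous
  have h2 := fun M => Bor.isHomeomorph_map (hf M) (h M)
  have h3 := fun M => IsPr.of_isClosedEmbedding (h2 M).isClosedEmbedding
  refine ⟨lpush_bijective h1 h2, fun r β => EH.ext fun M => ?_, fun k β hβ => ?_⟩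
  · rw [lpush_apply h1 h3, EH.smul_apply, EH.smul_apply, lpush_apply h1 h3]
    refine Eq.trans ?_ (push_cap (f := ⟨_, h1.cont M⟩) (h3 M) _ _)
    rw [H.map_map]
    have h4 : (bptC G Y M).comp ⟨_, h1.cont M⟩ = bptC G X M := ContinuousMap.ext fun x => by
      induction x using Quotient.inductionOn' with | h x => rfl
    rw [h4]
    rfl
  · simpa using lpush_deg h1 h3 hβ

end general

namespace Four

open Flav KN

variable {I E Φ : Type} {Q : Quiv I E} [Fintype Φ] [Fintype I] [Fintype E] {A : Flav Q Φ}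

/-- Level maps between the Borel spaces of the stable locus and of a generic fibre. -/
theorem exists_over [Sys (GG (Q.nn Φ))] {t : ∀ M, Sys.P (GG (Q.nn Φ)) M → Φ → ℝ}
    (ht : ∀ M, Continuous (t M))
    (hs : ∀ M (h : GG (Q.nn Φ)) u, t M (h • u) = lg h + t M u)
    (hi : ∀ M u, t (M + 1) (Sys.inc M u) = t M u) {ν : I → ℤ} (hν : A.Regular ν) :
    ∃ θ : I → ℝ, Gen Q.qd θ ∧ ∃ f : ∀ M, A.Zst ν × Sys.P (GG (Q.nn Φ)) M → Zlev A θ,
      (∀ M (g : GG (Q.nn Φ)) x, (f M (g • x), (g • x).2) = (MonoidHom.id _) g • (f M x, x.2)) ∧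
      (∀ M x u, f (M + 1) (x, Sys.inc M u) = f M (x, u)) ∧
      ∀ M, IsHomeomorph fun x : A.Zst ν × Sys.P (GG (Q.nn Φ)) M => (f M x, x.2) := by
  obtain ⟨θ, h0, a, b, ha, hb, h1, h2, h3⟩ := exists_maps hν
  refine ⟨θ, h0, fun M x => a (x.1, t M x.2), fun M g x => Prod.ext ?_ rfl,
    fun M x u => congrArg (fun s => a (x, s)) (hi M u), fun M => ?_⟩
  · exact (congrArg (fun s => a (g • x.1, s)) (hs M g x.2)).trans (h3 g x.1 _)
  · have := ht M
    exact isHomeomorph_iff_exists_inverse.2 ⟨by fun_prop, fun y => (b (y.1, t M y.2), y.2),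
      fun x => Prod.ext (h1 _ _) rfl, fun y => Prod.ext (h2 _ _) rfl, by fun_prop⟩

theorem iso_Zst_Zlev [Sys (GG (Q.nn Φ))] {t : ∀ M, Sys.P (GG (Q.nn Φ)) M → Φ → ℝ}
    (ht : ∀ M, Continuous (t M))
    (hs : ∀ M (h : GG (Q.nn Φ)) u, t M (h • u) = lg h + t M u)
    (hi : ∀ M u, t (M + 1) (Sys.inc M u) = t M u) {ν : I → ℤ} (hν : A.Regular ν) [Nice (A.Zst ν)] :
    ∃ θ : I → ℝ, Gen Q.qd θ ∧ EHIso (GG (Q.nn Φ)) (A.Zst ν) (Zlev A θ) 0 := by
  obtain ⟨θ, h0, f, h1, h2, h3⟩ := exists_over ht hs hi hν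
  exact ⟨θ, h0, _, isoEH_over h1 h2 h3⟩

end Four

end Vale.Agent.P291Z
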