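import Vale.Agent.P291Z.Fou0

/-!
# The moment map is a submersion along generic fibres
-/

set_option linter.unusedSectionVars false

namespace Vale.Agent.P291Z.Four

open Matrix Module Set Function Topology Quiv Flav KN

/-- Local charts for a quadratic map with surjective derivative. -/
theorem exists_chart {X W : Type} [AddCommGroup X] [Module ℂ X] [TopologicalSpace X]
    [AddCommGroup W] [Module ℂ W] [TopologicalSpace W] {r s : ℕ} (LX : X ≃L[ℂ] (Fin r → ℂ))
    (LW : W ≃L[ℂ] (Fin s → ℂ)) (B : X →ₗ[ℂ] X →ₗ[ℂ] W) (c : W) (a : X)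
    (hs : Surjective fun x => B x a + B a x) :
    ∃ (d : ℕ) (e : OpenPartialHomeomorph X ((Fin d → ℂ) × W)), d + s = r ∧ a ∈ e.source ∧
      ∀ x ∈ e.source, (e x).2 = B x x - c := by
  let B₁ : (Fin r → ℂ) →ₗ[ℂ] (Fin r → ℂ) →ₗ[ℂ] (Fin s → ℂ) :=
    (B.compl₁₂ LX.symm.toLinearEquiv.toLinearMap LX.symm.toLinearEquiv.toLinearMap).compr₂
      LW.toLinearEquiv.toLinearMap
  let B₂ : (Fin r → ℂ) →L[ℂ] (Fin r → ℂ) →L[ℂ] (Fin s → ℂ) :=
    LinearMap.toContinuousLinearMap (LinearMap.toContinuousLinearMap.toLinearMap ∘ₗ B₁)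
  have h1 := (B₂.hasStrictFDerivAt_of_bilinear (hasStrictFDerivAt_id (LX a))
    (hasStrictFDerivAt_id (LX a))).sub_const (LW c)
  set f' := B₂.precompR (Fin r → ℂ) (id (LX a)) (ContinuousLinearMap.id ℂ _) +
    B₂.precompL (Fin r → ℂ) (ContinuousLinearMap.id ℂ _) (id (LX a)) with hf'
  have h2 : f'.range = ⊤ := LinearMap.range_eq_top.2 fun w => by
    obtain ⟨x, hx⟩ := hs (LW.symm w)
    refine ⟨LX x, ?_⟩
    change LW (B (LX.symm (LX a)) (LX.symm (LX x))) + LW (B (LX.symm (LX x)) (LX.symm (LX a))) = w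
    rw [LX.symm_apply_apply, LX.symm_apply_apply, ← map_add, add_comm,
      show B x a + B a x = LW.symm w from hx, LW.apply_symm_apply]
  have h3 : finrank ℂ f'.ker + s = r := by
    have := f'.toLinearMap.finrank_range_add_finrank_ker
    rw [h2, finrank_top, finrank_fin_fun, finrank_fin_fun] at this
    omega
  let K : f'.ker ≃L[ℂ] (Fin (finrank ℂ f'.ker) → ℂ) :=
    ContinuousLinearEquiv.ofFinrankEq (finrank_fin_fun ℂ).symm
  refine ⟨_, LX.toHomeomorph.transOpenPartialHomeomorph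
    ((h1.implicitToOpenPartialHomeomorph _ f' h2).transHomeomorph
      ((Homeomorph.prodComm _ _).trans (K.toHomeomorph.prodCongr LW.symm.toHomeomorph))), h3,
    h1.mem_implicitToOpenPartialHomeomorph_source h2, fun x _ => ?_⟩
  change LW.symm (LW (B (LX.symm (LX x)) (LX.symm (LX x))) - LW c) = _
  rw [← map_sub, LW.symm_apply_apply, LX.symm_apply_apply]

variable {I E Φ : Type} {Q : Quiv I E} [Fintype Φ] [Fintype I] [Fintype E] {A : Flav Q Φ}

/-- The trace form. -/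
noncomputable def tp (Q : Quiv I E) : Q.En ℂ →ₗ[ℂ] Dual ℂ (Q.En ℂ) :=
  LinearMap.mk₂ ℂ (fun a ξ => ∑ i, (a i * ξ i).trace)
    (fun a b ξ => by simp [Matrix.add_mul, Finset.sum_add_distrib])
    (fun c a ξ => by simp [Finset.mul_sum])
    (fun a ξ η => by simp [Matrix.mul_add, Finset.sum_add_distrib])
    fun c a ξ => by simp [Finset.mul_sum]

theorem tp_apply (a ξ : Q.En ℂ) : tp Q a ξ = ∑ i, (a i * ξ i).trace := rfl

theorem tp_injective : Injective (tp Q) := by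
  classical
  refine (injective_iff_map_eq_zero _).2 fun a h => funext fun i => Matrix.ext fun p q => ?_
  have h1 : tp Q a (Pi.single i (Matrix.single q p 1)) = 0 := by rw [h]; rfl
  rw [tp_apply, Finset.sum_eq_single i (fun j _ hj => by simp [Pi.single_eq_of_ne hj])
    (fun h => absurd (Finset.mem_univ _) h), Pi.single_eq_same, trace_mul_single] at h1
  simpa using h1

/-- The trace form as an isomorphism with the dual space. -/
noncomputable def tpE (Q : Quiv I E) : Q.En ℂ ≃ₗ[ℂ] Dual ℂ (Q.En ℂ) :=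
  LinearMap.linearEquivOfInjective (tp Q) tp_injective Subspace.dual_finrank_eq.symm

theorem tp_symm (ℓ : Dual ℂ (Q.En ℂ)) : tp Q ((tpE Q).symm ℓ) = ℓ := (tpE Q).apply_symm_apply ℓ

theorem tp_conj (g a h ξ : Q.En ℂ) : tp Q (g * a * h) ξ = tp Q a (h * ξ * g) :=
  Finset.sum_congr rfl fun i _ => by
    simp only [Pi.mul_apply]
    rw [Matrix.mul_assoc, Matrix.mul_assoc, trace_mul_comm]
    simp only [Matrix.mul_assoc]

/-- The bilinear form of the moment map. -/
noncomputable def muB (A : Flav Q Φ) : A.NN × A.ND →ₗ[ℂ] A.NN × A.ND →ₗ[ℂ] Dual ℂ (Q.En ℂ) :=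
  LinearMap.mk₂ ℂ (fun z z' => lf z'.2 ∘ₗ (lieL Q).flip z.1)
    (fun a b z => LinearMap.ext fun ξ => (congrArg (lf z.2) (map_add (Q.lie ξ) a.1 b.1)).trans
      (map_add _ _ _))
    (fun c a z => LinearMap.ext fun ξ => (congrArg (lf z.2) (map_smul (Q.lie ξ) c a.1)).trans
      (map_smul _ _ _))
    (fun _ _ _ => rfl) fun _ _ _ => rfl

theorem muB_apply (z z' : A.NN × A.ND) (ξ : Q.En ℂ) : muB A z z' ξ = lf z'.2 (Q.lie ξ z.1) := rfl

/-- The moment map with values in the adjoint representation, bilinear version. -/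
noncomputable def muA (A : Flav Q Φ) : A.NN × A.ND →ₗ[ℂ] A.NN × A.ND →ₗ[ℂ] Ad Q Φ :=
  (muB A).compr₂ (show Dual ℂ (Q.En ℂ) →ₗ[ℂ] Ad Q Φ from (tpE Q).symm.toLinearMap)

theorem tp_muA (z z' : A.NN × A.ND) (ξ : Q.En ℂ) :
    tp Q (muA A z z').en ξ = lf z'.2 (Q.lie ξ z.1) := congrArg (· ξ) (tp_symm (muB A z z'))

/-- The central element. -/
noncomputable def cenA (Q : Quiv I E) (Φ : Type) (θ : I → ℝ) : Ad Q Φ := fun i => (θ i : ℂ) • 1

theorem tp_cenA (θ : I → ℝ) (ξ : Q.En ℂ) : tp Q (cenA Q Φ θ).en ξ = cen (Q := Q.qd) θ ξ :=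
  Finset.sum_congr rfl fun i _ => by
    change (((θ i : ℂ) • (1 : Matrix _ _ ℂ)) * ξ i).trace = _
    rw [Matrix.smul_mul, Matrix.one_mul, trace_smul, smul_eq_mul]

theorem tp_mom (θ : I → ℝ) (z : A.NN × A.ND) (ξ : Q.En ℂ) :
    tp Q (muA A z z - cenA Q Φ θ).en ξ = mu z ξ - cen (Q := Q.qd) θ ξ := by
  rw [show (muA A z z - cenA Q Φ θ).en = (muA A z z).en - (cenA Q Φ θ).en from rfl, map_sub,
    LinearMap.sub_apply, tp_muA, tp_cenA, mu_def]

/-- The shifted moment map as an equivariant map. -/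
noncomputable def mom (A : Flav Q Φ) (θ : I → ℝ) : A.NN × A.ND →[GG (Q.nn Φ)] Ad Q Φ where
  toFun z := muA A z z - cenA Q Φ θ
  map_smul' g z := tp_injective (LinearMap.ext fun ξ => by
    change tp Q (muA A (g • z) (g • z) - cenA Q Φ θ).en ξ =
      tp Q (ga Q Φ g * (muA A z z - cenA Q Φ θ).en * ga Q Φ g⁻¹) ξ
    rw [tp_conj, tp_mom, tp_mom, KN.mu_smul_eq, cen_conj θ (ga_inv g)])

theorem mom_eq_zero {θ : I → ℝ} {z : A.NN × A.ND} : mom A θ z = 0 ↔ z ∈ Zlev A θ := by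
  refine ⟨fun h ξ => sub_eq_zero.1 ?_, fun h => tp_injective (LinearMap.ext fun ξ => ?_)⟩
  · rw [← tp_mom, show muA A z z - cenA Q Φ θ = 0 from h]
    exact congrArg (· ξ) (map_zero (tp Q))
  · exact ((tp_mom θ z ξ).trans (sub_eq_zero.2 (h ξ))).trans (congrArg (· ξ) (map_zero (tp Q))).symm

theorem eq_zero_of_stR {z : A.NN × A.ND} (hz : StR 0 (pt z)) {ξ : Q.En ℂ}
    (h1 : Q.lie ξ z.1 = 0) (h2 : ∀ s, lf z.2 (Q.lie ξ s) = 0) : ξ = 0 := by
  have h3 : Q.lie (star ξ) (sharp z.2) = 0 := hN_ext fun s => by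
    rw [← hN_lie, ← lf_eq_hN, h2]
    simp [hN]
  have h4 := lie_eq_zero.1 h1
  have h5 : ∀ e, ξ (Q.s e) * yy z.2 e = yy z.2 e * ξ (Q.t e) := fun e => by
    have := congrArg conjTranspose ((lie_eq_zero.1 h3).1 e)
    simp only [sharp, Pi.star_apply, star_eq_conjTranspose, conjTranspose_mul,
      conjTranspose_conjTranspose] at this
    exact this.symm
  by_contra h
  have h6 := (hz (fun i => LinearMap.range (ξ i).mulVecLin) fun e => ⟨?_, ?_⟩).1 ?_ ?_
  · simp [pairR] at h6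
  · rintro _ ⟨u, rfl⟩
    refine ⟨z.1.1 e *ᵥ u, ?_⟩
    change ξ _ *ᵥ (z.1.1 e *ᵥ u) = z.1.1 e *ᵥ (ξ _ *ᵥ u)
    rw [mulVec_mulVec, mulVec_mulVec, h4.1 e]
  · rintro _ ⟨u, rfl⟩
    refine ⟨yy z.2 e *ᵥ u, ?_⟩
    change ξ _ *ᵥ (yy z.2 e *ᵥ u) = yy z.2 e *ᵥ (ξ _ *ᵥ u)
    rw [mulVec_mulVec, mulVec_mulVec, h5 e]
  · rintro i _ ⟨u, rfl⟩
    change z.1.2 i *ᵥ (ξ _ *ᵥ u) = 0
    rw [mulVec_mulVec, h4.2 i, zero_mulVec]
  · by_contra h7
    refine h (funext fun i => mat_ext fun u => ?_)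
    have h8 : LinearMap.range (ξ i).mulVecLin = ⊥ := not_not.1 fun h8 => h7 ⟨i, h8⟩
    rw [Pi.zero_apply, zero_mulVec]
    exact (Submodule.eq_bot_iff _).1 h8 _ ⟨u, rfl⟩

theorem surjective_muA {z : A.NN × A.ND} (hz : StR 0 (pt z)) :
    Surjective fun x => muA A x z + muA A z x := by
  let D : A.NN × A.ND →ₗ[ℂ] Dual ℂ (Q.En ℂ) := (muB A).flip z + muB A z
  have h1 : LinearMap.range D = ⊤ := by
    rw [← Subspace.dualCoannihilator_dualAnnihilator_eq (W := LinearMap.range D)]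
    have h2 : (LinearMap.range D).dualCoannihilator = ⊥ := (Submodule.eq_bot_iff _).2 fun ξ hξ => by
      have h3 : ∀ x, D x ξ = 0 := fun x =>
        (Submodule.mem_dualCoannihilator ξ).1 hξ _ ⟨x, rfl⟩
      refine eq_zero_of_stR hz (hN_ext fun s => ?_) fun s => ?_
      · have h4 : lf z.2 (Q.lie ξ 0) + hN (Q.lie ξ z.1) s = 0 := h3 (0, flat A s)
        rw [map_zero, map_zero, zero_add] at h4
        rw [← star_hN, h4, star_zero]
        simp [hN]
      · exact (add_zero _).symm.trans (h3 (s, 0))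
    rw [h2, Submodule.dualAnnihilator_bot]
  intro w
  obtain ⟨x, hx⟩ := LinearMap.range_eq_top.1 h1 (tp Q w.en)
  refine ⟨x, tp_injective (LinearMap.ext fun ξ => ?_)⟩
  change tp Q ((muA A x z).en + (muA A z x).en) ξ = tp Q w.en ξ
  rw [map_add, LinearMap.add_apply, tp_muA, tp_muA, ← hx]
  rfl

theorem continuous_mom (θ : I → ℝ) : Continuous (mom A θ) := by
  classical
  have h1 : ∀ (a : Q.En ℂ) i p q, a i p q = tp Q a (Pi.single i (Matrix.single q p 1)) :=
    fun a i p q => by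
      rw [tp_apply, Finset.sum_eq_single i (fun j _ hj => by simp [Pi.single_eq_of_ne hj])
        (fun h => absurd (Finset.mem_univ _) h), Pi.single_eq_same, trace_mul_single]
      simp
  refine continuous_pi fun i => continuous_matrix fun p q => ?_
  refine ((continuous_mu continuous_id (continuous_const (y := Pi.single i
    (Matrix.single q p 1)))).sub (continuous_const (y := cen (Q := Q.qd) θ (Pi.single i
      (Matrix.single q p 1))))).congr fun z => ?_
  exact ((h1 _ i p q).trans (tp_mom θ z _)).symm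

end Vale.Agent.P291Z.Four
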