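import Vale.Agent.P291Z.FouP0
import Vale.Agent.P291Z.FouK
import Vale.Agent.P291Z.Ind

/-!
# Poincare duality for the generic fibre of the moment map and for the stable locus
-/

set_option linter.unusedSectionVars false

namespace Vale.Agent.P291Z.Four

open Matrix Module Set Function Topology Quiv Flav KN

variable {I E Φ : Type} {Q : Quiv I E} [Fintype Φ] [Fintype I] [Fintype E] {A : Flav Q Φ}

theorem pd_Zlev {θ : I → ℝ} (hθ : Gen Q.qd θ) :
    ∃ (D : ℤ) (o : EH (GG (Q.nn Φ)) (Zlev A θ)), o ∈ EH.deg _ _ D ∧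
      Bijective (fun c : HS (GG (Q.nn Φ)) (Zlev A θ) => eact c.1 o) := by
  have hX := (Four.isRep_NN (A := A)).prod (Four.isRep_ND (A := A))
  refine pd_zero_set hX isRep_Ad (continuous_mom θ) (i := (Zlev A θ).inclusion)
    IsEmbedding.subtypeVal isOpen_univ (Set.ext fun z => ?_) fun z => ?_
  · exact ⟨fun ⟨y, h⟩ => ⟨trivial, mom_eq_zero.2 (h ▸ y.2)⟩, fun h => ⟨⟨z, mom_eq_zero.1 h.2⟩, rfl⟩⟩
  · obtain ⟨LX⟩ := hX.lin
    obtain ⟨LW⟩ := (isRep_Ad (Q := Q) (Φ := Φ)).lin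
    exact exists_chart LX LW (muA A) (cenA Q Φ θ) z.1 (surjective_muA
      (hθ.stR_zero one_ne_zero fun ξ => by rw [one_mul, mu_pt]; exact z.2 ξ))

end Vale.Agent.P291Z.Four
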