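import Vale.Agent.P291Z.Nice0
import Vale.Agent.P291Z.Fl5

set_option linter.all false

/-!
# The system of approximations for `GG n`
-/

namespace Vale.Agent.P291Z

open Set Function Topology Matrix

section gl

variable {J : Type} [Fintype J] (n : J → ℕ)

instance : IsTopologicalGroup (GG n) := inferInstance

instance (m : J → ℕ) : Nice (Mat n m) :=
  inferInstanceAs (Nice (∀ j, Fin (n j) → Fin (m j) → ℂ))

theorem isRep_Mat (m : J → ℕ) : IsRep (GG n) (Mat n m) (∑ j, n j * m j) := Fl.isRep_mat

namespace GL0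

variable {n} {M : ℕ}

theorem continuous_ee (j : J) : Continuous fun u : EE n M => u.1 j :=
  (Fl.continuous_mat j).comp continuous_subtype_val

theorem ee_smul (g : GG n) (u : EE n M) (j : J) : (g • u).1 j = (g j).1 * u.1 j := rfl

theorem surj_of_det {k : ℕ} {A : Matrix (Fin k) (Fin M) ℂ} {B : Matrix (Fin M) (Fin k) ℂ}
    (h : (A * B).det ≠ 0) : Surjective A.mulVec :=
  Fl.surj_of_mul (B := B * (A * B)⁻¹) (by
    rw [← Matrix.mul_assoc, mul_nonsing_inv _ (Ne.isUnit h)])

theorem isOpen_EE : IsOpen (EE n M : Set (Mat n fun _ => M)) := by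
  refine isOpen_iff_forall_mem_open.2 fun u hu => ?_
  choose B hB using fun j => Fl.exists_right_inv (hu j)
  refine ⟨{v | ∀ j, (v j * B j).det ≠ 0}, fun v hv j => surj_of_det (hv j), ?_, fun j => ?_⟩
  · simp only [setOf_forall]
    exact isOpen_iInter_of_finite fun j => isOpen_ne_fun
      ((Fl.continuous_mat j).matrix_mul continuous_const).matrix_det continuous_const
  · rw [hB, det_one]; exact one_ne_zero

open Classical in
/-- an invertible matrix as a unit -/
noncomputable def toGL {k : ℕ} (A : Matrix (Fin k) (Fin k) ℂ) : GL (Fin k) ℂ :=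
  if h : A.det ≠ 0 then ⟨A, A⁻¹, mul_nonsing_inv _ (Ne.isUnit h), nonsing_inv_mul _ (Ne.isUnit h)⟩
  else 1

theorem toGL_val {k : ℕ} {A : Matrix (Fin k) (Fin k) ℂ} (h : A.det ≠ 0) : (toGL A).1 = A := by
  rw [toGL, dif_pos h]

theorem continuous_toGL {X : Type} [TopologicalSpace X] {k : ℕ} {A : X → Matrix (Fin k) (Fin k) ℂ}
    (hA : Continuous A) (h : ∀ x, (A x).det ≠ 0) : Continuous fun x => toGL (A x) := by
  refine Units.continuous_iff.2 ⟨hA.congr fun x => (toGL_val (h x)).symm, ?_⟩
  have : Continuous fun x => (A x)⁻¹ := continuous_iff_continuousAt.2 fun x =>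
    ContinuousAt.comp (f := A) (continuousAt_matrix_inv _ (by
      rw [Ring.inverse_eq_inv']
      exact continuousAt_inv₀ (h x))) hA.continuousAt
  exact this.congr fun x => by rw [coe_units_inv, toGL_val (h x)]

theorem det_gl_ne {k : ℕ} (g : GL (Fin k) ℂ) : g.1.det ≠ 0 :=
  ((isUnit_iff_isUnit_det _).1 g.isUnit).ne_zero

theorem t2_EE : T2Space (MulAction.orbitRel.Quotient (GG n) (EE n M)) := by
  refine (t2Space_iff_of_isOpenQuotientMap MulAction.isOpenQuotientMap_quotientMk).2
    (isClosed_of_closure_subset fun q hq => ?_)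
  choose B hB using fun j => Fl.exists_right_inv (q.2.2 j)
  have h1 : ∀ j, q ∈ {p : EE n M × EE n M |
      (p.2.1 j * B j).det • p.1.1 j = p.1.1 j * B j * (p.2.1 j * B j).adjugate * p.2.1 j} := by
    intro j
    have c1 := (continuous_ee (n := n) (M := M) j).comp (continuous_fst (Y := EE n M))
    have c2 := (continuous_ee (n := n) (M := M) j).comp (continuous_snd (X := EE n M))
    refine closure_minimal ?_ (isClosed_eq ((c2.matrix_mul continuous_const).matrix_det.smul c1)
      (((c1.matrix_mul continuous_const).matrix_mul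
        (c2.matrix_mul continuous_const).matrix_adjugate).matrix_mul c2)) hq
    rintro ⟨u, v⟩ huv
    obtain ⟨g, rfl⟩ : ∃ g : GG n, g • v = u := Quotient.exact' huv
    show (v.1 j * B j).det • ((g j).1 * v.1 j) =
      (g j).1 * v.1 j * B j * (v.1 j * B j).adjugate * v.1 j
    rw [Matrix.mul_assoc (g j).1, Matrix.mul_assoc (g j).1, mul_adjugate, Matrix.mul_smul,
      Matrix.mul_one, Matrix.smul_mul]
  have h2 : ∀ j, q.1.1 j = q.1.1 j * B j * q.2.1 j := fun j => by
    have := h1 j
    rwa [mem_setOf_eq, hB, det_one, one_smul, adjugate_one, Matrix.mul_one] at this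
  choose C hC using fun j => Fl.exists_right_inv (q.1.2 j)
  have h3 : ∀ j, q.1.1 j * B j * (q.2.1 j * C j) = 1 := fun j => by
    rw [← Matrix.mul_assoc, ← h2, hC]
  exact Quotient.sound' ⟨fun j => ⟨_, _, h3 j, mul_eq_one_comm.1 (h3 j)⟩,
    Subtype.ext (funext fun j => (h2 j).symm)⟩

open scoped ComplexOrder MatrixOrder in
theorem exists_unitary {k : ℕ} {A : Matrix (Fin k) (Fin M) ℂ} (h : Surjective A.mulVec) :
    ∃ g : GL (Fin k) ℂ, g.1 * A * (g.1 * A)ᴴ = 1 := by
  obtain ⟨C, hC⟩ := Fl.exists_right_inv h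
  have hu : IsUnit (A * Aᴴ) := mulVec_injective_iff_isUnit.1 fun x y e => by
    rw [← sub_eq_zero, ← mulVec_sub, self_mul_conjTranspose_mulVec_eq_zero] at e
    rw [← sub_eq_zero, ← one_mulVec (x - y), ← conjTranspose_one, ← hC, conjTranspose_mul,
      ← mulVec_mulVec, e, mulVec_zero]
  obtain ⟨B, hB⟩ := CStarAlgebra.nonneg_iff_eq_mul_star_self.1
    (posSemidef_self_mul_conjTranspose A).nonneg
  have hB1 : IsUnit B := isUnit_of_mul_isUnit_left (hB ▸ hu)
  obtain ⟨b, rfl⟩ := hB1
  refine ⟨b⁻¹, ?_⟩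
  rw [conjTranspose_mul, Matrix.mul_assoc, ← Matrix.mul_assoc A, hB, star_eq_conjTranspose,
    Matrix.mul_assoc, ← conjTranspose_mul, Units.inv_mul, conjTranspose_one, Matrix.mul_one,
    Units.inv_mul]

theorem exists_St (u : EE n M) : ∃ (g : GG n) (v : Fl.St n M), g • u = v.1 := by
  choose g hg using fun j => exists_unitary (u.2 j)
  exact ⟨g, ⟨g • u, hg⟩, rfl⟩

theorem compact_EE : CompactSpace (MulAction.orbitRel.Quotient (GG n) (EE n M)) := by
  have hc : Continuous fun v : Fl.St n M =>
      (Quotient.mk'' v.1 : MulAction.orbitRel.Quotient (GG n) (EE n M)) :=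
    continuous_quotient_mk'.comp continuous_subtype_val
  refine Surjective.compactSpace hc fun x => ?_
  obtain ⟨u, rfl⟩ := Quotient.exists_rep x
  obtain ⟨g, v, h⟩ := exists_St u
  exact ⟨v, Quotient.sound' ⟨g, h⟩⟩

theorem exists_addCol {u : EE n (M + 1)} (h : lastCol M u = 0) : u ∈ range (addCol M) := by
  have h1 : ∀ j a, u.1 j a = Fin.snoc (Fin.init (u.1 j a)) 0 := fun j a => by
    conv_lhs => rw [← Fin.snoc_init_self (u.1 j a)]
    congr 1
    exact congrFun (congrFun (congrFun h j) a) 0
  refine ⟨⟨fun j => Matrix.of fun a => Fin.init (u.1 j a), fun j y => ?_⟩,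
    Subtype.ext (funext fun j => funext fun a => (h1 j a).symm)⟩
  obtain ⟨x, hx⟩ := u.2 j y
  refine ⟨Fin.init x, funext fun a => ?_⟩
  rw [← hx]
  show ∑ b, Fin.init (u.1 j a) b * Fin.init x b = ∑ b, u.1 j a b * x b
  rw [Fin.sum_univ_castSucc, show u.1 j a (Fin.last M) = 0 from
    congrFun (congrFun (congrFun h j) a) 0, zero_mul, add_zero]
  rfl

theorem lastCol_eq_zero (u : EE n (M + 1)) : lastCol M u = 0 ↔ u ∈ range (addCol M) :=
  ⟨exists_addCol, by rintro ⟨v, rfl⟩; exact Fl.lastCol_addCol v⟩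

theorem isClosedEmbedding_addCol : IsClosedEmbedding (addCol (n := n) M) := by
  refine ⟨IsEmbedding.of_comp (continuous_addCol M)
    (g := fun u : EE n (M + 1) => (fun j => Matrix.of fun a => Fin.init (u.1 j a) :
      Mat n fun _ => M)) ?_ ?_, ?_⟩
  · exact Fl.continuous_mat_iff.2 fun j => continuous_matrix fun a b =>
      (continuous_ee j).matrix_elem a b.castSucc
  · have : ((fun u : EE n (M + 1) => (fun j => Matrix.of fun a => Fin.init (u.1 j a) :
      Mat n fun _ => M)) ∘ addCol M) = Subtype.val :=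
      funext fun u => funext fun j => funext fun a =>
        Fin.init_snoc (α := fun _ => ℂ) 0 (u.1 j a)
    rw [this]
    exact IsEmbedding.subtypeVal
  · have : range (addCol (n := n) M) = lastCol M ⁻¹' {0} :=
      Set.ext fun u => (lastCol_eq_zero u).symm
    rw [this]
    exact isClosed_singleton.preimage Fl.continuous_lastCol

end GL0

instance (M : ℕ) : Prin (GG n) (EE n M) where
  grp := inferInstance
  cont := inferInstance
  loc p := by
    choose B hB using fun j => Fl.exists_right_inv (p.2 j)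
    have hd : ∀ (g : GG n) (u : EE n M) j, (g • u).1 j * B j = (g j).1 * (u.1 j * B j) :=
      fun g u j => Matrix.mul_assoc _ _ _
    have hc : ∀ j, Continuous fun u : EE n M => u.1 j * B j := fun j =>
      (GL0.continuous_ee j).matrix_mul continuous_const
    have hi : ∀ (g : GG n) (u : EE n M), (∀ j, (u.1 j * B j).det ≠ 0) →
        ∀ j, ((g • u).1 j * B j).det ≠ 0 := fun g u hu j => by
      rw [hd, det_mul]
      exact mul_ne_zero (GL0.det_gl_ne _) (hu j)
    refine ⟨{u | ∀ j, (u.1 j * B j).det ≠ 0}, ?_, fun j => ?_, hi,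
      fun u j => GL0.toGL (u.1 j * B j), ?_, fun g u hu => funext fun j => Units.ext ?_⟩
    · simp only [setOf_forall]
      exact isOpen_iInter_of_finite fun j => isOpen_ne_fun (hc j).matrix_det continuous_const
    · rw [hB, det_one]; exact one_ne_zero
    · rw [continuousOn_iff_continuous_restrict]
      exact continuous_pi fun j => GL0.continuous_toGL ((hc j).comp continuous_subtype_val)
        fun u => u.2 j
    · rw [Pi.mul_apply, Units.val_mul, GL0.toGL_val (hi g u hu j), GL0.toGL_val (hu j), hd]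
  t2 := GL0.t2_EE

instance (M : ℕ) : Nice (EE n M) := Nice.of_isLocallyClosed GL0.isOpen_EE.isLocallyClosed

theorem isRep_Mat_one : IsRep (GG n) (Mat n fun _ => 1) (∑ j, n j) := by
  simpa only [mul_one] using isRep_Mat n fun _ => 1

noncomputable instance glSys : Sys (GG n) where
  P M := EE n M
  prin _ := inferInstance
  nice _ := inferInstance
  cpt _ := GL0.compact_EE
  inc := addCol
  inc_smul := addCol_smul
  inc_closed _ := GL0.isClosedEmbedding_addCol
  W := Mat n fun _ => 1
  rk := ∑ j, n j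
  wlin := (isRep_Mat_one n).lin
  wcomm := (isRep_Mat n _).comm
  wcont := (isRep_Mat n _).cont
  col := lastCol
  col_smul _ _ _ := rfl
  col_cont _ := Fl.continuous_lastCol
  col_zero _ := GL0.lastCol_eq_zero
  dim := dimB n
  dim_succ M := by
    simp only [dimB]
    push_cast
    rw [← Finset.sum_add_distrib]
    exact Finset.sum_congr rfl fun j _ => by ring

end gl

end Vale.Agent.P291Z
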