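import Vale.Agent.P291Z.Vcl
import Vale.Agent.P291Z.C.CQ

/-!
# Gysin maps of products, cutting of cocycles, proper homotopies, shearing
-/

set_option linter.all false

namespace Vale.Agent.P291Z

open Set Function Topology Filter

section cut

variable {X : Type} [TopologicalSpace X] {S K A : Set X} (hS : IsOpen S) (hK : IsClosed K)
  (hSK : S ⊆ K) (hA : A ∩ K ⊆ S)
include hS hK hSK hA

theorem supp_cut_subset {a : Coch X} (ha : supp a ⊆ A) : supp (cut S a) ⊆ A ∩ K := fun _ hx =>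
  ⟨ha (supp_cut S a hx).2, closure_minimal hSK hK (supp_cut S a hx).1⟩

theorem δ_cut_van {a : Coch X} (ha : supp a ⊆ A) (x : X) : δ (cut S a) - cut S (δ a) ∈ Van x := by
  by_cases hx : x ∈ S
  · have h1 := hS.mem_nhds hx
    have := (Van x).sub_mem (cut_in h1 (δ a)) (Van.δ (cut_in h1 a))
    rwa [map_sub, sub_sub_sub_cancel_left] at this
  · have h1 : cut S a ∈ Van x := fun h => hx (hA (supp_cut_subset hS hK hSK hA ha h))
    have h2 : cut S (δ a) ∈ Van x := fun h =>
      hx (hA (supp_cut_subset hS hK hSK hA ((supp_δ a).trans ha) h))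
    exact (Van x).sub_mem (Van.δ h1) h2

theorem cocycle_cut {a : Coch X} (ha : supp a ⊆ A) (hd : supp (δ a) = ∅) :
    supp (δ (cut S a)) = ∅ := supp_eq_empty.2 fun x => by
  have := (Van x).add_mem (δ_cut_van hS hK hSK hA ha x) (Van.cut (supp_eq_empty.1 hd x) S)
  rwa [sub_add_cancel] at this

theorem Cohom.cut {a b : Coch X} (h : Cohom A a b) : Cohom (A ∩ K) (cut S a) (cut S b) := by
  obtain ⟨c, h1, h2⟩ := h
  refine ⟨P291Z.cut S c, supp_cut_subset hS hK hSK hA h1, supp_eq_empty.2 fun x => ?_⟩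
  have := (Van x).sub_mem (Van.cut (supp_eq_empty.1 h2 x) S) (δ_cut_van hS hK hSK hA h1 x)
  rw [map_sub, map_sub] at this
  convert this using 1
  abel

end cut

variable {G : Type} [Group G] [TopologicalSpace G] [Sys G] {X Y Z : Type} [TopologicalSpace X]
  [MulAction G X] [Nice X] [ContinuousSMul G X] [TopologicalSpace Y] [MulAction G Y] [Nice Y]
  [ContinuousSMul G Y] [TopologicalSpace Z] [MulAction G Z] [Nice Z] [ContinuousSMul G Z]

section bset

theorem mk_mem_bset {A : Set X} (hA : ∀ (g : G), ∀ z ∈ A, g • z ∈ A) {M : ℕ}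
    {y : X × Sys.P G M} : Bor.mk G y ∈ bset A M ↔ y.1 ∈ A := by
  refine ⟨?_, fun h => ⟨y, h, rfl⟩⟩
  rintro ⟨y', h, e⟩
  obtain ⟨g, rfl⟩ := Bor.mk_eq_iff.1 e
  exact hA g _ h

theorem isOpen_bset {A : Set X} (hA : ∀ (g : G), ∀ z ∈ A, g • z ∈ A) (h : IsOpen A) (M : ℕ) :
    IsOpen (bset (G := G) A M) :=
  Bor.isQuotientMap_mk.isOpen_preimage.1 (by
    rw [show Bor.mk G ⁻¹' bset A M = Prod.fst ⁻¹' A from Set.ext fun _ => mk_mem_bset hA]
    exact h.preimage continuous_fst)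

theorem isClosed_bset {A : Set X} (hA : ∀ (g : G), ∀ z ∈ A, g • z ∈ A) (h : IsClosed A) (M : ℕ) :
    IsClosed (bset (G := G) A M) :=
  Bor.isQuotientMap_mk.isClosed_preimage.1 (by
    rw [show Bor.mk G ⁻¹' bset A M = Prod.fst ⁻¹' A from Set.ext fun _ => mk_mem_bset hA]
    exact h.preimage continuous_fst)

theorem preimage_binc_bset {A : Set X} (hA : ∀ (g : G), ∀ z ∈ A, g • z ∈ A) (M : ℕ) :
    binc G X M ⁻¹' bset A (M + 1) = bset A M := Set.ext fun b => by
  obtain ⟨x, rfl⟩ := Bor.mk_surjective b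
  exact (mk_mem_bset hA (y := (x.1, Sys.inc M x.2))).trans (mk_mem_bset hA (y := x)).symm

end bset

section ecut

/-- the part of a system of cochains over an invariant set -/
noncomputable def ecut (S : Set X) (t : ∀ M, Coch (Bq G X M)) (M : ℕ) : Coch (Bq G X M) :=
  cut (bset S M) (t M)

variable {S K A : Set X} (hS : IsOpen S) (hK : IsClosed K) (hSK : S ⊆ K) (hA : A ∩ K ⊆ S)
  (iS : ∀ (g : G), ∀ z ∈ S, g • z ∈ S) (iK : ∀ (g : G), ∀ z ∈ K, g • z ∈ K)
include hS hK hSK hA iS iK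

theorem bset_inter_le (M : ℕ) : bset (G := G) A M ∩ bset K M ⊆ bset (A ∩ K) M := by
  rw [inter_comm, bset_inter iK, inter_comm]

theorem IsCoc.ecut {d : ℕ} {t : ∀ M, Coch (Bq G X M)} (ht : IsCoc A d t) :
    IsCoc (A ∩ K) d (ecut S t) := by
  have h1 := isOpen_bset iS hS
  have h2 := isClosed_bset iK hK
  have h3 := fun M => bset_inter_le hS hK hSK hA iS iK M
  have h4 := fun M => (h3 M).trans (bset_mono hA M)
  refine ⟨fun M => cocycle_cut (h1 M) (h2 M) (bset_mono hSK M) (h4 M) (ht.supp M) (ht.cocycle M),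
    fun M => (ht.deg M).cut _,
    fun M => (supp_cut_subset (h1 M) (h2 M) (bset_mono hSK M) (h4 M) (ht.supp M)).trans (h3 M),
    fun M => ?_⟩
  rw [P291Z.ecut, pull_cut, preimage_binc_bset iS]
  exact ((ht.compat M).cut (h1 M) (h2 M) (bset_mono hSK M) (h4 M)).mono (h3 M)

theorem Coh.ecut {t t' : ∀ M, Coch (Bq G X M)} (h : Coh A t t') :
    Coh (A ∩ K) (ecut S t) (ecut S t') := fun M =>
  have h3 := bset_inter_le hS hK hSK hA iS iK M
  ((h M).cut (isOpen_bset iS hS M) (isClosed_bset iK hK M) (bset_mono hSK M)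
    (h3.trans (bset_mono hA M))).mono h3

end ecut

theorem pull_ecut {S : Set X} (iS : ∀ (g : G), ∀ z ∈ S, g • z ∈ S) (f : Y →[G] X)
    (t : ∀ M, Coch (Bq G X M)) :
    (fun M => pull (smap f M) (ecut S t M)) = ecut (f ⁻¹' S) fun M => pull (smap f M) (t M) :=
  funext fun M => by rw [ecut, pull_cut, preimage_bset f iS, ecut]

/-- a system with support in `A` is the sum of its parts, up to locally vanishing cochains -/
theorem sub_sum_ecut_van {ι : Type} [Fintype ι] {S K : ι → Set X} {A : Set X}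
    (hS : ∀ l, IsOpen (S l)) (hK : ∀ l, IsClosed (K l)) (hSK : ∀ l, S l ⊆ K l)
    (iS : ∀ l (g : G), ∀ z ∈ S l, g • z ∈ S l) (iK : ∀ l (g : G), ∀ z ∈ K l, g • z ∈ K l)
    (hA : ∀ x ∈ A, ∃ l, x ∈ S l ∧ ∀ l', l' ≠ l → x ∉ K l') {t : ∀ M, Coch (Bq G X M)} {M : ℕ}
    (ht : supp (t M) ⊆ bset A M) (x : Bq G X M) : t M - ∑ l, ecut (S l) t M ∈ Van x := by
  classical
  by_cases hx : t M ∈ Van x
  · exact (Van x).sub_mem hx ((Van x).sum_mem fun l _ => Van.cut hx _)
  obtain ⟨y, hy, rfl⟩ := ht (not_not.1 hx)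
  obtain ⟨l, h1, h2⟩ := hA _ hy
  rw [← Finset.add_sum_erase _ _ (Finset.mem_univ l), ← sub_sub]
  refine (Van _).sub_mem (cut_in ((isOpen_bset (iS l) (hS l) M).mem_nhds ⟨y, h1, rfl⟩) _)
    ((Van _).sum_mem fun l' hl' => cut_out (mem_of_superset
      ((isClosed_bset (iK l') (hK l') M).isOpen_compl.mem_nhds fun h =>
        h2 l' (Finset.ne_of_mem_erase hl') ((mk_mem_bset (iK l')).1 h))
      (compl_subset_compl.2 (bset_mono (hSK l') M))) _)

theorem coh_sum_ecut {ι : Type} [Fintype ι] {S K : ι → Set X} {A : Set X}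
    (hS : ∀ l, IsOpen (S l)) (hK : ∀ l, IsClosed (K l)) (hSK : ∀ l, S l ⊆ K l)
    (iS : ∀ l (g : G), ∀ z ∈ S l, g • z ∈ S l) (iK : ∀ l (g : G), ∀ z ∈ K l, g • z ∈ K l)
    (hA : ∀ x ∈ A, ∃ l, x ∈ S l ∧ ∀ l', l' ≠ l → x ∉ K l') {t : ∀ M, Coch (Bq G X M)}
    (ht : ∀ M, supp (t M) ⊆ bset A M) (B : Set X) : Coh B t (∑ l, ecut (S l) t) := fun M =>
  ⟨0, by rw [supp_zero]; exact empty_subset _, supp_eq_empty.2 fun x => by
    rw [map_zero, sub_zero, Finset.sum_apply]
    exact sub_sum_ecut_van hS hK hSK iS iK hA (ht M) x⟩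

section add

theorem Cohom.add {X : Type} [TopologicalSpace X] {A : Set X} {a a' b b' : Coch X}
    (h : Cohom A a a') (h' : Cohom A b b') : Cohom A (a + b) (a' + b') := by
  obtain ⟨u, h1, h2⟩ := h
  obtain ⟨v, h3, h4⟩ := h'
  refine ⟨u + v, (supp_add _ _).trans (union_subset h1 h3), ?_⟩
  rw [← supp_add_eq_empty h2 h4]
  congr 1
  rw [map_add]
  abel

theorem IsCoc.zero (A : Set X) (d : ℕ) : IsCoc (G := G) A d 0 :=
  ⟨fun M => cocycle_zero, fun M => (degS _ _).zero_mem,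
    fun M => (supp_zero (X := Bq G X M)).subset.trans (empty_subset _), fun M => by
      rw [Pi.zero_apply, map_zero]
      exact Cohom.refl _ _⟩

theorem IsCoc.add {A : Set X} {d : ℕ} {s t : ∀ M, Coch (Bq G X M)} (hs : IsCoc A d s)
    (ht : IsCoc A d t) : IsCoc A d (s + t) :=
  ⟨fun M => by
      rw [Pi.add_apply, map_add]
      exact supp_add_eq_empty (hs.cocycle M) (ht.cocycle M),
    fun M => (hs.deg M).add (ht.deg M),
    fun M => (supp_add _ _).trans (union_subset (hs.supp M) (ht.supp M)), fun M => by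
      rw [Pi.add_apply, map_add]
      exact (hs.compat M).add (ht.compat M)⟩

theorem IsCoc.sum {ι : Type} {A : Set X} {d : ℕ} {t : ι → ∀ M, Coch (Bq G X M)} {s : Finset ι}
    (h : ∀ l ∈ s, IsCoc A d (t l)) : IsCoc A d (∑ l ∈ s, t l) :=
  Finset.sum_induction _ _ (fun _ _ => IsCoc.add) (IsCoc.zero A d) h

theorem cgys_add {X Y : Type} [TopologicalSpace X] [TopologicalSpace Y] [Nice X] {i : Y → X}
    (hi : IsClosedEmbedding i) {s t : Coch X} (hs : supp (δ s) = ∅) (hs' : supp s ⊆ range i)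
    (ht : supp (δ t) = ∅) (ht' : supp t ⊆ range i) : cgys i (s + t) = cgys i s + cgys i t := by
  have h1 : supp (δ (s + t)) = ∅ := by
    rw [map_add]
    exact supp_add_eq_empty hs ht
  have h2 : supp (s + t) ⊆ range i := (supp_add _ _).trans (union_subset hs' ht')
  rw [cgys_eq hi h1 h2, cgys_eq hi hs hs', cgys_eq hi ht ht']
  refine LinearMap.ext fun c => ?_
  obtain ⟨a, ha, rfl⟩ := cls_surj_near' hi c
  rw [LinearMap.add_apply, Hc.gys_cls hi h1 h2 ha, Hc.gys_cls hi hs hs' ha, Hc.gys_cls hi ht ht' ha,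
    mul_add, cls_add (Near.mul_Zc ha hs hs') (Near.mul_Zc ha ht ht')]

theorem egys_add {i : Y →[G] X} (hi : IsClosedEmbedding i) {d : ℕ} {s t : ∀ M, Coch (Bq G X M)}
    (hs : IsCoc (range i) d s) (ht : IsCoc (range i) d t) (β : EH G X) :
    egys i (s + t) β = egys i s β + egys i t β := EH.ext fun M => by
  rw [EH.add_apply, egys_apply hi (hs.add ht), egys_apply hi hs, egys_apply hi ht]
  refine LinearMap.ext fun c => ?_
  rw [LinearMap.add_apply, gys_apply, gys_apply, gys_apply, Pi.add_apply,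
    cgys_add (isClosedEmbedding_smap hi M) (hs.cocycle M) (hs.isCo M).supp (ht.cocycle M)
      (ht.isCo M).supp, LinearMap.add_apply, map_add]

theorem egys_zero {i : Y →[G] X} (hi : IsClosedEmbedding i) (β : EH G X) : egys i 0 β = 0 := by
  have := egys_add hi (IsCoc.zero (range i) 0) (IsCoc.zero (range i) 0) β
  rw [add_zero] at this
  exact left_eq_add.1 this

theorem egys_sum {ι : Type} {i : Y →[G] X} (hi : IsClosedEmbedding i) {d : ℕ}
    {t : ι → ∀ M, Coch (Bq G X M)} {s : Finset ι} (h : ∀ l ∈ s, IsCoc (range i) d (t l))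
    (β : EH G X) : egys i (∑ l ∈ s, t l) β = ∑ l ∈ s, egys i (t l) β := by
  classical
  induction s using Finset.induction_on with
  | empty => exact egys_zero hi β
  | insert l s hl ih =>
    have h' := fun l' hl' => h l' (Finset.mem_insert_of_mem hl')
    rw [Finset.sum_insert hl, Finset.sum_insert hl,
      egys_add hi (h l (Finset.mem_insert_self l s)) (IsCoc.sum h'), ih h']

end add

section cls

theorem IsCoc.mem_HSdeg {A : Set X} {d : ℕ} {t : ∀ M, Coch (Bq G X M)} (ht : IsCoc A d t) :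
    (fun M => hcls (t M)) ∈ HSdeg G X (2 * d) := fun M =>
  ⟨(H.map_hcls _ (ht.cocycle _)).trans ((ht.compat M).hcls_eq (ht.cocycle M)),
    hcls_isDeg (ht.deg M)⟩

/-- the class of a system of cocycles -/
noncomputable def IsCoc.cls {A : Set X} {d : ℕ} {t : ∀ M, Coch (Bq G X M)} (ht : IsCoc A d t) :
    HS G X := ⟨fun M => hcls (t M), Subring.subset_closure (mem_iUnion.2 ⟨_, ht.mem_HSdeg⟩)⟩

theorem egys_id {A : Set X} {d : ℕ} {t : ∀ M, Coch (Bq G X M)} (ht : IsCoc A d t) {i : X →[G] X}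
    (e : ∀ x, i x = x) (β : EH G X) : egys i t β = eact (fun M => hcls (t M)) β := by
  have hi : IsClosedEmbedding i := by
    rw [show ⇑i = id from funext e]
    exact IsClosedEmbedding.id
  refine EH.ext fun M => ?_
  rw [egys_apply hi (ht.mono fun x _ => mem_range.2 ⟨x, e x⟩), eact_apply' (c := fun M => hcls (t M)) ht.cls.2, smap_id e,
    gys_id_eq_cap (ht.cocycle M)]

theorem epush_egys_eq {i : Y →[G] X} (hi : IsClosedEmbedding i) {d : ℕ}
    {t : ∀ M, Coch (Bq G X M)} (ht : IsCoc (range i) d t) (β : EH G X) :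
    epush i (egys i t β) = eact (fun M => hcls (t M)) β := by
  rw [epush_egys hi (j := MulActionHom.id G) IsClosedEmbedding.id (fun _ => rfl) ht,
    egys_id ht fun _ => rfl]

theorem egys_mul {i : Y →[G] X} (hi : IsClosedEmbedding i) {A : Set X}
    (hA : ∀ (g : G), ∀ z ∈ A, g • z ∈ A) {d e : ℕ} {t u : ∀ M, Coch (Bq G X M)} (ht : IsCoc A d t)
    (hu : IsCoc (range i) e u) (β : EH G X) :
    egys i (t * u) β = eact (fun M => hcls (pull (smap i M) (t M))) (egys i u β) := by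
  rw [← egys_egys (i := MulActionHom.id G) IsClosedEmbedding.id hi (fun _ => rfl) hA
    (fun y _ => ⟨y, rfl⟩) ht hu, egys_id (ht.pull hA hi.continuous) fun _ => rfl]

theorem coh_mul_comm {A B : Set X} (hA : ∀ (g : G), ∀ z ∈ A, g • z ∈ A) {d e : ℕ}
    {t u : ∀ M, Coch (Bq G X M)} (ht : IsCoc A d t) (hu : IsCoc B e u) :
    Coh (A ∩ B) (t * u) (u * t) := fun M =>
  (cohom_comm_even (ht.cocycle M) (hu.cocycle M) (hu.deg M)).mono
    ((inter_subset_inter (ht.supp M) (hu.supp M)).trans (bset_inter hA M).subset)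

theorem egys_mul_comm {i : Y →[G] X} (hi : IsClosedEmbedding i) {A B : Set X}
    (hA : ∀ (g : G), ∀ z ∈ A, g • z ∈ A) (hB : ∀ (g : G), ∀ z ∈ B, g • z ∈ B)
    (h : A ∩ B ⊆ range i) {d e : ℕ} {t u : ∀ M, Coch (Bq G X M)} (ht : IsCoc A d t)
    (hu : IsCoc B e u) : egys i (t * u) = egys i (u * t) :=
  egys_congr hi ((ht.mul hA hu).mono h)
    (add_comm e d ▸ (hu.mul hB ht).mono ((inter_comm B A).subset.trans h))
    ((coh_mul_comm hA ht hu).mono h)

end cls

section homotopy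

open unitInterval

/-- properly homotopic equivariant maps induce the same push-forward -/
theorem epush_eq_of_homotopy {h : I × X → Y} (hh : IsPr h)
    (he : ∀ s (g : G) x, h (s, g • x) = g • h (s, x)) {f f' : X →[G] Y}
    (h0 : ∀ x, h (0, x) = f x) (h1 : ∀ x, h (1, x) = f' x) : epush f = epush f' := by
  have hf : IsPr f := by
    rw [show ⇑f = h ∘ Prod.mk 0 from funext fun x => (h0 x).symm]
    exact hh.comp (isPr_mk 0)
  have hf' : IsPr f' := by
    rw [show ⇑f' = h ∘ Prod.mk 1 from funext fun x => (h1 x).symm]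
    exact hh.comp (isPr_mk 1)
  refine LinearMap.ext fun β => EH.ext fun M => ?_
  let F : I → X →[G] Y := fun s => ⟨fun x => h (s, x), he s⟩
  have hq := IsOpenQuotientMap.id (X := I).prodMap
    (Bor.isOpenQuotientMap_mk (G := G) (Z := X) (P := Sys.P G M))
  have hp : IsPr fun y : I × X × Sys.P G M => (h (y.1, y.2.1), y.2.2) :=
    (hh.prodMap IsPr.id).comp (IsPr.of_homeomorph (Homeomorph.prodAssoc I X _).symm)
  have hc : Continuous fun y : I × Bq G X M => smap (F y.1) M y.2 := by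
    rw [← hq.continuous_comp_iff]
    exact Bor.continuous_mk.comp hp.cont
  have hH : IsPr fun y : I × Bq G X M => smap (F y.1) M y.2 := by
    refine ⟨hc, fun K hK => ?_⟩
    obtain ⟨L, hL, hKL⟩ := exists_isCompact_lift (Bor.isOpenQuotientMap_mk (G := G)) hK
    refine ((hp.pre L hL).image hq.continuous).of_isClosed_subset (hK.isClosed.preimage hc) ?_
    rintro ⟨s, b⟩ hb
    obtain ⟨y, hy, e⟩ := hKL hb
    obtain ⟨x, rfl, rfl⟩ := Bor.exists_of_map_eq _ surjective_id e.symm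
    exact ⟨(s, x), hy, rfl⟩
  rw [epush_apply hf, epush_apply hf', push, push, cpull_eq (isPr_smap hf M),
    cpull_eq (isPr_smap hf' M), Hc.pull_eq_of_homotopy hH (isPr_smap hf M) (isPr_smap hf' M)
      (fun b => congrArg (smap · M b) (MulActionHom.ext h0))
      (fun b => congrArg (smap · M b) (MulActionHom.ext h1))]

variable {W : Type} [AddCommGroup W] [Module ℂ W] [TopologicalSpace W] [DistribMulAction G W]
  {r : ℕ} {p : X →[G] Z} {κ κ' : X →[G] W} {s s' : Z →[G] X}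

/-- **Shearing**: the pull-back to a trivial bundle does not depend on the section. -/
theorem IsTE.tpull_shear (h : IsTE p κ s) (h' : IsTE p κ' s') (hW : IsRep G W r) {τ : Z →[G] W}
    (hτ : Continuous τ) (e : ∀ x, κ' x = κ x - τ (p x)) : tpull s' κ' = tpull s κ := by
  haveI := hW.comm
  haveI := hW.continuousAdd
  haveI := hW.continuousSMul
  let E := h.homeo.homeomorph _
  have h1 : ∀ y, p (E.symm y) = y.1 := fun y => congrArg Prod.fst (E.apply_symm_apply y)
  have h2 : ∀ y, κ (E.symm y) = y.2 := fun y => congrArg Prod.snd (E.apply_symm_apply y)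
  let φ : ℝ × X → X := fun y => E.symm (p y.2, κ y.2 + (y.1 : ℂ) • τ (p y.2))
  have hp := h.cont_p
  have hk := h.cont_k
  have hφ : Continuous φ := E.symm.continuous.comp (by fun_prop)
  have h3 : ∀ a b x, φ (a, φ (b, x)) = φ (a + b, x) := fun a b x => by
    simp only [φ, h1, h2]
    rw [Complex.ofReal_add, add_smul, add_assoc, add_comm ((b : ℂ) • _)]
  have h4 : ∀ x, φ (0, x) = x := fun x => h.ext (h1 _) (by simp [φ, h2])
  have h5 : ∀ a (g : G) x, φ (a, g • x) = g • φ (a, x) := fun a g x =>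
    h.ext (by simp only [φ, h1, map_smul]) (by
      simp only [φ, h2, map_smul, smul_add, smul_comm g])
  have h6 : IsHomeomorph fun y : I × X => (y.1, φ (y.1, y.2)) :=
    isHomeomorph_iff_exists_inverse.2 ⟨by fun_prop, fun y => (y.1, φ (-y.1, y.2)),
      fun y => by simp only [h3, neg_add_cancel, h4], fun y => by simp only [h3, add_neg_cancel, h4],
      by fun_prop⟩
  have h7 : IsPr fun y : I × X => φ (y.1, y.2) := isPr_snd.comp (IsPr.of_isHomeomorph h6)
  let F : X →[G] X := ⟨fun x => φ (1, x), h5 1⟩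
  have h8 : epush (MulActionHom.id G) = epush F :=
    epush_eq_of_homotopy h7 (fun a => h5 a) h4 fun _ => rfl
  refine LinearMap.ext fun β => ?_
  have h9 := h'.epush_tpull h (F := F) (f := MulActionHom.id G) (fun x => h1 _) LinearMap.id
    (fun _ _ => rfl) bijective_id (fun x => by
      rw [e]
      show κ (φ (1, x)) - τ (p (φ (1, x))) = κ x
      simp [φ, h1, h2]) hW hW (h7.comp (isPr_mk 1)) IsPr.id β
  rwa [← h8, epush_id fun _ => rfl, epush_id fun _ => rfl, eq_comm] at h9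

theorem IsTE.egys_shear (h : IsTE p κ s) (h' : IsTE p κ' s') (hW : IsRep G W r) {τ : Z →[G] W}
    (hτ : Continuous τ) (e : ∀ x, κ' x = κ x - τ (p x)) : egys s' (eul κ') = egys s (eul κ) :=
  LinearMap.ext fun β => by
    conv_lhs => rw [← h.tpull_egys hW β, ← h.tpull_shear h' hW hτ e, h'.egys_tpull hW]

/-- the graph of a section as a zero section -/
theorem IsTE.graph (h : IsTE p κ s) (hW : IsRep G W r) {τ : Z →[G] W} (hτ : Continuous τ)
    (e : ∀ x, κ' x = κ x - τ (p x)) (hs : ∀ z, p (s' z) = z) (hs' : ∀ z, κ (s' z) = τ z) :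
    IsTE p κ' s' := by
  haveI := hW.continuousAdd
  haveI := hW.continuousSMul
  haveI : ContinuousNeg W := ⟨(continuous_const_smul (-1 : ℂ)).congr fun x => neg_one_smul ℂ x⟩
  have h1 : IsHomeomorph fun y : Z × W => (y.1, y.2 + -τ y.1) :=
    isHomeomorph_iff_exists_inverse.2 ⟨by fun_prop, fun y => (y.1, y.2 + τ y.1),
      fun y => by simp, fun y => by simp, by fun_prop⟩
  refine ⟨?_, hs, fun z => by rw [e, hs, hs', sub_self]⟩
  rw [show (fun x => (p x, κ' x)) = (fun y : Z × W => (y.1, y.2 + -τ y.1)) ∘ fun x => (p x, κ x)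
    from funext fun x => Prod.ext rfl ((e x).trans (sub_eq_add_neg _ _))]
  exact h1.comp h.homeo

end homotopy

section CQ

variable (G) in
/-- data for cutting cocycles -/
structure IsCut (S K : Set X) : Prop where
  opn : IsOpen S
  cls : IsClosed K
  sub : S ⊆ K
  iS : ∀ (g : G), ∀ z ∈ S, g • z ∈ S
  iK : ∀ (g : G), ∀ z ∈ K, g • z ∈ K

variable {G' V : Type} [Group G'] [TopologicalSpace G'] [Sys G'] [TopologicalSpace V]
  [MulAction G' V] [Nice V] [ContinuousSMul G' V]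

theorem IsCut.lp {S K : Set V} (h : IsCut G' S K) {F : ∀ M, Bq G X M → Bq G' V M} {b : X → V}
    (hF : IsCov F b) (hb : Continuous b) : IsCut G (b ⁻¹' S) (b ⁻¹' K) :=
  ⟨h.opn.preimage hb, h.cls.preimage hb, preimage_mono h.sub, hF.inv h.iS, hF.inv h.iK⟩

theorem IsCut.preimage {S K : Set X} (h : IsCut G S K) {f : Y →[G] X} (hf : Continuous f) :
    IsCut G (f ⁻¹' S) (f ⁻¹' K) := h.lp (isCov_smap hf) hf

theorem IsCov.preimage_bset {F : ∀ M, Bq G X M → Bq G' V M} {b : X → V} (h : IsCov F b)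
    {A : Set V} (hA : ∀ (g : G'), ∀ z ∈ A, g • z ∈ A) (M : ℕ) :
    F M ⁻¹' bset A M = bset (b ⁻¹' A) M := by
  refine (h.pre hA M).antisymm ?_
  rintro _ ⟨⟨x, u⟩, hx, rfl⟩
  obtain ⟨u', e⟩ := h.map_mk M x u
  exact ⟨(b x, u'), hx, e⟩

namespace CQ

variable {S K : Set X} (h : IsCut G S K)

open Classical in
/-- the part of `x` over `S` -/
noncomputable def cut (x : CQ G X) : CQ G X :=
  Quotient.liftOn x (fun a => if hA : a.A ∩ K ⊆ S then
    mk (inv_inter a.inv h.iK) (a.coc.ecut h.opn h.cls h.sub hA h.iS h.iK) else 1) (by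
    rintro a b ⟨h₁, h₂, h₃⟩
    by_cases hA : a.A ∩ K ⊆ S
    · rw [dif_pos hA, dif_pos (h₁ ▸ hA)]
      exact mk_eq (congrArg (· ∩ K) h₁) h₂ (h₃.ecut h.opn h.cls h.sub hA h.iS h.iK)
    · rw [dif_neg hA, dif_neg (h₁ ▸ hA)])

theorem cut_mk {A : Set X} (iA : ∀ (g : G), ∀ z ∈ A, g • z ∈ A) {d : ℕ}
    {t : ∀ M, Coch (Bq G X M)} (ht : IsCoc A d t) (hA : A ∩ K ⊆ S) :
    cut h (mk iA ht) = mk (inv_inter iA h.iK) (ht.ecut h.opn h.cls h.sub hA h.iS h.iK) :=
  dif_pos hA

theorem supp_cut {x : CQ G X} (hx : x.supp ∩ K ⊆ S) : (cut h x).supp = x.supp ∩ K := by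
  induction x using CQ.ind with
  | h A iA d t ht => rw [cut_mk h iA ht hx]; rfl

theorem deg_cut {x : CQ G X} (hx : x.supp ∩ K ⊆ S) : (cut h x).deg = x.deg := by
  induction x using CQ.ind with
  | h A iA d t ht => rw [cut_mk h iA ht hx]; rfl

theorem cut_eq_self {x : CQ G X} (hx : x.supp ⊆ S) : cut h x = x := by
  induction x using CQ.ind with
  | h A iA d t ht =>
    rw [cut_mk h iA ht (inter_subset_left.trans hx)]
    refine mk_eq (inter_eq_left.2 (Subset.trans hx h.sub)) rfl (Coh.symm ?_)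
    have := coh_sum_ecut (ι := Unit) (S := fun _ => S) (K := fun _ => K) (fun _ => h.opn)
      (fun _ => h.cls) (fun _ => h.sub) (fun _ => h.iS) (fun _ => h.iK)
      (fun y hy => ⟨(), hx hy, fun _ h => absurd rfl h⟩) ht.supp (A ∩ K)
    rwa [Fintype.sum_unique] at this

theorem lp_cut {S K : Set V} (h : IsCut G' S K) {F : ∀ M, Bq G X M → Bq G' V M} {b : X → V}
    (hF : IsCov F b) (hb : Continuous b) {x : CQ G' V} (hx : x.supp ∩ K ⊆ S) :
    lp hF (cut h x) = cut (h.lp hF hb) (lp hF x) := by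
  induction x using CQ.ind with
  | h A iA d t ht =>
    replace hx : A ∩ K ⊆ S := hx
    rw [cut_mk h iA ht hx, lp_mk, lp_mk,
      cut_mk (h.lp hF hb) (A := b ⁻¹' A) _ _ fun y hy => hx hy]
    refine mk_eq rfl rfl fun M => ?_
    rw [ecut, pull_cut, hF.preimage_bset h.iS]
    exact Cohom.refl _ _

theorem pull_cut {f : Y →[G] X} (hf : Continuous f) {x : CQ G X} (hx : x.supp ∩ K ⊆ S) :
    pull hf (cut h x) = cut (h.preimage hf) (pull hf x) := lp_cut h (isCov_smap hf) hf hx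

/-- over `S` cutting does nothing -/
theorem lp_cut_of_subset {S K : Set V} (h : IsCut G' S K) {F : ∀ M, Bq G X M → Bq G' V M}
    {b : X → V} (hF : IsCov F b) (hb : Continuous b) {x : CQ G' V} (hx : x.supp ∩ K ⊆ S)
    (hf : b ⁻¹' x.supp ⊆ b ⁻¹' S) : lp hF (cut h x) = lp hF x := by
  rw [lp_cut h hF hb hx, cut_eq_self]
  rwa [supp_lp]

theorem pull_cut_of_subset {f : Y →[G] X} (hf : Continuous f) {x : CQ G X} (hx : x.supp ∩ K ⊆ S)
    (hs : f ⁻¹' x.supp ⊆ f ⁻¹' S) : pull hf (cut h x) = pull hf x :=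
  lp_cut_of_subset h (isCov_smap hf) hf hx hs

/-- a class is the sum of its parts -/
theorem gy_eq_sum_cut {ι : Type} [Fintype ι] {S K : ι → Set X} (h : ∀ l, IsCut G (S l) (K l))
    {x : CQ G X} (hx : ∀ y ∈ x.supp, ∃ l, y ∈ S l ∧ ∀ l', l' ≠ l → y ∉ K l') {i : Y →[G] X}
    (hi : IsClosedEmbedding i) {u : CQ G X} (hu : (x * u).supp ⊆ range i) (z : EH G X) :
    gy i (x * u) z = ∑ l, gy i (cut (h l) x * u) z := by
  have hA : ∀ l, x.supp ∩ K l ⊆ S l := fun l y hy => by
    obtain ⟨l', h1, h2⟩ := hx y hy.1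
    by_cases e : l = l'
    · exact e ▸ h1
    · exact absurd hy.2 (h2 l e)
  induction x using CQ.ind with
  | h A iA d t ht =>
  induction u using CQ.ind with
  | h B iB e s hs =>
    replace hA : ∀ l, A ∩ K l ⊆ S l := hA
    replace hu : A ∩ B ⊆ range i := hu
    have h1 := fun l => ht.ecut (h l).opn (h l).cls (h l).sub (hA l) (h l).iS (h l).iK
    have h2 : ∀ l, A ∩ K l ∩ B ⊆ range i := fun l y hy => hu ⟨hy.1.1, hy.2⟩
    have h3 := fun l => ((h1 l).mul (inv_inter iA (h l).iK) hs).mono (h2 l)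
    have h4 : ∀ l, gy i (cut (h l) (mk iA ht) * mk iB hs) z = egys i (ecut (S l) t * s) z :=
      fun l => by rw [cut_mk _ iA ht (hA l), mk_mul, gy_mk hi _ _ (h2 l)]
    rw [Finset.sum_congr rfl fun l _ => h4 l, mk_mul, gy_mk hi _ _ hu,
      ← egys_sum hi fun l _ => h3 l, egys_congr hi ((ht.mul iA hs).mono hu)
        (IsCoc.sum fun l _ => h3 l) fun M => ⟨0, by rw [supp_zero]; exact empty_subset _,
          supp_eq_empty.2 fun y => ?_⟩]
    rw [map_zero, sub_zero, ← Finset.sum_mul, Pi.mul_apply, Pi.mul_apply, ← sub_mul,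
      Finset.sum_apply]
    exact Van.mul_right (sub_sum_ecut_van (fun l => (h l).opn) (fun l => (h l).cls)
      (fun l => (h l).sub) (fun l => (h l).iS) (fun l => (h l).iK) hx (ht.supp M) y) _

variable {W : Type} [AddCommGroup W] [Module ℂ W] [TopologicalSpace W] [DistribMulAction G W]
  {r : ℕ} {p : X →[G] Z} {κ κ' : X →[G] W} {s s' : Z →[G] X}

theorem _root_.Vale.Agent.P291Z.IsTE.gy_eul (h : IsTE p κ s) (hW : IsRep G W r)
    (hκ : Continuous κ) : gy s (eul hW hκ) = egys s (P291Z.eul κ) :=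
  CQ.gy_eul hW hκ (gy_eul_bijective hW h.homeo hκ h.ps h.ks).1
    (gy_eul_bijective hW h.homeo hκ h.ps h.ks).2.1

/-- **Shearing** -/
theorem gy_shear (hW : IsRep G W r) (h : IsHomeomorph fun x => (p x, κ x)) (hκ : Continuous κ)
    (hκ' : Continuous κ') {τ : Z →[G] W} (hτ : Continuous τ) (e : ∀ x, κ' x = κ x - τ (p x))
    (h1 : ∀ z, p (s z) = z) (h2 : ∀ z, κ (s z) = 0) (h1' : ∀ z, p (s' z) = z)
    (h2' : ∀ z, κ (s' z) = τ z) : gy s' (eul hW hκ') = gy s (eul hW hκ) := by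
  have h3 : IsTE p κ s := ⟨h, h1, h2⟩
  have h4 := h3.graph hW hτ e h1' h2'
  rw [h3.gy_eul, h4.gy_eul, h3.egys_shear h4 hW hτ e]

end CQ

end CQ

end Vale.Agent.P291Z
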