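import Vale.Agent.P291Z.WtA

/-!
# Diagonalization of the flavour action on the non-trivial part of `N`
-/

set_option linter.all false

namespace Vale.Agent.P291Z

open Set Function Topology Matrix Vale.Agent.P291 Vale.Agent.P291.Hik

namespace WtB

/-- a basis adapted to a splitting into blocks and to a spanning family of subsets -/
theorem exists_block {ι T Λ : Type} [Fintype ι] [DecidableEq ι] (ty : ι → T)
    (E : T → Λ → Set (ι → ℂ)) (h : ∀ a, (Pi.single a 1 : ι → ℂ) ∈ Submodule.span ℂ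
      {x | (∀ b, ty b ≠ ty a → x b = 0) ∧ ∃ η, x ∈ E (ty a) η}) :
    ∃ (χ : ι → Λ) (P : Matrix ι ι ℂ), IsUnit P ∧ (∀ a b, ty b ≠ ty a → P b a = 0) ∧
      ∀ a, (fun b => P b a) ∈ E (ty a) (χ a) := by
  classical
  let S : T → Set (ι → ℂ) := fun τ => {x | (∀ b, ty b ≠ τ → x b = 0) ∧ ∃ η, x ∈ E τ η}
  have key : ∀ τ, ∃ u : {a // ty a = τ} → ι → ℂ, (∀ a, u a ∈ S τ) ∧
      Submodule.span ℂ (range u) = Submodule.span ℂ (S τ) := fun τ => by
    obtain ⟨b, hb, hs, hl⟩ := exists_linearIndependent ℂ (S τ)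
    haveI : Fintype b := hl.setFinite.fintype
    let v : {a // ty a = τ} → ι → ℂ := fun a => Pi.single a.1 1
    have hv : LinearIndependent ℂ v := by
      have := (Pi.basisFun ℂ ι).linearIndependent.comp (Subtype.val : {a // ty a = τ} → ι)
        Subtype.val_injective
      rwa [show ⇑(Pi.basisFun ℂ ι) ∘ Subtype.val = v from
        funext fun a => Pi.basisFun_apply ℂ ι a.1] at this
    have e : Submodule.span ℂ (range v) = Submodule.span ℂ (S τ) := by
      refine le_antisymm (Submodule.span_le.2 ?_) (Submodule.span_le.2 fun x hx => ?_)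
      · rintro _ ⟨⟨a, rfl⟩, rfl⟩
        exact h a
      · rw [SetLike.mem_coe, pi_eq_sum_univ' x]
        refine Submodule.sum_mem _ fun a _ => ?_
        by_cases ha : ty a = τ
        · exact Submodule.smul_mem _ _ (Submodule.subset_span ⟨⟨a, ha⟩, rfl⟩)
        · rw [hx.1 a ha, zero_smul]
          exact zero_mem _
    have hc : Fintype.card {a // ty a = τ} = Fintype.card b := by
      rw [← finrank_span_eq_card hv, ← finrank_span_eq_card hl, e, Subtype.range_coe, hs]
    let ε := Fintype.equivOfCardEq hc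
    refine ⟨fun a => (ε a).1, fun a => hb (ε a).2, ?_⟩
    rw [← hs, show (fun a => (ε a).1) = Subtype.val ∘ ε from rfl, ε.surjective.range_comp,
      Subtype.range_coe]
  choose u hu hs using key
  choose χ hχ using fun a => (hu (ty a) ⟨a, rfl⟩).2
  refine ⟨χ, Matrix.of fun b a => u (ty a) ⟨a, rfl⟩ b, mulVec_surjective_iff_isUnit.1 fun y => ?_,
    fun a b hb => (hu (ty a) ⟨a, rfl⟩).1 b hb, hχ⟩
  suffices y ∈ LinearMap.range (Matrix.of fun b a => u (ty a) ⟨a, rfl⟩ b).mulVecLin from this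
  rw [pi_eq_sum_univ' y]
  refine Submodule.sum_mem _ fun a _ => Submodule.smul_mem _ _ ?_
  refine Submodule.span_le.2 ?_ ((hs (ty a)).ge (h a))
  rintro _ ⟨⟨a', ha'⟩, rfl⟩
  refine ⟨Pi.single a' 1, funext fun b => ?_⟩
  rw [mulVecLin_apply, mulVec_single_one]
  have : ∀ τ (e : ty a' = τ), u (ty a') ⟨a', rfl⟩ b = u τ ⟨a', e⟩ b := by rintro _ rfl; rfl
  exact this _ ha'

theorem mem_of_single {m n : Type} [Fintype m] [Fintype n] [DecidableEq m] [DecidableEq n]
    {K : Submodule ℂ (Matrix m n ℂ)} (h : ∀ p r, single p r 1 ∈ K) (y : Matrix m n ℂ) : y ∈ K := by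
  rw [matrix_eq_sum_single y]
  refine K.sum_mem fun p _ => K.sum_mem fun r _ => ?_
  have := K.smul_mem (y p r) (h p r)
  rwa [smul_single, smul_eq_mul, mul_one] at this

/-- an ideal of `gl n` that contains a root vector contains `sl n` -/
theorem mem_of_trace {n : Type} [Fintype n] [DecidableEq n] {K : Submodule ℂ (Matrix n n ℂ)}
    (hK : ∀ ξ, ∀ y ∈ K, ξ * y - y * ξ ∈ K)
    (h0 : (∃ p r : n, p ≠ r) → ∃ p r, p ≠ r ∧ single p r 1 ∈ K) {z : Matrix n n ℂ}
    (hz : z.trace = 0) : z ∈ K := by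
  have h1 : ∀ p r q, single p r 1 ∈ K → q ≠ r → single q r 1 ∈ K := fun p r q h hq => by
    have := hK (single q p 1) _ h
    rwa [single_mul_single_same, single_mul_single_of_ne (h := hq.symm), mul_one, sub_zero] at this
  have h2 : ∀ q r s, single q r 1 ∈ K → s ≠ q → single q s 1 ∈ K := fun q r s h hs => by
    have := hK (single r s 1) _ h
    rwa [single_mul_single_same, single_mul_single_of_ne (h := hs), mul_one, zero_sub,
      neg_mem_iff] at this
  have h3 : ∀ p r, single p r 1 ∈ K → (single r r 1 - single p p 1 : Matrix n n ℂ) ∈ K :=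
    fun p r h => by
      have := hK (single r p 1) _ h
      rwa [single_mul_single_same, single_mul_single_same, mul_one] at this
  have h4 : ∀ p r, p ≠ r → single p r 1 ∈ K → single r p 1 ∈ K := fun p r hp h => by
    have := hK (single r p 1) _ (h3 p r h)
    rw [Matrix.mul_sub, Matrix.sub_mul, single_mul_single_same, single_mul_single_same,
      single_mul_single_of_ne (h := hp), single_mul_single_of_ne (h := hp), mul_one, zero_sub,
      sub_zero, ← neg_add', neg_mem_iff, ← two_smul ℂ] at this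
    exact (K.smul_mem_iff two_ne_zero).1 this
  have h5 : ∀ p r, p ≠ r → single p r 1 ∈ K := fun p r hp => by
    obtain ⟨p₀, r₀, h, h'⟩ := h0 ⟨p, r, hp⟩
    by_cases e : p = r₀
    · exact h2 _ _ _ (e ▸ h4 _ _ h h') hp.symm
    · exact h2 _ _ _ (h1 _ _ _ h' e) hp.symm
  rcases isEmpty_or_nonempty n with hn | ⟨⟨r₀⟩⟩
  · rw [Subsingleton.elim z 0]
    exact zero_mem _
  have e : z = ∑ p, ∑ r, z p r • (single p r 1 - if p = r then single r₀ r₀ 1 else 0) := by
    simp only [smul_sub, Finset.sum_sub_distrib, smul_ite, smul_zero, Finset.sum_ite_eq,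
      Finset.mem_univ, if_true, ← Finset.sum_smul]
    rw [show ∑ p, z p p = 0 from hz, zero_smul, sub_zero]
    simp only [smul_single, smul_eq_mul, mul_one]
    exact matrix_eq_sum_single z
  rw [e]
  refine K.sum_mem fun p _ => K.sum_mem fun r _ => K.smul_mem _ ?_
  split_ifs with h
  · subst h
    by_cases h : r₀ = p
    · rw [h, sub_self]
      exact zero_mem _
    · exact h3 _ _ (h5 _ _ h)
  · rw [sub_zero]
    exact h5 _ _ h

theorem gen {I : Type} {v : I → ℕ} {i j : I} {K : Submodule ℂ (Matrix (Fin (v j)) (Fin (v i)) ℂ)}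
    (hK : ∀ ξ : ∀ i, Matrix (Fin (v i)) (Fin (v i)) ℂ, ∀ y ∈ K, ξ j * y - y * ξ i ∈ K)
    (h0 : (∃ p r, (⟨j, p⟩ : Σ i, Fin (v i)) ≠ ⟨i, r⟩) →
      ∃ p r, (⟨j, p⟩ : Σ i, Fin (v i)) ≠ ⟨i, r⟩ ∧ single p r 1 ∈ K) (g : GG v)
    (y : Matrix (Fin (v j)) (Fin (v i)) ℂ) : (g j).1 * y * (g i).1⁻¹ - y ∈ K := by
  classical
  by_cases h : j = i
  · subst h
    refine mem_of_trace (fun ξ y hy => by simpa using hK (Pi.single j ξ) y hy) ?_ ?_
    · rintro ⟨p, r, hp⟩
      obtain ⟨p, r, h1, h2⟩ := h0 ⟨p, r, fun e => hp (eq_of_heq (Sigma.mk.inj e).2)⟩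
      exact ⟨p, r, fun e => h1 (by rw [e]), h2⟩
    · rw [trace_sub, trace_mul_comm, ← Matrix.mul_assoc,
        nonsing_inv_mul _ ((isUnit_iff_isUnit_det _).1 (g j).isUnit), Matrix.one_mul, sub_self]
  · refine mem_of_single (fun p r => ?_) _
    obtain ⟨p₀, r₀, -, h1⟩ := h0 ⟨p, r, fun e => h (congrArg Sigma.fst e)⟩
    have h2 := hK (Pi.single j (single p p₀ 1)) _ h1
    rw [Pi.single_eq_same, Pi.single_eq_of_ne' h, Matrix.mul_zero, sub_zero,
      single_mul_single_same, mul_one] at h2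
    have h3 := hK (Pi.single i (single r₀ r 1)) _ h2
    rwa [Pi.single_eq_same, Pi.single_eq_of_ne h, Matrix.zero_mul, zero_sub,
      single_mul_single_same, mul_one, neg_mem_iff] at h3

open QL WtA

variable {I E : Type} {Q : Quiv I E} {Φ : Type} [Fintype Φ] [Fintype I] [Fintype E]

/-- the type of a summand -/
def ty : Q.qd.Fl → I × Option I
  | Sum.inl e => (Q.s e, some (Q.t e))
  | Sum.inr l => (l.1, none)

/-- the type of a position -/
def typ (j : Q.qd.Col × Option Q.qd.Col) : I × Option I := (j.1.1, j.2.map Sigma.fst)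

theorem ty_ixP (c : Ix Q) : ty (ixP c).1 = typ (ixP c).2 := by
  rcases c with c | c <;> rfl

theorem col_inj {v : I → ℕ} {i : I} {a b : Fin (v i)}
    (h : (⟨i, a⟩ : Σ i, Fin (v i)) = ⟨i, b⟩) : a = b := eq_of_heq (Sigma.mk.inj h).2

theorem ixP_injective : Injective (ixP : Ix Q → _) := by
  rintro (⟨e, p, r⟩ | ⟨i, l, r⟩) (⟨e', p', r'⟩ | ⟨i', l', r'⟩) h
  · obtain rfl : e = e' := Sum.inl_injective (congrArg Prod.fst h)
    obtain rfl : r = r' := col_inj (congrArg (fun x => x.2.1) h)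
    obtain rfl : p = p' := col_inj (Option.some_injective _ (congrArg (fun x => x.2.2) h))
    rfl
  · exact absurd (congrArg Prod.fst h) Sum.inl_ne_inr
  · exact absurd (congrArg Prod.fst h) Sum.inr_ne_inl
  · obtain rfl : i = i' := congrArg (fun x => x.2.1.1) h
    obtain rfl : r = r' := col_inj (congrArg (fun x => x.2.1) h)
    obtain rfl : l = l' := eq_of_heq (Sigma.mk.inj (Sum.inr_injective (congrArg Prod.fst h))).2
    rfl

theorem exists_ix {a : Q.qd.Fl} {j : Q.qd.Col × Option Q.qd.Col} (h : ty a = typ j) :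
    ∃ c, ixP c = (a, j) := by
  obtain ⟨⟨i, r⟩, _ | ⟨j, p⟩⟩ := j <;> obtain e | ⟨i', l⟩ := a
  · exact absurd (congrArg Prod.snd h) (Option.some_ne_none _)
  · obtain rfl : i' = i := congrArg Prod.fst h
    exact ⟨Sum.inr ⟨i', l, r⟩, rfl⟩
  · obtain rfl : Q.s e = i := congrArg Prod.fst h
    obtain rfl : Q.t e = j := Option.some_injective _ (congrArg Prod.snd h)
    exact ⟨Sum.inl ⟨e, p, r⟩, rfl⟩
  · exact absurd (congrArg Prod.snd h) (Option.some_ne_none _).symm

open Classical in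
theorem sum_ix (q : Q.qd.Fl × Q.qd.Col × Option Q.qd.Col) (z : ℂ) :
    ∑ c : Ix Q, (if ixP c = q then z else 0) = if ty q.1 = typ q.2 then z else 0 := by
  split_ifs with h
  · obtain ⟨c, hc⟩ := exists_ix h
    rw [Finset.sum_eq_single c (fun c' _ h' => if_neg fun e => h' (ixP_injective (e.trans hc.symm)))
      (fun h => absurd (Finset.mem_univ _) h), if_pos hc]
  · exact Finset.sum_eq_zero fun c _ => if_neg fun e => h (by rw [← e]; exact ty_ixP c)

open Classical in
theorem bas_inl (e : E) (p : Fin (Q.v (Q.t e))) (r : Fin (Q.v (Q.s e))) :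
    bas (Sum.inl ⟨e, p, r⟩ : Ix Q) = (Pi.single e (single p r 1), 0) := by
  refine co_ext fun c => ?_
  rw [co_bas]
  obtain ⟨e', p', r'⟩ | c := c
  · by_cases h : e' = e
    · subst h
      simp [co, single_apply, eq_comm]
    · simp [co, h]
  · simp [co]

open Classical in
theorem bas_inr (i : I) (l : Fin (Q.w i)) (r : Fin (Q.v i)) :
    bas (Sum.inr ⟨i, l, r⟩ : Ix Q) = (0, Pi.single i (single l r 1)) := by
  refine co_ext fun c => ?_
  rw [co_bas]
  obtain c | ⟨i', l', r'⟩ := c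
  · simp [co]
  · by_cases h : i' = i
    · subst h
      simp [co, single_apply, eq_comm]
    · simp [co, h]

open Classical in
/-- the matrix of the two-sided action -/
noncomputable def gam (g h : Q.En ℂ) (j j' : Q.qd.Col × Option Q.qd.Col) : ℂ :=
  (match j.2, j'.2 with
    | some p, some p' => blockDiagonal' g p p'
    | _, _ => 1) * blockDiagonal' h j'.1 j.1

open Classical in
theorem co_act_bas (g h : Q.En ℂ) (c c' : Ix Q) : co (act g h (bas c')) c =
    if (ixP c).1 = (ixP c').1 then gam g h (ixP c).2 (ixP c').2 else 0 := by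
  obtain ⟨e, p, r⟩ | ⟨i, l, r⟩ := c <;> obtain ⟨e', p', r'⟩ | ⟨i', l', r'⟩ := c'
  · rw [bas_inl]
    by_cases he : e = e'
    · subst he
      simp [co, act, ixP, gam, mul_apply, single_apply, ite_and]
    · simp [co, act, ixP, he]
  · simp [bas_inr, co, act, ixP]
  · simp [bas_inl, co, act, ixP]
  · rw [bas_inr]
    by_cases he : i = i'
    · subst he
      simp [co, act, ixP, gam, mul_apply, single_apply, ite_and, eq_comm]
    · simp [co, act, ixP, he]

open Classical in
/-- the map `1 ⊗ P` -/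
noncomputable def kr (P : Matrix Q.qd.Fl Q.qd.Fl ℂ) : Q.N ℂ →ₗ[ℂ] Q.N ℂ where
  toFun x := ofCo fun c =>
    ∑ c', (if (ixP c).2 = (ixP c').2 then P (ixP c).1 (ixP c').1 else 0) * co x c'
  map_add' x y := co_ext fun c => by simp [mul_add, Finset.sum_add_distrib]
  map_smul' a x := co_ext fun c => by
    simp only [co_ofCo, co_smul, RingHom.id_apply, Finset.mul_sum, mul_left_comm]

open Classical in
theorem co_kr (P : Matrix Q.qd.Fl Q.qd.Fl ℂ) (x : Q.N ℂ) (c : Ix Q) : co (kr P x) c =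
    ∑ c', (if (ixP c).2 = (ixP c').2 then P (ixP c).1 (ixP c').1 else 0) * co x c' := by
  cases c <;> rfl

open Classical in
theorem co_kr_bas (P : Matrix Q.qd.Fl Q.qd.Fl ℂ) (c c' : Ix Q) : co (kr P (bas c')) c =
    if (ixP c).2 = (ixP c').2 then P (ixP c).1 (ixP c').1 else 0 := by
  rw [co_kr]
  simp [co_bas]

theorem comm_kr (P : Matrix Q.qd.Fl Q.qd.Fl ℂ) : Comm (kr P) := fun g => hom_ext fun c c'' => by
  classical
  rw [LinearMap.comp_apply, LinearMap.comp_apply, gauge_eq_act, co_map (kr P), co_map (act _ _)]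
  simp only [co_kr_bas, co_act_bas]
  generalize gam (fun i => (g i).1) (fun i => (g i).1⁻¹) = γ
  refine (Finset.sum_congr rfl fun c' _ => (show _ = if ixP c' = ((ixP c'').1, (ixP c).2) then
      P (ixP c).1 (ixP c'').1 * γ (ixP c).2 (ixP c'').2 else 0 by
    by_cases h1 : (ixP c).2 = (ixP c').2 <;> by_cases h2 : (ixP c').1 = (ixP c'').1 <;>
      simp [h1, h2, Prod.ext_iff, eq_comm])).trans (Eq.trans ?_ (Finset.sum_congr rfl fun c' _ =>
    (show _ = if ixP c' = ((ixP c).1, (ixP c'').2) then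
      P (ixP c).1 (ixP c'').1 * γ (ixP c).2 (ixP c'').2 else 0 by
    by_cases h1 : (ixP c).1 = (ixP c').1 <;> by_cases h2 : (ixP c').2 = (ixP c'').2 <;>
      simp [h1, h2, Prod.ext_iff, eq_comm, mul_comm])).symm)
  rw [sum_ix, sum_ix, ← ty_ixP, ← ty_ixP]
  simp only [eq_comm]

open Classical in
theorem sum_pos (j : Q.qd.Col × Option Q.qd.Col) (F : Q.qd.Fl → ℂ) :
    ∑ c : Ix Q, (if (ixP c).2 = j then F (ixP c).1 else 0) =
      ∑ b, if ty b = typ j then F b else 0 := by
  rw [Finset.sum_congr rfl fun b _ => (sum_ix (b, j) (F b)).symm, Finset.sum_comm]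
  refine Finset.sum_congr rfl fun c _ => ?_
  simp [Prod.ext_iff, ite_and]

open Classical in
theorem kr_mul {P P' : Matrix Q.qd.Fl Q.qd.Fl ℂ} (h : ∀ a b, ty b ≠ ty a → P b a = 0) :
    kr P ∘ₗ kr P' = kr (P * P') := hom_ext fun c c'' => by
  rw [LinearMap.comp_apply, co_map (kr P)]
  simp only [co_kr_bas]
  split_ifs with h0
  · refine (Finset.sum_congr rfl fun c' _ => (show _ = if (ixP c').2 = (ixP c).2 then
        (fun b => P (ixP c).1 b * P' b (ixP c'').1) (ixP c').1 else 0 by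
      by_cases h1 : (ixP c).2 = (ixP c').2 <;> simp [h1, ← h0, eq_comm])).trans
      ((sum_pos _ fun b => P (ixP c).1 b * P' b (ixP c'').1).trans ?_)
    rw [mul_apply]
    refine Finset.sum_congr rfl fun b _ => ?_
    split_ifs with h1
    · rfl
    · rw [h b _ fun e => h1 (e.symm.trans (ty_ixP c)), zero_mul]
  · refine Finset.sum_eq_zero fun c' _ => ?_
    by_cases h1 : (ixP c).2 = (ixP c').2
    · rw [if_neg fun e => h0 (h1.trans e), mul_zero]
    · rw [if_neg h1, zero_mul]

open Classical in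
theorem kr_one : kr (1 : Matrix Q.qd.Fl Q.qd.Fl ℂ) = LinearMap.id := hom_ext fun c c' => by
  rw [co_kr_bas, LinearMap.id_apply, co_bas, one_apply, ← ite_and]
  exact if_congr ⟨fun h => ixP_injective (Prod.ext h.2 h.1), by rintro rfl; exact ⟨rfl, rfl⟩⟩ rfl rfl

/-- the weight of a position -/
def wt (d : Q.qd.Col → ℂ) (j : Q.qd.Col × Option Q.qd.Col) : ℂ := j.2.elim 0 d - d j.1

theorem co_lie_diag (d : Q.qd.Col → ℂ) (x : Q.N ℂ) (c : Ix Q) :
    co (Q.lie (fun i => diagonal fun a => d ⟨i, a⟩) x) c = wt d (ixP c).2 * co x c := by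
  obtain ⟨e, p, r⟩ | ⟨i, l, r⟩ := c
  · simp [co, Quiv.lie, wt, ixP, mul_sub, mul_comm]
  · simp [co, Quiv.lie, wt, ixP, mul_comm]

theorem eq_of_wt {j j' : Q.qd.Col × Option Q.qd.Col} (hj : j.2 ≠ some j.1)
    (h : ∀ d, wt d j = wt d j') : j = j' := by
  classical
  obtain ⟨r, p⟩ := j
  obtain ⟨r', p'⟩ := j'
  have h1 : r = r' := by_contra fun hr => by
    have := h (Pi.single r 1)
    rw [wt, wt, Pi.single_eq_same, Pi.single_eq_of_ne' hr] at this
    have h2 : p.elim 0 (Pi.single r 1 : Q.qd.Col → ℂ) = 0 := by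
      obtain _ | p := p
      · rfl
      · exact Pi.single_eq_of_ne (fun e => hj (congrArg some e)) _
    obtain _ | p' := p'
    · simp [h2] at this
    · by_cases e : p' = r <;> simp [h2, e] at this
      norm_num at this
  subst h1
  have h2 : ∀ d : Q.qd.Col → ℂ, p.elim 0 d = p'.elim 0 d := fun d => sub_left_injective (h d)
  obtain _ | p := p <;> obtain _ | p' := p'
  · rfl
  · exact absurd (h2 1) zero_ne_one
  · exact absurd (h2 1) one_ne_zero
  · have := h2 (Pi.single p 1)
    by_cases e : p' = p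
    · rw [e]
    · simp [e] at this

/-- equivariant maps preserve the weight spaces of the roots -/
theorem co_bas_eq_zero {ψ : Q.N ℂ →ₗ[ℂ] Q.N ℂ} (h : Comm ψ) {c c' : Ix Q}
    (hc : (ixP c).2.2 ≠ some (ixP c).2.1 ∨ (ixP c').2.2 ≠ some (ixP c').2.1)
    (hne : (ixP c).2 ≠ (ixP c').2) : co (ψ (bas c')) c = 0 := by_contra fun h0 => by
  have h1 : ∀ d, wt d (ixP c).2 = wt d (ixP c').2 := fun d => by
    have e : Q.lie (fun i => diagonal fun a => d ⟨i, a⟩) (bas c') = wt d (ixP c').2 • bas c' :=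
      co_ext fun b => by
        rw [co_lie_diag, co_smul, co_bas]
        split_ifs with h
        · rw [h]
        · rw [mul_zero, mul_zero]
    have := congrArg (co · c) (h.lie (fun i => diagonal fun a => d ⟨i, a⟩) (bas c'))
    simp only [e, map_smul, co_smul, co_lie_diag] at this
    exact (mul_right_cancel₀ h0 this).symm
  exact hne (hc.elim (fun hc => eq_of_wt hc h1) fun hc => (eq_of_wt hc fun d => (h1 d).symm).symm)

/-- generation of the non-trivial part by root vectors -/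
theorem N1_le_of_lie {K : Submodule ℂ (Q.N ℂ)} (hK : ∀ ξ, ∀ x ∈ K, Q.lie ξ x ∈ K)
    (h0 : ∀ c : Ix Q, (ixP c).2.2 ≠ some (ixP c).2.1 →
      ∃ c', (ixP c').1 = (ixP c).1 ∧ (ixP c').2.2 ≠ some (ixP c').2.1 ∧ bas c' ∈ K) :
    N1 Q ≤ K := by
  classical
  refine N1_le fun g x => mem_of_bas 
    (K := K.comap (Q.gauge (fun i => (g i).1) - (LinearMap.id : Q.N ℂ →ₗ[ℂ] Q.N ℂ)))
    (fun c => ?_) x
  obtain ⟨e, p, r⟩ | ⟨i, l, r⟩ := c
  · let ι : Matrix (Fin (Q.v (Q.t e))) (Fin (Q.v (Q.s e))) ℂ →ₗ[ℂ] Q.N ℂ :=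
      LinearMap.inl ℂ _ _ ∘ₗ
        LinearMap.single ℂ (fun e => Matrix (Fin (Q.v (Q.t e))) (Fin (Q.v (Q.s e))) ℂ) e
    have h1 : ∀ (a b : Q.En ℂ) y, act a b (ι y) = ι (a (Q.t e) * y * b (Q.s e)) := fun a b y =>
      Prod.ext (funext fun e' => by
        by_cases h : e' = e
        · subst h
          simp [ι, act]
        · simp [ι, act, h]) (funext fun i => by simp [ι, act])
    have h2 : ∀ (ξ : Q.En ℂ) y, Q.lie ξ (ι y) = ι (ξ (Q.t e) * y - y * ξ (Q.s e)) := fun ξ y =>
      Prod.ext (funext fun e' => by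
        by_cases h : e' = e
        · subst h
          simp [ι, Quiv.lie]
        · simp [ι, Quiv.lie, h]) (funext fun i => by simp [ι, Quiv.lie])
    have h3 := gen (K := K.comap ι) (fun ξ y hy => by
      rw [Submodule.mem_comap, ← h2]; exact hK ξ _ hy) (by
      rintro ⟨p, r, h⟩
      obtain ⟨c', e1, e2, e3⟩ := h0 (Sum.inl ⟨e, p, r⟩) fun e => h (Option.some_injective _ e)
      obtain ⟨e', p', r'⟩ | c' := c'
      · obtain rfl : e' = e := Sum.inl_injective e1
        exact ⟨p', r', fun e => e2 (congrArg some e), by rwa [bas_inl] at e3⟩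
      · exact absurd e1 Sum.inr_ne_inl) g (single p r 1)
    rw [Submodule.mem_comap, map_sub, ← h1 (fun i => g i) fun i => (g i).1⁻¹] at h3
    rw [bas_inl]
    exact h3
  · have h1 : ∀ r, bas (Sum.inr ⟨i, l, r⟩ : Ix Q) ∈ K := fun r => by
      obtain ⟨c', e1, -, e3⟩ := h0 (Sum.inr ⟨i, l, r⟩) (Option.some_ne_none _).symm
      obtain c' | ⟨i', l', r'⟩ := c'
      · exact absurd e1 Sum.inl_ne_inr
      obtain rfl : i' = i := congrArg Sigma.fst (Sum.inr_injective e1)
      obtain rfl : l' = l := eq_of_heq (Sigma.mk.inj (Sum.inr_injective e1)).2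
      have := hK (-Pi.single i' (single r' r 1)) _ e3
      rw [bas_inr] at this ⊢
      refine (congrArg (· ∈ K) (Prod.ext (funext fun e => ?_) (funext fun j => ?_))).mp this
      · simp [Quiv.lie]
      · by_cases h : j = i'
        · subst h
          simp [Quiv.lie]
        · simp [Quiv.lie, h]
    refine K.sub_mem ?_ (h1 r)
    rw [eq_sum (Q.gauge _ _)]
    refine K.sum_mem fun c _ => ?_
    rw [gauge_eq_act, co_act_bas]
    split_ifs with h
    · obtain c | ⟨i', l', r'⟩ := c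
      · exact absurd h Sum.inl_ne_inr
      obtain rfl : i' = i := congrArg Sigma.fst (Sum.inr_injective h)
      obtain rfl : l' = l := eq_of_heq (Sigma.mk.inj (Sum.inr_injective h)).2
      exact K.smul_mem _ (h1 r')
    · rw [zero_smul]
      exact zero_mem _

open Classical in
/-- the vector with given components at a given position -/
noncomputable def vc (j : Q.qd.Col × Option Q.qd.Col) (y : Q.qd.Fl → ℂ) : Q.N ℂ :=
  ofCo fun c => if (ixP c).2 = j then y (ixP c).1 else 0

open Classical in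
/-- the components at a given position -/
noncomputable def rd (j : Q.qd.Col × Option Q.qd.Col) : Q.N ℂ →ₗ[ℂ] Q.qd.Fl → ℂ where
  toFun x b := ∑ c, (if ixP c = (b, j) then 1 else 0) * co x c
  map_add' x y := funext fun b => by
    simp only [co_add, mul_add, Finset.sum_add_distrib, Pi.add_apply]
  map_smul' a x := funext fun b => by
    simp only [co_smul, RingHom.id_apply, Pi.smul_apply, smul_eq_mul, Finset.mul_sum,
      mul_left_comm]

theorem rd_ixP (x : Q.N ℂ) (c : Ix Q) : rd (ixP c).2 x (ixP c).1 = co x c := by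
  classical
  refine (Finset.sum_eq_single c (fun c' _ h => ?_) fun h => absurd (Finset.mem_univ _) h).trans ?_
  · rw [if_neg fun e => h (ixP_injective e), zero_mul]
  · rw [if_pos rfl, one_mul]

theorem rd_eq_zero (x : Q.N ℂ) {j : Q.qd.Col × Option Q.qd.Col} {b : Q.qd.Fl}
    (h : ty b ≠ typ j) : rd j x b = 0 :=
  Finset.sum_eq_zero fun c _ => by
    rw [if_neg fun e => h ((congrArg (fun q => ty q.1 = typ q.2) e).mp (ty_ixP c)), zero_mul]

open Classical in
theorem co_vec_rd (j : Q.qd.Col × Option Q.qd.Col) (x : Q.N ℂ) (c : Ix Q) :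
    co (vc j (rd j x)) c = if (ixP c).2 = j then co x c else 0 := by
  rw [vc, co_ofCo]
  split_ifs with h
  · rw [← h, rd_ixP]
  · rfl

theorem vec_rd_comm {ψ : Q.N ℂ →ₗ[ℂ] Q.N ℂ} (h : Comm ψ) {j : Q.qd.Col × Option Q.qd.Col}
    (hj : j.2 ≠ some j.1) (x : Q.N ℂ) : ψ (vc j (rd j x)) = vc j (rd j (ψ x)) :=
  co_ext fun c => by
    classical
    rw [co_vec_rd, co_map, co_map ψ x]
    split_ifs with h1
    · refine Finset.sum_congr rfl fun c' _ => ?_
      rw [co_vec_rd]
      split_ifs with h2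
      · rfl
      · rw [co_bas_eq_zero h (Or.inl (h1 ▸ hj)) fun e => h2 (e ▸ h1), zero_mul, zero_mul]
    · refine Finset.sum_eq_zero fun c' _ => ?_
      rw [co_vec_rd]
      split_ifs with h2
      · rw [co_bas_eq_zero (c := c) (c' := c') h (Or.inr (h2 ▸ hj)) fun e => h1 (e.trans h2),
          zero_mul]
      · rw [mul_zero]

end WtB

open QL WtA WtB

variable {I E : Type} {Q : Quiv I E} {Φ : Type} [Fintype Φ] [Fintype I] [Fintype E]

/-- A diagonalization of the flavour action on the non-trivial part of `N`. -/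
structure Wts (A : Flav Q Φ) where
  /-- the characters -/
  χ : Q.qd.Fl → Φ → ℤ
  /-- the change of coordinates -/
  φ : Q.N ℂ ≃ₗ[ℂ] Q.N ℂ
  comm : QL.Comm φ.toLinearMap
  rho : ∀ f, ∀ x ∈ N1 Q, A.ρ f (φ x) = φ ((std Q χ).ρ f x)

open Classical in
theorem exists_wts (A : Flav Q Φ) : Nonempty (Wts A) := by
  let G : I × Option I → Q.qd.Col × Option Q.qd.Col → Prop := fun τ j =>
    j.2 ≠ some j.1 ∧ typ j = τ
  obtain ⟨χ, P, hP, h0, hE⟩ := exists_block (ty (Q := Q)) (fun τ (η : Φ → ℤ) =>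
    {y | ∀ h : ∃ j, G τ j, ∀ f, A.ρ f (vc h.choose y) = chF η f • vc h.choose y}) fun a => by
    by_cases h : ∃ j, G (ty a) j
    · obtain ⟨c, hc⟩ := exists_ix h.choose_spec.2.symm
      have e : rd h.choose (bas c) = Pi.single a 1 := funext fun b => by
        by_cases hb : ty b = typ h.choose
        · obtain ⟨c', hc'⟩ := exists_ix hb
          have := rd_ixP (bas c) c'
          rw [hc'] at this
          rw [this, co_bas, Pi.single_apply]
          exact if_congr ⟨fun e => congrArg Prod.fst (hc'.symm.trans (e ▸ hc)),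
            fun e => ixP_injective (hc'.trans (e ▸ hc.symm))⟩ rfl rfl
        · rw [rd_eq_zero _ hb, Pi.single_eq_of_ne]
          rintro rfl
          exact hb h.choose_spec.2.symm
      rw [← e, ← Submodule.mem_comap]
      refine (A.alg.ge.trans (iSup_le fun η x hx => ?_)) Submodule.mem_top
      refine Submodule.mem_comap.2 (Submodule.subset_span
        ⟨fun b hb => rd_eq_zero _ fun e => hb (e.trans h.choose_spec.2), η, fun _ f => ?_⟩)
      have hx' : A.ρ f x = chF η f • x :=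
        Module.End.mem_eigenspace_iff.1 ((Submodule.mem_iInf _).1 hx f)
      rw [vec_rd_comm (comm_rho A f) h.choose_spec.1, hx']
      refine co_ext fun c => ?_
      rw [co_smul, co_vec_rd, co_vec_rd, co_smul, mul_ite, mul_zero]
    · exact Submodule.subset_span ⟨fun b hb => Pi.single_eq_of_ne (fun e => hb (congrArg ty e)) _, 0,
        fun h' => absurd h' h⟩
  have h1 : kr P ∘ₗ kr P⁻¹ = LinearMap.id := by
    rw [kr_mul h0, mul_nonsing_inv _ ((isUnit_iff_isUnit_det _).1 hP), kr_one]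
  have h2 : Surjective (kr P) := fun x => ⟨kr P⁻¹ x, LinearMap.congr_fun h1 x⟩
  refine ⟨⟨χ, LinearEquiv.ofBijective (kr P) ⟨LinearMap.injective_iff_surjective.2 h2, h2⟩,
    comm_kr P, fun f x hx => ?_⟩⟩
  refine N1_le_of_lie (K := LinearMap.eqLocus (A.ρ f ∘ₗ kr P) (kr P ∘ₗ (std Q χ).ρ f))
    (fun ξ x hx => ?_) (fun c hc => ?_) hx
  · have hx' : A.ρ f (kr P x) = kr P ((std Q χ).ρ f x) := hx
    show A.ρ f (kr P _) = kr P ((std Q χ).ρ f _)
    rw [(comm_kr P).lie, (comm_rho A f).lie, hx', (comm_rho (std Q χ) f).lie, (comm_kr P).lie]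
  · have h : ∃ j, G (ty (ixP c).1) j := ⟨_, hc, (ty_ixP c).symm⟩
    obtain ⟨c', hc'⟩ := exists_ix h.choose_spec.2.symm
    refine ⟨c', by rw [hc'], by rw [hc']; exact h.choose_spec.1, ?_⟩
    have e : kr P (bas c') = vc h.choose fun b => P b (ixP c).1 := co_ext fun b => by
      rw [co_kr_bas, vc, co_ofCo, hc']
    show A.ρ f (kr P _) = kr P ((std Q χ).ρ f _)
    rw [std_bas, map_smul, e, hE _ h f, hc']

end Vale.Agent.P291Z
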