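import Vale.Agent.P291Z.TSys0
import Vale.Agent.P291Z.WtB
import Vale.Agent.P291Z.Fou0
import Vale.Agent.P291.Hik.Points
import Vale.Agent.P291.HN2hBlk

/-!
# Weights: the dictionary with the algebraic model
-/

set_option linter.all false

namespace Vale.Agent.P291Z

open Set Function Topology Matrix MvPolynomial Vale.Agent.P291 Vale.Agent.P291.Hik

section tact

variable {J : Type} [Fintype J] (n : J → ℕ)

/-- the action of the torus induced by an action of `GG n` -/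
noncomputable abbrev tAct (Z : Type) [MulAction (GG n) Z] : MulAction (Tc n) Z :=
  MulAction.compHom Z (toG n)

/-- the linear action of the torus induced by a linear action of `GG n` -/
noncomputable abbrev tDAct (W : Type) [AddCommGroup W] [DistribMulAction (GG n) W] :
    DistribMulAction (Tc n) W := DistribMulAction.compHom W (toG n)

theorem tTower (Z : Type) [MulAction (GG n) Z] :
    @IsScalarTower (Tc n) (GG n) Z _ _ (tAct n Z).toSMul :=
  letI := tAct n Z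
  ⟨fun t g x => mul_smul (toG n t) g x⟩

end tact

namespace WtC

theorem sc_monomial {σ : Type} (c : ℂ) (m : σ →₀ ℕ) (a : ℂ) :
    aeval (fun i => c • X i : σ → MvPolynomial σ ℂ) (monomial m a) =
      c ^ m.degree • monomial m a := by
  rw [aeval_monomial, monomial_eq, Finsupp.prod, Finsupp.prod, Finsupp.degree_apply,
    ← Finset.prod_pow_eq_pow_sum, ← mul_smul_comm, ← Finset.prod_smul]
  simp only [smul_pow]
  rfl

theorem coeff_sc {σ : Type} (c : ℂ) (s : MvPolynomial σ ℂ) (m : σ →₀ ℕ) :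
    coeff m (aeval (fun i => c • X i : σ → MvPolynomial σ ℂ) s) = c ^ m.degree * coeff m s := by
  classical
  induction s using MvPolynomial.induction_on' with
  | monomial u a =>
    rw [sc_monomial, coeff_smul, coeff_monomial]
    split_ifs with h
    · rw [h, smul_eq_mul]
    · rw [smul_zero, mul_zero]
  | add p q hp hq => rw [map_add, coeff_add, coeff_add, hp, hq, mul_add]

theorem wdeg {σ : Type} (m : σ →₀ ℕ) : Finsupp.weight 1 m = m.degree := by
  rw [Finsupp.degree_eq_weight_one]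
  rfl

theorem sc_iff {σ : Type} {s : MvPolynomial σ ℂ} {d : ℕ} :
    aeval (fun i => (2 : ℂ) • X i : σ → MvPolynomial σ ℂ) s = (2 : ℂ) ^ d • s ↔
      s.IsHomogeneous d := by
  refine ⟨fun h m hm => ?_, fun h => MvPolynomial.ext _ _ fun m => ?_⟩
  · have := congrArg (coeff m) h
    rw [coeff_sc, coeff_smul, smul_eq_mul, mul_left_inj' hm] at this
    rw [wdeg]
    exact Nat.pow_right_injective le_rfl (by exact_mod_cast this)
  · rw [coeff_sc, coeff_smul, smul_eq_mul]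
    by_cases hm : coeff m s = 0
    · rw [hm, mul_zero, mul_zero]
    · rw [← wdeg, h hm]

theorem smul_two {σ : Type} (d : ℕ) (s : MvPolynomial σ ℂ) : (2 : ℂ) ^ d • s = 2 ^ d * s := by
  rw [smul_eq_C_mul, map_pow, map_ofNat]

theorem prod_zpow {B : Type} [Fintype B] [DecidableEq B] (u : B → ℂ) (hu : ∀ b, u b ≠ 0)
    (o : Option B) (d : B) :
    ∏ b, u b ^ ((if o = some b then 1 else 0) - if d = b then 1 else 0 : ℤ) =
      o.elim 1 u * (u d)⁻¹ := by
  simp only [zpow_sub₀ (hu _), Finset.prod_div_distrib]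
  rw [div_eq_mul_inv]
  congr 1
  · obtain _ | c := o <;> simp
  · simp

theorem sum_smul_X {B R : Type} [Fintype B] [DecidableEq B] [CommRing R] (o : Option B) (d : B) :
    ∑ b, (((if o = some b then 1 else 0) - if d = b then 1 else 0 : ℤ) : R) •
      (X b : MvPolynomial B R) = xo R o - X d := by
  simp only [Int.cast_sub, sub_smul, Finset.sum_sub_distrib]
  congr 1
  · obtain _ | c := o <;> simp [xo]
  · simp

end WtC

variable {I E : Type} {Q : Quiv I E} {Φ : Type} [Fintype Φ] [Fintype I] [Fintype E]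

/-- the tautological diagonalization -/
noncomputable def Wts.std (χ : Q.qd.Fl → Φ → ℤ) : Wts (std Q χ) :=
  ⟨χ, LinearEquiv.refl _ _, fun _ => rfl, fun _ _ _ => rfl⟩

section inst

variable (A : Flav Q Φ)

noncomputable instance : DistribMulAction (Tc (Q.nn Φ)) A.NN := tDAct _ _

instance : IsScalarTower (Tc (Q.nn Φ)) (GG (Q.nn Φ)) A.NN := tTower _ _

noncomputable instance : DistribMulAction (Tc (Q.nn Φ)) (Four.Ad Q Φ) := tDAct _ _

instance : IsScalarTower (Tc (Q.nn Φ)) (GG (Q.nn Φ)) (Four.Ad Q Φ) := tTower _ _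

noncomputable instance : MulAction (Tc (Q.nn Φ)) Q.Lat := tAct _ _

instance : IsScalarTower (Tc (Q.nn Φ)) (GG (Q.nn Φ)) Q.Lat := tTower _ _

end inst

section dict

variable (Q Φ)

/-- `H_{T × F}(pt)` as a polynomial ring over `H_F(pt)` -/
noncomputable def spE : SP (Q.nn Φ) ≃+* SS Q.qd.Col (LF Φ) :=
  ((renameEquiv ℂ (show Bx (Q.nn Φ) ≃ Q.qd.Col ⊕ Φ from
    { toFun := fun b => match b with
        | ⟨Sum.inl i, a⟩ => Sum.inl ⟨i, a⟩
        | ⟨Sum.inr φ, _⟩ => Sum.inr φ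
      invFun := fun c => match c with
        | Sum.inl c => ⟨Sum.inl c.1, c.2⟩
        | Sum.inr φ => ⟨Sum.inr φ, (0 : Fin 1)⟩
      left_inv := by
        rintro ⟨i | φ, a⟩
        · rfl
        · exact congrArg (Sigma.mk _) (Subsingleton.elim (α := Fin 1) _ _)
      right_inv := by rintro (c | φ) <;> rfl })).trans (sumAlgEquiv ℂ _ _)).toRingEquiv

variable {Q Φ}

theorem spE_inl (c : Q.qd.Col) : spE Q Φ (X ⟨Sum.inl c.1, c.2⟩) = X c :=
  (congrArg (sumAlgEquiv ℂ _ _) (rename_X _ _)).trans (sumAlgEquiv_X_inl _ _ _ c)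

theorem spE_inr (a : Φ) (z : Fin 1) : spE Q Φ (X ⟨Sum.inr a, z⟩) = C (X a) :=
  (congrArg (sumAlgEquiv ℂ _ _) (rename_X _ _)).trans (sumAlgEquiv_X_inr _ _ _ a)

theorem spE_C (c : ℂ) : spE Q Φ (C c) = C (C c) :=
  (congrArg (sumAlgEquiv ℂ _ _) (rename_C _ _)).trans (sumAlgEquiv_C_inl _ _ _ c)

theorem spE_smul (c : ℂ) (s : SP (Q.nn Φ)) : spE Q Φ (c • s) = c • spE Q Φ s := by
  rw [smul_eq_C_mul, map_mul, spE_C, ← smul_eq_C_mul, ← algebraMap_eq, algebraMap_smul]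

/-- a character of `T × F` -/
def wtOf (lam : Q.qd.Col → ℤ) (η : Φ → ℤ) : Bx (Q.nn Φ) → ℤ
  | ⟨Sum.inl i, a⟩ => lam ⟨i, a⟩
  | ⟨Sum.inr φ, _⟩ => η φ

theorem prod_bx {M : Type} [CommMonoid M] (f : Bx (Q.nn Φ) → M) :
    ∏ b, f b = (∏ c : Q.qd.Col, f ⟨Sum.inl c.1, c.2⟩) * ∏ a : Φ, f ⟨Sum.inr a, (0 : Fin 1)⟩ := by
  rw [Fintype.prod_sigma, Fintype.prod_sum_type, Fintype.prod_sigma]
  congr 1
  exact Finset.prod_congr rfl fun a _ => Fin.prod_univ_one fun z => f ⟨Sum.inr a, z⟩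

theorem sum_bx {M : Type} [AddCommMonoid M] (f : Bx (Q.nn Φ) → M) :
    ∑ b, f b = (∑ c : Q.qd.Col, f ⟨Sum.inl c.1, c.2⟩) + ∑ a : Φ, f ⟨Sum.inr a, (0 : Fin 1)⟩ :=
  prod_bx (M := Multiplicative M) f

theorem spE_linf (lam : Q.qd.Col → ℤ) (η : Φ → ℤ) :
    spE Q Φ (linf _ (wtOf lam η)) = ∑ c, (lam c : LF Φ) • X c + C (linF η) := by
  rw [linf, sum_bx, map_add, map_sum, map_sum, linF, map_sum]
  congr 1 <;> refine Finset.sum_congr rfl fun c _ => ?_
  · rw [spE_smul, spE_inl, Int.cast_smul_eq_zsmul, Int.cast_smul_eq_zsmul]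
    rfl
  · rw [spE_smul, spE_inr, Int.cast_smul_eq_zsmul, Int.cast_smul_eq_zsmul, map_zsmul]
    rfl

theorem chr_wtOf (lam : Q.qd.Col → ℤ) (η : Φ → ℤ) (t : Tc (Q.nn Φ)) :
    chr _ (wtOf lam η) t = (∏ c : Q.qd.Col, (t ⟨Sum.inl c.1, c.2⟩ : ℂ) ^ lam c) *
      chF η (Flav.fl Q Φ (toG _ t)) := by
  rw [chr, prod_bx, chF, Units.coe_prod]
  congr 1
  refine Finset.prod_congr rfl fun a _ => ?_
  rw [Units.val_zpow_eq_zpow_val]
  exact congrArg (· ^ η a) (det_fin_one (diagonal fun z : Fin 1 => (t ⟨Sum.inr a, z⟩ : ℂ))).symm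

theorem ga_toG (t : Tc (Q.nn Φ)) (i : I) :
    Flav.ga Q Φ (toG _ t) i = diagonal fun a => (t ⟨Sum.inl i, a⟩ : ℂ) := rfl

/-- the gauge part of an element of the Weyl group -/
def wyG (w : Wy (Q.nn Φ)) : Q.qd.Wy := fun i => w (Sum.inl i)

theorem wyG_bijective : Bijective (wyG : Wy (Q.nn Φ) → Q.qd.Wy) := by
  refine ⟨fun w w' h => funext fun j => ?_, fun σ => ⟨fun j => match j with
    | Sum.inl i => σ i
    | Sum.inr _ => 1, rfl⟩⟩
  cases j with
  | inl i => exact congrFun h i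
  | inr a => exact Equiv.ext fun z => Subsingleton.elim (α := Fin 1) _ _

theorem spE_rename (w : Wy (Q.nn Φ)) (s : SP (Q.nn Φ)) :
    spE Q Φ (rename (Wy.perm w) s) = rename (Q.qd.act (wyG w)) (spE Q Φ s) := by
  induction s using MvPolynomial.induction_on with
  | C a => rw [rename_C, spE_C, rename_C]
  | add p q hp hq => simp only [map_add, hp, hq]
  | mul_X p b hp =>
    simp only [map_mul, hp, rename_X]
    congr 1
    obtain ⟨i | a, z⟩ := b
    · exact (spE_inl ⟨i, w _ z⟩).trans ((rename_X (Q.qd.act (wyG w)) ⟨i, z⟩).symm.trans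
        (congrArg (rename _) (spE_inl ⟨i, z⟩).symm))
    · exact (spE_inr a (w _ z)).trans ((rename_C _ _).symm.trans (congrArg _ (spE_inr a z).symm))

/-- the grading datum of `H_F(pt)` -/
noncomputable def scF (Φ : Type) : Scal ℂ (LF Φ) where
  θ := AlgEquiv.ofAlgHom (aeval fun a => (2 : ℂ) • X a) (aeval fun a => (2⁻¹ : ℂ) • X a)
    (algHom_ext fun a => by simp [smul_smul]) (algHom_ext fun a => by simp [smul_smul])
  dec c := ⟨Finsupp.onFinset (Finset.range (c.totalDegree + 1)) (homogeneousComponent · c)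
      fun d hd => Finset.mem_range.2 (Nat.lt_succ_of_le (not_lt.1 fun h =>
        hd (homogeneousComponent_eq_zero d c h))),
    fun d => (WtC.sc_iff.2 (homogeneousComponent_isHomogeneous d c)).trans (WtC.smul_two _ _),
    by rw [Finsupp.onFinset_sum _ fun _ => rfl, sum_homogeneousComponent]⟩

theorem scF_X (a : Φ) : (scF Φ).θ (X a) = 2 * X a :=
  (aeval_X _ a).trans (by rw [smul_eq_C_mul, map_ofNat])

theorem scF_monomial (m : Φ →₀ ℕ) :
    (scF Φ).θ (basisMonomials Φ ℂ m) = 2 ^ m.degree * basisMonomials Φ ℂ m := by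
  rw [coe_basisMonomials]
  exact (WtC.sc_monomial 2 m 1).trans (WtC.smul_two _ _)

theorem sS_spE (s : SP (Q.nn Φ)) : (scF Φ).sS Q.qd.Col (spE Q Φ s) =
    spE Q Φ (aeval (fun i => (2 : ℂ) • X i) s) := by
  induction s using MvPolynomial.induction_on with
  | C a =>
    rw [aeval_C, algebraMap_eq, spE_C, Scal.sS_C]
    exact congrArg C ((scF Φ).θ.commutes a)
  | add p q hp hq => simp only [map_add, hp, hq]
  | mul_X p b hp =>
    rw [map_mul, map_mul, hp, map_mul, map_mul, aeval_X]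
    refine congrArg (_ * ·) ?_
    rw [smul_eq_C_mul, map_mul, map_ofNat, map_ofNat]
    obtain ⟨i | a, z⟩ := b
    · rw [spE_inl ⟨i, z⟩, Scal.sS_X]
    · rw [spE_inr a z, Scal.sS_C, scF_X, map_mul, map_ofNat]

theorem spE_hom {s : SP (Q.nn Φ)} {d : ℕ} :
    spE Q Φ s ∈ (scF Φ).homS Q.qd.Col d ↔ s.IsHomogeneous d := by
  rw [H2h.homS_iff, ← WtC.sc_iff, zpow_natCast, ← spE_smul, ← (spE Q Φ).injective.eq_iff,
    ← sS_spE]
  rfl

variable [DecidableEq I]

variable (Q) in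
/-- the algebraic model -/
noncomputable abbrev cq (χ : Q.qd.Fl → Φ → ℤ) : QD I Q.qd.Fl Q.qd.Col (LF Φ) :=
  core Q.qd fun a => linF (χ a)

variable (χ : Q.qd.Fl → Φ → ℤ)

theorem cq_lin : (cq Q χ).Lin (scF Φ) := fun a => by
  show (scF Φ).θ (linF (χ a)) = 2 * linF (χ a)
  rw [linF, map_sum, Finset.mul_sum]
  exact Finset.sum_congr rfl fun b _ => by rw [map_smul, scF_X, mul_smul_comm]

theorem prod_prs {M : Type} [CommMonoid M] (g : Q.qd.Col × Q.qd.Col → M) :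
    ∏ p ∈ (cq Q χ).Prs.filter (fun p => p.1 ≠ p.2), g p =
      ∏ i, ∏ a : Fin (Q.v i), ∏ b ∈ {a}ᶜ, g (⟨i, b⟩, ⟨i, a⟩) := by
  rw [QD.Prs, Finset.prod_filter, Finset.prod_filter, Fintype.prod_prod_type_right,
    Fintype.prod_sigma]
  refine Finset.prod_congr rfl fun i _ => Finset.prod_congr rfl fun a _ => ?_
  refine (prod_col Q.qd i fun c => if c ≠ ⟨i, a⟩ then g (c, ⟨i, a⟩) else 1).trans ?_
  rw [← Finset.prod_filter]
  exact Finset.prod_congr (by ext b; simp) fun _ _ => rfl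

theorem cq_D : (cq Q χ).D = ∏ i, ∏ a : Fin (Q.v i), ∏ b ∈ {a}ᶜ,
    (X ⟨i, b⟩ - X ⟨i, a⟩ : SS Q.qd.Col (LF Φ)) :=
  prod_prs χ fun p => (X p.1 - X p.2 : SS Q.qd.Col (LF Φ))

/-- `D = ± Δ²` -/
theorem spE_Del_sq : ∃ ε : ℤˣ, spE Q Φ (Del (Q.nn Φ) ^ 2) = (ε : ℤ) • (cq Q χ).D := by
  refine ⟨∏ i, ∏ a : Fin (Q.v i), ∏ _b ∈ Finset.Ioi a, -1, ?_⟩
  have h : ∀ a : Φ, ∏ z : Fin (Q.nn Φ (Sum.inr a)), ∏ b ∈ Finset.Ioi z,
      (X ⟨Sum.inr a, z⟩ - X ⟨Sum.inr a, b⟩ : SP (Q.nn Φ)) = 1 := fun a =>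
    Finset.prod_eq_one fun z _ => Finset.prod_eq_one fun b hb =>
      absurd (Subsingleton.elim (α := Fin 1) z b) (Finset.mem_Ioi.1 hb).ne
  rw [cq_D, Del, Fintype.prod_sum_type, Finset.prod_eq_one fun a _ => h a, mul_one, zsmul_eq_mul]
  simp only [← Finset.prod_prod_Ioi_mul_eq_prod_prod_off_diag, map_pow, map_prod, map_sub,
    Units.coe_prod, Int.cast_prod, ← Finset.prod_mul_distrib, ← Finset.prod_pow]
  refine Finset.prod_congr rfl fun i _ => Finset.prod_congr rfl fun a _ =>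
    Finset.prod_congr rfl fun b _ => ?_
  rw [spE_inl ⟨i, a⟩, spE_inl ⟨i, b⟩, Units.val_neg, Units.val_one, Int.cast_neg, Int.cast_one]
  ring

theorem prod_ix {M : Type} [CommMonoid M] (f : Q.qd.Fl × Q.qd.Col × Option Q.qd.Col → M) :
    ∏ p ∈ (cq Q χ).Wt, f p = ∏ c : QL.Ix Q, f (ixP c) := by
  rw [prod_wt, Fintype.prod_sum_type, Fintype.prod_sigma, Fintype.prod_sigma]
  congr 1 <;> refine Finset.prod_congr rfl fun i _ => ?_
  · rw [Fintype.prod_prod_type]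
    rfl
  · rw [Fintype.prod_prod_type_right]
    rfl

/-- the character of `T × F` on a coordinate -/
def ixW (c : QL.Ix Q) : Bx (Q.nn Φ) → ℤ :=
  wtOf (fun b => (if (ixP c).2.2 = some b then 1 else 0) - if (ixP c).2.1 = b then 1 else 0)
    (χ (ixP c).1)

theorem spE_ixW (c : QL.Ix Q) : spE Q Φ (linf _ (ixW χ c)) = (cq Q χ).xi (ixP c) := by
  rw [ixW, spE_linf, WtC.sum_smul_X]
  rfl

/-- the root `x_c - x_d` -/
def rootW (c d : Q.qd.Col) : Bx (Q.nn Φ) → ℤ :=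
  wtOf (fun b => (if c = b then 1 else 0) - if d = b then 1 else 0) 0

theorem spE_rootW (c d : Q.qd.Col) : spE Q Φ (linf _ (rootW c d)) = X c - X d := by
  have := WtC.sum_smul_X (R := LF Φ) (some c) d
  simp only [Option.some.injEq] at this
  rw [rootW, spE_linf, this, linF]
  simp [xo]

theorem chr_rootW (c d : Q.qd.Col) (t : Tc (Q.nn Φ)) : chr _ (rootW c d) t =
    (t ⟨Sum.inl c.1, c.2⟩ : ℂ) * (t ⟨Sum.inl d.1, d.2⟩ : ℂ)⁻¹ := by
  have := WtC.prod_zpow (fun b : Q.qd.Col => (t ⟨Sum.inl b.1, b.2⟩ : ℂ))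
    (fun _ => Circle.coe_ne_zero _) (some c) d
  simp only [Option.some.injEq] at this
  rw [rootW, chr_wtOf, this, chF_zero, mul_one]
  rfl

theorem co_gauge_diag (u : Q.qd.Col → ℂ) (hu : ∀ b, u b ≠ 0) (x : Q.N ℂ) (c : QL.Ix Q) :
    QL.co (Q.gauge (fun i => diagonal fun a => u ⟨i, a⟩) x) c =
      (ixP c).2.2.elim 1 u * (u (ixP c).2.1)⁻¹ * QL.co x c := by
  have h : ∀ i, (diagonal fun a : Fin (Q.v i) => u ⟨i, a⟩)⁻¹ = diagonal fun a => (u ⟨i, a⟩)⁻¹ :=
    fun i => inv_eq_left_inv (by simp [hu])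
  obtain ⟨e, p, r⟩ | ⟨i, l, r⟩ := c
  · simp [QL.co, Quiv.gauge, h, ixP, mul_right_comm]
  · simp [QL.co, Quiv.gauge, h, ixP, mul_comm]

theorem co_gauge_toG (t : Tc (Q.nn Φ)) (x : Q.N ℂ) (c : QL.Ix Q) :
    chF (χ (ixP c).1) (Flav.fl Q Φ (toG _ t)) * QL.co (Q.gauge (Flav.ga Q Φ (toG _ t)) x) c =
      chr _ (ixW χ c) t * QL.co x c := by
  rw [ixW, chr_wtOf, WtC.prod_zpow _ fun _ => Circle.coe_ne_zero _, mul_comm _ (chF _ _), mul_assoc]
  exact congrArg (_ * ·) (co_gauge_diag (fun b => (t ⟨Sum.inl b.1, b.2⟩ : ℂ))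
    (fun _ => Circle.coe_ne_zero _) x c)

theorem QL.Comm.symm {φ : Q.N ℂ ≃ₗ[ℂ] Q.N ℂ} (h : QL.Comm φ.toLinearMap) :
    QL.Comm φ.symm.toLinearMap := fun g => LinearMap.ext fun x => φ.injective (by
  have := LinearMap.congr_fun (h g) (φ.symm x)
  simp only [LinearMap.comp_apply, LinearEquiv.coe_coe, LinearEquiv.apply_symm_apply] at this ⊢
  exact this.symm)

theorem exists_wt_ne {j : Q.qd.Col × Option Q.qd.Col} (hj : j.2 ≠ some j.1) :
    ∃ d, WtB.wt d j ≠ 0 := by_contra fun h =>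
  hj (congrArg Prod.snd (WtB.eq_of_wt (j' := (j.1, some j.1)) hj fun d =>
    (not_not.1 fun e => h ⟨d, e⟩).trans (sub_self _).symm))

theorem co_N0 {x : Q.N ℂ} (hx : x ∈ N0 Q) {c : QL.Ix Q} (hc : (ixP c).2.2 ≠ some (ixP c).2.1) :
    QL.co x c = 0 := by
  obtain ⟨d, hd⟩ := exists_wt_ne hc
  have := WtB.co_lie_diag d x c
  rw [lie_N0 _ hx, QL.co_zero] at this
  exact (mul_eq_zero.1 this.symm).resolve_left hd

theorem bas_mem_N1 {c : QL.Ix Q} (hc : (ixP c).2.2 ≠ some (ixP c).2.1) : QL.bas c ∈ N1 Q := by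
  obtain ⟨d, hd⟩ := exists_wt_ne hc
  rw [← (N1 Q).smul_mem_iff hd]
  refine (congrArg (· ∈ N1 Q) (QL.co_ext fun b => ?_)).mp
    (lie_mem_N1 (fun i => diagonal fun a => d ⟨i, a⟩) (QL.bas c))
  rw [WtB.co_lie_diag, QL.co_smul, WtA.co_bas]
  split_ifs with h
  · rw [h]
  · rw [mul_zero, mul_zero]

variable {A : Flav Q Φ} (W : Wts A)

/-- the basis of weight vectors -/
noncomputable def Wts.b : Module.Basis (QL.Ix Q) ℂ A.NN :=
  (Pi.basisFun ℂ (QL.Ix Q)).map (LinearEquiv.trans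
    ({ toFun := QL.ofCo, invFun := QL.co,
       map_add' := fun _ _ => QL.co_ext fun c => by cases c <;> rfl,
       map_smul' := fun _ _ => QL.co_ext fun c => by cases c <;> rfl,
       left_inv := QL.co_ofCo,
       right_inv := fun _ => QL.co_ext fun c => by cases c <;> rfl } :
      (QL.Ix Q → ℂ) ≃ₗ[ℂ] Q.N ℂ) W.φ)

theorem Wts.repr_eq (x : A.NN) (c : QL.Ix Q) : W.b.repr x c = QL.co (W.φ.symm x) c := rfl

theorem Wts.b_eq (c : QL.Ix Q) : W.b c = W.φ (QL.bas c) := by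
  classical
  refine W.φ.symm.injective (QL.co_ext fun c' => ?_)
  rw [← W.repr_eq, W.b.repr_self, LinearEquiv.symm_apply_apply, WtA.co_bas, Finsupp.single_apply]
  by_cases h : c = c'
  · rw [if_pos h, if_pos h.symm]
  · rw [if_neg h, if_neg (Ne.symm h)]

theorem Wts.repr_rho (f : Φ → ℂˣ) (x : A.NN) {c : QL.Ix Q}
    (hc : (ixP c).2.2 ≠ some (ixP c).2.1) :
    W.b.repr (A.ρ f x) c = chF (W.χ (ixP c).1) f * W.b.repr x c := by
  obtain ⟨y, rfl⟩ := W.φ.surjective x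
  obtain ⟨y, hy, z, hz, rfl⟩ := exists_N0_N1 y
  show QL.co (W.φ.symm (A.ρ f (W.φ _))) c = _ * QL.co (W.φ.symm (W.φ _)) c
  have h : W.φ.symm (A.ρ f (W.φ y)) ∈ N0 Q :=
    W.comm.symm.mem_N0 ((QL.comm_rho A f).mem_N0 (W.comm.mem_N0 hy))
  rw [W.φ.symm_apply_apply, map_add, map_add, map_add, W.rho f z hz, W.φ.symm_apply_apply,
    QL.co_add, QL.co_add, co_N0 h hc, co_N0 hy hc, zero_add, zero_add, co_std]

theorem Wts.repr_smul (t : Tc (Q.nn Φ)) (x : A.NN) {c : QL.Ix Q}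
    (hc : (ixP c).2.2 ≠ some (ixP c).2.1) :
    W.b.repr (t • x) c = chr _ (ixW W.χ c) t * W.b.repr x c := by
  have h := QL.comm_rho A (Flav.fl Q Φ (toG _ t)) (fstG _ _ (toG _ t))
  have h' := W.comm.symm (fstG _ _ (toG _ t))
  refine (congrArg (W.b.repr · c) (LinearMap.congr_fun h x).symm).trans
    ((W.repr_rho _ _ hc).trans (Eq.trans ?_ (co_gauge_toG W.χ t (W.φ.symm x) c)))
  exact congrArg (fun y => _ * QL.co y c) (LinearMap.congr_fun h' x)

theorem gauge_bas (t : Tc (Q.nn Φ)) (c : QL.Ix Q) :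
    Q.gauge (Flav.ga Q Φ (toG _ t)) ((std Q χ).ρ (Flav.fl Q Φ (toG _ t)) (QL.bas c)) =
      chr _ (ixW χ c) t • QL.bas c := QL.co_ext fun b => by
  classical
  rw [std_bas, map_smul, QL.co_smul, QL.co_smul]
  by_cases h : b = c
  · rw [h, co_gauge_toG]
  · rw [WtA.co_bas, if_neg h, mul_zero]
    refine mul_eq_zero_of_right _ ((co_gauge_diag (fun b => (t ⟨Sum.inl b.1, b.2⟩ : ℂ))
      (fun _ => Circle.coe_ne_zero _) _ b).trans ?_)
    rw [WtA.co_bas, if_neg h, mul_zero]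

theorem Wts.smul_b (t : Tc (Q.nn Φ)) {c : QL.Ix Q} (hc : (ixP c).2.2 ≠ some (ixP c).2.1) :
    t • W.b c = chr _ (ixW W.χ c) t • W.b c := by
  rw [W.b_eq]
  refine (congrArg (Q.gauge _) (W.rho _ _ (bas_mem_N1 hc))).trans
    ((LinearMap.congr_fun (W.comm (fstG _ _ (toG _ t))) _).symm.trans ?_)
  exact (congrArg W.φ (gauge_bas W.χ t c)).trans (map_smul _ _ _)

theorem Wts.std_b (χ : Q.qd.Fl → Φ → ℤ) (t : Tc (Q.nn Φ)) (c : QL.Ix Q) :
    t • (Wts.std χ).b c = chr _ (ixW χ c) t • (Wts.std χ).b c := by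
  rw [Wts.b_eq]
  exact gauge_bas χ t c

end dict

end Vale.Agent.P291Z
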