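import Vale.Agent.P291Z.Ind
import Vale.Agent.P291Z.FouG
import Vale.Agent.P291Z.HigP0

/-!
# Descent of equivariant homology along an extra factor `GL(1)`
-/

set_option linter.unusedSectionVars false

namespace Vale.Agent.P291Z

open Set Function Topology Matrix

section via

variable {G G₁ : Type} [Group G] [Group G₁]

/-- A space with the action through a homomorphism. -/
def Via (_ : G →* G₁) (Z : Type) : Type := Z

variable (φ : G →* G₁) (Z : Type) [TopologicalSpace Z]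

/-- The topology. -/
@[reducible] def Via.top : TopologicalSpace (Via φ Z) := ‹_›

/-- The action. -/
@[reducible] def Via.act [MulAction G₁ Z] : MulAction G (Via φ Z) := MulAction.compHom Z φ

attribute [local instance] Via.top Via.act

theorem Via.nice [h : Nice Z] : Nice (Via φ Z) := h

theorem Via.cont [TopologicalSpace G] [TopologicalSpace G₁] [MulAction G₁ Z] [ContinuousSMul G₁ Z]
    (hφ : Continuous φ) : ContinuousSMul G (Via φ Z) :=
  ⟨(continuous_smul (M := G₁) (X := Z)).comp (hφ.prodMap continuous_id)⟩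

/-- The line of a character. -/
def Ln (_ : G →* ℂˣ) : Type := ℂ

variable (c : G →* ℂˣ)

/-- The addition. -/
@[reducible] noncomputable def Ln.grp : AddCommGroup (Ln c) := inferInstanceAs (AddCommGroup ℂ)

attribute [local instance] Ln.grp

/-- The scalars. -/
@[reducible] noncomputable def Ln.mod : Module ℂ (Ln c) := inferInstanceAs (Module ℂ ℂ)

/-- The topology. -/
@[reducible] noncomputable def Ln.top : TopologicalSpace (Ln c) :=
  inferInstanceAs (TopologicalSpace ℂ)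

/-- The action. -/
@[reducible] noncomputable def Ln.act : DistribMulAction G (Ln c) := DistribMulAction.compHom ℂ c

attribute [local instance] Ln.mod Ln.top Ln.act

theorem Ln.nice : Nice (Ln c) := inferInstanceAs (Nice ℂ)

/-- The coordinate. -/
def Ln.co {c : G →* ℂˣ} (z : Ln c) : ℂ := z

theorem Ln.continuous_co {c : G →* ℂˣ} : Continuous (Ln.co : Ln c → ℂ) := continuous_id

theorem isRep_Ln [TopologicalSpace G] (hc : Continuous c) : IsRep G (Ln c) 1 :=
  ⟨⟨(ContinuousLinearEquiv.funUnique (Fin 1) ℂ ℂ).symm⟩,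
    ⟨fun g a z => mul_left_comm (c g : ℂ) a z.co⟩,
    ⟨(continuous_smul (M := ℂˣ) (X := ℂ)).comp (hc.prodMap continuous_id)⟩⟩

end via

attribute [local instance] Via.top Via.act Via.nice Ln.grp Ln.mod Ln.top Ln.act Ln.nice

/-- The dimension vector of `GL(1)`. -/
abbrev n1 : Unit → ℕ := fun _ => 1

/-- Scalars as elements of `GL(1)`. -/
noncomputable def sc1 : ℂˣ →* GG n1 where
  toFun z _ := ⟨of fun _ _ => z, of fun _ _ => (z⁻¹ : ℂˣ),
    by ext; simp [mul_apply, one_apply, Subsingleton.elim (α := Fin 1) _ 0],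
    by ext; simp [mul_apply, one_apply, Subsingleton.elim (α := Fin 1) _ 0]⟩
  map_one' := funext fun _ => Units.ext
    (by ext; simp [one_apply, Subsingleton.elim (α := Fin 1) _ 0])
  map_mul' _ _ := funext fun _ => Units.ext (by ext; simp [mul_apply])

theorem sc1_det (h : GG n1) : sc1 (GeneralLinearGroup.det (h ())) = h :=
  funext fun _ => Units.ext (Matrix.ext fun a b => by
    rw [Subsingleton.elim a 0, Subsingleton.elim b 0]
    exact det_fin_one _)

theorem continuous_sc1 : Continuous sc1 :=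
  continuous_pi fun _ => Units.continuous_iff.2
    ⟨continuous_matrix fun _ _ => Units.continuous_val,
      continuous_matrix fun _ _ => Units.continuous_coe_inv⟩

variable {J₁ : Type} [Fintype J₁] {n₁ : J₁ → ℕ} {G : Type} [Group G] [TopologicalSpace G] [Sys G]
  (S : SysProd G (GG n₁) (GG n1))

/-- The inverse of the second projection, as a character. -/
noncomputable def SysProd.ch : G →* ℂˣ where
  toFun g := (GeneralLinearGroup.det (S.π₂ g ()))⁻¹
  map_one' := by simp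
  map_mul' g h := by simp [mul_comm]

theorem SysProd.sc1_ch (g : G) : sc1 (S.ch g) = (S.π₂ g)⁻¹ :=
  (map_inv sc1 _).trans (congrArg (·⁻¹) (sc1_det _))

theorem SysProd.continuous_ch : Continuous S.ch := by
  have h := (continuous_apply ()).comp S.continuous_π₂
  exact Units.continuous_iff.2 ⟨(Units.continuous_coe_inv.comp h).matrix_det,
    (Units.continuous_val.comp h).matrix_det⟩

/-- The equivariant parameter of the second factor. -/
noncomputable def SysProd.hb : HS G Unit := eu (isRep_Ln S.ch S.continuous_ch)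

theorem SysProd.cross_smul₁' {J₂ : Type} [Fintype J₂] {n₂ : J₂ → ℕ}
    (S : SysProd G (GG n₁) (GG n₂)) {B Z₁ Z₂ : Type} [TopologicalSpace B] [MulAction G B]
    [TopologicalSpace Z₁] [MulAction (GG n₁) Z₁] [TopologicalSpace Z₂] [MulAction (GG n₂) Z₂]
    [Nice B] [ContinuousSMul G B] [Nice Z₁] [ContinuousSMul (GG n₁) Z₁] [Nice Z₂]
    [ContinuousSMul (GG n₂) Z₂] {b₁ : B → Z₁} (hb₁ : ∀ (g : G) y, b₁ (g • y) = S.π₁ g • b₁ y)
    {b₂ : B → Z₂} (hb₂ : ∀ (g : G) y, b₂ (g • y) = S.π₂ g • b₂ y)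
    (hb : IsHomeomorph fun y => (b₁ y, b₂ y)) (r : HS (GG n₁) Unit) (β₁ : EH (GG n₁) Z₁)
    (β₂ : EH (GG n₂) Z₂) : S.cross hb₁ hb₂ (r • β₁) β₂ = S.r₁ r • S.cross hb₁ hb₂ β₁ β₂ := by
  induction r using HS.induction_on with
  | h0 => rw [zero_smul, map_zero, map_zero, zero_smul, LinearMap.zero_apply]
  | hadd a b ha hb => rw [add_smul, map_add, map_add, add_smul, LinearMap.add_apply, ha, hb]
  | h k a ha =>
    obtain rfl | ⟨d, rfl, -⟩ := psiG_deg.1 ha
    · rw [zero_smul, map_zero, map_zero, zero_smul, LinearMap.zero_apply]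
    · exact S.cross_smul₁ hb₁ hb₂ hb ha β₁ β₂

theorem SysProd.qstar_smul {J₂ : Type} [Fintype J₂] {n₂ : J₂ → ℕ}
    (S : SysProd G (GG n₁) (GG n₂)) {Z B W P : Type} [TopologicalSpace Z] [MulAction (GG n₁) Z]
    [Nice Z] [ContinuousSMul (GG n₁) Z] [TopologicalSpace B] [MulAction G B] [Nice B]
    [ContinuousSMul G B] [AddCommGroup W] [Module ℂ W] [TopologicalSpace W] [DistribMulAction G W]
    [TopologicalSpace P] [MulAction G P] [Nice P] [ContinuousSMul G P]
    {b : B → Z} (hb : ∀ (g : G) y, b (g • y) = S.π₁ g • b y) {V : SubMulAction G (B × W)}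
    (h0 : ∀ y, (y, 0) ∈ V) [Nice V] [ContinuousSMul G V] {j : P →[G] V} (hbh : IsHomeomorph b)
    {r s : ℕ} (hW : IsRep G W s) (hV : IsSubVB V r) (hj : IsOpenEmbedding j)
    (c : HS (GG n₁) Unit) (β : EH (GG n₁) Z) :
    qstar S hb V h0 j (c • β) = S.r₁ c • qstar S hb V h0 j β := by
  simp only [qstar, LinearMap.comp_apply, LinearMap.flip_apply]
  rw [S.cross_smul₁' hb _ (isHomeomorph_unit hbh), ethom_smul _ hW hV, eres_smul hj]

variable {X Z : Type} [TopologicalSpace X] [MulAction G X] [Nice X] [ContinuousSMul G X]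
  [TopologicalSpace Z] [MulAction (GG n₁) Z] [Nice Z] [ContinuousSMul (GG n₁) Z]

variable (X) in
/-- The complement of the zero section. -/
noncomputable def SysProd.Pc : SubMulAction G (X × Ln S.ch) where
  carrier := {x | x.2.co ≠ 0}
  smul_mem' g _ h := mul_ne_zero (S.ch g).ne_zero h

theorem SysProd.isOpen_Pc : IsOpen (S.Pc X : Set (X × Ln S.ch)) :=
  isOpen_ne.preimage continuous_snd

instance : Nice (S.Pc X) := Nice.of_isLocallyClosed S.isOpen_Pc.isLocallyClosed

/-- The induction isomorphism for the complement of the zero section. -/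
theorem SysProd.exists_ind {e : X → Z} (he : IsHomeomorph e)
    (hs : ∀ g x, S.π₂ g = 1 → e (g • x) = S.π₁ g • e x) {D : ℕ} (hD : HasDim Z D)
    [ContinuousSMul G (Ln S.ch)] : ∃ q : EH (GG n₁) Z →ₗ[ℂ] EH G (S.Pc X), Bijective q ∧
      ∀ (r : HS (GG n₁) Unit) β, q (r • β) = S.r₁ r • q β := by
  have hL := isRep_Ln S.ch S.continuous_ch
  have := Via.cont S.π₁ Z S.continuous_π₁
  have hV := isSubVB_top (Z := Via S.π₁ Z) hL
  have := hV.nice hL
  have := Prin.grp (G := G) (Sys.P G 0)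
  let u : ∀ z : ℂ, z ≠ 0 → G := fun z hz => S.ι₂ (sc1 (Units.mk0 z hz))
  have hu : ∀ {T : Type} [TopologicalSpace T] {z : T → ℂ} (hz : ∀ t, z t ≠ 0), Continuous z →
      Continuous fun t => u (z t) (hz t) := fun hz hc =>
    S.continuous_inv.comp (continuous_const.prodMk (continuous_sc1.comp
      (Units.continuous_iff.2 ⟨hc, hc.inv₀ hz⟩)))
  let j : S.Pc X →[G] (⊤ : SubMulAction G (Via S.π₁ Z × Ln S.ch)) :=
    ⟨fun x => ⟨(e (u x.1.2.co x.2 • x.1.1), x.1.2), trivial⟩, fun g x => Subtype.ext (Prod.ext (by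
      have h1 : Units.mk0 (g • x).1.2.co (g • x).2 = S.ch g * Units.mk0 x.1.2.co x.2 :=
        Units.ext rfl
      have h2 : u _ (g • x).2 * g = (S.ι₂ (sc1 (S.ch g)) * g) * u _ x.2 := S.ext
        (by simp only [u, map_mul, S.π₁_ι₂, mul_one, one_mul]) (by
          simp only [u, map_mul, S.π₂_ι₂, h1]
          rw [← sc1_det (S.π₂ g), ← map_mul, ← map_mul, ← map_mul, ← map_mul, mul_right_comm])
      change e (u _ (g • x).2 • g • x.1.1) = S.π₁ g • e (u _ x.2 • x.1.1)
      rw [smul_smul, h2, mul_smul, hs _ _ (by rw [map_mul, S.π₂_ι₂, S.sc1_ch, inv_mul_cancel]),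
        map_mul, S.π₁_ι₂, one_mul]) rfl)⟩
  let O : Set (⊤ : SubMulAction G (Via S.π₁ Z × Ln S.ch)) := {y | y.1.2.co ≠ 0}
  have hO : IsOpen O := isOpen_ne.preimage continuous_subtype_val.snd
  let j' : S.Pc X → O := fun x => ⟨j x, x.2⟩
  let k : O → S.Pc X := fun y => ⟨((u y.1.1.2.co y.2)⁻¹ • he.homeomorph.symm y.1.1.1, y.1.1.2), y.2⟩
  have h3 : Continuous fun x : S.Pc X => x.1.2.co :=
    Ln.continuous_co.comp continuous_subtype_val.snd
  have h4 : Continuous fun y : O => y.1.1 := continuous_subtype_val.comp continuous_subtype_val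
  have h5 : Continuous j' := (((he.continuous.comp ((hu _ h3).smul
    continuous_subtype_val.fst)).prodMk continuous_subtype_val.snd).subtype_mk _).subtype_mk _
  have h6 : Continuous k := (((hu (fun y : O => y.2) h4.snd).inv.smul
    (he.homeomorph.symm.continuous.comp h4.fst)).prodMk h4.snd).subtype_mk _
  have h8 : ∀ y, j' (k y) = y := fun y => Subtype.ext (Subtype.ext (Prod.ext
    ((congrArg e (smul_inv_smul _ _)).trans (he.homeomorph.apply_symm_apply _)) rfl))
  have h7 : IsHomeomorph j' := isHomeomorph_iff_exists_inverse.2 ⟨h5, k,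
    fun x => Subtype.ext (Prod.ext ((congrArg _ (he.homeomorph.symm_apply_apply _)).trans
      (inv_smul_smul _ _)) rfl), h8, h6⟩
  have hj : IsOpenEmbedding j := hO.isOpenEmbedding_subtypeVal.comp h7.isOpenEmbedding
  have hr : ∀ y, y ∈ range j ↔ y ∈ O := fun y =>
    ⟨fun ⟨x, hx⟩ => hx ▸ x.2, fun hy => ⟨k ⟨y, hy⟩, congrArg Subtype.val (h8 _)⟩⟩
  have hf : IndFib S ⊤ j := fun y => ⟨fun _ => 0,
    ⟨⟨fun x => x () (Sum.inl 0) 0, fun _ _ => rfl⟩, fun _ _ => rfl⟩,
    fun x x' h => funext fun _ => Matrix.ext fun a b => by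
      obtain a | a := a
      · rw [Subsingleton.elim a 0, Subsingleton.elim b 0]
        exact h
      · exact a.elim0,
    fun w => ⟨fun _ => ⟨fun _ => of fun _ _ => w.co, rfl⟩, fun _ => trivial⟩,
    fun g x _ => by
      change (x () * ((S.π₂ g)⁻¹ ()).1) (Sum.inl 0) 0 = S.ch g * x () (Sum.inl 0) 0
      rw [← S.sc1_ch, mul_apply, Fin.sum_univ_one, mul_comm]
      rfl,
    fun x h => (hr _).trans ⟨fun h _ => (det_fin_one _).trans_ne h,
      fun h => (det_fin_one _).symm.trans_ne (h ())⟩⟩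
  have hb : ∀ (g : G) (y : Via S.π₁ Z), id (α := Z) (g • y) = S.π₁ g • id (α := Z) y :=
    fun _ _ => rfl
  exact ⟨qstar S hb ⊤ (fun _ => trivial) j, qstar_bijective' S hb ⊤ _ j IsHomeomorph.id hD hL hV
    hj hf, S.qstar_smul hb _ IsHomeomorph.id hL hV hj⟩

/-- **Descent**: the Gysin sequence of the extra factor. -/
theorem SysProd.exists_descent {e : X → Z} (he : IsHomeomorph e)
    (hs : ∀ g x, S.π₂ g = 1 → e (g • x) = S.π₁ g • e x) {D : ℕ} (hD : HasDim Z D) :
    ∃ ψ : EH G X →ₗ[ℂ] EH (GG n₁) Z, (∀ (r : HS (GG n₁) Unit) β, ψ (S.r₁ r • β) = r • ψ β) ∧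
      (∀ β, ψ β = 0 ↔ ∃ γ, S.hb • γ = β) ∧ ((∀ β : EH G X, S.hb • β = 0 → β = 0) → Surjective ψ) := by
  have hL := isRep_Ln S.ch S.continuous_ch
  have := hL.cont
  obtain ⟨q, hq, hq'⟩ := S.exists_ind he hs hD
  let s : X →[G] X × Ln S.ch := ⟨fun x => (x, 0), fun g x => Prod.ext rfl (smul_zero g).symm⟩
  let κ : X × Ln S.ch →[G] Ln S.ch := ⟨Prod.snd, fun _ _ => rfl⟩
  have h1 := isoEH_thom hL (p := ⟨Prod.fst, fun _ _ => rfl⟩) (κ := κ) (s := s) IsHomeomorph.id
    (fun _ => rfl) fun _ => rfl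
  have h2 : IsClosedEmbedding s := IsClosedEmbedding.of_continuous_injective_isClosedMap
    (continuous_id.prodMk continuous_const) (fun _ _ e => congrArg Prod.fst e)
    (isClosedMap_prodMk_right 0)
  have h3 : IsOpenEmbedding (S.Pc X).inclusion := S.isOpen_Pc.isOpenEmbedding_subtypeVal
  have h4 : range (S.Pc X).inclusion = (range s)ᶜ := Set.ext fun y =>
    ⟨fun ⟨x, hx⟩ ⟨z, hz⟩ => x.2 (congrArg Prod.snd (hx.trans hz.symm)),
      fun hy => ⟨⟨y, fun h => hy ⟨y.1, Prod.ext rfl (Eq.symm h)⟩⟩, rfl⟩⟩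
  have h5 : ∀ γ, egys s (eul κ) (epush s γ) = S.hb • γ :=
    egys_eul_epush hL continuous_snd h2 fun y hy => ⟨y.1, Prod.ext rfl (Eq.symm hy)⟩
  let θ := LinearEquiv.ofBijective _ h1.bij
  let q' := LinearEquiv.ofBijective _ hq
  refine ⟨q'.symm.toLinearMap ∘ₗ eres (S.Pc X).inclusion ∘ₗ θ.symm.toLinearMap, fun r β => ?_,
    fun β => ?_, fun h β => ?_⟩
  · refine hq.1 ((q'.apply_symm_apply _).trans ?_)
    rw [hq', LinearMap.comp_apply, h1.symm.smul, eres_smul h3]
    exact congrArg _ (q'.apply_symm_apply _).symm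
  · refine q'.symm.map_eq_zero_iff.trans ((exact_epush_eres h2 h3 h4 _).trans
      (exists_congr fun γ => ?_))
    rw [← h5]
    exact θ.eq_symm_apply
  · obtain ⟨y, hy⟩ := (exact_eres_ebdy h2 h3 h4 (q β)).1 (h _ (by
      rw [← h5, (exact_ebdy_epush h2 h3 h4).apply_apply_eq_zero, map_zero]))
    refine ⟨θ y, hq.1 ((q'.apply_symm_apply _).trans ?_)⟩
    rw [← hy]
    exact congrArg _ (θ.symm_apply_apply y)

section split

variable {J J₁ J₂ : Type} [Fintype J] [Fintype J₁] [Fintype J₂] {ι₁ : J₁ → J} {ι₂ : J₂ → J}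
  (hb : Bijective (Sum.elim ι₁ ι₂))

theorem psiG_split (n : J → ℕ) (r : HS (GG fun j => n (ι₁ j)) Unit) :
    psiG n ((splitProd hb n).r₁ r) =
      MvPolynomial.rename (fun c => ⟨ι₁ c.1, c.2⟩) (psiG _ r) := by
  refine TS.psi0_injective (funext fun M => ?_)
  let φ : Tc n →* Tc fun j => n (ι₁ j) := ⟨⟨fun t c => t ⟨ι₁ c.1, c.2⟩, rfl⟩, fun _ _ => rfl⟩
  let q : St n M → St (fun j => n (ι₁ j)) M := fun u => ⟨fun j => u.1 (ι₁ j), fun j => u.2 (ι₁ j)⟩
  have hq : Continuous q := Continuous.subtype_mk (continuous_pi fun j =>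
    (continuous_apply (ι₁ j)).comp TS.continuous_val) _
  let f : C(Bq (Tc n) Unit M, Bq (Tc fun j => n (ι₁ j)) Unit M) :=
    Bor.mapC φ ⟨fun x => ((), q x.2), continuous_const.prodMk (hq.comp continuous_snd)⟩
      fun _ _ => rfl
  refine (TS.evT_psiG _ M).trans (Eq.trans ?_ (TS.map_evT f _ (fun x => ((), q x.2))
    (fun _ => rfl) (fun _ _ _ => rfl) _))
  rw [TS.evT_psiG, SysProd.r₁_apply, H.map_map, H.map_map]
  refine congrArg (H.map · _) (ContinuousMap.ext fun x => ?_)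
  obtain ⟨x, rfl⟩ := Bor.mk_surjective x
  rfl

include hb in
theorem exists_split (n : J → ℕ) (n₁ : J₁ → ℕ) (n₂ : J₂ → ℕ) (h₁ : ∀ j, n (ι₁ j) = n₁ j)
    (h₂ : ∀ j, n (ι₂ j) = n₂ j) :
    ∃ S : SysProd (GG n) (GG n₁) (GG n₂), (∀ g j, HEq (S.π₁ g j) (g (ι₁ j))) ∧
      (∀ g j, HEq (S.π₂ g j) (g (ι₂ j))) ∧ ∀ r, psiG n (S.r₁ r) =
        MvPolynomial.rename (fun c => ⟨ι₁ c.1, c.2.cast (h₁ c.1).symm⟩) (psiG n₁ r) := by
  obtain rfl : (fun j => n (ι₁ j)) = n₁ := funext h₁
  obtain rfl : (fun j => n (ι₂ j)) = n₂ := funext h₂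
  exact ⟨splitProd hb n, fun _ _ => HEq.rfl, fun _ _ => HEq.rfl, psiG_split hb n⟩

/-- The Euler class of a line. -/
theorem psiG_eu_Ln {n : J → ℕ} {c : GG n →* ℂˣ} (hc : Continuous c) {χ : Bx n → ℤ}
    (h : ∀ t, (c (toG n t) : ℂ) = chr n χ t) : psiG n (eu (isRep_Ln c hc)) = linf n χ := by
  let _ : DistribMulAction (Tc n) (Ln c) := DistribMulAction.compHom _ (toG n)
  have : IsScalarTower (Tc n) (GG n) (Ln c) := ⟨fun t g x => mul_smul (toG n t) g x⟩
  refine (psiT n).injective ((eu_toT _).trans ((eu_weights (W := Ln c) _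
    (Module.Basis.singleton Unit ℂ) (fun _ => χ) fun t p => ?_).trans ?_))
  · exact congrArg (· * Module.Basis.singleton Unit ℂ p) (h t)
  rw [Fintype.prod_unique]

end split

end Vale.Agent.P291Z
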