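import Vale.Agent.P291Z.Sp1

/-!
# Jordan types
-/

set_option linter.all false

namespace Vale.Agent.P291Z

open Set Function Topology Matrix Module

/-- Jordan types: `m (i, k)` blocks of size `k + 1` at the vertex `i` -/
abbrev JT (I : Type) (K : ℕ) : Type := I × Fin K → ℕ

variable {I : Type} [Fintype I] {K : ℕ}

/-- the dimension vector of a Jordan type -/
def JT.dv (m : JT I K) (i : I) : ℕ := ∑ k, m (i, k) * (k.1 + 1)

/-- the dimension of the space of intertwiners between the vertices `i` and `j` -/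
def JT.hom (m : JT I K) (i j : I) : ℕ := ∑ k, ∑ l, m (i, k) * m (j, l) * min (k.1 + 1) (l.1 + 1)

/-- the dimension of the centralizer -/
def JT.zz (m : JT I K) : ℕ := ∑ i, m.hom i i

/-- `ξ` has Jordan type `m` at the eigenvalue `c` -/
def JS {v : I → ℕ} (c : ℂ) (m : JT I K) (ξ : Sp.En v) : Prop :=
  ∀ i (j : ℕ), Module.finrank ℂ (LinearMap.ker ((ξ i - c • 1) ^ j).mulVecLin) =
    ∑ k, m (i, k) * min j (k.1 + 1)

namespace Jor

section seq

/-- the dimension of the kernel of the `j`-th power -/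
def ka (m : Fin K → ℕ) (j : ℕ) : ℕ := ∑ k, m k * min j (k.1 + 1)

/-- the number of blocks of size larger than `j` -/
def kb (m : Fin K → ℕ) (j : ℕ) : ℕ := ∑ k, if j ≤ k.1 then m k else 0

theorem ka_succ (m : Fin K → ℕ) (j : ℕ) : ka m (j + 1) = ka m j + kb m j := by
  rw [ka, ka, kb, ← Finset.sum_add_distrib]
  refine Finset.sum_congr rfl fun k _ => ?_
  split_ifs with h
  · rw [min_eq_left (by omega), min_eq_left (by omega), mul_add, mul_one]
  · rw [min_eq_right (by omega), min_eq_right (by omega), add_zero]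

theorem kb_succ (m : Fin K → ℕ) (k : Fin K) : kb m k = m k + kb m (k + 1) := by
  rw [kb, kb, ← Finset.add_sum_erase _ _ (Finset.mem_univ k),
    ← Finset.add_sum_erase _ _ (Finset.mem_univ k), if_pos le_rfl, if_neg (by omega), zero_add]
  refine congrArg _ (Finset.sum_congr rfl fun l hl => if_congr ?_ rfl rfl)
  have := Fin.val_ne_of_ne (Finset.ne_of_mem_erase hl)
  omega

theorem kb_of_le (m : Fin K → ℕ) {j : ℕ} (h : K ≤ j) : kb m j = 0 :=
  Finset.sum_eq_zero fun k _ => if_neg (by omega)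

theorem ka_zero (m : Fin K → ℕ) : ka m 0 = 0 := Finset.sum_eq_zero fun k _ => by simp

theorem ka_one (m : Fin K → ℕ) : ka m 1 = ∑ k, m k := Finset.sum_congr rfl fun k _ => by simp

theorem ka_of_le (m : Fin K → ℕ) {j : ℕ} (h : K ≤ j) : ka m j = ∑ k, m k * (k.1 + 1) :=
  Finset.sum_congr rfl fun k _ => by rw [min_eq_right (by omega)]

theorem ka_mono (m : Fin K → ℕ) : Monotone (ka m) :=
  monotone_nat_of_le_succ fun j => (ka_succ m j).symm ▸ Nat.le_add_right _ _

theorem eq_of_ka {m m' : Fin K → ℕ} (h : ∀ j ≤ K, ka m j = ka m' j) : m = m' := by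
  have hb : ∀ j, kb m j = kb m' j := fun j => by
    by_cases hj : K ≤ j
    · rw [kb_of_le m hj, kb_of_le m' hj]
    · have h1 := ka_succ m j
      have h2 := ka_succ m' j
      have h3 := h j (by omega)
      have h4 := h (j + 1) (by omega)
      omega
  funext k
  have h1 := kb_succ m k
  have h2 := kb_succ m' k
  have h3 := hb k
  have h4 := hb (k + 1)
  omega

theorem exists_ka {a b : ℕ → ℕ} (h0 : a 0 = 0) (hs : ∀ j, a (j + 1) = a j + b j) (hb : Antitone b)
    (hK : b K = 0) : ∃ m : Fin K → ℕ, ∀ j, a j = ka m j := by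
  have key : ∀ j, kb (fun k : Fin K => b k - b (k + 1)) j = b j := fun j => by
    by_cases hj : K ≤ j
    · rw [kb_of_le _ hj]
      exact (Nat.le_zero.1 (hK ▸ hb hj)).symm
    · refine Nat.decreasingInduction (motive := fun j _ => kb _ j = b j) (fun k hk ih => ?_)
        ((kb_of_le _ le_rfl).trans hK.symm) (not_le.1 hj).le
      have h1 := kb_succ (fun k : Fin K => b k - b (k + 1)) ⟨k, hk⟩
      have h2 := hb k.le_succ
      simp only [Nat.succ_eq_add_one] at h1 h2
      omega
  refine ⟨fun k => b k - b (k + 1), fun j => ?_⟩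
  induction j with
  | zero => rw [h0, ka_zero]
  | succ j ih => rw [hs, ka_succ, ih, key]

end seq

section lin

variable {V : Type} [AddCommGroup V] [Module ℂ V] [FiniteDimensional ℂ V] (f : End ℂ V)

theorem finrank_ker_succ (j : ℕ) : finrank ℂ (LinearMap.ker (f ^ (j + 1))) =
    finrank ℂ (LinearMap.ker (f ^ j)) +
      finrank ℂ (LinearMap.ker f ⊓ LinearMap.range (f ^ j) : Submodule ℂ V) := by
  have h := ((f ^ j).domRestrict (LinearMap.ker (f ^ (j + 1)))).finrank_range_add_finrank_ker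
  rw [LinearMap.range_domRestrict, LinearMap.ker_domRestrict,
    (Submodule.comapSubtypeEquivOfLe (show LinearMap.ker (f ^ j) ≤ LinearMap.ker (f ^ (j + 1)) from
      f.iterateKer.monotone j.le_succ)).finrank_eq, pow_succ',
    End.mul_eq_comp, LinearMap.ker_comp, Submodule.map_comap_eq, inf_comm] at h
  rw [pow_succ', End.mul_eq_comp, LinearMap.ker_comp, ← h, add_comm]

theorem exists_type (hK : finrank ℂ V ≤ K) :
    ∃ m : Fin K → ℕ, ∀ j, finrank ℂ (LinearMap.ker (f ^ j)) = ka m j := by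
  refine exists_ka (by rw [pow_zero, End.one_eq_id, LinearMap.ker_id, finrank_bot])
    (finrank_ker_succ f) (fun i j h => Submodule.finrank_mono
      (inf_le_inf_left _ (f.iterateRange.monotone h))) ?_
  have := finrank_ker_succ f K
  rw [End.ker_pow_eq_ker_pow_finrank_of_le hK,
    End.ker_pow_eq_ker_pow_finrank_of_le (hK.trans K.le_succ)] at this
  omega

end lin

section mat

variable {n : Type} [Fintype n] [DecidableEq n]

/-- the dimension of the kernel -/
noncomputable def nul (a : Matrix n n ℂ) : ℕ := finrank ℂ (LinearMap.ker a.mulVecLin)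

theorem nul_pow (a : Matrix n n ℂ) (j : ℕ) :
    nul (a ^ j) = finrank ℂ (LinearMap.ker (a.toLin' ^ j)) := by
  rw [← toLin'_pow]
  rfl

theorem nul_add_rank (a : Matrix n n ℂ) : a.rank + nul a = Fintype.card n :=
  a.mulVecLin.finrank_range_add_finrank_ker.trans (finrank_fintype_fun_eq_card ℂ)

theorem nul_le (a : Matrix n n ℂ) : nul a ≤ Fintype.card n :=
  nul_add_rank a ▸ Nat.le_add_left _ _

theorem nul_zero : nul (0 : Matrix n n ℂ) = Fintype.card n := by
  rw [← nul_add_rank 0, rank_zero, zero_add]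

theorem eq_zero_of_nul {a : Matrix n n ℂ} (h : nul a = Fintype.card n) : a = 0 :=
  toLin'.map_eq_zero_iff.1 (LinearMap.ker_eq_top.1 (Submodule.eq_top_of_finrank_eq
    (h.trans (finrank_fintype_fun_eq_card ℂ).symm)))

theorem nul_eq_zero {a : Matrix n n ℂ} : nul a = 0 ↔ a.det ≠ 0 := by
  rw [nul, Submodule.finrank_eq_zero, LinearMap.ker_eq_bot, ← isUnit_iff_ne_zero,
    ← isUnit_iff_isUnit_det, ← mulVec_injective_iff_isUnit]
  rfl

theorem nul_conj {a g h : Matrix n n ℂ} (e : g * h = 1) : nul (g * a * h) = nul a := by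
  have h1 := nul_add_rank (g * a * h)
  have h2 := nul_add_rank a
  rw [rank_mul_eq_left_of_isUnit_det _ _ (isUnit_det_of_left_inverse e),
    rank_mul_eq_right_of_isUnit_det _ _ (isUnit_det_of_right_inverse e)] at h1
  omega

theorem nul_pow_le (a : Matrix n n ℂ) (j : ℕ) : nul (a ^ j) ≤ nul (a ^ Fintype.card n) := by
  rw [nul_pow, nul_pow, ← finrank_fintype_fun_eq_card ℂ]
  exact Submodule.finrank_mono (End.ker_pow_le_ker_pow_finrank _ _)

theorem isOpen_le_rank (r : ℕ) : IsOpen {a : Matrix n n ℂ | r ≤ a.rank} := by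
  have hc : Continuous (toLin'.trans LinearMap.toContinuousLinearMap :
      Matrix n n ℂ ≃ₗ[ℂ] (n → ℂ) →L[ℂ] n → ℂ) := LinearMap.continuous_of_finiteDimensional _
  refine Eq.subst (Set.ext fun a => ?_) ((isOpen_setOfPred_nat_le_rank r).preimage hc)
  show (r : Cardinal) ≤ Module.rank ℂ (LinearMap.range a.mulVecLin) ↔ _
  rw [← finrank_eq_rank, Nat.cast_le]
  rfl

theorem isOpen_nul_le (r : ℕ) : IsOpen {a : Matrix n n ℂ | nul a ≤ r} := by
  refine Eq.subst (Set.ext fun a => ?_) (isOpen_le_rank (Fintype.card n - r))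
  have := nul_add_rank a
  simp only [mem_setOf_eq]
  omega

theorem isClosed_le_nul (r : ℕ) : IsClosed {a : Matrix n n ℂ | r ≤ nul a} := by
  refine Eq.subst (Set.ext fun a => ?_) (isOpen_le_rank (Fintype.card n + 1 - r)).isClosed_compl
  have := nul_add_rank a
  simp only [mem_setOf_eq, mem_compl_iff]
  omega

end mat

end Jor

open Jor

variable {v : I → ℕ} {c : ℂ} {m m' : JT I K} {ξ : Sp.En v}

theorem JS_iff : JS c m ξ ↔ ∀ i j, nul ((ξ i - c • 1) ^ j) = ka (fun k => m (i, k)) j := Iff.rfl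

theorem exists_JS (hK : ∀ i, v i ≤ K) (c : ℂ) (ξ : Sp.En v) : ∃ m : JT I K, JS c m ξ := by
  choose m hm using fun i => exists_type (K := K) (ξ i - c • 1).toLin' (by simpa using hK i)
  exact ⟨fun p => m p.1 p.2, fun i j => (nul_pow _ j).trans (hm i j)⟩

theorem JT.ext_ka (h : ∀ i, ∀ j ≤ K, ka (fun k => m (i, k)) j = ka (fun k => m' (i, k)) j) :
    m = m' := funext fun p => congrFun (eq_of_ka (h p.1)) p.2

theorem JS.unique (h : JS c m ξ) (h' : JS c m' ξ) : m = m' :=
  JT.ext_ka fun i j _ => (h i j).symm.trans (h' i j)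

theorem JS.nul_eq (h : JS c m ξ) (i : I) {j : ℕ} (hj : K ≤ j) :
    nul ((ξ i - c • 1) ^ j) = m.dv i := (h i j).trans (ka_of_le _ hj)

theorem JS.dv_le (h : JS c m ξ) (i : I) : m.dv i ≤ v i :=
  (h.nul_eq i le_rfl).symm.trans_le ((nul_le _).trans_eq (Fintype.card_fin _))

theorem JS.dv_eq_iff (h : JS c m ξ) : m.dv = v ↔ Sp.spec ξ ⊆ {c} := by
  have e : Sp.spec ξ ⊆ {c} ↔ Sp.spec (ξ + (-c) • 1) ⊆ {0} := by
    rw [((Sp.isRt_rt ξ).add_scalar (-c)).spec_eq, Sp.spec, range_subset_iff, range_subset_iff]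
    exact forall_congr' fun _ => add_neg_eq_zero.symm
  rw [e, Sp.spec_subset_zero_iff, funext_iff]
  refine forall_congr' fun i => ?_
  rw [show (ξ + (-c) • 1) i = ξ i - c • 1 by rw [neg_smul, ← sub_eq_add_neg]; rfl]
  refine ⟨fun h' => eq_zero_of_nul (le_antisymm (nul_le _) ?_), fun h' => ?_⟩
  · refine le_trans ?_ (nul_pow_le _ K |>.trans_eq (by rw [Fintype.card_fin]))
    rw [h.nul_eq i le_rfl, h', Fintype.card_fin]
  · rw [← h.nul_eq i (le_max_left K (v i)), pow_eq_zero_of_le (le_max_right _ _) h', nul_zero,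
      Fintype.card_fin]

theorem JS.eq_zero_iff (h : JS c m ξ) : m = 0 ↔ c ∉ Sp.spec ξ := by
  have e : ∀ i, (scalar _ c - ξ i).det ≠ 0 ↔ ∀ k, m (i, k) = 0 := fun i => by
    have := (h i 1).trans (ka_one _)
    rw [pow_one] at this
    rw [← neg_sub, det_neg, mul_ne_zero_iff_left (by simp), scalar_apply, ← smul_one_eq_diagonal,
      ← nul_eq_zero, nul, this, Finset.sum_eq_zero_iff]
    simp
  rw [Sp.mem_spec, not_exists, funext_iff, Prod.forall]
  exact forall_congr' fun i => (e i).symm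

theorem JS.conj (h : JS c m ξ) {g g' : Sp.En v} (e : g * g' = 1) : JS c m (g * ξ * g') := by
  intro i j
  have e1 : g i * g' i = 1 := congrFun e i
  have e2 : (g * ξ * g') i - c • 1 = g i * (ξ i - c • 1) * g' i := by
    rw [mul_sub, sub_mul, Matrix.mul_smul, mul_one, Matrix.smul_mul, e1]
    rfl
  have e3 : (g i * (ξ i - c • 1) * g' i) ^ j = g i * (ξ i - c • 1) ^ j * g' i :=
    Units.conj_pow ⟨g i, g' i, e1, mul_eq_one_comm.1 e1⟩ _ _
  rw [← h i j, e2, e3]
  exact nul_conj e1

theorem continuous_jpow (c : ℂ) (i : I) (j : ℕ) :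
    Continuous fun ξ : Sp.En v => (ξ i - c • 1) ^ j :=
  ((continuous_apply i).sub continuous_const).pow j

theorem isClosed_le_JS (c : ℂ) (m : JT I K) :
    IsClosed {ξ : Sp.En v | ∀ i j, ka (fun k => m (i, k)) j ≤ nul ((ξ i - c • 1) ^ j)} := by
  simp only [setOf_forall]
  exact isClosed_iInter fun i => isClosed_iInter fun j =>
    (isClosed_le_nul _).preimage (continuous_jpow c i j)

theorem isLocallyClosed_JS (c : ℂ) (m : JT I K) : IsLocallyClosed {ξ : Sp.En v | JS c m ξ} := by
  refine ⟨⋂ i, ⋂ j ∈ Finset.range (v i + 1),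
    {ξ | nul ((ξ i - c • 1) ^ j) ≤ ka (fun k => m (i, k)) j}, _, isOpen_iInter_of_finite fun i =>
      isOpen_biInter_finset fun j _ => (isOpen_nul_le _).preimage (continuous_jpow c i j),
    isClosed_le_JS c m, Set.ext fun ξ => ⟨fun h => ⟨mem_iInter.2 fun i => mem_iInter₂.2
      fun j _ => (h i j).le, fun i j => (h i j).ge⟩, fun h i j => le_antisymm ?_ (h.2 i j)⟩⟩
  have h1 := fun j hj => mem_iInter₂.1 (mem_iInter.1 h.1 i) j (Finset.mem_range.2 hj)
  by_cases hj : j ≤ v i
  · exact h1 j (by omega)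
  · refine (nul_pow_le _ j).trans ?_
    rw [Fintype.card_fin]
    exact le_trans (h1 _ (by omega)) (ka_mono _ (by omega))

/-- an upper semicontinuous function that separates comparable types -/
def JT.sg (m : JT I K) : ℕ := ∑ i, ∑ j ∈ Finset.range (K + 1), ka (fun k => m (i, k)) j

theorem JS.of_closure {X : Type} [TopologicalSpace X] {f : X → Sp.En v} (hf : Continuous f)
    {S : Set X} (hS : ∀ x ∈ S, JS c m (f x)) {x : X} (hx : x ∈ closure S) (h : JS c m' (f x)) :
    m = m' ∨ m.sg < m'.sg := by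
  have h1 : ∀ i j, ka (fun k => m (i, k)) j ≤ ka (fun k => m' (i, k)) j := fun i j =>
    (closure_minimal (fun y hy i j => (hS y hy i j).ge) ((isClosed_le_JS c m).preimage hf) hx i j
      ).trans_eq (h i j)
  have h2 := fun i (_ : i ∈ Finset.univ) =>
    Finset.sum_le_sum fun j (_ : j ∈ Finset.range (K + 1)) => h1 i j
  refine (Finset.sum_le_sum h2).eq_or_lt.imp_left fun e => JT.ext_ka fun i j hj => ?_
  exact (Finset.sum_eq_sum_iff_of_le fun j _ => h1 i j).1
    ((Finset.sum_eq_sum_iff_of_le h2).1 e i (Finset.mem_univ _)) j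
    (Finset.mem_range.2 (by omega))

end Vale.Agent.P291Z
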