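import Vale.Agent.P291Z.Fou0
import Vale.Agent.P291Z.Bnd0
import Vale.Agent.P291Z.Jor0

/-!
# Jordan strata of the space of commuting pairs: definitions
-/

set_option linter.all false

namespace Vale.Agent.P291Z

open Set Function Topology Matrix Four

variable {I E : Type} (Q : Quiv I E) {Φ : Type} [Fintype Φ] [Fintype I] [Fintype E]

/-- the same quiver with other gauge dimensions -/
abbrev Quiv.wv (v' : I → ℕ) : Quiv I E := ⟨Q.s, Q.t, v', Q.w⟩

variable {K : ℕ}

/-- the dimension of the annihilated part of the unframed representation -/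
def JT.nz (m : JT I K) : ℕ := ∑ e, m.hom (Q.t e) (Q.s e)

/-- the dimension of the annihilated part of the framing -/
def JT.fz (m : JT I K) : ℕ := ∑ i, Q.w i * ∑ k, m (i, k)

variable {Q} (A : Flav Q Φ)

/-- the stratum of Jordan type `m` at `c` -/
noncomputable def Str (K' : Set ℂ) (c : ℂ) (m : JT I K) :
    SubMulAction (GG (Q.nn Φ)) (A.NN × Ad Q Φ) where
  carrier := {x | x ∈ Cm A K' ∧ JS c m x.2.en}
  smul_mem' g _ h := ⟨(Cm A K').smul_mem g h.1, h.2.conj (KN.ga_inv g)⟩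

theorem mem_Str {K' : Set ℂ} {c : ℂ} {m : JT I K} {x : A.NN × Ad Q Φ} :
    x ∈ Str A K' c m ↔ x ∈ Cm A K' ∧ JS c m x.2.en := Iff.rfl

theorem isLocallyClosed_Str {K' : Set ℂ} (hK : IsLocallyClosed K') (c : ℂ) (m : JT I K) :
    IsLocallyClosed (Str A K' c m : Set (A.NN × Ad Q Φ)) :=
  (isLocallyClosed_Cm hK).inter
    ((isLocallyClosed_JS c m).preimage (continuous_en.comp continuous_snd))

theorem nice_Str {K' : Set ℂ} (hK : IsLocallyClosed K') (c : ℂ) (m : JT I K) :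
    Nice (Str A K' c m) := Nice.of_isLocallyClosed (isLocallyClosed_Str A hK c m)

/-- the locus where `1` is an eigenvalue -/
noncomputable abbrev Zo : SubMulAction (GG (Q.nn Φ)) (A.NN × Ad Q Φ) :=
  sdif (Cm A Sp.seg) (Cm A (Sp.seg \ {1}))

theorem Zo_le : Zo A ≤ Cm A Sp.seg := fun _ h => h.1

theorem mem_Cm_diff {x : A.NN × Ad Q Φ} (h : x ∈ Cm A Sp.seg) :
    x ∈ Cm A (Sp.seg \ {1}) ↔ Sp.spec x.2.en ⊆ {1}ᶜ :=
  ⟨fun h' _ ht => (h'.2 ht).2, fun h' => ⟨h.1, fun _ ht => ⟨h.2 ht, h' ht⟩⟩⟩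

theorem mem_Zo {x : A.NN × Ad Q Φ} : x ∈ Zo A ↔ x ∈ Cm A Sp.seg ∧ 1 ∈ Sp.spec x.2.en :=
  and_congr_right fun h => (mem_Cm_diff A h).not.trans (by simp)

theorem isOpen_not_one : IsOpen {x : A.NN × Ad Q Φ | Sp.spec x.2.en ⊆ {1}ᶜ} :=
  (Sp.isOpen_spec_subset isOpen_compl_singleton).preimage (continuous_en.comp continuous_snd)

theorem isClosed_Zo : IsClosed (Zo A : Set (A.NN × Ad Q Φ)) :=
  Eq.subst (Set.ext fun _ => and_congr_right fun h => (mem_Cm_diff A h).not.symm)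
    ((isClosed_Cm Sp.isClosed_seg).inter (isOpen_not_one A).isClosed_compl)

instance : Nice (Zo A) := Nice.of_isLocallyClosed (isClosed_Zo A).isLocallyClosed

theorem isClosedEmbedding_Zo : IsClosedEmbedding (sincl (Zo_le A)) :=
  isClosedEmbedding_sincl _ (isClosed_Zo A) fun _ _ => Iff.rfl

theorem isOpenEmbedding_U :
    IsOpenEmbedding (sincl (Cm_mono A (diff_subset : Sp.seg \ {1} ⊆ Sp.seg))) :=
  isOpenEmbedding_sincl _ (isOpen_not_one A) fun _ h => mem_Cm_diff A h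

theorem range_U : range (sincl (Cm_mono A (diff_subset : Sp.seg \ {1} ⊆ Sp.seg))) =
    (range (sincl (Zo_le A)))ᶜ :=
  compl_injective ((range_sincl_sdif _).symm.trans (compl_compl _).symm)

end Vale.Agent.P291Z
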