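import Vale.Agent.P291Z.KNB0
import Vale.Agent.P291Z.Quiv0Lem

/-!
# The standard flavour actions; the invariants of `G` in `N` and their complement
-/

set_option linter.all false

namespace Vale.Agent.P291Z

open Set Function Topology Matrix MvPolynomial Vale.Agent.P291 Vale.Agent.P291.Hik

variable {I E : Type} {Q : Quiv I E} {Φ : Type} [Fintype Φ] [Fintype I] [Fintype E]

/-- `H_F(pt)` -/
abbrev LF (Φ : Type) : Type := MvPolynomial Φ ℂ

/-- the linear form of a character of `F` -/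
noncomputable def linF (η : Φ → ℤ) : LF Φ := ∑ a, (η a : ℂ) • X a

/-- the value of a character of `F` -/
noncomputable def chF (η : Φ → ℤ) (f : Φ → ℂˣ) : ℂ := ((∏ a, f a ^ η a : ℂˣ) : ℂ)

theorem chF_one (η : Φ → ℤ) : chF η 1 = 1 := by simp [chF]

theorem chF_mul (η : Φ → ℤ) (f f' : Φ → ℂˣ) : chF η (f * f') = chF η f * chF η f' := by
  simp [chF, mul_zpow, Finset.prod_mul_distrib]

theorem chF_zero (f : Φ → ℂˣ) : chF 0 f = 1 := by simp [chF]

/-- the weight of `N` attached to a coordinate -/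
def ixP : QL.Ix Q → Q.qd.Fl × Q.qd.Col × Option Q.qd.Col
  | Sum.inl c => (Sum.inl c.1, ⟨Q.s c.1, c.2.2⟩, some ⟨Q.t c.1, c.2.1⟩)
  | Sum.inr c => (Sum.inr ⟨c.1, c.2.1⟩, ⟨c.1, c.2.2⟩, none)

namespace WtA

open QL Quiv

open Classical in
theorem co_bas (c c' : Ix Q) : co (bas c') c = if c = c' then 1 else 0 := by
  rw [bas, co_ofCo, Pi.single_apply]

theorem eq_sum (x : Q.N ℂ) : x = ∑ c, co x c • bas c := eq_sum_bas x

theorem mem_of_bas {K : Submodule ℂ (Q.N ℂ)} (h : ∀ c, bas c ∈ K) (x : Q.N ℂ) : x ∈ K := by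
  rw [eq_sum x]
  exact K.sum_mem fun c _ => K.smul_mem _ (h c)

theorem co_map (ψ : Q.N ℂ →ₗ[ℂ] Q.N ℂ) (x : Q.N ℂ) (c : Ix Q) :
    co (ψ x) c = ∑ c', co (ψ (bas c')) c * co x c' := by
  rw [← ext_complex ψ x, co_ext_apply]
  rfl

theorem hom_ext {ψ ψ' : Q.N ℂ →ₗ[ℂ] Q.N ℂ} (h : ∀ c c', co (ψ (bas c')) c = co (ψ' (bas c')) c) :
    ψ = ψ' :=
  LinearMap.ext fun x => co_ext fun c => by simp only [co_map _ x, h]

/-- scaling of the summands of `N` -/
noncomputable def scale (m : Q.qd.Fl → ℂ) : Q.N ℂ →ₗ[ℂ] Q.N ℂ where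
  toFun x := (fun e => m (Sum.inl e) • x.1 e,
    fun i => Matrix.of fun l r => m (Sum.inr ⟨i, l⟩) * x.2 i l r)
  map_add' x y := co_ext fun c => by rcases c with c | c <;> exact mul_add _ _ _
  map_smul' a x := co_ext fun c => by rcases c with c | c <;> exact mul_left_comm _ _ _

theorem co_scale (m : Q.qd.Fl → ℂ) (x : Q.N ℂ) (c : Ix Q) :
    co (scale m x) c = m (ixP c).1 * co x c := by
  rcases c with c | c <;> rfl

theorem scale_bas (m : Q.qd.Fl → ℂ) (c : Ix Q) : scale m (bas c) = m (ixP c).1 • bas c :=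
  co_ext fun c' => by
    rw [co_scale, co_smul, co_bas]
    split_ifs with h
    · rw [h]
    · rw [mul_zero, mul_zero]

theorem comm_scale (m : Q.qd.Fl → ℂ) : Comm (scale m) := fun g =>
  LinearMap.ext fun x => Prod.ext (funext fun e => by
    show m _ • (_ * x.1 e * _) = _ * (m _ • x.1 e) * _
    rw [Matrix.mul_smul, Matrix.smul_mul]) (funext fun i => Matrix.ext fun l r => by
    show m _ * ∑ b, x.2 i l b * _ = ∑ b, m (Sum.inr ⟨i, l⟩) * x.2 i l b * _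
    simp only [Finset.mul_sum, mul_assoc])

end WtA

variable (Q)

/-- `F` acts on each summand of `N` through a character -/
noncomputable def std (χ : Q.qd.Fl → Φ → ℤ) : Flav Q Φ where
  ρ := { toFun := fun f =>
          { toFun := fun x => (fun e => chF (χ (Sum.inl e)) f • x.1 e,
              fun i => Matrix.of fun l r => chF (χ (Sum.inr ⟨i, l⟩)) f * x.2 i l r)
            map_add' := (WtA.scale fun a => chF (χ a) f).map_add
            map_smul' := (WtA.scale fun a => chF (χ a) f).map_smul }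
         map_one' := LinearMap.ext fun x => QL.co_ext fun c =>
           (WtA.co_scale (fun a => chF (χ a) 1) x c).trans (by rw [chF_one, one_mul]; rfl)
         map_mul' := fun f f' => LinearMap.ext fun x => QL.co_ext fun c =>
           (WtA.co_scale (fun a => chF (χ a) (f * f')) x c).trans (by
             rw [chF_mul, mul_assoc, ← WtA.co_scale (fun a => chF (χ a) f') x c,
               ← WtA.co_scale (fun a => chF (χ a) f)]
             rfl) }
  alg := eq_top_iff.2 fun x _ => WtA.mem_of_bas (fun c => Submodule.mem_iSup_of_mem (χ (ixP c).1)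
    ((Submodule.mem_iInf _).2 fun f => Module.End.mem_eigenspace_iff.2
      (WtA.scale_bas (fun a => chF (χ a) f) c))) x
  comm f := WtA.comm_scale fun a => chF (χ a) f

theorem std_rho (χ : Q.qd.Fl → Φ → ℤ) (f : Φ → ℂˣ) :
    (std Q χ).ρ f = WtA.scale fun a => chF (χ a) f := rfl

theorem co_std (χ : Q.qd.Fl → Φ → ℤ) (f : Φ → ℂˣ) (x : Q.N ℂ) (c : QL.Ix Q) :
    QL.co ((std Q χ).ρ f x) c = chF (χ (ixP c).1) f * QL.co x c :=
  WtA.co_scale (fun a => chF (χ a) f) x c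

theorem std_bas (χ : Q.qd.Fl → Φ → ℤ) (f : Φ → ℂˣ) (c : QL.Ix Q) :
    (std Q χ).ρ f (QL.bas c) = chF (χ (ixP c).1) f • QL.bas c :=
  WtA.scale_bas (fun a => chF (χ a) f) c

/-- the invariants of `G` in `N` -/
noncomputable def N0 : Submodule ℂ (Q.N ℂ) :=
  ⨅ g : GG Q.v, LinearMap.eqLocus (Q.gauge fun i => g i) LinearMap.id

/-- the invariant complement -/
noncomputable def N1 : Submodule ℂ (Q.N ℂ) :=
  ⨆ g : GG Q.v, LinearMap.range (Q.gauge (fun i => g i) - LinearMap.id)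

variable {Q}

theorem mem_N0 {x : Q.N ℂ} : x ∈ N0 Q ↔ ∀ g : GG Q.v, Q.gauge (fun i => g i) x = x :=
  Submodule.mem_iInf _

theorem gauge_sub_mem_N1 (g : GG Q.v) (x : Q.N ℂ) : Q.gauge (fun i => g i) x - x ∈ N1 Q :=
  Submodule.mem_iSup_of_mem g ⟨x, rfl⟩

theorem N1_le {K : Submodule ℂ (Q.N ℂ)}
    (h : ∀ (g : GG Q.v) x, Q.gauge (fun i => g i) x - x ∈ K) : N1 Q ≤ K :=
  iSup_le fun g => by rintro _ ⟨x, rfl⟩; exact h g x

theorem gauge_mem_N1 (g : GG Q.v) {x : Q.N ℂ} (hx : x ∈ N1 Q) :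
    Q.gauge (fun i => g i) x ∈ N1 Q := by
  have := (N1 Q).add_mem (gauge_sub_mem_N1 g x) hx
  rwa [sub_add_cancel] at this

namespace WtA

open QL Quiv

theorem hN_self {x : Q.N ℂ} (h : hN x x = 0) : x = 0 := by
  open scoped ComplexOrder in
  rw [hN_eq, dotProduct_star_self_eq_zero] at h
  exact Q.co.injective (h.trans (map_zero _).symm)

theorem hN_sub_left (a b s : Q.N ℂ) : hN (a - b) s = hN a s - hN b s := by
  rw [hN_eq, hN_eq, hN_eq, map_sub, dotProduct_sub]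

/-- the linear form given by a vector -/
noncomputable def hL (s : Q.N ℂ) : Q.N ℂ →ₗ[ℂ] ℂ :=
  ⟨⟨fun x => hN x s, fun a b => hN_add_left a b s⟩, fun c a => hN_smul_left c a s⟩

theorem hN_gauge' (g : GG Q.v) (s s' : Q.N ℂ) :
    hN (Q.gauge (fun i => g i) s) s' = hN s (Q.gauge (fun i => (star g) i) s') :=
  hN_gauge _ s s'

theorem hN_N1_N0 {y x : Q.N ℂ} (hy : y ∈ N1 Q) (hx : x ∈ N0 Q) : hN y x = 0 :=
  N1_le (K := LinearMap.ker (hL x)) (fun g z => by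
    show hN _ x = 0
    rw [hN_sub_left, hN_gauge', mem_N0.1 hx, sub_self]) hy

theorem exists_hL (ℓ : Q.N ℂ →ₗ[ℂ] ℂ) : ∃ s, ∀ x, ℓ x = hN x s :=
  ⟨Flav.sharp (Flav.ofLf (std Q (Φ := Unit) 0) ℓ), fun x =>
    Flav.lf_eq_hN (Flav.ofLf (std Q (Φ := Unit) 0) ℓ) x⟩

end WtA

variable (Q) in
theorem isCompl_N0_N1 : IsCompl (N0 Q) (N1 Q) := by
  refine ⟨Submodule.disjoint_def.2 fun x h0 h1 => WtA.hN_self (WtA.hN_N1_N0 h1 h0),
    codisjoint_iff.2 (by_contra fun h => ?_)⟩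
  obtain ⟨ℓ, h1, h2⟩ := Submodule.exists_le_ker_of_lt_top _ (lt_top_iff_ne_top.2 h)
  obtain ⟨s, hs⟩ := WtA.exists_hL ℓ
  have h3 : s ∈ N0 Q := mem_N0.2 fun g => Quiv.hN_ext fun y => by
    have := h2 (Submodule.mem_sup_right (gauge_sub_mem_N1 (star g) y))
    rwa [LinearMap.mem_ker, hs, WtA.hN_sub_left, WtA.hN_gauge', star_star, sub_eq_zero] at this
  have h4 : s = 0 := WtA.hN_self ((hs s).symm.trans (h2 (Submodule.mem_sup_left h3)))
  exact h1 (LinearMap.ext fun x => by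
    rw [hs, h4, Quiv.hN_eq, map_zero, star_zero, zero_dotProduct]; rfl)

theorem exists_N0_N1 (x : Q.N ℂ) : ∃ y ∈ N0 Q, ∃ z ∈ N1 Q, y + z = x :=
  Submodule.mem_sup.1 ((isCompl_N0_N1 Q).sup_eq_top.ge Submodule.mem_top)

theorem snd_N0 {x : Q.N ℂ} (hx : x ∈ N0 Q) (i : I) : x.2 i = 0 := by
  have h2 : ∀ j, IsUnit ((2 : ℂ) • (1 : Matrix (Fin (Q.v j)) (Fin (Q.v j)) ℂ)) := fun j =>
    IsUnit.smul (Units.mk0 (2 : ℂ) two_ne_zero) isUnit_one
  have h4 := Matrix.nonsing_inv_mul_cancel_right _ (x.2 i) ((isUnit_iff_isUnit_det _).1 (h2 i))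
  replace h4 := (congrArg (fun y => y * _)
    (congrFun (congrArg Prod.snd (mem_N0.1 hx fun j => (h2 j).unit)) i)).symm.trans h4
  rw [eq_comm, Matrix.mul_smul, Matrix.mul_one, two_smul] at h4
  exact left_eq_add.1 h4

theorem lie_N0 (ξ : Q.En ℂ) {x : Q.N ℂ} (hx : x ∈ N0 Q) : Q.lie ξ x = 0 := by
  obtain ⟨c, hc⟩ := (Set.finite_iUnion fun i => Matrix.finite_spectrum (-ξ i)).exists_notMem
  have hu : ∀ i, IsUnit (c • (1 : Matrix _ _ ℂ) + ξ i) := fun i => by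
    have := spectrum.notMem_iff.1 fun h => hc (mem_iUnion.2 ⟨i, h⟩)
    rwa [sub_neg_eq_add, Algebra.algebraMap_eq_smul_one] at this
  refine Prod.ext (funext fun e => ?_) (funext fun i => ?_)
  · have h3 : (c • 1 + ξ (Q.t e)) * x.1 e * (c • 1 + ξ (Q.s e))⁻¹ = x.1 e :=
      congrFun (congrArg Prod.fst (mem_N0.1 hx fun j => (hu j).unit)) e
    have h4 := congrArg (· * (c • (1 : Matrix _ _ ℂ) + ξ (Q.s e))) h3
    simp only [Matrix.nonsing_inv_mul_cancel_right _ _ ((isUnit_iff_isUnit_det _).1 (hu _))] at h4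
    rw [Matrix.add_mul, Matrix.mul_add, Matrix.smul_mul, Matrix.mul_smul, Matrix.one_mul,
      Matrix.mul_one, add_right_inj] at h4
    exact sub_eq_zero.2 h4
  · show -(x.2 i * ξ i) = 0
    rw [snd_N0 hx, Matrix.zero_mul, neg_zero]

theorem QL.Comm.mem_N0 {ψ : Q.N ℂ →ₗ[ℂ] Q.N ℂ} (h : QL.Comm ψ) {x : Q.N ℂ} (hx : x ∈ N0 Q) :
    ψ x ∈ N0 Q :=
  P291Z.mem_N0.2 fun g => (LinearMap.congr_fun (h g) x).symm.trans
    (congrArg ψ (P291Z.mem_N0.1 hx g))

theorem QL.Comm.mem_N1 {ψ : Q.N ℂ →ₗ[ℂ] Q.N ℂ} (h : QL.Comm ψ) {x : Q.N ℂ} (hx : x ∈ N1 Q) :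
    ψ x ∈ N1 Q :=
  N1_le (K := (N1 Q).comap ψ) (fun g y => by
    rw [Submodule.mem_comap, map_sub, show ψ (Q.gauge (fun i => g i) y) = _ from
      LinearMap.congr_fun (h g) y]
    exact gauge_sub_mem_N1 g _) hx

variable (Q) in
/-- the projection to the invariants -/
noncomputable def pr0 : Q.N ℂ →ₗ[ℂ] Q.N ℂ := (N0 Q).projection (N1 Q) (isCompl_N0_N1 Q)

theorem pr0_mem (x : Q.N ℂ) : pr0 Q x ∈ N0 Q := Submodule.projection_apply_mem _ x

theorem pr0_of_mem {x : Q.N ℂ} (hx : x ∈ N0 Q) : pr0 Q x = x :=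
  Submodule.projection_apply_of_mem_left _ hx

theorem pr0_eq_zero {x : Q.N ℂ} : pr0 Q x = 0 ↔ x ∈ N1 Q :=
  Submodule.projection_apply_eq_zero_iff _

theorem comm_pr0 : QL.Comm (pr0 Q) := fun g =>
  LinearMap.ext fun x => by
    obtain ⟨y, hy, z, hz, rfl⟩ := exists_N0_N1 x
    simp only [LinearMap.comp_apply, map_add, mem_N0.1 hy g, pr0_eq_zero.2 hz,
      pr0_eq_zero.2 (gauge_mem_N1 g hz), map_zero, pr0_of_mem hy]

theorem lie_mem_N1 (ξ : Q.En ℂ) (x : Q.N ℂ) : Q.lie ξ x ∈ N1 Q :=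
  pr0_eq_zero.1 ((comm_pr0.lie ξ x).trans (lie_N0 ξ (pr0_mem x)))

theorem rep_mem_N0 (A : Flav Q Φ) (g : GG (Q.nn Φ)) {x : Q.N ℂ} (hx : x ∈ N0 Q) :
    A.rep g x ∈ N0 Q := by
  have h := (QL.comm_rho A (Flav.fl Q Φ g)).mem_N0 hx
  exact (mem_N0.1 h (fstG _ _ g)).symm ▸ h

theorem rep_mem_N1 (A : Flav Q Φ) (g : GG (Q.nn Φ)) {x : Q.N ℂ} (hx : x ∈ N1 Q) :
    A.rep g x ∈ N1 Q :=
  gauge_mem_N1 (fstG _ _ g) ((QL.comm_rho A (Flav.fl Q Φ g)).mem_N1 hx)

theorem Flav.Regular.qd {A : Flav Q Φ} {ν : I → ℤ} (h : A.Regular ν) : Q.qd.Regular ν :=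
  fun z h1 h2 => by
    rw [← Flav.pt_unpt (A := A) z] at h1 h2 ⊢
    exact (h _ fun ξ => (Flav.mu_pt _ ξ).symm.trans (h1 ξ)).1.1 h2

theorem rep_of_ker (A : Flav Q Φ) {g : GG (Q.nn Φ)} (hg : g ∈ (sndG Q.v fun _ : Φ => 1).ker) :
    A.rep g = Q.gauge (Flav.ga Q Φ g) := by
  have : Flav.fl Q Φ g = 1 := funext fun a =>
    (congrArg GeneralLinearGroup.det (congrFun hg a)).trans (map_one _)
  show Q.gauge _ ∘ₗ A.ρ _ = _
  rw [this, map_one]
  rfl

/-- regularity does not depend on the flavour torus -/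
theorem Flav.Regular.congr {Φ' : Type} [Fintype Φ'] {A : Flav Q Φ} {ν : I → ℤ} (h : A.Regular ν)
    (A' : Flav Q Φ') : A'.Regular ν := fun z hz => ⟨(h z hz).1, fun hs g hg e => by
  let κ : GG (Q.nn Φ') →* GG (Q.nn Φ) :=
    { toFun := fun g j => match j with
        | Sum.inl i => g (Sum.inl i)
        | Sum.inr _ => 1
      map_one' := funext fun j => by cases j <;> rfl
      map_mul' := fun _ _ => funext fun j => by cases j; exacts [rfl, (mul_one _).symm] }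
  have hκ : ∀ g, κ g ∈ (sndG Q.v fun _ : Φ => 1).ker := fun _ => rfl
  have e1 : A.rep (κ g) = A'.rep g := (rep_of_ker A (hκ g)).trans (rep_of_ker A' hg).symm
  have e2 : A.rep (κ g)⁻¹ = A'.rep g⁻¹ := by
    rw [← map_inv]
    exact (rep_of_ker A (hκ _)).trans (rep_of_ker A' (inv_mem hg)).symm
  have h1 := (h z hz).2 hs (κ g) (hκ g) ((Flav.smul_eq_tw (A := A) (κ g) z).trans (by
    rw [e1, e2]
    exact e))
  funext j
  cases j with
  | inl i => exact congrFun h1 (Sum.inl i)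
  | inr a => exact congrFun hg a⟩

end Vale.Agent.P291Z
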