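import Vale.Agent.P291Z.Fou1
import Vale.Agent.P291Z.WtA

/-!
# Reduction to the standard flavour actions
-/

set_option linter.unusedSectionVars false

namespace Vale.Agent.P291Z.Four

open Matrix Module Set Function Topology Quiv Flav

variable {I E Φ : Type} {Q : Quiv I E} [Fintype Φ] [Fintype I] [Fintype E] (A : Flav Q Φ)

/-- The invariants of `G` as a representation of `G × F`. -/
def NZ (_ : Flav Q Φ) : Type := N0 Q

noncomputable instance : AddCommGroup (NZ A) := inferInstanceAs (AddCommGroup (N0 Q))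

noncomputable instance : Module ℂ (NZ A) := inferInstanceAs (Module ℂ (N0 Q))

noncomputable instance : TopologicalSpace (NZ A) := inferInstanceAs (TopologicalSpace (N0 Q))

noncomputable instance : DistribMulAction (GG (Q.nn Φ)) (NZ A) where
  smul g x := ⟨A.rep g x.1, rep_mem_N0 A g x.2⟩
  one_smul x := Subtype.ext (LinearMap.congr_fun A.rep.map_one x.1)
  mul_smul g h x := Subtype.ext (LinearMap.congr_fun (A.rep.map_mul g h) x.1)
  smul_zero g := Subtype.ext (map_zero (A.rep g))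
  smul_add g x y := Subtype.ext (map_add (A.rep g) x.1 y.1)

theorem isRep_NZ : IsRep (GG (Q.nn Φ)) (NZ A) (finrank ℂ (N0 Q)) :=
  ⟨(show Nonempty (N0 Q ≃L[ℂ] (Fin (finrank ℂ (N0 Q)) → ℂ)) from
      ⟨ContinuousLinearEquiv.ofFinrankEq (finrank_fin_fun ℂ).symm⟩),
    ⟨fun g c s => Subtype.ext (map_smul (A.rep g) c s.1)⟩,
    ⟨Continuous.subtype_mk ((continuous_smul (M := GG (Q.nn Φ)) (X := A.NN)).comp
      (continuous_fst.prodMk ((continuous_subtype_val (p := fun x => x ∈ N0 Q)).comp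
        continuous_snd))) _⟩⟩

theorem pr0_rep (g : GG (Q.nn Φ)) (x : Q.N ℂ) : pr0 Q (A.rep g x) = A.rep g (pr0 Q x) := by
  obtain ⟨y, hy, z, hz, rfl⟩ := exists_N0_N1 x
  simp only [map_add, pr0_of_mem hy, pr0_of_mem (rep_mem_N0 A g hy), pr0_eq_zero.2 hz,
    pr0_eq_zero.2 (rep_mem_N1 A g hz), map_zero]

theorem continuous_vec : Continuous (QL.vec : A.NN → Q.N ℂ) := continuous_id

theorem continuous_pr0 : Continuous (pr0 Q) := LinearMap.continuous_of_finiteDimensional _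

/-- The commuting pairs without invariant component. -/
noncomputable def Cm1 (K : Set ℂ) : SubMulAction (GG (Q.nn Φ)) (A.NN × Ad Q Φ) where
  carrier := {x | x ∈ Cm A K ∧ x.1 ∈ N1 Q}
  smul_mem' g _ h := ⟨(Cm A K).smul_mem g h.1, rep_mem_N1 A g h.2⟩

variable {K : Set ℂ} (hK : IsLocallyClosed K)

include hK in
theorem nice_Cm1 : Nice (Cm1 A K) :=
  have := nice_prod A
  nice_of_lc ((isLocallyClosed_Cm hK).inter
    ((N1 Q).closed_of_finiteDimensional.preimage continuous_fst).isLocallyClosed)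

variable [Sys (GG (Q.nn Φ))]

theorem iso_Cm1 [Nice (Cm A K)] [Nice (Cm1 A K)] :
    EHIso (GG (Q.nn Φ)) (Cm A K) (Cm1 A K) (-(2 * (finrank ℂ (N0 Q) : ℕ))) := by
  have h1 : ∀ x : Q.N ℂ, x - pr0 Q x ∈ N1 Q := fun x =>
    pr0_eq_zero.1 (by rw [map_sub, pr0_of_mem (pr0_mem x), sub_self])
  have h6 : ∀ x : Cm A K, Q.lie x.1.2.en (QL.vec x.1.1 - pr0 Q (QL.vec x.1.1)) = 0 := fun x => by
    rw [map_sub, lie_N0 _ (pr0_mem _), sub_zero]
    exact x.2.1
  let p : Cm A K →[GG (Q.nn Φ)] Cm1 A K :=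
    ⟨fun x => ⟨((QL.vec x.1.1 - pr0 Q (QL.vec x.1.1) : Q.N ℂ), x.1.2), ⟨h6 x, x.2.2⟩, h1 _⟩,
      fun g x => Subtype.ext (Prod.ext ((congrArg (A.rep g (QL.vec x.1.1) - ·)
        (pr0_rep A g (QL.vec x.1.1))).trans (map_sub (A.rep g) _ _).symm) rfl)⟩
  let κ : Cm A K →[GG (Q.nn Φ)] NZ A :=
    ⟨fun x => ⟨pr0 Q (QL.vec x.1.1), pr0_mem _⟩, fun g x => Subtype.ext (pr0_rep A g x.1.1)⟩
  let s : Cm1 A K →[GG (Q.nn Φ)] Cm A K := ⟨fun x => ⟨x.1, x.2.1⟩, fun _ _ => rfl⟩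
  have h2 : Continuous fun x : Cm A K => QL.vec x.1.1 :=
    (continuous_vec A).comp continuous_subtype_val.fst
  have h3 : Continuous fun y : Cm1 A K × NZ A => QL.vec y.1.1.1 :=
    (continuous_vec A).comp (continuous_subtype_val.comp continuous_fst).fst
  have h4 : Continuous fun y : Cm1 A K × NZ A => (y.2.1 : Q.N ℂ) :=
    (continuous_subtype_val (p := fun x => x ∈ N0 Q)).comp continuous_snd
  have h5 : ∀ y : Cm1 A K × NZ A, pr0 Q (QL.vec y.1.1.1 + y.2.1) = y.2.1 := fun y => by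
    rw [map_add, pr0_of_mem y.2.2, show pr0 Q (QL.vec y.1.1.1) = 0 from pr0_eq_zero.2 y.1.2.2,
      zero_add]
  have h7 : ∀ y : Cm1 A K × NZ A, Q.lie y.1.1.2.en (QL.vec y.1.1.1 + y.2.1) = 0 := fun y => by
    rw [map_add, lie_N0 _ y.2.2, add_zero]
    exact y.1.2.1.1
  have h8 : Continuous p :=
    ((h2.sub (continuous_pr0.comp h2)).prodMk continuous_subtype_val.snd).subtype_mk _
  have h9 : Continuous κ := (continuous_pr0.comp h2).subtype_mk _
  let q : Cm1 A K × NZ A → Cm A K := fun y =>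
    ⟨((QL.vec y.1.1.1 + y.2.1 : Q.N ℂ), y.1.1.2), h7 y, y.1.2.1.2⟩
  have h10 : Continuous q :=
    ((h3.add h4).prodMk (continuous_subtype_val.comp continuous_fst).snd).subtype_mk _
  refine ⟨_, isoEH_thom (isRep_NZ A) (p := p) (κ := κ) (s := s) ?_ (fun z => ?_) fun z => ?_⟩
  · refine isHomeomorph_iff_exists_inverse.2 ⟨h8.prodMk h9, q,
      fun x => Subtype.ext (Prod.ext (sub_add_cancel (QL.vec x.1.1) _) rfl),
      fun y => Prod.ext (Subtype.ext (Prod.ext ?_ rfl)) (Subtype.ext (h5 y)), h10⟩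
    exact (congrArg (QL.vec y.1.1.1 + y.2.1 - ·) (h5 y)).trans (add_sub_cancel_right _ _)
  · exact Subtype.ext (Prod.ext ((congrArg (QL.vec z.1.1 - ·) (pr0_eq_zero.2 z.2.2)).trans
      (sub_zero _)) rfl)
  · exact Subtype.ext (pr0_eq_zero.2 z.2.2)

/-- Flavour actions that are conjugate on the non-trivial part of `N`. -/
theorem iso_conj (A' : Flav Q Φ) {φ : Q.N ℂ ≃ₗ[ℂ] Q.N ℂ} (hφ : QL.Comm φ.toLinearMap)
    (h : ∀ f, ∀ x ∈ N1 Q, A.ρ f (φ x) = φ (A'.ρ f x)) (hK : IsLocallyClosed K) [Nice (Cm A K)]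
    [Nice (Cm A' K)] : EHIso (GG (Q.nn Φ)) (Cm A K) (Cm A' K) 0 := by
  have := nice_Cm1 A hK
  have := nice_Cm1 A' hK
  have h1 : QL.Comm φ.symm.toLinearMap := fun g => LinearMap.ext fun x => φ.injective (by
    have h2 := LinearMap.congr_fun (hφ g) (φ.symm x)
    simp only [LinearMap.comp_apply, LinearEquiv.coe_coe, LinearEquiv.apply_symm_apply] at h2 ⊢
    exact h2.symm)
  let f : Cm1 A' K →[GG (Q.nn Φ)] Cm1 A K :=
    ⟨fun x => ⟨(φ x.1.1, x.1.2), ⟨(hφ.lie _ _).symm.trans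
        ((congrArg φ x.2.1.1).trans (map_zero φ)), x.2.1.2⟩, hφ.mem_N1 x.2.2⟩,
      fun g x => Subtype.ext (Prod.ext ((LinearMap.congr_fun (hφ (fstG _ _ g)) _).trans
        (congrArg (Q.gauge (ga Q Φ g)) (h _ _ x.2.2).symm)) rfl)⟩
  let f' : Cm1 A K → Cm1 A' K := fun x => ⟨(φ.symm x.1.1, x.1.2), ⟨(h1.lie _ _).symm.trans
    ((congrArg φ.symm x.2.1.1).trans (map_zero φ.symm)), x.2.1.2⟩, h1.mem_N1 x.2.2⟩
  have h2 : Continuous fun x : Cm1 A' K => QL.vec x.1.1 :=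
    (continuous_vec A').comp continuous_subtype_val.fst
  have h3 : Continuous fun x : Cm1 A K => QL.vec x.1.1 :=
    (continuous_vec A).comp continuous_subtype_val.fst
  have h4 : Continuous f := ((φ.toLinearMap.continuous_of_finiteDimensional.comp h2).prodMk
    continuous_subtype_val.snd).subtype_mk _
  have h5 : Continuous f' := ((φ.symm.toLinearMap.continuous_of_finiteDimensional.comp h3).prodMk
    continuous_subtype_val.snd).subtype_mk _
  have h6 : IsHomeomorph f := isHomeomorph_iff_exists_inverse.2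
    ⟨h4, f', fun x => Subtype.ext (Prod.ext (φ.symm_apply_apply _) rfl),
      fun x => Subtype.ext (Prod.ext (φ.apply_symm_apply _) rfl), h5⟩
  exact ((iso_Cm1 A).trans (EHIso.symm ⟨_, isoEH_homeo h6⟩) rfl).trans (iso_Cm1 A').symm (by simp)

end Vale.Agent.P291Z.Four
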