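import Vale.Agent.P291Z.FouP1
import Vale.Agent.P291Z.Kir2
import Vale.Agent.P291Z.HigP0

/-!
# The equivariant cohomology of the quiver variety as equivariant homology of commuting pairs
-/

set_option linter.unusedSectionVars false

namespace Vale.Agent.P291Z

open Set Function Topology

namespace Four

open Flav KN Kir Module

variable {I E Φ : Type} {Q : Quiv I E} [Fintype Φ] [Fintype I] [Fintype E] {A : Flav Q Φ}
  {ν : I → ℤ}

/-- Poincare duality for the stable locus, and the Fourier transform. -/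
theorem pd_Zst (hν : A.Regular ν) [Nice (A.Zst ν)] :
    (∃ (D : ℤ) (o : EH (GG (Q.nn Φ)) (A.Zst ν)), o ∈ EH.deg _ _ D ∧
      Bijective (fun c : HS (GG (Q.nn Φ)) (A.Zst ν) => eact c.1 o)) ∧
    EHIso (GG (Q.nn Φ)) (A.Zst ν) (Cm A (Sp.seg \ {1}))
      (2 * (finrank ℂ (Q.En ℂ) : ℕ) - 2 * (finrank ℂ (Q.N ℂ) : ℕ)) := by
  obtain ⟨θ, hθ, f, h1, h2, h3⟩ := exists_over (t := fun _ => tE) (fun _ => continuous_tE)
    (fun _ => tE_smul) (fun _ => tE_addCol) hν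
  have h4 := isoEH_over h1 h2 h3
  refine ⟨?_, (EHIso.trans ⟨_, h4⟩ (iso_Zlev_ray hθ) (zero_add _).symm).trans ⟨_, iso_cay⟩
    (add_zero _).symm⟩
  obtain ⟨D, o, ho, hb⟩ := pd_Zlev (A := A) hθ
  obtain ⟨o', rfl⟩ := h4.bij.2 o
  have h5 := isLev_over h1 h2 fun M => continuous_fst.comp (h3 M).continuous
  have h6 := fun M => Bor.isHomeomorph_map (h1 M) (h3 M)
  refine ⟨D, o', (h4.deg_iff D o').1 (by rwa [add_zero]), ?_⟩
  rw [← Bijective.of_comp_iff _ (HS.lmap_bijective h5 h6), ← h4.bij.of_comp_iff']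
  have h7 := funext fun c => lpush_eact h5
    (fun M => IsPr.of_isClosedEmbedding (h6 M).isClosedEmbedding) c o'
  rw [← h7] at hb
  exact hb

variable (A ν) in
/-- The pull-back to the stable locus. -/
noncomputable def pbS : A.HX ν →+* HS (GG (Q.nn Φ)) (A.Zst ν) := pbH A ν

theorem pbS_phiH (hν : A.Regular ν) [Nice (A.Zst ν)] (r : HS (GG (Q.nn Φ)) Unit)
    (β : EH (GG (Q.nn Φ)) (A.Zst ν)) : eact (pbS A ν (A.phiH ν r)).1 β = r • β :=
  EH.ext fun M => by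
    rw [eact_apply, EH.smul_apply]
    have h : (pbS A ν (A.phiH ν r)).1 M = H.map (bptC (GG (Q.nn Φ)) (A.Zst ν) M) (r.1 M) :=
      congrFun (congrArg Subtype.val (pbH_phiH hν r)) M
    rw [h]

/-- **The Higgs side**: `H_F(X)` is, as a graded module over `R`, the equivariant homology of the
commuting pairs with spectrum in the half-open unit interval. -/
theorem higgs (hν : A.Regular ν) :
    ∃ (D : ℤ) (φ : A.HX ν ≃+ EH (GG (Q.nn Φ)) (Cm A (Sp.seg \ {1}))),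
      (∀ (r : HS (GG (Q.nn Φ)) Unit) c, φ (A.phiH ν r * c) = r • φ c) ∧
        ∀ k c, φ c ∈ EH.deg _ _ (D - k) ↔ c.1 ∈ HGdeg _ _ k := by
  have := nice_Zst hν
  obtain ⟨⟨D, o, ho, hb⟩, ψ, hψ⟩ := pd_Zst hν
  let φ : A.HX ν →+ EH (GG (Q.nn Φ)) (Cm A (Sp.seg \ {1})) :=
    AddMonoidHom.mk' (fun c => ψ (eact (pbS A ν c).1 o)) fun a b => by
      rw [map_add (pbS A ν), eact_add, map_add]
  have h1 : Bijective (pbS A ν) := pbH_bijective hν
  have h2 : ∀ (a : A.HX ν) (r : HS (GG (Q.nn Φ)) Unit), (∀ β, eact (pbS A ν a).1 β = r • β) →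
      ∀ c, ψ (eact (pbS A ν (a * c)).1 o) = r • ψ (eact (pbS A ν c).1 o) := fun a r h c => by
    rw [map_mul (pbS A ν), eact_mul, h, hψ.smul]
  have h3 : ∀ k (c : HS (GG (Q.nn Φ)) (A.Zst ν)), ψ (eact c.1 o) ∈ EH.deg _ _ (D +
      (2 * (finrank ℂ (Q.En ℂ) : ℕ) - 2 * (finrank ℂ (Q.N ℂ) : ℕ)) - k) ↔ c.1 ∈ HSdeg _ _ k :=
    fun k c => by
      have h4 : ∀ a : ℤ, D + a - k = D - k + a := fun a => by ring
      rw [h4, hψ.deg_iff, eact_deg_iff ho hb.1]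
  refine ⟨D + (2 * (finrank ℂ (Q.En ℂ) : ℕ) - 2 * (finrank ℂ (Q.N ℂ) : ℕ)),
    AddEquiv.ofBijective φ (hψ.bij.comp (hb.comp h1)), fun r c => ?_, fun k c => ?_⟩
  · exact h2 _ r (pbS_phiH hν r) c
  · exact (h3 k (pbS A ν c)).trans (pbH_deg hν k c)

end Four

end Vale.Agent.P291Z
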