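import Vale.Agent.P291Z.TSys
import Vale.Agent.P291Z.WtC

/-!
# Weights: the ring `R` inside the polynomial ring of the algebraic model
-/

set_option linter.all false

namespace Vale.Agent.P291Z

open Set Function Topology Matrix MvPolynomial Vale.Agent.P291 Vale.Agent.P291.Hik

variable {I E : Type} {Q : Quiv I E} {Φ : Type} [Fintype Φ] [Fintype I] [Fintype E]

variable (Q Φ) in
/-- `R → S` -/
noncomputable def psi : Flav.RR Q Φ →+* SS Q.qd.Col (LF Φ) :=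
  (spE Q Φ).toRingHom.comp (psiG (Q.nn Φ))

theorem psi_apply (r : Flav.RR Q Φ) : psi Q Φ r = spE Q Φ (psiG (Q.nn Φ) r) := rfl

theorem psi_injective : Injective (psi Q Φ) :=
  (spE Q Φ).injective.comp (psiG_injective (n := Q.nn Φ))

variable [DecidableEq I] (χ : Q.qd.Fl → Φ → ℤ)

theorem mem_range_psi {s : SS Q.qd.Col (LF Φ)} : s ∈ (psi Q Φ).range ↔ s ∈ (cq Q χ).R := by
  obtain ⟨s, rfl⟩ := (spE Q Φ).surjective s
  have h1 : spE Q Φ s ∈ (psi Q Φ).range ↔ s ∈ (psiG (Q.nn Φ)).range :=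
    ⟨fun ⟨r, h⟩ => ⟨r, (spE Q Φ).injective h⟩, fun ⟨r, h⟩ => ⟨r, congrArg (spE Q Φ) h⟩⟩
  rw [h1, mem_range_psiG]
  refine ⟨fun h σ hσ => ?_, fun h w => (spE Q Φ).injective
    ((spE_rename w s).trans (h _ (act_mem Q.qd _ _)))⟩
  obtain ⟨σ, rfl⟩ := exists_act Q.qd _ hσ
  obtain ⟨w, rfl⟩ := (wyG_bijective (Φ := Φ)).2 σ
  rw [← spE_rename, h w]

theorem psi_deg {r : Flav.RR Q Φ} {d : ℤ} :
    r.1 ∈ HGdeg _ Unit (2 * d) ↔ psi Q Φ r ∈ (cq Q χ).Rd (scF Φ) d := by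
  refine (psiG_deg (n := Q.nn Φ) (r := r)).trans ⟨?_, fun h => ?_⟩
  · rintro (rfl | ⟨e, he, h⟩)
    · exact (map_zero (psi Q Φ)).symm ▸ zero_mem _
    · obtain rfl : d = e := by omega
      exact ⟨(mem_range_psi χ).1 ⟨r, rfl⟩, spE_hom.2 h⟩
  · rcases lt_or_ge d 0 with hd | hd
    · have h2 : psi Q Φ r ∈ (scF Φ).homS Q.qd.Col d := h.2
      rw [H2h.homS_neg _ _ _ scF_monomial hd] at h2
      exact Or.inl (psi_injective (h2.trans (map_zero _).symm))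
    · lift d to ℕ using hd
      exact Or.inr ⟨d, rfl, spE_hom.1 h.2⟩

theorem eq_zero_of_odd {r : Flav.RR Q Φ} {k : ℤ} (hk : Odd k) (h : r.1 ∈ HGdeg _ Unit k) :
    r = 0 :=
  ((psiG_deg (n := Q.nn Φ) (r := r)).1 h).resolve_right fun ⟨d, hd, _⟩ => by
    obtain ⟨m, hm⟩ := hk
    omega

end Vale.Agent.P291Z
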