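import Vale.Agent.P291Z.HigF0
import Vale.Agent.P291Z.HigD
import Vale.Agent.P291Z.HigP
import Vale.Agent.P291Z.Wt0
import Vale.Agent.P291.H3Blk

/-!
# Descent from the extra flavour, and the Kirwan map
-/

set_option linter.unusedSectionVars false

namespace Vale.Agent.P291Z.Four

open Set Function Topology MvPolynomial Flav Vale.Agent.P291

variable {I E : Type} {Q : Quiv I E} {Φ : Type} [Fintype Φ] [Fintype I] [Fintype E] [DecidableEq I]

variable (Q Φ) in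
/-- The map `R → S`. -/
noncomputable def ps : HS (GG (Q.nn Φ)) Unit →+* SS Q.qd.Col (LF Φ) := psi Q Φ

theorem ps_apply (r : HS (GG (Q.nn Φ)) Unit) : ps Q Φ r = spE Q Φ (psiG (Q.nn Φ) r) := rfl

theorem ps_injective : Injective (ps Q Φ) := psi_injective

theorem mem_range_ps (χ : Q.qd.Fl → Φ → ℤ) {s : SS Q.qd.Col (LF Φ)} :
    (∃ r, ps Q Φ r = s) ↔ s ∈ (cq Q χ).R := mem_range_psi χ

variable (Q Φ) in
/-- The equivariant homology is a cyclic module with annihilator `J`. -/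
def Cyc (X : Type) [TopologicalSpace X] [MulAction (GG (Q.nn Φ)) X]
    (J : Set (SS Q.qd.Col (LF Φ))) : Prop :=
  ∃ o : EH (GG (Q.nn Φ)) X, Surjective (fun r : HS (GG (Q.nn Φ)) Unit => r • o) ∧
    ∀ r : HS (GG (Q.nn Φ)) Unit, r • o = 0 ↔ ps Q Φ r ∈ J

theorem Cyc.of_iso {X Y : Type} [TopologicalSpace X] [MulAction (GG (Q.nn Φ)) X]
    [TopologicalSpace Y] [MulAction (GG (Q.nn Φ)) Y] {J : Set (SS Q.qd.Col (LF Φ))} {c : ℤ}
    (h : Cyc Q Φ X J) (e : EHIso (GG (Q.nn Φ)) X Y c) : Cyc Q Φ Y J := by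
  obtain ⟨o, h1, h2⟩ := h
  obtain ⟨φ, hφ⟩ := e
  refine ⟨φ o, fun β => ?_, fun r => ?_⟩
  · obtain ⟨β, rfl⟩ := hφ.bij.2 β
    obtain ⟨r, rfl⟩ := h1 β
    exact ⟨r, (hφ.smul r o).symm⟩
  · rw [← hφ.smul, ← h2, map_eq_zero_iff φ hφ.bij.1]

/-- The characters of the torus enlarged by the scaling. -/
def up (χ : Q.qd.Fl → Φ → ℤ) : Q.qd.Fl → Option Φ → ℤ := fun a o => o.elim 1 (χ a)

variable (Φ) in
/-- The specialization of the extra parameter to zero. -/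
noncomputable def kil : LF (Option Φ) →+* LF Φ := (aeval fun o : Option Φ => o.elim 0 X).toRingHom

theorem kil_rename (c : LF Φ) : kil Φ (rename some c) = c :=
  (aeval_rename _ _ _).trans (aeval_X_left_apply c)

theorem kil_none : kil Φ (X none) = 0 := aeval_X _ _

theorem linF_up (η : Φ → ℤ) (m : ℤ) :
    linF (fun o : Option Φ => o.elim m η) = (m : ℂ) • X none + rename some (linF η) := by
  simp [linF, Fintype.sum_option]

variable (χ : Q.qd.Fl → Φ → ℤ)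

theorem nonzeroLoops_up : (cq Q (up χ)).NonzeroLoops := fun a _ h => by
  have h1 := congrArg (aeval fun o : Option Φ => o.elim (1 : ℂ) 0) ((linF_up (χ a) 1).symm.trans h)
  simp [linF] at h1

theorem rel_up : (cq Q χ).src = (cq Q (up χ)).src ∧ (cq Q χ).tgt = (cq Q (up χ)).tgt ∧
    (cq Q χ).vx = (cq Q (up χ)).vx ∧ ∀ a, (cq Q χ).t a = kil Φ ((cq Q (up χ)).t a) :=
  ⟨rfl, rfl, rfl, fun a => by
    change linF (χ a) = kil Φ (linF fun o : Option Φ => o.elim 1 (χ a))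
    rw [linF_up, map_add, kil_rename, Int.cast_one, one_smul, kil_none, zero_add]⟩

theorem dvd_sub_kil (c : LF (Option Φ)) : X none ∣ c - rename some (kil Φ c) := by
  induction c using MvPolynomial.induction_on with
  | C a => rw [← kil_rename (kil Φ _), ← rename_C some a, kil_rename, kil_rename, sub_self]
           exact dvd_zero _
  | add p q hp hq => rw [map_add, map_add, add_sub_add_comm]; exact hp.add hq
  | mul_X p o hp =>
    rw [map_mul, map_mul]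
    cases o with
    | none => rw [kil_none, map_zero, mul_zero, sub_zero]; exact dvd_mul_left _ _
    | some a =>
      rw [← rename_X some a, kil_rename, ← sub_mul]
      exact hp.mul_right _

theorem dvd_sub_map {B : Type} (s : SS B (LF (Option Φ))) : C (X none) ∣
    s - map (rename some : LF Φ →ₐ[ℂ] _).toRingHom (map (kil Φ) s) :=
  (C_dvd_iff_dvd_coeff _ _).2 fun m => by
    rw [coeff_sub, coeff_map, coeff_map]
    exact dvd_sub_kil _

variable (Q Φ) in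
/-- The product decomposition of the enlarged group. -/
theorem exists_prod : ∃ S : SysProd (GG (Q.nn (Option Φ))) (GG (Q.nn Φ)) (GG n1),
    (∀ g, ga Q Φ (S.π₁ g) = ga Q (Option Φ) g) ∧
    (∀ g a, fl Q Φ (S.π₁ g) a = fl Q (Option Φ) g (some a)) ∧
    (∀ g, S.ch g = (fl Q (Option Φ) g none)⁻¹) ∧
    (∀ r, ps Q (Option Φ) (S.r₁ r) =
      map (rename some : LF Φ →ₐ[ℂ] _).toRingHom (ps Q Φ r)) ∧
    ps Q (Option Φ) S.hb = -C (X none) := by
  obtain ⟨S, h1, h2, h3⟩ := exists_split (ι₁ := Sum.map id some) (ι₂ := fun _ => Sum.inr none)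
    ⟨by rintro ((a | a) | a) ((b | b) | b) h <;> simp_all,
      by rintro (a | _ | a); exacts [⟨.inl (.inl a), rfl⟩, ⟨.inr (), rfl⟩, ⟨.inl (.inr a), rfl⟩]⟩
    (Q.nn (Option Φ)) (Q.nn Φ) n1 (by rintro (a | a) <;> rfl) fun _ => rfl
  have h4 : ∀ g, S.ch g = (fl Q (Option Φ) g none)⁻¹ := fun g =>
    congrArg (fun h => (Matrix.GeneralLinearGroup.det h)⁻¹) (eq_of_heq (h2 g ()))
  refine ⟨S, fun g => funext fun i => congrArg Units.val (eq_of_heq (h1 g (.inl i))),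
    fun g a => congrArg Matrix.GeneralLinearGroup.det (eq_of_heq (h1 g (.inr a))), h4, fun r => ?_, ?_⟩
  · rw [ps_apply, ps_apply, h3]
    induction psiG (Q.nn Φ) r using MvPolynomial.induction_on with
    | C a => rw [rename_C, spE_C, spE_C, map_C]; exact congrArg C (rename_C _ _).symm
    | add p q hp hq => rw [map_add, map_add, map_add, map_add, hp, hq]
    | mul_X p b hp =>
      rw [map_mul, map_mul, map_mul, map_mul, hp, rename_X]
      congr 1
      obtain ⟨i | a, b⟩ := b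
      · exact (spE_inl ⟨i, b⟩).trans ((map_X _ _).symm.trans (congrArg _ (spE_inl ⟨i, b⟩).symm))
      · exact (spE_inr (some a) b).trans (((map_C _ _).trans (congrArg C (rename_X _ _))).symm.trans
          (congrArg _ (spE_inr a b).symm))
  · rw [ps_apply, SysProd.hb, psiG_eu_Ln (χ := wtOf 0 fun o : Option Φ => o.elim (-1) 0)
      S.continuous_ch fun t => by rw [h4, chr_wtOf]; simp [chF, Fintype.prod_option], spE_linf, linF_up]
    simp [linF]

theorem rep_up {g : GG (Q.nn (Option Φ))} {g' : GG (Q.nn Φ)} (h1 : ga Q Φ g' = ga Q (Option Φ) g)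
    (h2 : ∀ a, fl Q Φ g' a = fl Q (Option Φ) g (some a)) (h3 : fl Q (Option Φ) g none = 1) :
    (std Q (up χ)).rep g = (std Q χ).rep g' := by
  have h4 : (fun a => chF (up χ a) (fl Q (Option Φ) g)) = fun a => chF (χ a) (fl Q Φ g') :=
    funext fun a => by simp [chF, Fintype.prod_option, h3, h2, up]
  change Q.gauge _ ∘ₗ (std Q (up χ)).ρ _ = Q.gauge _ ∘ₗ (std Q χ).ρ _
  rw [std_rho, std_rho, h1, h4]

/-- Forgetting the extra flavour. -/
noncomputable def fgt (K : Set ℂ) (x : Cm (std Q (up χ)) K) : Cm (std Q χ) K :=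
  ⟨(QL.vec x.1.1, x.1.2.en), x.2⟩

theorem isHomeomorph_fgt (K : Set ℂ) : IsHomeomorph (fgt χ K) :=
  IsHomeomorph.id (X := {x : Q.N ℂ × Q.En ℂ | Q.lie x.2 x.1 = 0 ∧ Sp.spec x.2 ⊆ K})

theorem cyc_descent {R R' M M' : Type} [Ring R] [Ring R'] [AddCommGroup M] [AddCommGroup M']
    [Module R M] [Module R' M'] {ι : R → R'} {h : R'} (ψ : M' →+ M)
    (h1 : ∀ r β, ψ (ι r • β) = r • ψ β) (h2 : ∀ β, ψ β = 0 ↔ ∃ γ, h • γ = β)
    (h3 : (∀ β : M', h • β = 0 → β = 0) → Surjective ψ) (h4 : ∀ r', ∃ r s, r' = ι r + h * s)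
    {o : M'} (h5 : Surjective fun r : R' => r • o) (h6 : ∀ r, (h * r) • o = 0 → r • o = 0) :
    Surjective (fun r : R => r • ψ o) ∧ ∀ r, r • ψ o = 0 ↔ ∃ s, (ι r + h * s) • o = 0 := by
  have h7 : ∀ r s, ψ ((ι r + h * s) • o) = r • ψ o := fun r s => by
    rw [add_smul, map_add, h1, (h2 _).2 ⟨s • o, (mul_smul _ _ _).symm⟩, add_zero]
  refine ⟨fun β => ?_, fun r => ⟨fun e => ?_, fun ⟨s, e⟩ => by rw [← h7 r s, e, map_zero]⟩⟩
  · obtain ⟨β, rfl⟩ := h3 (fun β hβ => by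
      obtain ⟨r, rfl⟩ := h5 β
      exact h6 r ((mul_smul _ _ _).trans hβ)) β
    obtain ⟨r', rfl⟩ := h5 β
    obtain ⟨r, s, rfl⟩ := h4 r'
    exact ⟨r, (h7 r s).symm⟩
  · obtain ⟨γ, hγ⟩ := (h2 _).1 ((h1 r o).trans e)
    obtain ⟨s, rfl⟩ := h5 γ
    exact ⟨-s, by rw [mul_neg, add_smul, neg_smul, mul_smul, ← hγ, add_neg_cancel]⟩

theorem desc_alg {R R' : Type} [Ring R] [Ring R'] {p : R →+* SS Q.qd.Col (LF Φ)}
    {p' : R' →+* SS Q.qd.Col (LF (Option Φ))} (h1 : Injective p) (h1' : Injective p')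
    (h2 : ∀ {s}, (∃ r, p r = s) ↔ s ∈ (cq Q χ).R)
    (h2' : ∀ {s}, (∃ r, p' r = s) ↔ s ∈ (cq Q (up χ)).R) {ι : R → R'} {h : R'}
    (h4 : ∀ r, p' (ι r) = map (rename some : LF Φ →ₐ[ℂ] _).toRingHom (p r))
    (h5 : p' h = -C (X none)) : (∀ r', ∃ r s, r' = ι r + h * s) ∧
      (∀ r, p' (h * r) ∈ (cq Q (up χ)).JD → p' r ∈ (cq Q (up χ)).JD) ∧
      ∀ r, (∃ s, p' (ι r + h * s) ∈ (cq Q (up χ)).JD) ↔ p r ∈ (cq Q χ).JC := by
  have h13 : (X none : LF (Option Φ)) ≠ 0 := X_ne_zero _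
  have h14 : ∀ r s, map (kil Φ) (p' (ι r + h * s)) = p r := fun r s => by
    rw [map_add, map_add, h4, MvPolynomial.map_map, show (kil Φ).comp _ = RingHom.id _ from
      RingHom.ext kil_rename, MvPolynomial.map_id, map_mul, h5, map_mul, map_neg, map_C, kil_none,
      C_0, neg_zero, zero_mul, add_zero]
  have h16 : ∀ r', ∃ r s, r' = ι r + h * s := fun r' => by
    obtain ⟨r, hr⟩ := (h2 (s := map (kil Φ) (p' r'))).2 fun σ hσ => by
      rw [← map_rename, h2'.1 ⟨r', rfl⟩ σ hσ]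
    obtain ⟨s, hs⟩ := dvd_sub_map (p' r')
    rw [← hr, ← h4, ← map_sub] at hs
    obtain ⟨r'', hr''⟩ := (h2' (s := s)).2 fun σ hσ => by
      have h18 := h2'.1 ⟨r' - ι r, rfl⟩ σ hσ
      rw [hs, map_mul, rename_C] at h18
      exact mul_left_cancel₀ (C_ne_zero.2 h13) h18
    refine ⟨r, -r'', h1' ?_⟩
    rw [map_add, map_mul, h5, map_neg, hr'', neg_mul_neg, ← hs, map_sub, add_sub_cancel]
  have h20 := JC_eq_JD _ (nonzeroLoops_up χ)
  refine ⟨h16, fun r e => JD_sat _ (neg_ne_zero.2 h13) (by rwa [map_neg, ← h5, ← map_mul]),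
    fun r => ⟨fun ⟨s, e⟩ => h14 r s ▸ JC_map _ _ _ (rel_up χ) (h20.ge e), fun e => ?_⟩⟩
  obtain ⟨f, hf, hf'⟩ := JC_lift _ _ (nonzeroLoops_up χ) _ (fun c => ⟨_, kil_rename c⟩)
    (rel_up χ) e
  obtain ⟨r', rfl⟩ := h2'.2 hf.1
  obtain ⟨r₀, s, rfl⟩ := h16 r'
  exact ⟨s, h1 ((h14 _ _).symm.trans hf') ▸ h20.le hf⟩

/-- **Descent** from the torus enlarged by the scaling. -/
theorem Cyc.descent {K : Set ℂ} [Nice (Cm (std Q χ) K)] [Nice (Cm (std Q (up χ)) K)]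
    (h : Cyc Q (Option Φ) (Cm (std Q (up χ)) K) (cq Q (up χ)).JD) :
    Cyc Q Φ (Cm (std Q χ) K) (cq Q χ).JC := by
  obtain ⟨S, h1, h2, h3, h4, h5⟩ := exists_prod Q Φ
  obtain ⟨o, h6, h7⟩ := h
  obtain ⟨ψ, h8, h9, h10⟩ := S.exists_descent (isHomeomorph_fgt χ K) (fun g x hg => by
      have h11 : fl Q (Option Φ) g none = 1 := inv_eq_one.1 ((h3 g).symm.trans (by
        change (Matrix.GeneralLinearGroup.det (S.π₂ g ()))⁻¹ = 1
        rw [hg, Pi.one_apply, map_one, inv_one]))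
      refine Subtype.ext (Prod.ext
        (LinearMap.congr_fun (rep_up χ (h1 g) (h2 g) h11) (QL.vec x.1.1)) ?_)
      refine (en_smul g x.1.2).trans (Eq.trans ?_ (en_smul (Q := Q) (S.π₁ g) x.1.2.en).symm)
      rw [← map_inv, h1, h1]
      rfl)
    ((hasDim_complex (Q.N ℂ × Q.En ℂ) le_rfl).of_injective (f := fun x : Cm (std Q χ) K => x.1)
      continuous_subtype_val Subtype.val_injective)
  obtain ⟨h11, h12, h13⟩ := desc_alg χ ps_injective ps_injective (mem_range_ps χ)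
    (mem_range_ps (up χ)) h4 h5
  obtain ⟨h14, h15⟩ := cyc_descent ψ.toAddMonoidHom h8 h9 h10 h11 h6 fun r e =>
    (h7 r).2 (h12 r ((h7 _).1 e))
  exact ⟨ψ o, h14, fun r => (h15 r).trans ((exists_congr fun s => h7 _).trans (h13 r))⟩

variable {A : Flav Q Φ} {ν : I → ℤ}

/-- The Kirwan map is onto, and its kernel is the annihilator. -/
theorem higgs_of_cyc (hν : A.Regular ν) {J : Set (SS Q.qd.Col (LF Φ))}
    (h : Cyc Q Φ (Cm A (Sp.seg \ {1})) J) :
    ∃ φ : RR Q Φ →+* A.HX ν, (∀ r, φ r = A.phiH ν r) ∧ Surjective φ ∧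
      (∀ r, φ r = 0 ↔ psi Q Φ r ∈ J) ∧ ∀ k r, r.1 ∈ HGdeg _ _ k → (φ r).1 ∈ HGdeg _ _ k := by
  obtain ⟨D, θ, h1, -⟩ := higgs hν
  obtain ⟨o, h2, h3⟩ := h
  let e := RingEquiv.ofBijective _ (Kir.pbH_bijective hν)
  let φ : RR Q Φ →+* A.HX ν := e.symm.toRingHom.comp (Kir.chH _ _)
  have h4 : ∀ r, φ r = A.phiH ν r := fun r => e.symm_apply_eq.2 (Kir.pbH_phiH hν r).symm
  obtain ⟨c, rfl⟩ := θ.surjective o
  have h5 : ∀ x, ∃ r, φ r * c = x := fun x => by
    obtain ⟨r, hr⟩ := h2 (θ x)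
    exact ⟨r, θ.injective (((congrArg (fun y => θ (y * c)) (h4 r)).trans (h1 r c)).trans hr)⟩
  obtain ⟨u, hu⟩ := h5 1
  obtain ⟨v, hv⟩ := h5 (c * φ u)
  have h6 : c * φ u = 1 := by
    have h7 : u * v = v * u := psi_injective (by rw [map_mul, map_mul, mul_comm])
    have h8 : φ u * (φ v * c) = φ v := by
      rw [← mul_assoc, ← map_mul, h7, map_mul, mul_assoc, hu, mul_one]
    rw [hv, ← mul_assoc, hu, one_mul] at h8
    rw [← hv, ← h8, hu]
  have h9 : ∀ x y, x * c = y * c → x = y := fun x y e => by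
    rw [← mul_one x, ← h6, ← mul_assoc, e, mul_assoc, h6, mul_one]
  refine ⟨φ, h4, fun x => (h5 (x * c)).imp fun r hr => h9 _ _ hr, fun r => ?_, fun k r hr => ?_⟩
  · refine Iff.trans ?_ ((h1 r c).congr_left.trans (h3 r))
    rw [← h4, map_eq_zero_iff θ θ.injective]
    exact ⟨fun h => by rw [h, zero_mul], fun h => h9 _ _ (h.trans (zero_mul c).symm)⟩
  · rw [← Kir.pbH_deg hν, h4, Kir.pbH_phiH hν]
    exact Kir.toPt_deg _ hr

/-- The Higgs side, given the computation for the standard actions with non-zero loop weights. -/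
theorem higgs_of_std (W : Wts A) (hν : A.Regular ν)
    (h : Cyc Q (Option Φ) (Cm (std Q (up W.χ)) (Sp.seg \ {1})) (cq Q (up W.χ)).JD) :
    ∃ φ : RR Q Φ →+* A.HX ν, (∀ r, φ r = A.phiH ν r) ∧ Surjective φ ∧
      (∀ r, φ r = 0 ↔ psi Q Φ r ∈ (cq Q W.χ).JC) ∧
      ∀ k r, r.1 ∈ HGdeg _ _ k → (φ r).1 ∈ HGdeg _ _ k :=
  higgs_of_cyc hν ((h.descent W.χ).of_iso (iso_conj A (std Q W.χ) (K := Sp.seg \ {1}) W.comm W.rho
    (Sp.isClosed_seg.isLocallyClosed.inter isOpen_compl_singleton.isLocallyClosed)).symm)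

end Vale.Agent.P291Z.Four
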