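import Vale.Agent.P291Z.HigE
import Vale.Agent.P291Z.HigF

/-!
# The Higgs side
-/

namespace Vale.Agent.P291Z.Four

open Function Flav

variable {I E : Type} {Q : Quiv I E} {Φ : Type} [Fintype Φ] [Fintype I] [Fintype E] [DecidableEq I]
  {A : Flav Q Φ} {ν : I → ℤ}

/-- The Kirwan map is a graded surjective ring homomorphism with kernel `J_C`. -/
theorem higgs_final (W : Wts A) (hν : A.Regular ν) :
    ∃ φ : RR Q Φ →+* A.HX ν, (∀ r, φ r = A.phiH ν r) ∧ Surjective φ ∧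
      (∀ r, φ r = 0 ↔ psi Q Φ r ∈ (cq Q W.χ).JC) ∧
      ∀ k r, r.1 ∈ HGdeg _ _ k → (φ r).1 ∈ HGdeg _ _ k :=
  higgs_of_std W hν ((higgsE (up W.χ) (nonzeroLoops_up _)).imp fun _ h => h.2)

end Vale.Agent.P291Z.Four
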