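import Vale.Agent.P291Z.C.CAsm
import Vale.Agent.P291Z.HigFin

/-!
# The equivariant Hikita conjecture for quiver gauge theories
-/

namespace Vale.Agent.P291Z.Flav

theorem heavy {I E Φ : Type} [Fintype I] [Fintype E] [Fintype Φ] (Q : Quiv I E) (A : Flav Q Φ)
    (ν : I → ℤ) (hν : A.Regular ν) :
    (∀ r, ∃! c, A.IsKirwan ν r c) ∧
    (∀ n χ k n' χ' k' (β₁ : A.An n χ k) (β₂ : A.An n' χ' k'),
      ∃ β₃, ConvRel β₁ β₂ β₃ ∧ cls β₁ * cls β₂ = cls β₃ ∧ ∀ β, ConvRel β₁ β₂ β → β = β₃) ∧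
    (∀ k (r : RR Q Φ), r.1 ∈ HGdeg _ _ k →
      ∃ β : A.An 0 0 (-k), CapRel r β ∧ A.coefA r = cls β ∧ ∀ β', CapRel r β' → β' = β) ∧
    ∃ e : A.HX ν ≃+* A.CY ν, (∀ r, e (A.phiH ν r) = A.phiC ν r) ∧
      ∀ k (c : A.HX ν), c.1 ∈ HGdeg _ _ k ↔
        ∃ a ∈ A.Adeg (-k), e c = Ideal.Quotient.mk _ a := by
  classical
  obtain ⟨W⟩ := exists_wts A
  exact ⟨Kir.existsUnique_isKirwan hν, fun _ _ _ _ _ _ => conv_final, coefA_final,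
    hikita_of W hν (Four.higgs_final W hν)⟩

end Vale.Agent.P291Z.Flav
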