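import Vale.Agent.P291Z.HE2.SlA
import Vale.Agent.P291Z.HE2.SlB

/-!
# The homology of a Jordan stratum
-/

set_option linter.all false

namespace Vale.Agent.P291Z

open Set Function Topology Matrix Four

variable {I E : Type} {Q : Quiv I E} {Φ : Type} [Fintype Φ] [Fintype I] [Fintype E] {K : ℕ}

open Classical in
theorem bnd_Str (χ : Q.qd.Fl → Φ → ℤ) {K₁ K' : Set ℂ} (hK₁ : IsLocallyClosed K₁)
    (hK' : IsLocallyClosed K') {c : ℂ} (hc : c ∉ K') (hK : ∀ t, t ∈ K₁ ↔ t = c ∨ t ∈ K')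
    (m : JT I K) (v' : I → ℕ) (hv : ∀ i, Q.v i = m.dv i + v' i) {D : ℤ} {h : ℤ → ℕ}
    (H : Bnd (GG ((Q.wv v').nn Φ)) (Cm (std (Q.wv v') χ) K') D h) (hb : Bb h) :
    Bnd (GG (Q.nn Φ)) (Str (std Q χ) K₁ c m)
      (D + ∑ i, (Q.v i : ℤ) ^ 2 - ∑ i, (v' i : ℤ) ^ 2 - m.zz + m.nz Q +
        if c = 0 then (m.fz Q : ℤ) else 0) (cnv (hB m) h) := by
  have F : Jor.Frs Q.v m v' := fun i => (Jor.Fr.nonempty (by
    rw [Fintype.card_fin, Fintype.card_fin, Jor.card_Bl, hv i, JT.dv])).some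
  refine Eq.subst (motive := fun D => Bnd _ _ D _) ?_
    (bnd_Str_of_Sl hK₁ hK' hc hK hv (bnd_Sl χ hK' hc F H hb))
  push_cast
  simp only [sq]
  ring

end Vale.Agent.P291Z
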