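import Vale.Agent.P291Z.HigE3c

/-!
# Stratification by Jordan types
-/

set_option linter.all false

namespace Vale.Agent.P291Z

open Set Function Topology Matrix Four

/-- stratification of an invariant subset -/
theorem Bnd.of_strata' {G X ι : Type} [Group G] [TopologicalSpace G] [Sys G] [TopologicalSpace X]
    [MulAction G X] [Nice X] [ContinuousSMul G X] (B : SubMulAction G X) [Nice B] (T : Finset ι)
    (S : ι → SubMulAction G X) [∀ a, Nice (S a)] (hB : ∀ x, x ∈ B ↔ ∃ a ∈ T, x ∈ S a)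
    (hS : ∀ a b x, x ∈ S a → x ∈ S b → a = b) (σ : ι → ℕ)
    (hcl : ∀ a b, ∀ x ∈ closure (S a : Set X), x ∈ S b → a = b ∨ σ a < σ b) {D : ℤ}
    {h : ι → ℤ → ℕ} (H : ∀ a ∈ T, Bnd G (S a) D (h a)) : Bnd G B D (∑ a ∈ T, h a) := by
  let S' : T → SubMulAction G B := fun a =>
    ⟨{x | x.1 ∈ S a}, fun g _ hx => (S a).smul_mem g hx⟩
  let e : ∀ a : T, S' a ≃ₜ S a := fun a =>
    { toFun := fun x => ⟨x.1.1, x.2⟩
      invFun := fun y => ⟨⟨y.1, (hB _).2 ⟨a, a.2, y.2⟩⟩, y.2⟩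
      left_inv := fun _ => rfl
      right_inv := fun _ => rfl
      continuous_toFun := (continuous_subtype_val.comp continuous_subtype_val).subtype_mk _
      continuous_invFun := (continuous_subtype_val.subtype_mk _).subtype_mk _ }
  haveI : ∀ a, Nice (S' a) := fun a => Nice.of_homeomorph (e a)
  rw [← Finset.sum_coe_sort]
  refine Bnd.of_strata S' (fun x => ?_) (fun a => σ a) (fun a x hx => ?_) fun a =>
    (H a a.2).of_homeo' (f := ⟨e a, fun _ _ => rfl⟩) (e a).isHomeomorph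
  · obtain ⟨a, ha, hx⟩ := (hB _).1 x.2
    exact ⟨⟨a, ha⟩, hx, fun b hb => Subtype.ext (hS _ _ _ hb hx)⟩
  · obtain ⟨b, hb, hx'⟩ := (hB _).1 x.2
    rcases hcl a b _ (continuous_subtype_val.closure_preimage_subset _ hx) hx' with rfl | h
    · exact Or.inl hx'
    · exact Or.inr (mem_iUnion₂.2 ⟨⟨b, hb⟩, h, hx'⟩)

variable {I E : Type} {Q : Quiv I E} {Φ : Type} [Fintype Φ] [Fintype I] [Fintype E] [DecidableEq I]

variable (A : Flav Q Φ) {K : ℕ} (hK : ∀ i, Q.v i ≤ K) {D : ℤ} {h : JT I K → ℤ → ℕ}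

theorem bnd_of_Str (B : SubMulAction (GG (Q.nn Φ)) (A.NN × Ad Q Φ)) [Nice B] {K' : Set ℂ}
    (hK' : IsLocallyClosed K') (c : ℂ) (T : Finset (JT I K))
    (hB : ∀ x, x ∈ B ↔ ∃ m ∈ T, x ∈ Str A K' c m)
    (H : ∀ m ∈ T, Bnd (GG (Q.nn Φ)) (Str A K' c m) D (h m)) :
    Bnd (GG (Q.nn Φ)) B D (∑ m ∈ T, h m) :=
  haveI := fun m : JT I K => nice_Str A hK' c m
  Bnd.of_strata' B T _ hB (fun _ _ _ h h' => h.2.unique h'.2) JT.sg (fun _ _ _ h h' =>
    JS.of_closure (continuous_en.comp continuous_snd) (fun _ h => h.2) h h'.2) H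

include hK

theorem bnd_nil_of_Str
    (H : ∀ m : JT I K, m.dv = Q.v → Bnd (GG (Q.nn Φ)) (Str A {0} 0 m) D (h m)) :
    Bnd (GG (Q.nn Φ)) (Cm A {0}) D (∑ m ∈ (JTs Q.v K).filter (fun m => m.dv = Q.v), h m) := by
  refine bnd_of_Str A _ isClosed_singleton.isLocallyClosed 0 _ (fun x => ⟨fun hx => ?_,
    fun ⟨_, _, h⟩ => h.1⟩) fun m hm => H m (Finset.mem_filter.1 hm).2
  obtain ⟨m, hm⟩ := exists_JS hK 0 x.2.en
  exact ⟨m, Finset.mem_filter.2 ⟨mem_JTs.2 hm.dv_le, hm.dv_eq_iff.2 hx.2⟩, hx, hm⟩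

theorem bnd_Zo_of_Str
    (H : ∀ m ∈ JTs Q.v K, m ≠ 0 → Bnd (GG (Q.nn Φ)) (Str A Sp.seg 1 m) D (h m)) :
    Bnd (GG (Q.nn Φ)) (Zo A) D (∑ m ∈ (JTs Q.v K).erase 0, h m) := by
  refine bnd_of_Str A _ Sp.isClosed_seg.isLocallyClosed 1 _ (fun x => ⟨fun hx => ?_,
    fun ⟨_, hm, h⟩ => (mem_Zo A).2 ⟨h.1, not_not.1 (h.2.eq_zero_iff.not.1
      (Finset.ne_of_mem_erase hm))⟩⟩) fun m hm =>
    H m (Finset.mem_of_mem_erase hm) (Finset.ne_of_mem_erase hm)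
  obtain ⟨m, hm⟩ := exists_JS hK 1 x.2.en
  exact ⟨m, Finset.mem_erase.2 ⟨fun e => hm.eq_zero_iff.1 e ((mem_Zo A).1 hx).2,
    mem_JTs.2 hm.dv_le⟩, hx.1, hm⟩

omit hK

/-- gauge dimension zero -/
theorem bnd_zero (A : Flav (Q.wv 0) Φ) : Bnd (GG ((Q.wv 0).nn Φ)) (Cm A ∅) 0
    fun d => Nat.card {p : Φ →₀ ℕ // (p.degree : ℤ) = d} := by
  haveI : Nice (Cm A ∅) := nice_Cm isClosed_empty.isLocallyClosed
  haveI : Subsingleton (A.NN × Ad (Q.wv 0) Φ) := ⟨fun x y => Prod.ext (Prod.ext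
    (funext fun e => Matrix.ext fun a => a.elim0) (funext fun e => Matrix.ext fun _ a => a.elim0))
    (funext fun e => Matrix.ext fun a => a.elim0)⟩
  have h0 : (0 : A.NN × Ad (Q.wv 0) Φ) ∈ Cm A ∅ :=
    ⟨map_zero _, range_subset_iff.2 fun c => c.2.elim0⟩
  let e : Bx ((Q.wv 0).nn Φ) → Φ := fun b => match b with
    | ⟨Sum.inl _, a⟩ => a.elim0
    | ⟨Sum.inr φ, _⟩ => φ
  have he : Injective e := by
    rintro ⟨i | φ, a⟩ ⟨j | ψ, b⟩ h
    exacts [a.elim0, a.elim0, b.elim0, by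
      obtain rfl : φ = ψ := h
      exact congrArg _ (Subsingleton.elim (α := Fin 1) _ _)]
  refine ((bnd_BG _).of_homeo' (f := ⟨fun _ => (), fun _ _ => rfl⟩)
    (isHomeomorph_iff_continuous_bijective.2 ⟨continuous_const,
      fun _ _ _ => Subsingleton.elim _ _, fun _ => ⟨⟨0, h0⟩, rfl⟩⟩)).mono fun d => ?_
  haveI := finite_degree (σ := Φ) d
  exact Nat.card_le_card_of_injective (fun x => ⟨x.1.out.mapDomain e,
    (congrArg _ (Finsupp.degree_mapDomain e _)).trans x.2⟩) fun x y h => Subtype.ext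
    (Quotient.out_injective (Finsupp.mapDomain_injective he (congrArg Subtype.val h)))

end Vale.Agent.P291Z
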