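import Vale.Agent.P291Z.HigE1
import Vale.Agent.P291Z.HigE2
import Vale.Agent.P291Z.HigE3
import Vale.Agent.P291Z.Fou1
import Vale.Agent.P291Z.HE.Inj
import Vale.Agent.P291Z.HE.Num

/-!
# The homology of the commuting pairs without eigenvalue one is `R / J_D`
-/

set_option linter.unusedSectionVars false

namespace Vale.Agent.P291Z

open Set Function Topology Matrix Four Vale.Agent.P291 Module

variable {I E : Type} {Q : Quiv I E} {Φ : Type} [Fintype Φ] [Fintype I] [Fintype E] [DecidableEq I]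

namespace HE

theorem fin_deg (n : ℕ) : {p : Φ →₀ ℕ | p.degree = n}.Finite :=
  (show {p : Φ →₀ ℕ | (p.degree : ℤ) = n}.Finite from finite_degree (σ := Φ) n).subset
    fun _ h => congrArg Nat.cast h

theorem le_sum (i : I) : Q.v i ≤ ∑ j, Q.v j :=
  Finset.single_le_sum (fun _ _ => Nat.zero_le _) (Finset.mem_univ i)

variable (χ : Q.qd.Fl → Φ → ℤ)

theorem bb_hH : Bb ((cq Q χ).hH (scF Φ)) :=
  ⟨0, fun _ hd => H2h.hH_neg _ _ _ _ scF_monomial hd⟩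

/-- the number of basis elements -/
noncomputable abbrev hL (d : ℤ) : ℕ :=
  Nat.card {p : (Φ →₀ ℕ) × (cq Q χ).Idx // (p.1.degree : ℤ) + (cq Q χ).degI p.2 = d}

theorem bnd_seg : Bnd (GG (Q.nn Φ)) (Cm (std Q χ) Sp.seg) Q.dimN (hL χ) := by
  have hb : Bb fun d => Nat.card {p : Φ →₀ ℕ // (p.degree : ℤ) = d} := ⟨0, fun d hd => by
    have : IsEmpty {p : Φ →₀ ℕ // (p.degree : ℤ) = d} := ⟨fun p => by have := p.2; omega⟩
    exact Nat.card_of_isEmpty⟩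
  have h1 := bnd_nil_of_Str (std Q χ) le_sum (D := Q.dimN) (h := fun m d => cnv (hB m)
    (fun d => Nat.card {p : Φ →₀ ℕ // (p.degree : ℤ) = d}) (d - degJ (cq Q χ) m)) fun m hm => by
      have := nice_Str (std Q χ) (isClosed_singleton (x := (0 : ℂ))).isLocallyClosed 0 m
      have h := (bnd_Str χ (K₁ := {0}) isClosed_singleton.isLocallyClosed
        isClosed_empty.isLocallyClosed (notMem_empty 0) (fun t => by simp) m 0
        (fun i => (congrFun hm i).symm) (bnd_zero (std (Q.wv 0) χ)) hb).shift (degJ (cq Q χ) m)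
      rwa [if_pos rfl, show (0 : ℤ) + _ - ∑ i, (((0 : I → ℕ) i : ℕ) : ℤ) ^ 2 - _ + _ + _ + _ = Q.dimN by
        rw [degJ_cq χ hm]; simp] at h
  have h2 := h1.of_bijective (c := 0) (iso_nil_seg (A := std Q χ)).bij fun k β hβ => by
    rw [mul_zero]; exact (iso_nil_seg (A := std Q χ)).deg k β hβ
  rw [add_zero] at h2
  refine h2.mono fun d => le_of_eq ?_
  rw [Finset.sum_apply, sum_cnv (cq Q χ) (funext (nb_cq χ)) le_sum hb]
  exact (card_prod (cq Q χ) Finsupp.degree fin_deg d).symm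

variable (hχ : (cq Q χ).NonzeroLoops)
  (ih : ∀ v' : I → ℕ, ∑ i, v' i < ∑ i, Q.v i → Bnd (GG ((Q.wv v').nn Φ))
    (Cm (std (Q.wv v') χ) (Sp.seg \ {1})) (Q.wv v').dimN ((cq (Q.wv v') χ).hH (scF Φ)))
include hχ ih

theorem bnd_Zo : ∃ g : ℤ → ℕ, Bnd (GG (Q.nn Φ)) (Zo (std Q χ)) Q.dimN g ∧
    ∀ d, hL χ d = (cq Q χ).hH (scF Φ) d + g d := by
  let U : JT I (∑ j, Q.v j) → Finset Q.qd.Col := fun m => N5.ch (cq Q χ) (pm (Q := Q) m)
  refine ⟨_, bnd_Zo_of_Str (std Q χ) le_sum (D := Q.dimN) (h := fun m d => cnv (hB m)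
    (((cq Q χ).rst (U m)ᶜ).hH (scF Φ))
    (d - ((cq Q χ).degK (QD.ind (U m)) + degJ ((cq Q χ).rst (U m)).unf m))) fun m hm h0 => ?_,
    fun d => ?_⟩
  · obtain ⟨h1, h2⟩ := N5.ch_spec (cq Q χ) (pm_mem χ hm)
    replace h1 : ∀ i, N5.nU (cq Q χ) (U m) i = m.dv i := fun i => DFunLike.congr_fun h1 i
    replace h2 : ∀ i, N5.nU (cq Q χ) (U m)ᶜ i = (Q.v - m.dv) i := fun i => DFunLike.congr_fun h2 i
    have hv : ∀ i, Q.v i = m.dv i + (Q.v - m.dv) i := fun i =>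
      (Nat.add_sub_of_le (mem_JTs.1 hm i)).symm
    have hlt : ∑ i, (Q.v - m.dv) i < ∑ i, Q.v i := by
      obtain ⟨i, hi⟩ := Function.ne_iff.1 fun h => h0 (dv_eq_zero h)
      refine Finset.sum_lt_sum (fun i _ => Nat.sub_le _ _) ⟨i, Finset.mem_univ _, ?_⟩
      have := hv i
      have : m.dv i ≠ 0 := hi
      omega
    have := nice_Str (std Q χ) Sp.isClosed_seg.isLocallyClosed 1 m
    have h := (bnd_Str χ (K₁ := Sp.seg) (c := 1) Sp.isClosed_seg.isLocallyClosed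
      (Sp.isClosed_seg.isLocallyClosed.inter isOpen_compl_singleton.isLocallyClosed)
      (fun h => h.2 rfl) (fun t => ⟨fun ht => (em (t = 1)).imp id fun h => ⟨ht, h⟩,
        fun ht => ht.elim (fun h => h ▸ ⟨zero_le_one, le_rfl, rfl⟩) fun h => h.1⟩) m _ hv (ih _ hlt)
      (bb_hH (Q := Q.wv (Q.v - m.dv)) χ)).shift
      ((cq Q χ).degK (QD.ind (U m)) + degJ ((cq Q χ).rst (U m)).unf m)
    rw [if_neg one_ne_zero, add_zero, ← degJ_rst χ h1 h2] at h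
    rwa [funext (hH_rst χ h2)]
  · rw [hL, pbw_erase (cq Q χ) (scF Φ) (cq_lin χ) hχ _ _ scF_monomial fin_deg, Finset.sum_apply,
      sum_JTs χ]
    refine congrArg _ (Finset.sum_congr rfl fun p hp => ?_)
    have hp := (Finset.mem_erase.1 hp).2
    have h1 := (N5.ch_spec (cq Q χ) hp).1
    rw [Finset.HasAntidiagonal.mem_antidiagonal] at hp
    have hp' : ∀ i, p.1 i + p.2 i = Q.v i := fun i => by rw [← nb_cq χ, ← N5.dvec_apply, ← hp]; rfl
    rw [← sum_cnv (K := ∑ j, Q.v j) (v := p.1) ((cq Q χ).rst (N5.ch (cq Q χ) p)).unf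
      (h := ((cq Q χ).rst (N5.ch (cq Q χ) p)ᶜ).hH (scF Φ))
      (funext fun i => (N5.nb_rst (cq Q χ) (N5.ch (cq Q χ) p) i).trans (DFunLike.congr_fun h1 i))
      (fun i => (Nat.le_add_right _ _).trans ((hp' i).le.trans (le_sum i)))
      ⟨0, fun _ hd => H2h.hH_neg _ _ _ _ scF_monomial hd⟩]
    refine Finset.sum_congr rfl fun m hm => ?_
    have hm := (Finset.mem_filter.1 hm).2
    have : pm (Q := Q) m = p := by
      refine Prod.ext ?_ ?_ <;> ext i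
      · exact congrFun hm i
      · have := hp' i
        show Q.v i - m.dv i = _
        rw [hm]
        omega
    subst this
    rw [sub_sub]

theorem step : Bnd (GG (Q.nn Φ)) (Cm (std Q χ) (Sp.seg \ {1})) Q.dimN ((cq Q χ).hH (scF Φ)) ∧
    ∃ o ∈ EH.deg (GG (Q.nn Φ)) (Cm (std Q χ) (Sp.seg \ {1})) (2 * Q.dimN),
      Surjective (fun r : HS (GG (Q.nn Φ)) Unit => r • o) ∧
      ∀ r : HS (GG (Q.nn Φ)) Unit, r • o = 0 ↔ psi Q Φ r ∈ (cq Q χ).JD := by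
  obtain ⟨Ψ, hs, hd, -, hh⟩ := exists_Psi (Q := Q) χ
  obtain ⟨g, hZ, hg⟩ := bnd_Zo χ hχ ih
  have hX := bnd_seg (Q := Q) χ
  have hi := isClosedEmbedding_Zo (std Q χ)
  have hj := isOpenEmbedding_U (std Q χ)
  have hc := range_U (std Q χ)
  have hp := IsPr.of_isClosedEmbedding hi
  have hR : ∀ s ∈ (cq Q χ).R, ∃ r : HS (GG (Q.nn Φ)) Unit, psi Q Φ r = s := fun s hs =>
    (mem_range_psi χ).2 hs
  have hC : ∀ c : LF Φ, ∃ r : HS (GG (Q.nn Φ)) Unit, ∀ f : P291.KK Q.qd.Col (LF Φ),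
      toK (psi Q Φ r) * f = c • f := fun c => by
    obtain ⟨r, hr⟩ := hR _ ((cq Q χ).R.algebraMap_mem c)
    exact ⟨r, fun f => by rw [hr, HN1a.smul_KK]; rfl⟩
  have hL1 : ∀ f ∈ (cq Q χ).LL, ∃ β, Ψ β = f := fun f hf => by
    induction hf using Submodule.span_induction with
    | mem x hx =>
      obtain ⟨g, s, rfl⟩ := hx
      exact (hh g s).imp fun _ h => h.1
    | zero => exact ⟨0, map_zero _⟩
    | add x y _ _ hx hy =>
      obtain ⟨a, rfl⟩ := hx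
      obtain ⟨b, rfl⟩ := hy
      exact ⟨a + b, map_add _ _ _⟩
    | smul c x _ hx =>
      obtain ⟨a, rfl⟩ := hx
      obtain ⟨r, hr⟩ := hC c
      exact ⟨r • a, (hs r a).trans (hr _)⟩
  have hU1 : ∀ f ∈ (cq Q χ).UU, ∃ β, (Ψ ∘ₗ epush (sincl (Zo_le (std Q χ)))) β = f := fun f hf => by
    induction hf using Submodule.span_induction with
    | mem x hx =>
      obtain ⟨g, s, h0, rfl⟩ := hx
      obtain ⟨β, h1, h2⟩ := hh g s
      obtain ⟨γ, rfl⟩ := h2 h0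
      exact ⟨γ, h1⟩
    | zero => exact ⟨0, map_zero _⟩
    | add x y _ _ hx hy =>
      obtain ⟨a, rfl⟩ := hx
      obtain ⟨b, rfl⟩ := hy
      exact ⟨a + b, map_add _ _ _⟩
    | smul c x _ hx =>
      obtain ⟨a, rfl⟩ := hx
      obtain ⟨r, hr⟩ := hC c
      exact ⟨r • a, by rw [LinearMap.comp_apply, epush_smul hp, hs, hr]; rfl⟩
  have e1 := finrank_LL (cq Q χ) (scF Φ) (cq_lin χ) hχ _ _ scF_monomial fin_deg
  have e2 := fun d => haveI := hX.finite_hp hd hL1 d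
    finrank_LL_le (cq Q χ) (scF Φ) (cq_lin χ) hχ _ _ scF_monomial fin_deg d
  obtain ⟨i1, m1⟩ := hX.inj hd hL1 fun d => (e1 d).ge
  have hd' : ∀ d : ℤ, ∀ β ∈ EH.deg _ _ (2 * Q.dimN - 2 * d),
      (scF Φ).Hom d ((Ψ ∘ₗ epush (sincl (Zo_le (std Q χ)))) β) :=
    fun d β hβ => hd d _ (epush_deg hp hβ)
  obtain ⟨i2, m2⟩ := hZ.inj hd' hU1 fun d => by
    have := hg d
    rw [hL] at this
    have := e1 d
    have := e2 d
    omega
  obtain ⟨hsur, hB⟩ := hX.open_part hi hj hc (Injective.of_comp (f := Ψ) i2)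
    (g := fun d => finrank ℂ (HE.hp (scF Φ) (cq Q χ).UU d)) (h' := (cq Q χ).hH (scF Φ))
    (fun d => haveI := hZ.fin (2 * Q.dimN - 2 * d)
      (Submodule.finrank_mono (hZ.le_map hd' hU1 d)).trans (Submodule.finrank_map_le _ _))
    fun d => (e1 d).ge.trans (e2 d)
  obtain ⟨β, hβ, h1⟩ := hX.le_map hd hL1 0 (x := 1)
    ⟨(map_one (algebraMap _ _)).subst (motive := fun x => x ∈ (cq Q χ).LL)
      (toK_mem_LL _ (cq Q χ).R.one_mem), HG1.hom_one _⟩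
  rw [mul_zero, sub_zero] at hβ
  have hk : ∀ x, eres (sincl (Cm_mono (std Q χ) (diff_subset : Sp.seg \ {1} ⊆ Sp.seg))) x = 0 ↔
      Ψ x ∈ (cq Q χ).UU := fun x => by
    refine (exact_epush_eres hi hj hc x).trans ⟨?_, fun h => ?_⟩
    · rintro ⟨y, rfl⟩
      exact m2 y
    · obtain ⟨y, hy⟩ := hU1 _ h
      exact ⟨y, i1 hy⟩
  refine ⟨hB, _, eres_deg hj hβ, fun γ => ?_, fun r => ?_⟩
  · obtain ⟨x, rfl⟩ := hsur γ
    obtain ⟨s, hs1, hs2⟩ := exists_R _ (m1 x)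
    obtain ⟨r, rfl⟩ := hR _ hs1
    refine ⟨r, ?_⟩
    dsimp only
    rw [← eres_smul hj, eq_comm, ← sub_eq_zero, ← map_sub, hk, map_sub, hs, h1, mul_one]
    exact hs2
  · rw [← eres_smul hj, hk, hs, h1, mul_one]
    exact (JD_iff _ hχ ((mem_range_psi χ).1 ⟨r, rfl⟩)).symm

omit ih in
theorem bnd_U (v : I → ℕ) : Bnd (GG ((Q.wv v).nn Φ))
    (Cm (std (Q.wv v) χ) (Sp.seg \ {1})) (Q.wv v).dimN ((cq (Q.wv v) χ).hH (scF Φ)) := by
  induction h : ∑ i, v i using Nat.strong_induction_on generalizing v with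
  | _ n ih => exact (step (Q := Q.wv v) χ hχ fun v' hv => ih _ (h ▸ hv) v' rfl).1

end HE

theorem higgsE (χ : Q.qd.Fl → Φ → ℤ) (hχ : (cq Q χ).NonzeroLoops) :
    ∃ o ∈ EH.deg (GG (Q.nn Φ)) (Cm (std Q χ) (Sp.seg \ {1})) (2 * Q.dimN),
      Surjective (fun r : HS (GG (Q.nn Φ)) Unit => r • o) ∧
      ∀ r : HS (GG (Q.nn Φ)) Unit, r • o = 0 ↔ psi Q Φ r ∈ (cq Q χ).JD :=
  (HE.step χ hχ fun v _ => HE.bnd_U χ hχ v).2

end Vale.Agent.P291Z
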