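import Vale.Agent.P291Z.Psi.C

/-!
# The localization map on the homology of the space of commuting pairs
-/

set_option linter.unusedSectionVars false

namespace Vale.Agent.P291Z

open Set Function Topology Matrix Four Vale.Agent.P291 MvPolynomial

variable {I E : Type} {Q : Quiv I E} {Φ : Type} [Fintype Φ] [Fintype I] [Fintype E] [DecidableEq I]

namespace Psi

variable (Q Φ) in
/-- the embedding of `H_T(pt)` in the field of rational functions -/
noncomputable def io : SP (Q.nn Φ) →ₐ[ℂ] P291.KK Q.qd.Col (LF Φ) where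
  toRingHom := (algebraMap (SS Q.qd.Col (LF Φ)) _).comp (spE Q Φ).toRingHom
  commutes' c := (congrArg toK (spE_C c)).trans
    (IsScalarTower.algebraMap_apply ℂ (SS Q.qd.Col (LF Φ)) _ c).symm

theorem io_apply (s : SP (Q.nn Φ)) : io Q Φ s = toK (spE Q Φ s) := rfl

theorem io_injective : Injective (io Q Φ) :=
  (IsFractionRing.injective (SS Q.qd.Col (LF Φ)) _).comp (spE Q Φ).injective

theorem io_rename (w : Wy (Q.nn Φ)) (s : SP (Q.nn Φ)) :
    act (Q.qd.act (wyG w)) (io Q Φ s) = io Q Φ (rename (Wy.perm w) s) := by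
  rw [io_apply, io_apply, P291.act_toK, spE_rename]

theorem io_hom {s : SP (Q.nn Φ)} {d : ℕ} (h : s.IsHomogeneous d) : (scF Φ).Hom d (io Q Φ s) :=
  spE_hom.2 h

variable (χ : Q.qd.Fl → Φ → ℤ) (g : Q.qd.Col → ℕ)

theorem co_smul (t : Tc (Q.nn Φ)) (x : (std Q χ).NN) (c : QL.Ix Q) :
    QL.co (t • x :) c = chr _ (ixW χ c) t * QL.co x c := by
  have h : (Wts.std χ).b.coord c ∘ₗ (std Q χ).rep (toG _ t) =
      chr _ (ixW χ c) t • (Wts.std χ).b.coord c := (Wts.std χ).b.ext fun c' => by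
    classical
    refine (congrArg ((Wts.std χ).b.coord c) (Wts.std_b χ t c')).trans ?_
    rw [map_smul, LinearMap.smul_apply, Module.Basis.coord_apply, Module.Basis.repr_self,
      Finsupp.single_apply]
    split_ifs with h
    · rw [h]
    · rw [smul_zero, smul_zero]
  exact ((Wts.std χ).repr_eq _ c).symm.trans ((LinearMap.congr_fun h x).trans
    (congrArg (_ * ·) ((Wts.std χ).repr_eq x c)))

/-- the weights that join boxes of the same colour -/
abbrev eqW (c : {c : QL.Ix Q // g (ixP c).2.1 = (ixP c).2.2.elim 0 g}) : Bx (Q.nn Φ) → ℤ :=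
  ixW χ c.1

/-- the weights that join boxes of different colours -/
abbrev neW (c : {c : QL.Ix Q // g (ixP c).2.1 ≠ (ixP c).2.2.elim 0 g}) : Bx (Q.nn Φ) → ℤ :=
  ixW χ c.1

/-- the inclusion of the annihilated part -/
noncomputable def jl : Cr (eqW χ g) →ₗ[ℂ] (std Q χ).NN where
  toFun x := QL.ofCo fun c => if h : _ then x ⟨c, h⟩ else 0
  map_add' x y := QL.co_ext fun c => by
    refine Eq.trans ?_ (QL.co_add _ _ c).symm
    simp only [QL.co_ofCo]
    split_ifs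
    exacts [rfl, (add_zero _).symm]
  map_smul' a x := QL.co_ext fun c => by
    refine Eq.trans ?_ (QL.co_smul a _ c).symm
    simp only [QL.co_ofCo]
    split_ifs
    exacts [rfl, (mul_zero _).symm]

theorem co_jl (x : Cr (eqW χ g)) (c : QL.Ix Q) :
    QL.co (jl χ g x) c = if h : _ then x ⟨c, h⟩ else 0 := by
  cases c <;> rfl

theorem jl_smul (t : Tc (Q.nn Φ)) (x : Cr (eqW χ g)) : jl χ g (t • x) = t • jl χ g x :=
  QL.co_ext fun c => by
    rw [co_smul, co_jl, co_jl]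
    split_ifs
    exacts [rfl, (mul_zero _).symm]

theorem jl_injective : Injective (jl χ g) := fun x y h => funext fun c => by
  have := congrArg (QL.co · c.1) h
  simp only [co_jl, dif_pos c.2] at this
  exact this

/-- the projection to the other coordinates -/
noncomputable def kl : (std Q χ).NN →ₗ[ℂ] Cr (neW χ g) where
  toFun x c := QL.co x c.1
  map_add' x y := funext fun c => QL.co_add x y c.1
  map_smul' a x := funext fun c => QL.co_smul a x c.1

theorem kl_surjective : Surjective (kl χ g) := fun y =>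
  ⟨QL.ofCo fun c => if h : _ then y ⟨c, h⟩ else 0,
    funext fun c => (congrFun (QL.co_ofCo _) c.1).trans (dif_pos c.2)⟩

theorem exact_jl : Function.Exact (jl χ g) (kl χ g) := fun x =>
  ⟨fun h => ⟨fun c => QL.co x c.1, QL.co_ext fun c => by
    refine (co_jl χ g _ c).trans ?_
    split_ifs with hc
    exacts [rfl, (congrFun h ⟨c, hc⟩).symm]⟩, by
    rintro ⟨y, rfl⟩
    exact funext fun c => (co_jl χ g y c.1).trans (dif_neg c.2)⟩

theorem ker_lie_dg : LinearMap.ker (Q.lie (dg Φ (lam g)).en) = LinearMap.range (jl χ g) := by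
  rw [← LinearMap.exact_iff.1 (exact_jl χ g)]
  refine Submodule.ext fun x => ⟨fun h => funext fun c => ?_, fun h => QL.co_ext fun c => ?_⟩
  · have := co_lie_dg (Φ := Φ) (lam g) x c.1
    rw [show Q.lie _ x = 0 from h, QL.co_zero] at this
    exact (mul_eq_zero.1 this.symm).resolve_left fun h => c.2 ((lam_eq_iff g _ _).1 h)
  · rw [co_lie_dg, QL.co_zero]
    by_cases hc : g (ixP c).2.1 = (ixP c).2.2.elim 0 g
    · rw [(lam_eq_iff g _ _).2 hc, zero_mul]
    · exact mul_eq_zero_of_right _ (congrFun h ⟨c, hc⟩)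

/-- the fundamental class of the bundle -/
noncomputable def yB : EH (Tc (Q.nn Φ)) (Bg (std Q χ) g) :=
  ethom (Bg (std Q χ) g) (zero_mem_Bg (std Q χ) g) (fcl (Q.nn Φ) (Cr (upW Φ g)))

/-- its image in the space of commuting pairs -/
noncomputable def yC : EH (Tc (Q.nn Φ)) (Cm (std Q χ) Sp.seg) :=
  epush (kB (std Q χ) g _ (Bg_Cm _ g)) (yB χ g)

theorem exists_yC (hg : g ≠ 0) (s : SP (Q.nn Φ)) :
    ∃ γ, epush (sincl (Zo_le (std Q χ))) γ = trT (s • yC χ g) := by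
  have h5 := IsPr.of_isClosedEmbedding (isClosedEmbedding_Zo (std Q χ))
  have h6 : epush (toT (sincl (Zo_le (std Q χ))))
      (epush (kB (std Q χ) g (Zo (std Q χ)) (Bg_Zo _ g hg)) (yB χ g)) = yC χ g :=
    epush_epush (isPr_kB _ g _ _) h5 (fun _ => rfl) _
  exact ⟨_, (trT_epush h5 _).symm.trans (congrArg trT
    ((epush_smulT (i := toT (sincl (Zo_le (std Q χ)))) h5 s _).trans (congrArg (s • ·) h6)))⟩

theorem isLoc_Bg {K : Type} [Field K] [Algebra ℂ K] {ι : SP (Q.nn Φ) →ₐ[ℂ] K}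
    {Ψ : EH (Tc (Q.nn Φ)) (Cm (std Q χ) Sp.seg) →ₗ[ℂ] K}
    (H : IsLoc (iC _) (pN _) ι Ψ) :
    ι (∏ p, linf _ (upW Φ g p)) * Ψ (yC χ g) = ι (∏ c, linf _ (neW χ g c)) := by
  have h1 : ∀ x, Q.lie (par g (0 : Cr (upW Φ g))).en (jl χ g x) = 0 := fun x => by
    rw [par_zero]
    exact (ker_lie_dg χ g).ge ⟨x, rfl⟩
  have h2 := isSubVB_Bg (std Q χ) g
  rw [ker_lie_dg χ g] at h2
  have h3 : Module.finrank ℂ (LinearMap.range (jl χ g)) = Fintype.card _ :=
    (LinearMap.finrank_range_of_inj (jl_injective χ g)).trans (Module.finrank_fintype_fun_eq_card ℂ)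
  let j : TH (Q.nn Φ) (Cr (eqW χ g)) (Bg (std Q χ) g) := ⟨fun x => ⟨(0, jl χ g x), h1 x⟩,
    fun t x => Subtype.ext (Prod.ext (smul_zero t).symm (jl_smul χ g t x))⟩
  have h4 : ∀ x, od _ (kB _ g _ (Bg_Cm _ g) (j x)) = 0 := fun x => funext fun p =>
    (congrArg (ent · p.1) (par_zero g)).trans (ent_dg _ p.2)
  have hN := (Flav.isRep_NN (std Q χ)).toT
  exact H.thom hN (loc_Cd _) (isRep_Cr _) (isRep_Cr _) (isRep_Cr _) (zero_mem_Bg _ g)
    (h3 ▸ h2) (isPr_kB _ g _ _) (jl χ g) (jl_injective χ g) (kl χ g)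
    (fun t x => funext fun c => co_smul χ t x c.1) (exact_jl χ g) (kl_surjective χ g) (j := j)
    (fun _ => rfl) (q := ⟨fun x => ⟨_, h4 x⟩, fun t x => Subtype.ext
      (map_smul ((kB _ g _ (Bg_Cm _ g)).comp j) t x)⟩)
    (((isPr_kB _ g _ _).cont.comp ((continuous_const.prodMk
      ((isRep_Cr _).continuous_lin hN (jl χ g))).subtype_mk _)).subtype_mk _)
    (fun _ => rfl) (fun _ => rfl) (eu_Cr _) (eu_Cr _)

theorem spE_neW : spE Q Φ (∏ c, linf _ (neW χ g c)) = (cq Q χ).numG g := by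
  rw [map_prod, QD.numG, Finset.prod_filter, prod_ix, ← Finset.prod_filter]
  simp only [spE_ixW]
  exact (Finset.prod_subtype _ (by simp) fun c => (cq Q χ).xi (ixP c)).symm

theorem prod_prs {M : Type} [CommMonoid M] (f : Q.qd.Col × Q.qd.Col → M) :
    ∏ p ∈ (cq Q χ).Prs, f p = ∏ p : Ps Q, f (p.r, p.c) := by
  refine (Finset.prod_nbij (fun p : Ps Q => (p.r, p.c))
    (fun _ _ => Finset.mem_filter.2 ⟨Finset.mem_univ _, rfl⟩) ?_ ?_ fun _ _ => rfl).symm
  · rintro ⟨i, a, b⟩ - ⟨j, c, d⟩ - h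
    obtain ⟨h1, h2⟩ := Prod.mk.inj h
    cases h1
    cases h2
    rfl
  · rintro ⟨⟨i, a⟩, j, b⟩ h
    obtain rfl : i = j := (Finset.mem_filter.1 h).2
    exact ⟨⟨i, a, b⟩, Finset.mem_coe.2 (Finset.mem_univ _), rfl⟩

theorem exists_den : ∃ e c, (cq Q χ).denG g = spE Q Φ (∏ p, linf _ (upW Φ g p)) * e ∧
    spE Q Φ (Del _) = e * c := by
  have h1 : ∏ p : Ps Q with g p.c < g p.r, (X p.r - X p.c : SS Q.qd.Col (LF Φ)) ∣
      spE Q Φ (Del _) := by
    rw [Del, Fintype.prod_sum_type, map_mul, Finset.prod_filter, Fintype.prod_sigma, map_prod]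
    refine (Finset.prod_dvd_prod_of_dvd _ _ fun i _ => ?_).mul_right _
    rw [← Finset.prod_filter]
    refine (prod_dvd_del (fun a => (X ⟨i, a⟩ : SS Q.qd.Col (LF Φ))) fun a => g ⟨i, a⟩).trans
      (dvd_of_eq ?_)
    simp only [map_prod, map_sub]
    exact Finset.prod_congr rfl fun a _ => Finset.prod_congr rfl fun b _ => by
      rw [← spE_inl, ← spE_inl]
  obtain ⟨c, hc⟩ := h1
  refine ⟨_, c, ?_, hc⟩
  rw [map_prod]
  simp only [spE_rootW]
  rw [← Finset.prod_subtype (Finset.univ.filter fun p : Ps Q => g p.r < g p.c) (by simp)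
    fun p => (X p.r - X p.c : SS Q.qd.Col (LF Φ)), QD.denG, Finset.prod_filter, prod_prs,
    Finset.prod_filter, Finset.prod_filter, ← Finset.prod_mul_distrib]
  refine Finset.prod_congr rfl fun p _ => ?_
  rcases lt_trichotomy (g p.r) (g p.c) with h | h | h
  · rw [if_pos h.ne, if_pos h, if_neg h.asymm, mul_one]
  · rw [if_neg (not_not.2 h), if_neg h.not_lt, if_neg h.not_gt, mul_one]
  · rw [if_pos h.ne', if_neg h.asymm, if_pos h, one_mul]

theorem denG_ne_zero : (cq Q χ).denG g ≠ 0 :=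
  Finset.prod_ne_zero_iff.2 fun p hp => P291.X_sub_X_ne_zero fun h =>
    (Finset.mem_filter.1 hp).2 (by rw [h])

theorem sum_wy (F : P291.KK Q.qd.Col (LF Φ)) :
    ∑ w : Wy (Q.nn Φ), act (Q.qd.act (wyG w)) F = ∑ σ ∈ (cq Q χ).Wf, act σ F :=
  Finset.sum_nbij (fun w => Q.qd.act (wyG w))
    (fun _ _ => (P291.mem_Wf _).2 (Hik.act_mem _ _ _))
    (fun _ _ _ _ h => wyG_bijective.1 (Equiv.Perm.sigmaCongrRightHom_injective h))
    (fun σ h => by
      obtain ⟨σ, rfl⟩ := Hik.exists_act _ _ ((P291.mem_Wf _).1 h)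
      obtain ⟨w, rfl⟩ := (wyG_bijective (Φ := Φ)).2 σ
      exact ⟨w, Finset.mem_coe.2 (Finset.mem_univ _), rfl⟩) fun _ _ => rfl

theorem div_aux {K : Type} [Field K] {u e c s N y : K} (h : u * y = N) (h0 : u * e ≠ 0) :
    s * c * y = e * c * (s * (N / (u * e))) := by
  have := left_ne_zero_of_mul h0
  have := right_ne_zero_of_mul h0
  rw [← h]
  field_simp

variable {χ} {Ψ : EH (Tc (Q.nn Φ)) (Cm (std Q χ) Sp.seg) →ₗ[ℂ] P291.KK Q.qd.Col (LF Φ)}
  (H : IsLoc (iC _) (pN _) (io Q Φ) Ψ)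
include H

theorem psi_trT {z : EH (Tc (Q.nn Φ)) (Cm (std Q χ) Sp.seg)} {F : P291.KK Q.qd.Col (LF Φ)}
    (h : Ψ z = io Q Φ (Del _) * F) : Ψ (resT (trT z)) = ∑ σ ∈ (cq Q χ).Wf, act σ F := by
  refine mul_left_cancel₀ ((map_ne_zero_iff _ io_injective).2 (TS.Del_ne_zero (n := Q.nn Φ))) ?_
  rw [← H.smul, resT_trT, map_sum, ← sum_wy, Finset.mul_sum]
  refine Finset.sum_congr rfl fun w _ => (isLoc_wact _ H io_injective w
    (act (Q.qd.act (wyG w))).toRingHom (io_rename w) z).trans ?_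
  change _ • act (Q.qd.act (wyG w)) _ = _
  rw [h, map_mul, io_rename, TS.rename_Del, map_smul, smul_mul_assoc, smul_smul,
    TS.sgn_mul_self, one_smul]

theorem exists_hall (s : SS Q.qd.Col (LF Φ)) :
    ∃ s' : SP (Q.nn Φ), Ψ (resT (trT (s' • yC χ g))) = (cq Q χ).hall g s := by
  obtain ⟨e, c, h1, h2⟩ := exists_den χ g
  have h3 := isLoc_Bg χ g H
  have h4 := P291.toK_ne_zero (denG_ne_zero χ g)
  refine ⟨(spE Q Φ).symm (s * c), psi_trT H ((H.smul _ _).trans ?_)⟩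
  rw [io_apply, io_apply, spE_neW] at h3
  rw [h1, toK, map_mul] at h4
  rw [io_apply, io_apply, RingEquiv.apply_symm_apply, h2, QD.kap, h1]
  simp only [toK, map_mul]
  exact div_aux h3 h4

end Psi

open Psi

theorem exists_Psi (χ : Q.qd.Fl → Φ → ℤ) :
    ∃ Ψ : EH (GG (Q.nn Φ)) (Cm (std Q χ) Sp.seg) →ₗ[ℂ] P291.KK Q.qd.Col (LF Φ),
      (∀ (r : HS (GG (Q.nn Φ)) Unit) β, Ψ (r • β) = toK (psi Q Φ r) * Ψ β) ∧
      (∀ d : ℤ, ∀ β ∈ EH.deg _ _ (2 * Q.dimN - 2 * d), (scF Φ).Hom d (Ψ β)) ∧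
      (∀ k, Odd k → ∀ β ∈ EH.deg _ _ k, Ψ β = 0) ∧
      ∀ g s, ∃ β, Ψ β = (cq Q χ).hall g s ∧
        (g ≠ 0 → ∃ γ, epush (sincl (Zo_le (std Q χ))) γ = β) := by
  have hN := (Flav.isRep_NN (std Q χ)).toT
  have L := loc_Cd (std Q χ)
  obtain ⟨Ψ, H⟩ := exists_isLoc hN L (io_injective (Q := Q) (Φ := Φ))
  have hd := fun k z => H.deg hN L io_injective (prod_linf_hom _) (k := k) (z := z)
  refine ⟨Ψ ∘ₗ resT, fun r β => ?_, fun d β hβ => ?_, fun k hk β hβ => ?_, fun g s => ?_⟩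
  · rw [LinearMap.comp_apply, resT_smul, H.smul]
    rfl
  · rw [LinearMap.comp_apply]
    obtain h | ⟨f, e, h1, h2, h3⟩ := hd _ _ (resT_deg hβ)
    · rw [h]
      exact ((scF Φ).homK _ d).zero_mem
    have h4 := io_hom h2
    have h5 := io_hom (prod_linf_hom (odW Q Φ))
    have h6 : (0 : ℤ) ≤ Q.dimN := by
      rw [Quiv.dimN]
      positivity
    rw [Scal.Hom, ← h3, map_mul, h5, show (e : ℤ) = Fintype.card {p : Ps Q // p.2.1 ≠ p.2.2} + d by omega,
     
      zpow_add₀ two_ne_zero, mul_assoc, mul_assoc, mul_left_comm (2 ^ d)] at h4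
    exact mul_left_cancel₀ ((map_ne_zero_iff _ io_injective).2 L.ne)
      (mul_left_cancel₀ (zpow_ne_zero _ two_ne_zero) h4)
  · obtain h | ⟨f, e, h1, -⟩ := hd _ _ (resT_deg hβ)
    · exact h
    · obtain ⟨m, rfl⟩ := hk
      omega
  · obtain ⟨s', h⟩ := exists_hall g H s
    exact ⟨_, h, fun hg => exists_yC χ g hg s'⟩

end Vale.Agent.P291Z
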