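import Vale.Agent.P291.HCore
import Vale.Agent.P291.RCore

/-!
# Orbits of index data and Jordan types: the combinatorial core
-/

set_option linter.unusedSectionVars false

namespace Vale.Agent.P291Z.Cmb

open Function Vale.Agent.P291

theorem exists_inj {X B I : Type} [Fintype X] [Fintype B] [DecidableEq I] (f : X → I) (g : B → I)
    (h : ∀ i, Fintype.card {x // f x = i} ≤ Fintype.card {b // g b = i}) :
    ∃ φ : X → B, Injective φ ∧ ∀ x, g (φ x) = f x := by
  have ψ : ∀ i, {x // f x = i} ↪ {b // g b = i} := fun i =>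
    (Function.Embedding.nonempty_of_card_le (h i)).some
  refine ⟨fun x => (ψ (f x) ⟨x, rfl⟩).1, fun x y hxy => ?_, fun x => (ψ (f x) ⟨x, rfl⟩).2⟩
  have key : ∀ i j (a : {x // f x = i}) (b : {x // f x = j}), (ψ i a).1 = (ψ j b).1 →
      a.1 = b.1 := by
    intro i j a b hab
    have hij : i = j := by rw [← (ψ i a).2, hab, (ψ j b).2]
    subst hij
    exact congrArg Subtype.val ((ψ i).injective (Subtype.ext hab))
  exact key _ _ ⟨x, rfl⟩ ⟨y, rfl⟩ hxy

theorem exists_perm {X B I : Type} [Finite X] (f : X → I) (g : B → I) {φ φ' : X → B}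
    (hφ : Injective φ) (hφ' : Injective φ') (h : ∀ x, g (φ x) = f x) (h' : ∀ x, g (φ' x) = f x) :
    ∃ σ : Equiv.Perm B, (∀ b, g (σ b) = g b) ∧ ∀ x, σ (φ x) = φ' x := by
  have key : ∀ i, ∃ τ : Equiv.Perm {b // g b = i}, ∀ x : {x // f x = i},
      τ ⟨φ x.1, (h x.1).trans x.2⟩ = ⟨φ' x.1, (h' x.1).trans x.2⟩ := fun i =>
    Equiv.Perm.exists_extending_pair
      (f := fun x : {x // f x = i} => (⟨φ x.1, (h x.1).trans x.2⟩ : {b // g b = i}))
      (g := fun x : {x // f x = i} => (⟨φ' x.1, (h' x.1).trans x.2⟩ : {b // g b = i}))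
      (fun x y hxy => Subtype.ext (hφ (congrArg Subtype.val hxy)))
      (fun x y hxy => Subtype.ext (hφ' (congrArg Subtype.val hxy)))
  choose τ hτ using key
  refine ⟨Equiv.ofFiberEquiv τ, fun b => Equiv.ofFiberEquiv_map τ b, fun x => ?_⟩
  have := congrArg Subtype.val (hτ (g (φ x)) ⟨x, (h x).symm⟩)
  exact this

variable {I E B Λ : Type} [Fintype I] [DecidableEq I] [Fintype E] [Fintype B] [DecidableEq B]
  [CommRing Λ] [IsDomain Λ] {K : ℕ}

/-- the blocks of a Jordan type -/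
abbrev Bk (m : I × Fin K → ℕ) : Type := Σ p, Fin (m p)

/-- dimension vector -/
def dv (m : I × Fin K → ℕ) (i : I) : ℕ := ∑ k, m (i, k) * (k.1 + 1)

/-- intertwiners -/
def hom (m : I × Fin K → ℕ) (i j : I) : ℕ :=
  ∑ k, ∑ l, m (i, k) * m (j, l) * min (k.1 + 1) (l.1 + 1)

variable (Q : QD I E B Λ)

/-- degree of a Jordan type -/
def dJ (m : I × Fin K → ℕ) : ℤ :=
  ∑ a, (Q.tgt a).elim ((dv m (Q.src a) : ℤ) - ∑ k, (m (Q.src a, k) : ℤ))
      (fun j => (dv m j : ℤ) * dv m (Q.src a) - hom m j (Q.src a)) -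
    (∑ i, (dv m i : ℤ) ^ 2 - (∑ i, hom m i i : ℕ))

/-- `φ` lists the boxes with `lam ≤ 0` according to the type `m` -/
structure Adp (lam : B → ℤ) (m : I × Fin K → ℕ) (φ : Bk m → B) : Prop where
  inj : Injective φ
  vx : ∀ x, Q.vx (φ x) = x.1.1
  lv : ∀ x, lam (φ x) = -((x.1.2 : ℕ) : ℤ)
  off : ∀ b, b ∉ Set.range φ → lam b = 1

variable {Q} {lam lam' : B → ℤ} {m m' : I × Fin K → ℕ} {φ φ' : Bk m → B}

theorem sum_Bk (m : I × Fin K → ℕ) (i : I) (g : Fin K → ℤ) :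
    ∑ x : Bk m, (if x.1.1 = i then g x.1.2 else 0) = ∑ k, (m (i, k) : ℤ) * g k := by
  rw [Fintype.sum_sigma, Fintype.sum_prod_type, Finset.sum_eq_single i]
  · simp
  · intro j _ hj
    simp [hj]
  · simp

theorem Adp.sum (h : Adp Q lam m φ) (i : I) (g : ℤ → ℤ) (hg : g 1 = 0) :
    ∑ b, (if Q.vx b = i then g (lam b) else 0) = ∑ k, (m (i, k) : ℤ) * g (-((k : ℕ) : ℤ)) := by
  rw [← sum_Bk m i fun k => g (-((k : ℕ) : ℤ))]
  symm
  refine Fintype.sum_of_injective φ h.inj _ _ (fun b hb => ?_) fun x => ?_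
  · rw [h.off b hb, hg, ite_self]
  · rw [h.vx, h.lv]

theorem Adp.le (h : Adp Q lam m φ) (b : B) : lam b ≤ 1 := by
  by_cases hb : b ∈ Set.range φ
  · obtain ⟨x, rfl⟩ := hb
    rw [h.lv]
    omega
  · exact (h.off b hb).le

theorem db_eq (Q : QD I E B Λ) (i : I) :
    (Q.db Finset.univ i : ℤ) = ∑ b, if Q.vx b = i then 1 else 0 := by
  simp [QD.db]

theorem Adp.chg (h : Adp Q lam m φ) (i : I) :
    Q.chg i lam = (Q.db Finset.univ i : ℤ) - dv m i := by
  have e1 := h.sum i (fun z => 1 - z) (by simp)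
  have e2 : (dv m i : ℤ) = ∑ k, (m (i, k) : ℤ) * (1 - -((k : ℕ) : ℤ)) := by
    rw [dv]
    push_cast
    exact Finset.sum_congr rfl fun k _ => by ring
  rw [e2, ← e1, db_eq, QD.chg, Finset.sum_filter, ← Finset.sum_sub_distrib]
  refine Finset.sum_congr rfl fun b _ => ?_
  split_ifs <;> ring

theorem Adp.pairs (h : Adp Q lam m φ) (hv : Q.db Finset.univ = dv m) (i j : I) :
    ∑ r, ∑ o, (if Q.vx r = i ∧ Q.vx o = j then (((lam r - lam o).toNat : ℕ) : ℤ) else 0) =
      (dv m j : ℤ) * dv m i - hom m j i := by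
  have e1 : ∑ o, (if Q.vx o = j then 1 - lam o else 0) = (dv m j : ℤ) := by
    rw [h.sum j (fun z => 1 - z) (by simp), dv]
    push_cast
    exact Finset.sum_congr rfl fun k _ => by ring
  have e2 : ∑ r, (if Q.vx r = i then (1 : ℤ) else 0) = (dv m i : ℤ) := by
    rw [← db_eq, hv]
  have e3 : ∀ z : ℤ, z ≤ 1 → ∑ r, (if Q.vx r = i then min (1 - z) (1 - lam r) else 0) =
      ∑ l, (m (i, l) : ℤ) * min (1 - z) (1 - -((l : ℕ) : ℤ)) := fun z hz =>
    h.sum i (fun y => min (1 - z) (1 - y)) (by simp only [sub_self]; omega)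
  have e4 : ∑ o, (if Q.vx o = j then
      ∑ l, (m (i, l) : ℤ) * min (1 - lam o) (1 - -((l : ℕ) : ℤ)) else 0) = (hom m j i : ℤ) := by
    rw [h.sum j (fun z => ∑ l, (m (i, l) : ℤ) * min (1 - z) (1 - -((l : ℕ) : ℤ))) ?_, hom]
    · push_cast
      refine Finset.sum_congr rfl fun k _ => ?_
      rw [Finset.mul_sum]
      refine Finset.sum_congr rfl fun l _ => ?_
      rw [show (1 : ℤ) - -((k : ℕ) : ℤ) = (k : ℕ) + 1 by ring,
        show (1 : ℤ) - -((l : ℕ) : ℤ) = (l : ℕ) + 1 by ring]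
      ring
    · refine Finset.sum_eq_zero fun l _ => ?_
      rw [sub_self, min_eq_left (by omega), mul_zero]
  rw [← e4, ← e1, ← e2, Finset.sum_comm, Finset.sum_mul, ← Finset.sum_sub_distrib]
  refine Finset.sum_congr rfl fun o _ => ?_
  by_cases ho : Q.vx o = j
  · simp only [ho, and_true, if_true]
    rw [← e3 _ (h.le o), Finset.mul_sum, ← Finset.sum_sub_distrib]
    refine Finset.sum_congr rfl fun r _ => ?_
    split_ifs
    · omega
    · simp
  · simp [ho]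

theorem Adp.frm (h : Adp Q lam m φ) (hv : Q.db Finset.univ = dv m) (i : I) :
    ∑ r, (if Q.vx r = i then (((lam r).toNat : ℕ) : ℤ) else 0) =
      (dv m i : ℤ) - ∑ k, (m (i, k) : ℤ) := by
  have e2 : ∑ r, (if Q.vx r = i then (1 : ℤ) else 0) = (dv m i : ℤ) := by
    rw [← db_eq, hv]
  have e3 : ∑ r, (if Q.vx r = i then min 1 (1 - lam r) else 0) = ∑ k, (m (i, k) : ℤ) := by
    rw [h.sum i (fun y => min 1 (1 - y)) (by simp)]
    refine Finset.sum_congr rfl fun k _ => ?_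
    rw [min_eq_left (by omega), mul_one]
  rw [← e2, ← e3, ← Finset.sum_sub_distrib]
  refine Finset.sum_congr rfl fun r _ => ?_
  have := h.le r
  split_ifs
  · omega
  · simp

theorem Adp.degE (h : Adp Q lam m φ) (hv : Q.db Finset.univ = dv m) : Q.degE lam = dJ Q m := by
  rw [QD.degE, dJ]
  refine congrArg₂ (· - ·) ?_ ?_
  · rw [QD.Wt, Finset.sum_filter, Fintype.sum_prod_type]
    refine Finset.sum_congr rfl fun a _ => ?_
    rw [Fintype.sum_prod_type]
    rcases ha : Q.tgt a with _ | j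
    · rw [Option.elim_none, ← h.frm hv]
      refine Finset.sum_congr rfl fun r _ => ?_
      rw [Fintype.sum_option]
      simp [QD.vo, ext, ha]
    · rw [Option.elim_some, ← h.pairs hv]
      refine Finset.sum_congr rfl fun r _ => ?_
      rw [Fintype.sum_option]
      simp [QD.vo, ext, ha]
  · rw [QD.Prs, Finset.sum_filter, Fintype.sum_prod_type, Nat.cast_sum, ← Finset.sum_sub_distrib]
    have e : ∀ i, (dv m i : ℤ) ^ 2 - hom m i i = ∑ r, ∑ o,
        (if Q.vx r = i ∧ Q.vx o = i then (((lam r - lam o).toNat : ℕ) : ℤ) else 0) := fun i => by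
      rw [h.pairs hv, sq]
    rw [Finset.sum_congr rfl fun i _ => e i, Finset.sum_comm (s := (Finset.univ : Finset I))]
    refine Finset.sum_congr rfl fun r _ => ?_
    rw [Finset.sum_eq_single (Q.vx r)]
    · refine Finset.sum_congr rfl fun o _ => ?_
      simp only [true_and, eq_comm]
    · intro i _ hi
      simp [hi.symm]
    · simp

theorem Adp.act (h : Adp Q lam m φ) {σ : Equiv.Perm B} (hσ : σ ∈ Q.W) :
    Adp Q (lact σ lam) m (σ ∘ φ) where
  inj := σ.injective.comp h.inj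
  vx x := (hσ _).trans (h.vx x)
  lv x := by simp [lact, h.lv]
  off b hb := h.off _ fun ⟨x, hx⟩ => hb ⟨x, by simp [hx]⟩

theorem Adp.perm (h : Adp Q lam m φ) (w : ∀ p, Equiv.Perm (Fin (m p))) :
    Adp Q lam m (φ ∘ Equiv.sigmaCongrRight w) where
  inj := h.inj.comp (Equiv.sigmaCongrRight w).injective
  vx x := h.vx _
  lv x := h.lv _
  off b hb := h.off _ fun ⟨x, hx⟩ => hb ⟨(Equiv.sigmaCongrRight w).symm x, by simp [hx]⟩

theorem Adp.eq_type {ψ : Bk m' → B} (h : Adp Q lam m φ) (h' : Adp Q lam m' ψ) : m = m' := by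
  funext ⟨i, k⟩
  have e := h.sum i (fun z => if z = -((k : ℕ) : ℤ) then 1 else 0) (if_neg (by omega))
  have e' := h'.sum i (fun z => if z = -((k : ℕ) : ℤ) then 1 else 0) (if_neg (by omega))
  rw [e] at e'
  simpa [Fin.val_inj] using e'

theorem Adp.exists_w (h : Adp Q lam m φ) (h' : Adp Q lam m φ') :
    ∃ w : ∀ p, Equiv.Perm (Fin (m p)), φ = φ' ∘ Equiv.sigmaCongrRight w := by
  have key : ∀ p (t : Fin (m p)), ∃ t' : Fin (m p), φ' ⟨p, t'⟩ = φ ⟨p, t⟩ := by
    intro p t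
    have hb : φ ⟨p, t⟩ ∈ Set.range φ' := by
      by_contra hb
      have e1 := h'.off _ hb
      rw [h.lv] at e1
      omega
    obtain ⟨⟨q, t'⟩, hy⟩ := hb
    have e1 : q.1 = p.1 := (h'.vx ⟨q, t'⟩).symm.trans (hy ▸ h.vx ⟨p, t⟩)
    have e2 : -((q.2 : ℕ) : ℤ) = -((p.2 : ℕ) : ℤ) :=
      (h'.lv ⟨q, t'⟩).symm.trans (hy ▸ h.lv ⟨p, t⟩)
    have e3 : q = p := Prod.ext e1 (Fin.ext (by omega))
    subst e3
    exact ⟨t', hy⟩
  choose u hu using key
  have hinj : ∀ p, Injective (u p) := fun p s t hst => by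
    have e : φ ⟨p, s⟩ = φ ⟨p, t⟩ := by rw [← hu, ← hu, hst]
    exact eq_of_heq (Sigma.mk.inj (h.inj e)).2
  refine ⟨fun p => Equiv.ofBijective (u p) (Finite.injective_iff_bijective.1 (hinj p)), ?_⟩
  funext ⟨p, t⟩
  exact (hu p t).symm

theorem Adp.exists_σ (h : Adp Q lam m φ) (h' : Adp Q lam' m φ') :
    ∃ σ ∈ Q.W, lam' = lact σ lam ∧ σ ∘ φ = φ' := by
  obtain ⟨σ, h1, h2⟩ := exists_perm (fun x : Bk m => x.1.1) Q.vx h.inj h'.inj h.vx h'.vx
  have e : σ ∘ φ = φ' := funext h2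
  refine ⟨σ, h1, funext fun b => ?_, e⟩
  have h3 := h.act (σ := σ) h1
  rw [e] at h3
  by_cases hb : b ∈ Set.range φ'
  · obtain ⟨x, rfl⟩ := hb
    rw [h'.lv, h3.lv]
  · rw [h'.off b hb, h3.off b hb]

theorem exists_adp (hK : ∀ i, Q.db Finset.univ i ≤ K) (h : Q.Om lam) :
    ∃ (m : I × Fin K → ℕ) (φ : Bk m → B), Adp Q lam m φ := by
  classical
  let S : I × Fin K → Type := fun p => {b // Q.vx b = p.1 ∧ lam b = -((p.2 : ℕ) : ℤ)}
  refine ⟨fun p => Fintype.card (S p), fun x => ((Fintype.equivFin (S x.1)).symm x.2).1,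
    ?_, fun x => ((Fintype.equivFin (S x.1)).symm x.2).2.1,
    fun x => ((Fintype.equivFin (S x.1)).symm x.2).2.2, fun b hb => ?_⟩
  · rintro ⟨p, s⟩ ⟨q, t⟩ hxy
    have a1 := ((Fintype.equivFin (S p)).symm s).2
    have a2 := ((Fintype.equivFin (S q)).symm t).2
    simp only at hxy
    rw [hxy] at a1
    have e : p = q := Prod.ext (a1.1.symm.trans a2.1) (Fin.ext (by
      have := a1.2.symm.trans a2.2
      omega))
    subst e
    rw [(Fintype.equivFin (S p)).symm.injective (Subtype.ext hxy)]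
  · by_contra hb1
    have h0 : lam b ≤ 0 := by have := h.1 b; omega
    have h1 : 1 - lam b ≤ Q.db Finset.univ (Q.vx b) := by
      have e1 : (Q.db Finset.univ (Q.vx b) : ℤ) =
          ∑ c ∈ Finset.univ.filter (fun c => Q.vx c = Q.vx b), (1 - lam c) := by
        rw [Finset.sum_sub_distrib, show ∑ c ∈ Finset.univ.filter (fun c => Q.vx c = Q.vx b),
          lam c = 0 from h.2 _]
        simp [QD.db]
      rw [e1]
      exact Finset.single_le_sum (f := fun c => 1 - lam c) (fun c _ => by have := h.1 c; omega)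
        (by simp)
    have h2 := hK (Q.vx b)
    let p : I × Fin K := (Q.vx b, ⟨(-lam b).toNat, by omega⟩)
    let y : S p := ⟨b, rfl, by simp only [p]; omega⟩
    exact hb ⟨⟨p, Fintype.equivFin (S p) y⟩, by simp [y]⟩

theorem exists_lam (hv : Q.db Finset.univ = dv m) :
    ∃ (lam : B → ℤ) (φ : Bk m → B), Adp Q lam m φ := by
  classical
  obtain ⟨φ, h1, h2⟩ := exists_inj (fun x : Bk m => x.1.1) Q.vx fun i => by
    have e1 : ((Fintype.card {x : Bk m // x.1.1 = i} : ℕ) : ℤ) = ∑ k, (m (i, k) : ℤ) * 1 := by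
      rw [← sum_Bk m i fun _ => 1, Fintype.card_subtype]
      simp
    have e2 : Fintype.card {b // Q.vx b = i} = dv m i := by
      rw [Fintype.card_subtype, ← hv]
      rfl
    have e3 : ∑ k, (m (i, k) : ℤ) * 1 ≤ dv m i := by
      rw [dv]
      push_cast
      exact Finset.sum_le_sum fun k _ => mul_le_mul_of_nonneg_left (by omega) (by omega)
    omega
  exact ⟨extend φ (fun x => -((x.1.2 : ℕ) : ℤ)) fun _ => 1, φ, h1, h2,
    fun x => h1.extend_apply _ _ x, fun b hb => extend_apply' _ _ b hb⟩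

theorem Adp.om (h : Adp Q lam m φ) (hv : Q.db Finset.univ = dv m) : Q.Om lam :=
  ⟨h.le, fun i => by rw [h.chg, hv, sub_self]⟩

theorem Adp.dv_eq (h : Adp Q lam m φ) (ho : Q.Om lam) : Q.db Finset.univ = dv m := by
  funext i
  have e := h.chg i
  rw [ho.2 i] at e
  omega

/-- the index datum attached to a monomial in the blocks -/
noncomputable def Adp.idx (h : Adp Q lam m φ) (hv : Q.db Finset.univ = dv m) (a : Bk m →₀ ℕ) :
    Q.Idx0 :=
  ⟨(lam, a.mapDomain φ), h.om hv, fun b hb => Finsupp.mapDomain_of_notMem_range _ _ fun ⟨x, hx⟩ => by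
    have e := h.lv x
    rw [hx] at e
    simp only at hb
    omega⟩

theorem sum_mapDomain {X Y : Type} (f : X → Y) (a : X →₀ ℕ) :
    ((a.mapDomain f).sum fun _ n => n) = a.degree := by
  rw [Finsupp.sum_mapDomain_index (fun _ => rfl) (fun _ _ _ => rfl)]
  rfl

theorem deg0_congr (hK : ∀ i, Q.db Finset.univ i ≤ K) {x y : Q.Idx0} (h : Q.idxSetoid x y) :
    Q.deg0 x = Q.deg0 y := by
  obtain ⟨σ, hσ, h1, h2⟩ := h
  obtain ⟨m, φ, hφ⟩ := exists_adp hK x.2.1
  have hv := hφ.dv_eq x.2.1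
  rw [QD.deg0, QD.deg0, h1, h2, hφ.degE hv, (hφ.act hσ).degE hv, sum_mapDomain]
  rfl

theorem degI_mk (hK : ∀ i, Q.db Finset.univ i ≤ K) (x : Q.Idx0) :
    Q.degI (Quotient.mk Q.idxSetoid x) = Q.deg0 x :=
  deg0_congr hK (Quotient.mk_out (s := Q.idxSetoid) x)

theorem Adp.deg0 (h : Adp Q lam m φ) (hv : Q.db Finset.univ = dv m) (a : Bk m →₀ ℕ) :
    Q.deg0 (h.idx hv a) = dJ Q m + a.degree := by
  rw [QD.deg0, Adp.idx, h.degE hv, sum_mapDomain]

theorem finite_deg {X : Type} [Finite X] (r : Setoid (X →₀ ℕ)) (d : ℤ) :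
    Finite {y : Quotient r // (((Quotient.out y).degree : ℕ) : ℤ) = d} := by
  have hf : Finite {a : X →₀ ℕ // a.degree ≤ d.toNat} := Finsupp.finite_of_degree_le d.toNat
  refine Finite.of_injective (β := {a : X →₀ ℕ // a.degree ≤ d.toNat})
    (fun y => ⟨Quotient.out y.1, by have := y.2; omega⟩) fun y z hyz => ?_
  exact Subtype.ext (Quotient.out_injective (congrArg Subtype.val hyz))

theorem mul_eq (Q : QD I E B Λ) (hK : ∀ i, Q.db Finset.univ i ≤ K)
    (S : Finset (I × Fin K → ℕ)) (hS : ∀ m, m ∈ S ↔ Q.db Finset.univ = dv m)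
    (r : ∀ m : I × Fin K → ℕ, Setoid (Bk m →₀ ℕ))
    (hr : ∀ m a b, r m a b ↔ ∃ w : ∀ p, Equiv.Perm (Fin (m p)),
      b = a.mapDomain (Equiv.sigmaCongrRight w)) (e : ℤ) :
    Q.mul e = ∑ m ∈ S, Nat.card
      {y : Quotient (r m) // (((Quotient.out y).degree : ℕ) : ℤ) = e - dJ Q m} := by
  have hex : ∀ m : S, ∃ (lam : B → ℤ) (φ : Bk m.1 → B), Adp Q lam m.1 φ := fun m =>
    exists_lam ((hS _).1 m.2)
  choose L F hF using hex
  have := fun m : S => finite_deg (r m.1) (e - dJ Q m.1)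
  rw [← Finset.sum_coe_sort S, ← Nat.card_sigma, QD.mul]
  symm
  refine Nat.card_eq_of_bijective (fun t => ⟨Quotient.mk Q.idxSetoid
    ((hF t.1).idx ((hS _).1 t.1.2) (Quotient.out t.2.1)), ?_⟩) ⟨?_, ?_⟩
  · rw [degI_mk hK, Adp.deg0, t.2.2]
    ring
  · rintro ⟨m, y, hy⟩ ⟨m', y', hy'⟩ hxy
    obtain ⟨σ, hσ, h1, h2⟩ := Quotient.exact (congrArg Subtype.val hxy)
    have h3 : Adp Q (L m') m.1 (σ ∘ F m) := by
      have := (hF m).act hσ
      rwa [← show L m' = lact σ (L m) from h1] at this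
    have e1 : m = m' := Subtype.ext (h3.eq_type (hF m'))
    subst e1
    obtain ⟨w, hw⟩ := h3.exists_w (hF m)
    have h4 : (Quotient.out y').mapDomain (F m) =
        ((Quotient.out y).mapDomain (Equiv.sigmaCongrRight w)).mapDomain (F m) := by
      rw [← Finsupp.mapDomain_comp, ← hw, Finsupp.mapDomain_comp]
      exact h2
    have h5 : r m.1 (Quotient.out y) (Quotient.out y') :=
      (hr _ _ _).2 ⟨w, Finsupp.mapDomain_injective (hF m).inj h4⟩
    have e2 : y = y' := by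
      rw [← Quotient.out_eq y, ← Quotient.out_eq y']
      exact Quotient.sound h5
    subst e2
    rfl
  · rintro ⟨x, hx⟩
    obtain ⟨x, rfl⟩ := Quotient.exists_rep x
    obtain ⟨m, φ, hφ⟩ := exists_adp hK x.2.1
    have hv := hφ.dv_eq x.2.1
    let a : Bk m →₀ ℕ := x.1.2.comapDomain φ hφ.inj.injOn
    have ha : a.mapDomain φ = x.1.2 := by
      refine Finsupp.mapDomain_comapDomain φ hφ.inj _ fun b hb => ?_
      by_contra hb'
      exact Finsupp.mem_support_iff.1 hb (x.2.2 b (hφ.off b hb'))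
    have hxa : x = hφ.idx hv a := Subtype.ext (Prod.ext rfl ha.symm)
    obtain ⟨w, hw⟩ := (hr m _ _).1 ((r m).symm (Quotient.mk_out (s := r m) a))
    have hd : (((Quotient.out (Quotient.mk (r m) a)).degree : ℕ) : ℤ) = e - dJ Q m := by
      rw [degI_mk hK, hxa, Adp.deg0] at hx
      rw [hw, Finsupp.degree_mapDomain]
      omega
    refine ⟨⟨⟨m, (hS m).2 hv⟩, Quotient.mk (r m) a, hd⟩, Subtype.ext (Quotient.sound ?_)⟩
    obtain ⟨σ, hσ, h1, h2⟩ := hφ.exists_σ ((hF ⟨m, (hS m).2 hv⟩).perm w)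
    refine Q.idxSetoid.symm ⟨σ, hσ, h1, ?_⟩
    change Finsupp.mapDomain _ (Quotient.out (Quotient.mk (r m) a)) = _
    rw [hw, ← ha, ← Finsupp.mapDomain_comp, ← Finsupp.mapDomain_comp, h2]

end Vale.Agent.P291Z.Cmb
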