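import Vale.Agent.P291Z.HigE0
import Vale.Agent.P291Z.HigE3b

/-!
# The combinatorics of Jordan types
-/

set_option linter.unusedSectionVars false

namespace Vale.Agent.P291Z

open Set Function Vale.Agent.P291

variable {I : Type} [Fintype I] [DecidableEq I]

/-- Jordan types of dimension at most `v` -/
def JTs (v : I → ℕ) (K : ℕ) : Finset (JT I K) :=
  (Fintype.piFinset fun p : I × Fin K => Finset.range (v p.1 + 1)).filter fun m =>
    ∀ i, JT.dv m i ≤ v i

theorem mem_JTs {v : I → ℕ} {K : ℕ} {m : JT I K} : m ∈ JTs v K ↔ ∀ i, m.dv i ≤ v i := by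
  rw [JTs, Finset.mem_filter, Fintype.mem_piFinset]
  refine ⟨fun h => h.2, fun h => ⟨fun p => Finset.mem_range.2 (Nat.lt_succ_of_le ?_), h⟩⟩
  refine le_trans ?_ (h p.1)
  exact (Nat.le_mul_of_pos_right _ (Nat.succ_pos p.2.1)).trans
    (Finset.single_le_sum (f := fun k : Fin K => m (p.1, k) * (k.1 + 1))
      (fun _ _ => Nat.zero_le _) (Finset.mem_univ p.2))

section comb

variable {K : ℕ} {E' B Λ : Type} [Fintype E'] [Fintype B] [DecidableEq B] [CommRing Λ] [IsDomain Λ]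
  (Q' : QD I E' B Λ)

/-- the degree attached to a Jordan type -/
def degJ (m : JT I K) : ℤ :=
  ∑ a, (Q'.tgt a).elim ((m.dv (Q'.src a) : ℤ) - ∑ k, (m (Q'.src a, k) : ℤ))
      (fun j => (m.dv j : ℤ) * m.dv (Q'.src a) - m.hom j (Q'.src a)) -
    (∑ i, (m.dv i : ℤ) ^ 2 - m.zz)

theorem mul_eq_sum {v : I → ℕ} (hv : Q'.db Finset.univ = v) (hK : ∀ i, v i ≤ K) (e : ℤ) :
    Q'.mul e = ∑ m ∈ (JTs v K).filter (fun m => m.dv = v), hB m (e - degJ Q' m) := by
  subst hv
  refine Cmb.mul_eq Q' hK _ (fun m => ?_) (fun m => monS m) (fun _ _ _ => Iff.rfl) e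
  rw [Finset.mem_filter, mem_JTs]
  exact ⟨fun h => h.2.symm, fun h => ⟨fun i => (congrFun h i).ge, h.symm⟩⟩

end comb

end Vale.Agent.P291Z
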