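import Vale.Agent.P291Z.T15

/-!
# Integration along fibres in high degrees, Euclidean charts, graded colimits
-/

namespace Vale.Agent.P291Z

open Topology Set Filter TopologicalSpace Function

variable {X Y Z U : Type} [TopologicalSpace X] [TopologicalSpace Y] [TopologicalSpace Z]
  [TopologicalSpace U]

theorem Hc.pull_pullMul {p : X → Y} (hp : Continuous p) {t : Coch X} (ht : supp (δ t) = ∅)
    (htp : (Fam.prop p).mem (supp t)) {f : Z → X} (hf : IsPr f) {q : Z → Y} (hq : Continuous q)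
    (e : ∀ z, q z = p (f z)) (ht' : supp (δ (P291Z.pull f t)) = ∅)
    (htq : (Fam.prop q).mem (supp (P291Z.pull f t))) (c : Hc Y) :
    Hc.pull hf (Hc.pullMul hp ht htp c) = Hc.pullMul hq ht' htq c := by
  obtain ⟨a, ha, rfl⟩ := cls_surj c
  obtain rfl : q = p ∘ f := funext e
  rw [Hc.pullMul_cls _ _ _ ha, Hc.pullMul_cls _ _ _ ha, Hc.pull_cls _ (pull_mul_Zc hp ht htp ha),
    map_mul, P291Z.pull_pull]

theorem prop_pull {p : X → Y} {f : Z → X} (hf : IsPr f) {t : Coch X}
    (htp : (Fam.prop p).mem (supp t)) : (Fam.prop (p ∘ f)).mem (supp (pull f t)) :=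
  (Fam.prop _).mono (A' := f ⁻¹' supp t) (fun K hK => hf.pre _ (htp K hK)) (isClosed_supp _)
    (supp_pull hf.cont t)

namespace LHData

variable {E B : Type} [TopologicalSpace E] [TopologicalSpace B] {ι : Type} {p : E → B}
  {t : ι → Coch E} {d : ι → ℤ} (D : LHData p t d)

theorem map_deg {n : ℤ} {a : ι →₀ Hc B} (ha : ∀ j, a j ∈ Hc.deg B (n - d j)) :
    D.map a ∈ Hc.deg E n := by
  rw [D.map_apply]
  refine Submodule.sum_mem _ fun j _ => ?_
  have := Hc.pullMul_deg D.cont (D.cocycle j) (D.prop j) (D.deg j) (ha j)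
  rwa [sub_add_cancel] at this

theorem deg_of_injective (h : Injective D.map) {n : ℤ} {a : ι →₀ Hc B}
    (ha : D.map a ∈ Hc.deg E n) (j : ι) : a j ∈ Hc.deg B (n - d j) := by
  have e := D.map_comp n a
  rw [Hc.comp_of_mem ha] at e
  rw [h e]
  exact Hc.comp_mem _ _

include D in
theorem restrict {S : Type} [TopologicalSpace S] {f : S → E} (hf : IsPr f) {κ : Type}
    (e : κ → ι) : LHData (p ∘ f) (fun a => pull f (t (e a))) fun a => d (e a) :=
  ⟨D.cont.comp hf.cont, fun _ => cocycle_pull hf.cont (D.cocycle _),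
    fun _ => prop_pull hf (D.prop _), fun _ => (D.deg _).pull f, fun _ => D.nonneg _⟩

theorem restrict_map {S : Type} [TopologicalSpace S] {f : S → E} (hf : IsPr f) {κ : Type}
    (e : κ → ι) (a : κ →₀ Hc B) :
    (D.restrict hf e).map a = Hc.pull hf (D.map (a.mapDomain e)) := by
  induction a using Finsupp.induction_linear with
  | zero => simp
  | add a b h h' => rw [Finsupp.mapDomain_add, map_add, map_add, map_add, h, h']
  | single j c =>
    rw [Finsupp.mapDomain_single, map_single, map_single]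
    exact (Hc.pull_pullMul _ _ _ hf _ (fun _ => rfl) _ _ c).symm

variable [T2Space B] [LocallyCompactSpace B] [MetrizableSpace E] [LocallyCompactSpace E]
  {F : B → Type} [∀ x, TopologicalSpace (F x)] [∀ x, MetrizableSpace (F x)]
  [∀ x, LocallyCompactSpace (F x)] {i : ∀ x, F x → E} (hi : ∀ x, IsFib p x (i x)) {N : ℕ}
  (hB : HasDim B N) (hs : ∀ x, ⊤ ≤ Submodule.span ℂ (range fun j => cls (pull (i x) (t j))))
  (hl : ∀ x, LinearIndependent ℂ fun j => cls (pull (i x) (t j))) {a₀ : ι} {o : ∀ x, BM (F x)}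
  (ho : ∀ x, o x (cls (pull (i x) (t a₀))) = 1)
  (ho' : ∀ x a, a ≠ a₀ → o x (cls (pull (i x) (t a))) = 0) {j : U → E} (hj : IsOpenEmbedding j)
  {Q : B → Type} [∀ x, TopologicalSpace (Q x)] {jx : ∀ x, Q x → F x}
  (hjx : ∀ x, IsOpenEmbedding (jx x)) (hr : ∀ x, range (jx x) = i x ⁻¹' range j) {k : ℤ}
  (h1 : ∀ x n, k ≤ n → ∀ c ∈ Hc.deg (Q x) n, o x (Hc.push (hjx x) c) = 0 → c = 0)
  (h2 : ∀ x, ∃ c, o x (Hc.push (hjx x) c) ≠ 0)
include hi hB hs hl ho ho' hj hjx hr h1 h2

theorem compl_high : (∀ n, k + N + 2 ≤ n → ∀ c ∈ Hc.deg ↥(range j)ᶜ n,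
    ∃ a : ι →₀ Hc B, a a₀ = 0 ∧ (∀ b, a b ∈ Hc.deg B (n - d b)) ∧ Hc.pull
      (IsPr.of_isClosedEmbedding hj.isOpen_range.isClosed_compl.isClosedEmbedding_subtypeVal)
      (D.map a) = c) ∧ ∀ n, k + N + 3 ≤ n → ∀ a : ι →₀ Hc B, a a₀ = 0 →
      (∀ b, a b ∈ Hc.deg B (n - d b)) → Hc.pull
      (IsPr.of_isClosedEmbedding hj.isOpen_range.isClosed_compl.isClosedEmbedding_subtypeVal)
      (D.map a) = 0 → a = 0 := by
  classical
  have hS := hj.isOpen_range.isClosed_compl.isClosedEmbedding_subtypeVal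
  have := hS.locallyCompactSpace
  have hSx := fun x => (hjx x).isOpen_range.isClosed_compl.isClosedEmbedding_subtypeVal
  have hcx : ∀ x, range (jx x) = (range (Subtype.val : ↥(range (jx x))ᶜ → F x))ᶜ := fun x => by
    rw [Subtype.range_coe, compl_compl]
  let i' : ∀ x, ↥(range (jx x))ᶜ → ↥(range j)ᶜ := fun x y =>
    ⟨i x y.1, fun h => y.2 ((hr x).symm.subset h)⟩
  have hi' : ∀ x, IsFib (p ∘ Subtype.val) x (i' x) := fun x =>
    ⟨hS.of_comp_iff.1 ((hi x).emb.comp (hSx x)), Subset.antisymm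
      (by rintro _ ⟨y, rfl⟩; exact (hi x).apply y.1) fun s hs => by
        obtain ⟨y, hy⟩ := (hi x).exists_eq hs
        exact ⟨⟨y, fun h => s.2 (hy ▸ (hr x).subset h)⟩, Subtype.ext hy⟩⟩
  have D' := D.restrict (IsPr.of_isClosedEmbedding hS) (Subtype.val : {a // a ≠ a₀} → ι)
  have ecl : ∀ x (a : ι), cls (pull (i' x) (pull Subtype.val (t a))) =
      Hc.pull (IsPr.of_isClosedEmbedding (hSx x)) (cls (pull (i x) (t a))) := fun x a => by
    rw [Hc.pull_cls _ (D.fib_Zc (hi x) a), pull_pull, pull_pull]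
    rfl
  have oc : ∀ x (z : ι →₀ ℂ), o x (Finsupp.linearCombination ℂ
      (fun j => cls (pull (i x) (t j))) z) = z a₀ := fun x z => by
    induction z using Finsupp.induction_linear with
    | zero => simp
    | add a b h h' => rw [map_add, map_add, h, h', Finsupp.add_apply]
    | single b c =>
      rw [Finsupp.linearCombination_single, map_smul]
      by_cases hb : b = a₀
      · rw [hb, ho, Finsupp.single_eq_same, smul_eq_mul, mul_one]
      · rw [ho' x b hb, smul_zero, Finsupp.single_eq_of_ne' hb]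
  have hs' : ∀ x n, k ≤ n → ∀ c ∈ Hc.deg ↥(range (jx x))ᶜ n, c ∈ Submodule.span ℂ
      (range fun a : {a // a ≠ a₀} => cls (pull (i' x) (pull Subtype.val (t a.1)))) := by
    intro x n hn c hc
    have e : Hc.conn (hSx x) (hjx x) (hcx x) c = 0 :=
      h1 x (n + 1) (by omega) _ (Hc.conn_deg _ _ _ hc) (by
        rw [(Hc.exact_conn_push (hSx x) (hjx x) (hcx x)).apply_apply_eq_zero, map_zero])
    obtain ⟨v, rfl⟩ := (Hc.exact_pull_conn (hSx x) (hjx x) (hcx x) c).1 e
    obtain ⟨c₀, h0⟩ := h2 x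
    obtain ⟨z, hz⟩ := (Finsupp.mem_span_range_iff_exists_finsupp.1 (hs x (Submodule.mem_top
      (x := v - (o x v / o x (Hc.push (hjx x) c₀)) • Hc.push (hjx x) c₀))))
    have z0 : z a₀ = 0 := by
      rw [← oc x z, Finsupp.linearCombination_apply, hz, map_sub, map_smul, smul_eq_mul,
        div_mul_cancel₀ _ h0, sub_self]
    have := congrArg (Hc.pull (IsPr.of_isClosedEmbedding (hSx x))) hz
    rw [map_sub, map_smul, (Hc.exact_push_pull (hSx x) (hjx x) (hcx x)).apply_apply_eq_zero,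
      smul_zero, sub_zero, map_finsuppSum] at this
    rw [← this]
    refine Submodule.sum_mem _ fun b hb => ?_
    beta_reduce
    rw [map_smul, ← ecl]
    exact Submodule.smul_mem _ _ (Submodule.subset_span
      ⟨⟨b, fun h => Finsupp.mem_support_iff.1 hb (h ▸ z0)⟩, rfl⟩)
  have hl' : ∀ x n, k ≤ n → LinearIndepOn ℂ
      (fun a : {a // a ≠ a₀} => cls (pull (i' x) (pull Subtype.val (t a.1)))) {a | d a.1 = n} := by
    intro x n hn
    rw [linearIndepOn_iff]
    intro z hz e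
    have ew : Finsupp.linearCombination ℂ (fun j => cls (pull (i x) (t j)))
        (z.mapDomain Subtype.val) = z.sum fun a c => c • cls (pull (i x) (t a.1)) := by
      rw [Finsupp.linearCombination_mapDomain, Finsupp.linearCombination_apply]
      rfl
    have hw : (z.sum fun a c => c • cls (pull (i x) (t a.1))) ∈ Hc.deg (F x) n :=
      Submodule.sum_mem _ fun a ha => Submodule.smul_mem _ _ (by
        rw [← show d a.1 = n from hz ha]; exact cls_mem_deg ((D.deg _).pull _))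
    obtain ⟨c, hc, e'⟩ := Hc.exists_push_deg (hSx x) (hjx x) (hcx x) hw (by
      rw [map_finsuppSum, ← e, Finsupp.linearCombination_apply]
      exact Finsupp.sum_congr fun a _ => by rw [map_smul, ecl])
    have c0 : c = 0 := h1 x n hn c hc (by
      rw [e', ← ew, oc]
      exact Finsupp.mapDomain_of_notMem_range _ _ (by rintro ⟨a, ha⟩; exact a.2 ha))
    rw [c0, map_zero, ← ew] at e'
    exact Finsupp.mapDomain_injective Subtype.val_injective
      ((linearIndependent_iff.1 (hl x) _ e'.symm).trans Finsupp.mapDomain_zero.symm)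
  refine ⟨fun n hn c hc => ?_, fun n hn a ha ha' e => ?_⟩
  · obtain ⟨a, h, e⟩ := D'.map_surj_high hi' hB hs' hl' hn hc
    refine ⟨a.mapDomain Subtype.val, Finsupp.mapDomain_of_notMem_range _ _
      (by rintro ⟨a, ha⟩; exact a.2 ha), fun b => ?_, (D.restrict_map _ _ a).symm.trans e⟩
    by_cases hb : b = a₀
    · rw [Finsupp.mapDomain_of_notMem_range _ _ (by rintro ⟨a, ha⟩; exact a.2 (ha.trans hb))]
      exact Submodule.zero_mem _
    · have := h ⟨b, hb⟩
      rwa [← Finsupp.mapDomain_apply Subtype.val_injective a ⟨b, hb⟩] at this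
  · have ea : (a.subtypeDomain (· ≠ a₀)).mapDomain Subtype.val = a := Finsupp.ext fun b => by
      by_cases hb : b = a₀
      · rw [Finsupp.mapDomain_of_notMem_range _ _ (by rintro ⟨a, ha⟩; exact a.2 (ha.trans hb)), hb, ha]
      · exact Finsupp.mapDomain_apply Subtype.val_injective _ (⟨b, hb⟩ : {a // a ≠ a₀})
    have := D'.map_inj_high hi' hB hs' hl' hn (a := a.subtypeDomain (· ≠ a₀)) (fun b => ha' b.1)
      ((D.restrict_map _ _ _).trans (by rw [ea]; exact e))
    rw [← ea, this, Finsupp.mapDomain_zero]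

/-- **Integration along the fibres of an open part is injective in high degrees.** -/
theorem coord_inj {n : ℤ} (hn : k + N + 3 ≤ n) {c : Hc U} (hc : c ∈ Hc.deg U n) {a : ι →₀ Hc B}
    (e : D.map a = Hc.push hj c) (ha : a a₀ = 0) : c = 0 := by
  have hS := hj.isOpen_range.isClosed_compl.isClosedEmbedding_subtypeVal
  have hcc : range j = (range (Subtype.val : ↥(range j)ᶜ → E))ᶜ := by
    rw [Subtype.range_coe, compl_compl]
  obtain ⟨k1, k2⟩ := D.compl_high hi hB hs hl ho ho' hj hjx hr h1 h2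
  have a0 := k2 n hn a ha (D.deg_of_injective (D.map_bijective hi hs hl).1
    (e ▸ Hc.push_deg hj hc)) (by rw [e, (Hc.exact_push_pull hS hj hcc).apply_apply_eq_zero])
  rw [a0, map_zero] at e
  obtain ⟨s, hs, rfl⟩ := Hc.exists_conn_deg hS hj hcc hc e.symm
  obtain ⟨b, -, -, rfl⟩ := k1 _ (by omega) s hs
  exact (Hc.exact_pull_conn hS hj hcc).apply_apply_eq_zero _

/-- **Integration along the fibres of an open part is surjective in high degrees.** -/
theorem coord_surj {n : ℤ} (hn : k + N + 2 ≤ n) {e : Hc B} (he : e ∈ Hc.deg B (n - d a₀)) :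
    ∃ c ∈ Hc.deg U n, ∃ a, D.map a = Hc.push hj c ∧ a a₀ = e := by
  classical
  have hS := hj.isOpen_range.isClosed_compl.isClosedEmbedding_subtypeVal
  have hcc : range j = (range (Subtype.val : ↥(range j)ᶜ → E))ᶜ := by
    rw [Subtype.range_coe, compl_compl]
  obtain ⟨k1, -⟩ := D.compl_high hi hB hs hl ho ho' hj hjx hr h1 h2
  have hv : D.map (Finsupp.single a₀ e) ∈ Hc.deg E n := D.map_deg fun b => by
    by_cases hb : b = a₀
    · rw [hb, Finsupp.single_eq_same]; exact he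
    · rw [Finsupp.single_eq_of_ne hb]; exact Submodule.zero_mem _
  obtain ⟨a, a0, ha, ea⟩ := k1 n hn _ (Hc.pull_deg (IsPr.of_isClosedEmbedding hS) hv)
  obtain ⟨c, hc, ec⟩ := Hc.exists_push_deg hS hj hcc (Submodule.sub_mem _ hv (D.map_deg ha))
    (by rw [map_sub, ea, sub_self])
  exact ⟨c, hc, Finsupp.single a₀ e - a, by rw [map_sub, ec], by
    rw [Finsupp.sub_apply, Finsupp.single_eq_same, a0, sub_zero]⟩

end LHData

theorem push_dual_ne_zero [T2Space X] [LocallyCompactSpace X] {j : U → X} (hj : IsOpenEmbedding j)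
    {β : BM X} {a : Coch X} (ha : a ∈ Zc X) (hs : supp a ⊆ range j) (h : β (cls a) ≠ 0) :
    (Hc.push hj).dualMap β ≠ 0 := fun e => h (by
  rw [← Hc.push_cls hj ha hs]; exact LinearMap.congr_fun e _)

theorem IsGen.injective {d : ℤ} {t : Coch X} (h : IsGen d t) {M : Type*} [AddCommGroup M]
    [Module ℂ M] {f : Hc X →ₗ[ℂ] M} (hf : f ≠ 0) : Injective f := by
  have h0 : f (cls t) ≠ 0 := fun e => hf (LinearMap.ext fun c => by
    obtain ⟨z, rfl⟩ := h.span c
    rw [map_smul, e, smul_zero, LinearMap.zero_apply])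
  refine (injective_iff_map_eq_zero f).2 fun c e => ?_
  obtain ⟨z, rfl⟩ := h.span c
  rw [map_smul] at e
  rw [(smul_eq_zero.1 e).resolve_right h0, zero_smul]

theorem IsGen.bijective {d d' : ℤ} {t : Coch X} {t' : Coch Y} (h : IsGen d t) (h' : IsGen d' t')
    {f : Hc X →ₗ[ℂ] Hc Y} (hf : f ≠ 0) : Bijective f := by
  refine ⟨h.injective hf, fun c => ?_⟩
  obtain ⟨z, rfl⟩ := h'.span c
  obtain ⟨w, hw⟩ := h'.span (f (cls t))
  have : w ≠ 0 := fun e => h.ne (h.injective hf (by rw [hw, e, zero_smul, map_zero]))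
  exact ⟨(z / w) • cls t, by rw [map_smul, hw, smul_smul, div_mul_cancel₀ _ this]⟩

/-- homeomorphic to `ℂ ^ r` -/
def Euc (X : Type) [TopologicalSpace X] (r : ℕ) : Prop := Nonempty (X ≃ₜ (Fin r → ℂ))

theorem euc_pi (r : ℕ) : Euc (Fin r → ℂ) r := ⟨Homeomorph.refl _⟩

theorem Euc.of_homeomorph {r : ℕ} (h : Euc Y r) (e : X ≃ₜ Y) : Euc X r := ⟨e.trans h.some⟩

theorem euc_of_finrank (V : Type) [AddCommGroup V] [Module ℂ V] [TopologicalSpace V]
    [IsTopologicalAddGroup V] [ContinuousSMul ℂ V] [T2Space V] [FiniteDimensional ℂ V] {r : ℕ}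
    (h : Module.finrank ℂ V = r) : Euc V r :=
  ⟨(ContinuousLinearEquiv.ofFinrankEq (𝕜 := ℂ) (by simpa using h)).toHomeomorph⟩

theorem Euc.prod {r s : ℕ} (h : Euc X r) (h' : Euc Y s) : Euc (X × Y) (r + s) :=
  (euc_of_finrank ((Fin r → ℂ) × (Fin s → ℂ)) (by simp)).of_homeomorph (h.some.prodCongr h'.some)

theorem Euc.metrizable {r : ℕ} (h : Euc X r) : MetrizableSpace X :=
  h.some.isEmbedding.metrizableSpace

theorem Euc.locallyCompact {r : ℕ} (h : Euc X r) : LocallyCompactSpace X :=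
  h.some.isClosedEmbedding.locallyCompactSpace

theorem Euc.nonempty {r : ℕ} (h : Euc X r) : Nonempty X := ⟨h.some.symm 0⟩

theorem Euc.hasDim {r : ℕ} (h : Euc X r) : HasDim X (2 * r) :=
  (hasDim_complex (Fin r → ℂ) (by simp)).of_injective h.some.continuous h.some.injective

theorem Euc.exists_gen {r : ℕ} (h : Euc X r) (x : X) :
    ∃ t : Coch X, IsGen (2 * r) t ∧ supp t ⊆ {x} := by
  let e := h.some.trans (Homeomorph.subRight (h.some x))
  refine ⟨pull e (tau r), (isGen_tau r).pull e.isHomeomorph, fun y hy => ?_⟩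
  exact h.some.injective (sub_eq_zero.1 (supp_tau r (supp_pull e.continuous _ hy)))

theorem Euc.top {r : ℕ} (h : Euc X r) : Top X (2 * r) :=
  (h.exists_gen h.nonempty.some).choose_spec.1.top

/-- an open embedding of Euclidean spaces is bijective on cohomology with compact supports -/
theorem Euc.push_bijective [T2Space X] [LocallyCompactSpace X] {r s : ℕ} (h : Euc X r)
    (h' : Euc U s) {j : U → X} (hj : IsOpenEmbedding j) : Bijective (Hc.push hj) := by
  obtain ⟨u⟩ := h'.nonempty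
  obtain ⟨t, ht, hs⟩ := h.exists_gen (j u)
  obtain ⟨t', ht', -⟩ := h'.exists_gen u
  refine ht'.bijective ht fun e => ht.ne ?_
  rw [← Hc.push_cls hj ht.mem (hs.trans (singleton_subset_iff.2 ⟨u, rfl⟩)), e,
    LinearMap.zero_apply]

theorem Euc.locOri [T2Space Y] [LocallyCompactSpace Y] {r : ℕ} (h : Euc X r) {β : BM Y}
    {j : X → Y} (hj : IsOpenEmbedding j) (hβ : (Hc.push hj).dualMap β ≠ 0) (x : X) :
    LocOri (2 * r) β (j x) := by
  have := h.metrizable
  have := h.locallyCompact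
  have e := h.some
  have h1 := locOri_of_chart (β := β) (hj.comp e.symm.isOpenEmbedding) (fun e' => hβ (by
    refine LinearMap.ext fun c => ?_
    obtain ⟨c, rfl⟩ := (h.push_bijective (euc_pi r) e.symm.isOpenEmbedding).2 c
    rw [LinearMap.dualMap_apply, Hc.push_push]
    exact LinearMap.congr_fun e' c)) (e x)
  rw [Function.comp_apply, e.symm_apply_apply, Module.finrank_pi_fintype] at h1
  simpa [mul_comm] using h1

/-- small Euclidean neighbourhoods -/
theorem exists_ball_chart {V : Type} [NormedAddCommGroup V] [NormedSpace ℝ V] {x : V} {W : Set V}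
    (hW : W ∈ 𝓝 x) : ∃ r : ℝ, 0 < r ∧ Metric.closedBall x r ⊆ W :=
  let ⟨r, hr, h⟩ := Metric.nhds_basis_closedBall.mem_iff.1 hW
  ⟨r, hr, h⟩

/-- the radial homeomorphism onto a ball -/
noncomputable def rad {V : Type} [NormedAddCommGroup V] [NormedSpace ℝ V] (r : ℝ) (v : V) : V :=
  (r * (√(1 + ‖v‖ ^ 2))⁻¹) • v

section rad

variable {V : Type} [NormedAddCommGroup V] [NormedSpace ℝ V] {r : ℝ}

theorem isOpenEmbedding_rad (hr : 0 < r) : IsOpenEmbedding (rad r : V → V) := by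
  have e : (rad r : V → V) = (Homeomorph.smulOfNeZero r hr.ne') ∘ Subtype.val ∘
      (Homeomorph.unitBall : V ≃ₜ Metric.ball (0 : V) 1) := funext fun v => by
    rw [rad, mul_smul]; rfl
  rw [e]
  exact (Homeomorph.isOpenEmbedding _).comp
    (Metric.isOpen_ball.isOpenEmbedding_subtypeVal.comp (Homeomorph.isOpenEmbedding _))

theorem rad_zero : rad r (0 : V) = 0 := smul_zero _

omit [NormedSpace ℝ V] in
theorem rad_coef_pos (hr : 0 < r) (v : V) : 0 < r * (√(1 + ‖v‖ ^ 2))⁻¹ := by positivity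

theorem norm_rad_le (hr : 0 < r) (v : V) : ‖rad r v‖ ≤ r := by
  have h0 : 0 < √(1 + ‖v‖ ^ 2) := by positivity
  have h1 : ‖v‖ ≤ √(1 + ‖v‖ ^ 2) := Real.le_sqrt_of_sq_le (by linarith)
  rw [rad, norm_smul, Real.norm_of_nonneg (rad_coef_pos hr v).le, mul_assoc]
  exact mul_le_of_le_one_right hr.le (by rw [inv_mul_le_iff₀ h0, mul_one]; exact h1)

omit [NormedSpace ℝ V] in
theorem continuous_rad_coef (r : ℝ) : Continuous fun v : V => r * (√(1 + ‖v‖ ^ 2))⁻¹ :=
  continuous_const.mul (Continuous.inv₀ (by fun_prop) fun v => by positivity)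

end rad

section deg

variable {A B : ℕ → Type} [∀ M, TopologicalSpace (A M)] [∀ M, TopologicalSpace (B M)]
  {a b : ℕ → ℤ} {g : ∀ M, Hc (A M) →ₗ[ℂ] Hc (A (M + 1))} {g' : ∀ M, Hc (B M) →ₗ[ℂ] Hc (B (M + 1))}
  {φ : ∀ M, Hc (A M) →ₗ[ℂ] Hc (B M)}

theorem Step.tr (hg : Step a g) {M N : ℕ} (e : M ≤ N) {k : ℤ} {c : Hc (A M)}
    (hc : c ∈ Hc.deg (A M) (k + a M)) : Seq.tr g M N e c ∈ Hc.deg (A N) (k + a N) := by
  induction e with
  | refl => rwa [Seq.tr_self]
  | step e ih => rw [Seq.tr_succ g e]; exact hg _ _ _ ih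

theorem Seq.Comm.map_injective_deg (h : Seq.Comm g g' φ) (hg : Step a g) (hφ : Shift a b φ)
    (H : ∀ k, ∃ L, ∀ M, L ≤ M → ∀ c ∈ Hc.deg (A M) (k + a M), φ M c = 0 → c = 0) :
    Injective h.map :=
  h.map_injective_iff.2 fun M v e => by
    refine Hc.induction_deg (P := fun v => Seq.of g M v = 0) v (map_zero _)
      (fun _ _ h h' => by rw [map_add, h, h', add_zero]) fun n => ?_
    obtain ⟨L, hL⟩ := H (n - a M)
    have e1 : Hc.comp n v = Hc.comp (n - a M + a M) v := by rw [sub_add_cancel]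
    rw [e1, ← Seq.of_tr g (le_max_right L M), hL _ (le_max_left _ _) _
      (hg.tr _ (Hc.comp_mem _ _)) (by rw [h.tr, ← comp_shift (hφ M), e, map_zero, map_zero]),
      map_zero]

theorem Seq.Comm.map_surjective_deg (h : Seq.Comm g g' φ) (hg : Step b g')
    (H : ∀ k, ∃ L, ∀ M, L ≤ M → ∀ c ∈ Hc.deg (B M) (k + b M), ∃ c', φ M c' = c) :
    Surjective h.map := fun w => by
  obtain ⟨M, w, rfl⟩ := Seq.exists_of g' w
  refine Hc.induction_deg (P := fun w => ∃ v, h.map v = Seq.of g' M w) w ⟨0, by simp⟩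
    (fun _ _ ⟨v, e⟩ ⟨v', e'⟩ => ⟨v + v', by rw [map_add, map_add, e, e']⟩) fun n => ?_
  obtain ⟨L, hL⟩ := H (n - b M)
  obtain ⟨c, e⟩ := hL _ (le_max_left L M) _ (hg.tr (le_max_right L M)
    (k := n - b M) (c := Hc.comp n w) (by rw [sub_add_cancel]; exact Hc.comp_mem _ _))
  exact ⟨Seq.of g _ c, by rw [h.map_of, e, Seq.of_tr]⟩

end deg

end Vale.Agent.P291Z
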