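import Vale.Agent.P291Z.GL0
import Vale.Agent.P291Z.T16

/-!
# Charts of the approximations of the Borel construction for `GG n`
-/

set_option linter.unusedSectionVars false

namespace Vale.Agent.P291Z

open Set Function Topology Matrix

section slice

variable {X X' Y : Type} [TopologicalSpace X] [TopologicalSpace X'] [TopologicalSpace Y]

/-- a map into an open quotient with a continuous inverse upstairs is an embedding -/
theorem isEmbedding_of_slice {q : X → X'} (hq : IsOpenQuotientMap q) {e : Y → X'}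
    (he : Continuous e) {A : Set X} {ρ : A → Y} (hρ : Continuous ρ)
    (h : ∀ y a, q a = e y → ∃ ha : a ∈ A, ρ ⟨a, ha⟩ = y) : IsEmbedding e := by
  refine ⟨isInducing_iff_nhds.2 fun y => le_antisymm (he.tendsto y).le_comap fun U hU => ?_,
    fun y y' hy => ?_⟩
  · obtain ⟨V, hVU, hV, hy⟩ := mem_nhds_iff.1 hU
    obtain ⟨O, hO, e1⟩ := isOpen_induced_iff.1 (hV.preimage hρ)
    obtain ⟨a, ha⟩ := hq.surjective (e y)
    obtain ⟨h1, h2⟩ := h y a ha
    refine ⟨q '' O, (hq.isOpenMap O hO).mem_nhds ⟨a, ?_, ha⟩, ?_⟩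
    · show (⟨a, h1⟩ : A) ∈ Subtype.val ⁻¹' O
      rw [e1, mem_preimage, h2]
      exact hy
    · rintro y' ⟨b, hb, hb'⟩
      obtain ⟨h3, h4⟩ := h y' b hb'
      have : (⟨b, h3⟩ : A) ∈ ρ ⁻¹' V := e1 ▸ hb
      exact hVU (h4 ▸ this)
  · obtain ⟨a, ha⟩ := hq.surjective (e y)
    obtain ⟨_, h2⟩ := h y a ha
    obtain ⟨_, h4⟩ := h y' a (ha.trans hy)
    exact h2.symm.trans h4

theorem isOpenEmbedding_of_slice {q : X → X'} (hq : IsOpenQuotientMap q) {e : Y → X'}
    (he : Continuous e) {A : Set X} (hA : IsOpen A) {ρ : A → Y} (hρ : Continuous ρ)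
    (h : ∀ y a, q a = e y → ∃ ha : a ∈ A, ρ ⟨a, ha⟩ = y) (h' : ∀ a, e (ρ a) = q a) :
    IsOpenEmbedding e := by
  refine ⟨isEmbedding_of_slice hq he hρ h, ?_⟩
  have : range e = q '' A := by
    refine Subset.antisymm ?_ ?_
    · rintro _ ⟨y, rfl⟩
      obtain ⟨a, ha⟩ := hq.surjective (e y)
      exact ⟨a, (h y a ha).1, ha⟩
    · rintro _ ⟨a, ha, rfl⟩
      exact ⟨_, h' ⟨a, ha⟩⟩
  exact this ▸ hq.isOpenMap A hA

end slice

section bor

variable {G Z P : Type} [Group G] [TopologicalSpace G] [TopologicalSpace Z] [MulAction G Z]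
  [TopologicalSpace P] [MulAction G P] [Prin G P] [ContinuousSMul G Z]

theorem HasDim.bor {D D' : ℕ} (h : HasDim Z D) (h' : HasDim (Bor G Unit P) D') :
    HasDim (Bor G Z P) (D + D') := by
  intro b
  obtain ⟨x, rfl⟩ := Bor.mk_surjective b
  obtain ⟨U, hU, hx, -, τ, hc, hτ⟩ := Prin.loc (G := G) x.2
  let π : Bor G Z P → Bor G Unit P := Bor.map (MonoidHom.id G) (fun x => ((), x.2)) fun _ _ => rfl
  have hπ : Continuous π := Bor.continuous_map' _ (by fun_prop)
  refine (h.prod h').at (W := Bor.mk G '' (Prod.snd ⁻¹' U))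
    ((Bor.isOpenQuotientMap_mk.isOpenMap _ (hU.preimage continuous_snd)).mem_nhds ⟨x, hx, rfl⟩)
    (f := fun b => ((Bor.sec τ b).1, π b)) ?_ ?_
  · rintro _ ⟨y, hy, rfl⟩
    exact ((Bor.continuousAt_sec hU hc hτ hy).fst.prodMk hπ.continuousAt).continuousWithinAt
  · rintro _ ⟨y, hy, rfl⟩ _ ⟨y', hy', rfl⟩ e
    obtain ⟨e1, e2⟩ := Prod.ext_iff.1 e
    obtain ⟨g, hg⟩ := Bor.mk_eq_iff.1 (show Bor.mk G ((), y.2) = Bor.mk G ((), y'.2) from e2)
    have e3 : g • y'.2 = y.2 := congrArg Prod.snd hg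
    refine Bor.mk_eq_iff.2 ⟨g, Prod.ext ?_ e3⟩
    simp only [Bor.sec_mk hτ hy, Bor.sec_mk hτ hy', Prod.smul_fst] at e1
    rw [← e3, hτ g _ hy', _root_.mul_inv_rev, mul_smul] at e1
    rw [Prod.smul_fst, ← smul_left_cancel _ e1, smul_inv_smul]

end bor

variable {J : Type} [Fintype J] {n : J → ℕ} {M : ℕ}

theorem le_of_EE (u : EE n M) (j : J) : n j ≤ M := by
  have := LinearMap.finrank_le_finrank_of_surjective (f := (u.1 j).mulVecLin) (u.2 j)
  simpa using this

/-- complementary matrices -/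
theorem exists_frame {k : ℕ} {A : Matrix (Fin k) (Fin M) ℂ} (h : Surjective A.mulVec) :
    ∃ (v : Matrix (Fin M) (Fin k) ℂ) (K : Matrix (Fin M) (Fin (M - k)) ℂ)
      (w : Matrix (Fin (M - k)) (Fin M) ℂ), A * v = 1 ∧ A * K = 0 ∧ w * v = 0 ∧ w * K = 1 ∧
      v * A + K * w = 1 := by
  obtain ⟨v, hv⟩ := Fl.exists_right_inv h
  have hr : Module.finrank ℂ (LinearMap.ker A.mulVecLin) = Module.finrank ℂ (Fin (M - k) → ℂ) := by
    have := A.mulVecLin.finrank_range_add_finrank_ker
    rw [LinearMap.range_eq_top.2 h, finrank_top] at this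
    simp only [Module.finrank_fintype_fun_eq_card, Fintype.card_fin] at this ⊢
    omega
  let e := LinearEquiv.ofFinrankEq _ _ hr
  have hp : ∀ x, (1 - v * A).mulVecLin x ∈ LinearMap.ker A.mulVecLin := fun x => by
    rw [LinearMap.mem_ker, mulVecLin_apply, mulVecLin_apply, mulVec_mulVec, Matrix.mul_sub,
      ← Matrix.mul_assoc, hv, Matrix.mul_one, Matrix.one_mul, sub_self, zero_mulVec]
  let K := LinearMap.toMatrix' ((LinearMap.ker A.mulVecLin).subtype ∘ₗ e.symm.toLinearMap)
  let w := LinearMap.toMatrix' (e.toLinearMap ∘ₗ (1 - v * A).mulVecLin.codRestrict _ hp)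
  have hK : ∀ x, K.mulVec x = e.symm x := fun x => LinearMap.toMatrix'_mulVec _ _
  have hw : ∀ x, w.mulVec x = e ⟨_, hp x⟩ := fun x => LinearMap.toMatrix'_mulVec _ _
  have hAK : A * K = 0 := ext_of_mulVec_single fun i => by
    rw [← mulVec_mulVec, hK, zero_mulVec]
    exact (e.symm _).2
  refine ⟨v, K, w, hv, hAK, ext_of_mulVec_single fun i => ?_, ext_of_mulVec_single fun i => ?_,
    ext_of_mulVec_single fun i => ?_⟩
  · rw [← mulVec_mulVec, hw, zero_mulVec, map_eq_zero_iff _ e.injective]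
    refine Subtype.ext ?_
    show (1 - v * A).mulVec (v.mulVec _) = 0
    rw [mulVec_mulVec, Matrix.sub_mul, Matrix.mul_assoc, hv, Matrix.one_mul, Matrix.mul_one,
      sub_self, zero_mulVec]
  · rw [← mulVec_mulVec, hw, one_mulVec, ← e.eq_symm_apply]
    refine Subtype.ext ?_
    show (1 - v * A).mulVec (K.mulVec _) = _
    rw [mulVec_mulVec, Matrix.sub_mul, Matrix.mul_assoc, hAK, Matrix.mul_zero, sub_zero,
      Matrix.one_mul, hK]
  · rw [add_mulVec, ← mulVec_mulVec _ K, hK, hw, e.symm_apply_apply]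
    show _ + (1 - v * A).mulVec _ = _
    rw [← add_mulVec, add_sub_cancel]

/-- a frame adapted to a point of `EE n M` -/
structure Frame (u : EE n M) where
  /-- right inverses -/
  v : ∀ j, Matrix (Fin M) (Fin (n j)) ℂ
  /-- bases of the kernels -/
  K : ∀ j, Matrix (Fin M) (Fin (M - n j)) ℂ
  /-- complements -/
  w : ∀ j, Matrix (Fin (M - n j)) (Fin M) ℂ
  uv : ∀ j, u.1 j * v j = 1
  uK : ∀ j, u.1 j * K j = 0
  wv : ∀ j, w j * v j = 0
  wK : ∀ j, w j * K j = 1
  sum : ∀ j, v j * u.1 j + K j * w j = 1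

theorem nonempty_frame (u : EE n M) : Nonempty (Frame u) := by
  choose v K w h using fun j => exists_frame (u.2 j)
  exact ⟨⟨v, K, w, fun j => (h j).1, fun j => (h j).2.1, fun j => (h j).2.2.1,
    fun j => (h j).2.2.2.1, fun j => (h j).2.2.2.2⟩⟩

namespace Frame

variable {u : EE n M} (F : Frame u)

theorem pt_v (c : Mat n fun j => M - n j) (j : J) : (u.1 j + c j * F.w j) * F.v j = 1 := by
  rw [Matrix.add_mul, F.uv, Matrix.mul_assoc, F.wv, Matrix.mul_zero, add_zero]

theorem pt_K (c : Mat n fun j => M - n j) (j : J) : (u.1 j + c j * F.w j) * F.K j = c j := by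
  rw [Matrix.add_mul, F.uK, Matrix.mul_assoc, F.wK, Matrix.mul_one, zero_add]

/-- the slice through `u` -/
noncomputable def pt (c : Mat n fun j => M - n j) : EE n M :=
  ⟨fun j => u.1 j + c j * F.w j, fun j => Fl.surj_of_mul (F.pt_v c j)⟩

theorem pt_zero : F.pt 0 = u := Subtype.ext (funext fun j => by
  show u.1 j + (0 : Matrix _ _ ℂ) * F.w j = _
  rw [Matrix.zero_mul, add_zero])

theorem continuous_pt : Continuous F.pt :=
  Continuous.subtype_mk (Fl.continuous_mat_iff.2 fun j =>
    continuous_const.add ((Fl.continuous_mat j).matrix_mul continuous_const)) _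

/-- the section with the single zero `[u]` -/
noncomputable def col (x : EE n M) : Mat n fun j => M - n j := fun j => x.1 j * F.K j

theorem col_smul (g : GG n) (x : EE n M) : F.col (g • x) = g • F.col x :=
  funext fun _ => Matrix.mul_assoc _ _ _

theorem continuous_col : Continuous F.col :=
  Fl.continuous_mat_iff.2 fun j => (GL0.continuous_ee j).matrix_mul continuous_const

/-- the local trivialization -/
noncomputable def tr (x : EE n M) : GG n := fun j => GL0.toGL (x.1 j * F.v j)

theorem smul_pt {x : EE n M} (hx : ∀ j, (x.1 j * F.v j).det ≠ 0) :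
    F.tr x • F.pt ((F.tr x)⁻¹ • F.col x) = x := by
  refine Subtype.ext (funext fun j => ?_)
  show (F.tr x j).1 * (u.1 j + ((F.tr x j)⁻¹).1 * (x.1 j * F.K j) * F.w j) = _
  rw [Matrix.mul_add, ← Matrix.mul_assoc, ← Matrix.mul_assoc, Units.mul_inv, Matrix.one_mul, tr,
    GL0.toGL_val (hx j), Matrix.mul_assoc, Matrix.mul_assoc, ← Matrix.mul_add, F.sum,
    Matrix.mul_one]

theorem smul_pt_v (g : GG n) (c : Mat n fun j => M - n j) (j : J) :
    (g • F.pt c).1 j * F.v j = g j := by
  show (g j).1 * (u.1 j + c j * F.w j) * F.v j = _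
  rw [Matrix.mul_assoc, F.pt_v, Matrix.mul_one]

theorem tr_smul_pt (g : GG n) (c : Mat n fun j => M - n j) : F.tr (g • F.pt c) = g :=
  funext fun j => Units.ext (by
    rw [tr, GL0.toGL_val (by rw [smul_pt_v]; exact GL0.det_gl_ne _), smul_pt_v])

theorem col_pt (c : Mat n fun j => M - n j) : F.col (F.pt c) = c := funext fun j => F.pt_K c j

theorem exists_of_col {x : EE n M} (h : F.col x = 0) : ∃ g : GG n, g • u = x := by
  have e : ∀ j, x.1 j * F.v j * u.1 j = x.1 j := fun j => by
    have : x.1 j * F.K j = 0 := congrFun h j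
    rw [← add_zero (_ * u.1 j), ← Matrix.zero_mul (F.w j), ← this, Matrix.mul_assoc,
      Matrix.mul_assoc, ← Matrix.mul_add, F.sum, Matrix.mul_one]
  have hx : ∀ j, (x.1 j * F.v j).det ≠ 0 := fun j => by
    obtain ⟨B, hB⟩ := Fl.exists_right_inv (x.2 j)
    rw [← e j, Matrix.mul_assoc] at hB
    exact (isUnit_det_of_right_inverse hB).ne_zero
  have := F.smul_pt hx
  rw [h, smul_zero, pt_zero] at this
  exact ⟨_, this⟩

variable (Y : Type) [TopologicalSpace Y] [MulAction (GG n) Y] [ContinuousSMul (GG n) Y]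

/-- the chart of the Borel construction -/
noncomputable def chart (x : (Mat n fun j => M - n j) × Y) : Bo n Y M :=
  Bor.mk (GG n) (x.2, F.pt x.1)

theorem isOpenEmbedding_chart : IsOpenEmbedding (F.chart Y) := by
  let A : Set (Y × EE n M) := {a | ∀ j, (a.2.1 j * F.v j).det ≠ 0}
  have hc : ∀ j, Continuous fun a : Y × EE n M => a.2.1 j * F.v j := fun j =>
    ((GL0.continuous_ee j).comp continuous_snd).matrix_mul continuous_const
  have ht : Continuous fun a : A => (F.tr a.1.2)⁻¹ := (continuous_pi fun j =>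
    GL0.continuous_toGL ((hc j).comp continuous_subtype_val) fun a : A => a.2 j).inv
  refine isOpenEmbedding_of_slice Bor.isOpenQuotientMap_mk
    (Bor.continuous_mk.comp (continuous_snd.prodMk (F.continuous_pt.comp continuous_fst)))
    (A := A) ?_ (ρ := fun a => ((F.tr a.1.2)⁻¹ • F.col a.1.2, (F.tr a.1.2)⁻¹ • a.1.1))
    ((ht.smul (F.continuous_col.comp (continuous_snd.comp continuous_subtype_val))).prodMk
      (ht.smul (continuous_fst.comp continuous_subtype_val))) (fun y a e => ?_) fun a => ?_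
  · simp only [A, ofPred_forall]
    exact isOpen_iInter_of_finite fun j => isOpen_ne_fun (hc j).matrix_det continuous_const
  · obtain ⟨g, rfl⟩ := Bor.mk_eq_iff.1 e
    refine ⟨fun j => ?_, ?_⟩
    · rw [Prod.smul_snd, smul_pt_v]
      exact GL0.det_gl_ne _
    · simp only [Prod.smul_snd, Prod.smul_fst, tr_smul_pt, col_smul, col_pt, inv_smul_smul]
  · refine (Bor.mk_smul (F.tr a.1.2) _).symm.trans (congrArg _ (Prod.ext ?_ (F.smul_pt a.2)))
    exact smul_inv_smul _ _

theorem chart_zero (y : Y) : F.chart Y (0, y) = Bor.mk (GG n) (y, u) := by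
  rw [chart, pt_zero]

end Frame

theorem euc_Mat (m : J → ℕ) : Euc (Mat n m) (∑ j, n j * m j) :=
  ⟨(isRep_Mat n m).lin.some.toHomeomorph⟩

theorem dimB_eq (h : ∀ j, n j ≤ M) : dimB n M = (∑ j, n j * (M - n j) : ℕ) := by
  rw [dimB, Nat.cast_sum]
  exact Finset.sum_congr rfl fun j _ => by rw [Nat.cast_mul, Nat.cast_sub (h j)]

theorem hasDim_BG' (n : J → ℕ) (M : ℕ) : HasDim (Bo n Unit M) (2 * dimB n M).toNat := by
  intro b
  obtain ⟨⟨_, u⟩, rfl⟩ := Bor.mk_surjective b
  obtain ⟨F⟩ := nonempty_frame u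
  have h := ((euc_Mat (n := n) fun j => M - n j).hasDim.of_injective
    (f := (Prod.fst : _ × Unit → _)) continuous_fst fun _ _ h => Prod.ext h rfl).at_chart
    (F.isOpenEmbedding_chart Unit) (0, ())
  rw [F.chart_zero] at h
  rw [dimB_eq (le_of_EE u)]
  exact h

section strata

variable {X Y ι : Type} [TopologicalSpace X] [TopologicalSpace Y] [Fintype ι]
  {π : X → Y} (hπ : Continuous π) {ρ : X → ι → Fin M → ℂ} (hρ : Continuous ρ)
  (hi : ∀ x x', π x = π x' → ρ x = ρ x' → x = x') {D : ℕ} (hD : HasDim Y D)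
include hρ

theorem isOpen_indep (A : Set ι) : IsOpen {x | LinearIndepOn ℂ (ρ x) A} :=
  isOpen_setOfPred_linearIndependent.preimage
    (continuous_pi fun a : A => (continuous_apply a.1).comp hρ)

include hπ hi hD

theorem hasDim_stratum {A : Set ι} {c : ι} (hc : c ∉ A) (h : ∀ x, LinearIndepOn ℂ (ρ x) A)
    (h' : ∀ x, ρ x c ∈ Submodule.span ℂ (ρ x '' A)) :
    HasDim X (D + 2 * ((Fintype.card ι - 1) * M + Fintype.card ι)) := by
  classical
  intro x
  obtain ⟨L, hL⟩ := (Fintype.linearCombination ℂ fun a : A => ρ x a).exists_leftInverse_of_injective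
    (LinearMap.ker_eq_bot.2 (linearIndependent_iff_injective_fintypeLinearCombination.1 (h x)))
  have hLc : Continuous L := L.continuous_of_finiteDimensional
  have h1 : HasDim (({b // b ≠ c} → Fin M → ℂ) × (A → ℂ))
      (2 * ((Fintype.card ι - 1) * M + Fintype.card ι)) := by
    refine hasDim_complex _ (Nat.mul_le_mul_left _ ?_)
    rw [Module.finrank_prod, Module.finrank_pi_fintype]
    simp only [Module.finrank_fintype_fun_eq_card, Fintype.card_fin, Finset.sum_const,
      Finset.card_univ, smul_eq_mul, Fintype.card_subtype_compl, Fintype.card_unique]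
    exact Nat.add_le_add_left (Fintype.card_subtype_le _) _
  have h2 : IsOpen {y | LinearIndependent ℂ (L ∘ fun a : A => ρ y a)} :=
    isOpen_setOfPred_linearIndependent.preimage
      (continuous_pi fun a : A => hLc.comp ((continuous_apply a.1).comp hρ))
  refine (hD.prod h1).at (h2.mem_nhds ?_) (f := fun y => (π y, fun b => ρ y b.1, L (ρ y c)))
    (Continuous.continuousOn (hπ.prodMk ((continuous_pi fun b => (continuous_apply _).comp
      hρ).prodMk (hLc.comp ((continuous_apply c).comp hρ))))) fun y hy y' _ e => ?_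
  · have : (L ∘ fun a : A => ρ x a) = Pi.basisFun ℂ A := funext fun a => by
      have := LinearMap.congr_fun hL (Pi.single a 1)
      rwa [LinearMap.comp_apply, Fintype.linearCombination_apply_single, one_smul,
        LinearMap.id_apply, ← Pi.basisFun_apply] at this
    rw [mem_ofPred_eq, this]
    exact (Pi.basisFun ℂ A).linearIndependent
  · obtain ⟨e1, e2, e3⟩ : π y = π y' ∧ (fun b : {b // b ≠ c} => ρ y b.1) = (fun b => ρ y' b.1) ∧
        L (ρ y c) = L (ρ y' c) := by simpa only [Prod.mk.injEq] using e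
    have e4 : ∀ b, b ≠ c → ρ y b = ρ y' b := fun b hb => congrFun e2 ⟨b, hb⟩
    refine hi _ _ e1 (funext fun b => ?_)
    rcases eq_or_ne b c with rfl | hb
    · have e5 : ρ y' '' A = ρ y '' A := image_congr fun a ha => (e4 a fun h => hc (h ▸ ha)).symm
      refine sub_eq_zero.1 (Submodule.disjoint_def.1 (Submodule.range_ker_disjoint hy) _ ?_ ?_)
      · rw [← image_eq_range]
        exact Submodule.sub_mem _ (h' y) (e5 ▸ h' y')
      · rw [LinearMap.mem_ker, map_sub, e3, sub_self]
    · exact e4 b hb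

theorem push_inj_indep [Nice X] (cl : ι → J) (T : Finset ι) {U : Type} [TopologicalSpace U]
    {j : U → X} (hj : IsOpenEmbedding j)
    (hr : range j = {x | ∀ i, LinearIndepOn ℂ (ρ x) {c | c ∈ T ∧ cl c = i}}) {m : ℤ}
    (hm : D + 2 * (Fintype.card ι * M - M + Fintype.card ι) + 3 < m) {c : Hc U}
    (hc : c ∈ Hc.deg U m) (e : Hc.push hj c = 0) : c = 0 := by
  classical
  induction T using Finset.induction_on generalizing U with
  | empty =>
    have : IsEmpty ↥(range j)ᶜ := ⟨fun x => x.2 (hr.ge fun i => by simp)⟩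
    exact (Top.of_isEmpty (m - 2)).push_inj
      hj.isOpen_range.isClosed_compl.isClosedEmbedding_subtypeVal hj
      (by rw [Subtype.range_val, compl_compl]) (by omega) hc e
  | insert a T ha ih =>
    let O : Set X := {x | ∀ i, LinearIndepOn ℂ (ρ x) {c | c ∈ T ∧ cl c = i}}
    have hO : IsOpen O := by
      simp only [O, ofPred_forall]
      exact isOpen_iInter_of_finite fun i => isOpen_indep hρ _
    have := Nice.of_isLocallyClosed hO.isLocallyClosed
    have hU : ∀ u, j u ∈ O := fun u i => ((hr ▸ mem_range_self u :) i).mono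
      fun c hc => ⟨Finset.mem_insert_of_mem hc.1, hc.2⟩
    have hj' : IsOpenEmbedding (codRestrict j O hU) :=
      .of_comp _ hO.isOpenEmbedding_subtypeVal hj
    have hC := hj'.isOpen_range.isClosed_compl
    have := Nice.of_isLocallyClosed hC.isLocallyClosed
    have hN : 1 ≤ Fintype.card ι := Fintype.card_pos_iff.2 ⟨a⟩
    have hS : HasDim ↥(range (codRestrict j O hU))ᶜ _ := hasDim_stratum (π := fun x => π x.1.1)
      (by fun_prop) (ρ := fun x => ρ x.1.1) (by fun_prop)
      (fun x x' h1 h2 => Subtype.ext (Subtype.ext (hi _ _ h1 h2))) hD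
      (A := {c | c ∈ T ∧ cl c = cl a}) (c := a) (fun h => ha h.1) (fun x => x.1.2 _) fun x => by
        by_contra h
        obtain ⟨u, hu⟩ : x.1.1 ∈ range j := by
          rw [hr]
          intro i
          rcases eq_or_ne (cl a) i with rfl | hi
          · have : {c | c ∈ insert a T ∧ cl c = cl a} = insert a {c | c ∈ T ∧ cl c = cl a} := by
              ext c
              simp only [Finset.mem_insert, mem_ofPred_eq, mem_insert_iff]
              constructor
              · rintro ⟨rfl | h, h'⟩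
                exacts [Or.inl rfl, Or.inr ⟨h, h'⟩]
              · rintro (rfl | h)
                exacts [⟨Or.inl rfl, rfl⟩, ⟨Or.inr h.1, h.2⟩]
            rw [this]
            exact (x.1.2 _).insert h
          · refine (x.1.2 i).mono fun c hc => ⟨(Finset.mem_insert.1 hc.1).resolve_left ?_, hc.2⟩
            rintro rfl
            exact hi hc.2
        exact x.2 ⟨u, Subtype.ext hu⟩
    refine hS.top.push_inj hC.isClosedEmbedding_subtypeVal hj'
      (by rw [Subtype.range_val, compl_compl]) ?_ hc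
      (ih hO.isOpenEmbedding_subtypeVal Subtype.range_val (Hc.push_deg hj' hc) ?_)
    · push_cast [Nat.cast_sub hN]
      linarith
    · rw [Hc.push_push]
      exact e

end strata

theorem mem_EE_iff {u : Mat n fun _ => M} : u ∈ EE n M ↔
    ∀ i, LinearIndepOn ℂ (Fl.row u) {c | c ∈ (Finset.univ : Finset (Fl.CC n)) ∧ c.1 = i} := by
  refine forall_congr' fun i => ?_
  have : {c | c ∈ (Finset.univ : Finset (Fl.CC n)) ∧ c.1 = i} = range (Sigma.mk i) := by
    ext ⟨j, a⟩
    simp only [Finset.mem_univ, true_and, mem_ofPred_eq, mem_range]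
    exact ⟨fun h => h ▸ ⟨a, rfl⟩, fun ⟨_, h⟩ => (congrArg Sigma.fst h).symm⟩
  rw [this, linearIndepOn_range_iff sigma_mk_injective]
  refine ⟨fun h => ?_, fun h => ?_⟩
  · obtain ⟨B, hB⟩ := Fl.exists_right_inv h
    refine (vecMul_injective_iff (M := u i)).1 fun x y e => ?_
    have := congrArg (fun z => vecMul z B) e
    simpa only [vecMul_vecMul, hB, vecMul_one] using this
  · have := LinearIndependent.rank_matrix (M := u i) h
    refine LinearMap.range_eq_top (f := (u i).mulVecLin).1 (Submodule.eq_top_of_finrank_eq ?_)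
    rw [Module.finrank_fintype_fun_eq_card]
    exact this

/-- `Y × EE n M` looks like `Y × Mat n M` in high degrees -/
theorem push_inj_EE {Y : Type} [TopologicalSpace Y] [Nice Y] {D : ℕ} (hD : HasDim Y D)
    (hj : IsOpenEmbedding (Prod.map id Subtype.val : Y × EE n M → Y × Mat n fun _ => M)) {m : ℤ}
    (hm : D + 2 * ((∑ j, n j : ℕ) * M - M + (∑ j, n j : ℕ)) + 3 < m) {c : Hc (Y × EE n M)}
    (hc : c ∈ Hc.deg _ m) (e : Hc.push hj c = 0) : c = 0 := by
  refine push_inj_indep continuous_fst (ρ := fun x => Fl.row x.2)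
    (continuous_pi fun c => (Fl.continuous_row c).comp continuous_snd)
    (fun x x' h h' => Prod.ext h (Fl.mat_ext (congrFun h'))) hD Sigma.fst Finset.univ hj ?_
    (by simpa only [Fintype.card_sigma, Fintype.card_fin] using hm) hc e
  ext x
  rw [mem_ofPred_eq, ← mem_EE_iff]
  exact ⟨fun ⟨y, hy⟩ => hy ▸ y.2.2, fun h => ⟨(x.1, ⟨x.2, h⟩), rfl⟩⟩

section euc

variable {X U : Type} [TopologicalSpace X] [TopologicalSpace U] [T2Space X] [LocallyCompactSpace X]

/-- a functional which does not vanish on a Euclidean chart does not vanish on smaller charts -/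
theorem Euc.exists_ne_zero {V E : Type} [TopologicalSpace V] [TopologicalSpace E] {r s : ℕ}
    (hV : Euc V r) (hE : Euc E s) {j : V → X} (hj : IsOpenEmbedding j) {e : E → V}
    (he : IsOpenEmbedding e) {β : BM X} (h : (Hc.push hj).dualMap β ≠ 0) :
    (Hc.push (hj.comp he)).dualMap β ≠ 0 := by
  have := hV.metrizable
  have := hV.locallyCompact
  intro h0
  refine h (LinearMap.ext fun c => ?_)
  obtain ⟨c, rfl⟩ := (hV.push_bijective hE he).2 c
  rw [LinearMap.dualMap_apply, Hc.push_push]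
  exact LinearMap.congr_fun h0 c

theorem Euc.exists_chart {V : Type} [TopologicalSpace V] {r : ℕ} (hV : Euc V r) {W : Set V}
    {v : V} (hW : W ∈ 𝓝 v) : ∃ e : (Fin r → ℂ) → V, IsOpenEmbedding e ∧ range e ⊆ W ∧ e 0 = v := by
  obtain ⟨φ⟩ := hV
  obtain ⟨ε, hε, h⟩ := exists_ball_chart (φ.symm.continuous.continuousAt.preimage_mem_nhds
    (x := φ v) (by rwa [φ.symm_apply_apply]))
  refine ⟨fun z => φ.symm (φ v + rad ε z), φ.symm.isOpenEmbedding.comp
    ((Homeomorph.addLeft (φ v)).isOpenEmbedding.comp (isOpenEmbedding_rad hε)), ?_, ?_⟩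
  · rintro _ ⟨z, rfl⟩
    exact h (by simpa using norm_rad_le hε z)
  · simp only [rad_zero, add_zero, φ.symm_apply_apply]

theorem push_dual_ne_zero_of_subset {V : Type} [TopologicalSpace V] {j : V → X}
    (hj : IsOpenEmbedding j) {j' : U → X} (hj' : IsOpenEmbedding j') (hr : range j ⊆ range j')
    {β : BM X} (h : (Hc.push hj).dualMap β ≠ 0) : (Hc.push hj').dualMap β ≠ 0 := by
  obtain ⟨c, hc⟩ := DFunLike.ne_iff.1 h
  obtain ⟨b, hb, hs, rfl⟩ := cls_surj_open' hj c
  rw [LinearMap.dualMap_apply, Hc.push_cls hj hb hs] at hc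
  exact push_dual_ne_zero hj' hb (hs.trans hr) hc

omit [T2Space X] [LocallyCompactSpace X] in
theorem BM.IsDeg.exists_ne_zero {k : ℤ} {β : BM X} (h : BM.IsDeg k β) (h0 : β ≠ 0) :
    ∃ c ∈ Hc.deg X k, β c ≠ 0 := by
  obtain ⟨c, hc⟩ := DFunLike.ne_iff.1 h0
  exact ⟨_, Hc.comp_mem k c, by rwa [h.comp]⟩

/-- open parts of Euclidean spaces with small complement -/
theorem Euc.eq_zero_of_inj {r : ℕ} (hX : Euc X r) {j : U → X} (hj : IsOpenEmbedding j) {k : ℤ}
    (hi : ∀ m, k ≤ m → ∀ c ∈ Hc.deg U m, Hc.push hj c = 0 → c = 0) {β : BM U}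
    (hβ : BM.IsDeg (2 * r) β) (h0 : β ≠ 0) {m : ℤ} (hm : k ≤ m) {c : Hc U} (hc : c ∈ Hc.deg U m)
    (e : β c = 0) : c = 0 := by
  obtain ⟨t, ht, -⟩ := hX.exists_gen hX.nonempty.some
  rcases ne_or_eq m (2 * r) with h | rfl
  · exact hi m hm c hc (ht.eq_zero h (Hc.push_deg hj hc))
  obtain ⟨c₀, h1, h2⟩ := hβ.exists_ne_zero h0
  obtain ⟨z, hz⟩ := ht.span (Hc.push hj c)
  obtain ⟨z₀, hz₀⟩ := ht.span (Hc.push hj c₀)
  have h3 : z₀ • c - z • c₀ = 0 := hi _ hm _
    (Submodule.sub_mem _ (Submodule.smul_mem _ _ hc) (Submodule.smul_mem _ _ h1)) (by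
      rw [map_sub, map_smul, map_smul, hz, hz₀, smul_comm, sub_self])
  have h4 := congrArg β h3
  rw [map_sub, map_smul, map_smul, e, smul_zero, zero_sub, map_zero, neg_eq_zero, smul_eq_mul,
    mul_eq_zero, or_iff_left h2] at h4
  exact hi _ hm c hc (by rw [hz, h4, zero_smul])

end euc

/-- tuples of matrices with the action by right multiplication -/
def RM (n a : J → ℕ) : Type := ∀ i, Matrix (Fin (n i) ⊕ Fin (a i)) (Fin (n i)) ℂ

section rm

variable {a : J → ℕ}

noncomputable instance : AddCommGroup (RM n a) := Pi.addCommGroup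

noncomputable instance : Module ℂ (RM n a) := Pi.module _ _ _

noncomputable instance : TopologicalSpace (RM n a) := Pi.topologicalSpace

instance : IsTopologicalAddGroup (RM n a) :=
  inferInstanceAs (IsTopologicalAddGroup (∀ i, Matrix (Fin (n i) ⊕ Fin (a i)) (Fin (n i)) ℂ))

instance : ContinuousSMul ℂ (RM n a) :=
  inferInstanceAs (ContinuousSMul ℂ (∀ i, Matrix (Fin (n i) ⊕ Fin (a i)) (Fin (n i)) ℂ))

instance : FiniteDimensional ℂ (RM n a) :=
  inferInstanceAs (FiniteDimensional ℂ (∀ i, Matrix (Fin (n i) ⊕ Fin (a i)) (Fin (n i)) ℂ))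

instance : Nice (RM n a) := inferInstanceAs (Nice (∀ i, Fin (n i) ⊕ Fin (a i) → Fin (n i) → ℂ))

noncomputable instance : MulAction (GG n) (RM n a) where
  smul g x i := x i * ((g i)⁻¹).1
  one_smul x := funext fun i => by
    show x i * (1 : GL _ ℂ)⁻¹.1 = _
    rw [inv_one, Units.val_one, Matrix.mul_one]
  mul_smul g h x := funext fun i => by
    show x i * (g i * h i)⁻¹.1 = x i * _ * _
    rw [_root_.mul_inv_rev, Units.val_mul, Matrix.mul_assoc]

theorem RM.smul_apply (g : GG n) (x : RM n a) (i : J) : (g • x) i = x i * ((g i)⁻¹).1 := rfl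

theorem RM.continuous_apply (i : J) : Continuous fun x : RM n a => x i := _root_.continuous_apply i

instance : ContinuousSMul (GG n) (RM n a) :=
  ⟨continuous_pi fun i => ((RM.continuous_apply i).comp continuous_snd).matrix_mul
    ((Fl.continuous_gg i).comp (continuous_fst (X := GG n)).inv)⟩

theorem RM.finrank : Module.finrank ℂ (RM n a) = ∑ i, (n i + a i) * n i := by
  refine (Module.finrank_pi_fintype ℂ).trans (Finset.sum_congr rfl fun i _ => ?_)
  simp [Module.finrank_matrix]

theorem RM.isOpen_det : IsOpen {x : RM n a | ∀ i, (x i).toRows₁.det ≠ 0} := by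
  simp only [ofPred_forall]
  exact isOpen_iInter_of_finite fun i => isOpen_ne_fun
    ((RM.continuous_apply i).matrix_submatrix _ _).matrix_det continuous_const

/-- the matrix with top block `1` -/
noncomputable def RM.one (A : Mat a n) : RM n a := fun i => fromRows 1 (A i)

theorem RM.continuous_one : Continuous (RM.one : Mat a n → RM n a) :=
  continuous_pi fun i => continuous_matrix fun p q => by
    rcases p with p | p
    · exact continuous_const
    · exact (Fl.continuous_mat i).matrix_elem p q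

theorem RM.top_smul_one (g : GG n) (A : Mat a n) (i : J) :
    ((g • RM.one A) i).toRows₁ = ((g i)⁻¹).1 := by
  rw [RM.smul_apply, RM.one, fromRows_mul, toRows₁_fromRows, Matrix.one_mul]

/-- the open part of the fibre -/
noncomputable def RM.emb (x : Mat a n × EE n M) : Bo n (RM n a) M := Bor.mk (GG n) (RM.one x.1, x.2)

/-- the top block as an element of the group -/
noncomputable def RM.top (x : RM n a) : GG n := fun i => GL0.toGL (x i).toRows₁

theorem RM.one_bot {x : RM n a} (hx : ∀ i, (x i).toRows₁.det ≠ 0) :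
    RM.one (fun i => ((RM.top x • x) i).toRows₂) = RM.top x • x := funext fun i => by
  have : ((RM.top x • x) i).toRows₁ = 1 := by
    rw [RM.smul_apply, ← fromRows_toRows (x i), fromRows_mul, toRows₁_fromRows,
      ← GL0.toGL_val (hx i)]
    exact Units.mul_inv _
  show fromRows 1 _ = _
  rw [← this, fromRows_toRows]

theorem RM.mk_mem_range_emb {x : RM n a} {u : EE n M} :
    Bor.mk (GG n) (x, u) ∈ range RM.emb ↔ ∀ i, (x i).toRows₁.det ≠ 0 := by
  constructor
  · rintro ⟨y, hy⟩ i
    obtain ⟨g, hg⟩ := Bor.mk_eq_iff.1 hy.symm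
    obtain rfl : g • RM.one y.1 = x := congrArg Prod.fst hg
    rw [RM.top_smul_one]
    exact GL0.det_gl_ne _
  · intro hx
    refine ⟨(fun i => ((RM.top x • x) i).toRows₂, RM.top x • u), ?_⟩
    rw [RM.emb, RM.one_bot hx]
    exact Bor.mk_smul (RM.top x) (x, u)

theorem RM.isOpenEmbedding_emb : IsOpenEmbedding (RM.emb : Mat a n × EE n M → _) := by
  let A : Set (RM n a × EE n M) := {y | ∀ i, (y.1 i).toRows₁.det ≠ 0}
  have ht : Continuous fun y : A => RM.top y.1.1 := continuous_pi fun i => GL0.continuous_toGL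
    (((RM.continuous_apply i).comp (continuous_fst.comp continuous_subtype_val)).matrix_submatrix
      _ _) fun y : A => y.2 i
  refine isOpenEmbedding_of_slice Bor.isOpenQuotientMap_mk
    (Bor.continuous_mk.comp (RM.continuous_one.prodMap continuous_id))
    (A := A) (RM.isOpen_det.preimage continuous_fst)
    (ρ := fun y => (fun i => ((RM.top y.1.1 • y.1.1) i).toRows₂, RM.top y.1.1 • y.1.2))
    ((Fl.continuous_mat_iff.2 fun i => ((RM.continuous_apply i).comp
      (ht.smul (continuous_fst.comp continuous_subtype_val))).matrix_submatrix _ _).prodMk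
      (ht.smul (continuous_snd.comp continuous_subtype_val))) (fun y b e => ?_) fun y => ?_
  · obtain ⟨g, rfl⟩ := Bor.mk_eq_iff.1 e
    have h1 : ∀ i, ((g • RM.one y.1) i).toRows₁.det ≠ 0 := fun i => by
      rw [RM.top_smul_one]
      exact GL0.det_gl_ne _
    have h2 : RM.top (g • RM.one y.1) = g⁻¹ := funext fun i => Units.ext (by
      rw [RM.top, GL0.toGL_val (h1 i), RM.top_smul_one, Pi.inv_apply])
    refine ⟨h1, ?_⟩
    simp only [Prod.smul_snd, Prod.smul_fst, h2, inv_smul_smul]
    exact Prod.ext (funext fun i => toRows₂_fromRows _ _) rfl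
  · show Bor.mk _ (RM.one _, _) = _
    rw [RM.one_bot y.2]
    exact Bor.mk_smul (RM.top y.1.1) y.1

/-- **Integration over the open part of the fibre.** -/
theorem RM.fibre {r : ℕ} (hr : Module.finrank ℂ (RM n a) = r) {β : BM (Bo n (RM n a) M)}
    (hβ : BM.IsDeg (2 * r + 2 * dimB n M) β) {b : Coch (Bo n (RM n a) M)} (hb : b ∈ Zc _)
    {p : Bo n (RM n a) M} (hs : supp b ⊆ {p}) (h : β (cls b) ≠ 0) :
    (∃ c, β (Hc.push RM.isOpenEmbedding_emb c) ≠ 0) ∧ ∀ m,
      2 * r + 2 * dimB n M - 2 * M + 2 * (∑ j, n j : ℕ) + 4 ≤ m → ∀ c ∈ Hc.deg _ m,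
        β (Hc.push RM.isOpenEmbedding_emb c) = 0 → c = 0 := by
  obtain ⟨⟨x, u⟩, rfl⟩ := Bor.mk_surjective p
  obtain ⟨F⟩ := nonempty_frame u
  have hE := (euc_Mat (n := n) fun j => M - n j).prod (euc_of_finrank _ hr)
  have h1 := push_dual_ne_zero (F.isOpenEmbedding_chart _) hb
    (hs.trans (singleton_subset_iff.2 ⟨_, F.chart_zero _ x⟩)) h
  obtain ⟨e, he, h2, -⟩ := hE.exists_chart (v := (0, RM.one 0))
    ((RM.isOpen_det.preimage continuous_snd).mem_nhds fun i => by
      show (fromRows 1 _).toRows₁.det ≠ 0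
      rw [toRows₁_fromRows, det_one]
      exact one_ne_zero)
  have h3 := push_dual_ne_zero_of_subset _ RM.isOpenEmbedding_emb ?_
    (hE.exists_ne_zero (euc_pi _) _ he h1)
  swap
  · rintro _ ⟨z, rfl⟩
    exact RM.mk_mem_range_emb.2 (h2 ⟨z, rfl⟩)
  have hd : (2 * r + 2 * dimB n M : ℤ) = 2 * (∑ j, a j * n j + ∑ j, n j * M : ℕ) := by
    rw [← hr, RM.finrank, dimB]
    push_cast
    rw [← mul_add, ← Finset.sum_add_distrib, ← Finset.sum_add_distrib]
    exact congrArg _ (Finset.sum_congr rfl fun _ _ => by ring)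
  have hj := IsOpenEmbedding.id (X := Mat a n).prodMap
    (GL0.isOpen_EE (n := n) (M := M)).isOpenEmbedding_subtypeVal
  refine ⟨DFunLike.ne_iff.1 h3, fun m hm c hc e => ((euc_Mat n).prod (euc_Mat _)).eq_zero_of_inj hj
    (fun m hm c hc => push_inj_EE (euc_Mat n).hasDim hj ?_ hc) ?_ h3 hm hc e⟩
  · rw [hd] at hm
    push_cast at hm ⊢
    rw [← Finset.sum_mul] at hm
    linarith
  · rw [← hd]
    exact BM.isDeg_iff.2 fun j hj c hc => BM.isDeg_iff.1 hβ j hj _ (Hc.push_deg _ hc)

end rm

end Vale.Agent.P291Z
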