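import Vale.Agent.P291Z.Ind0
import Vale.Agent.P291Z.EulVB
import Vale.Agent.P291Z.GL1
import Vale.Agent.P291Z.OpsC

/-!
# The induction isomorphism on the approximations
-/

set_option linter.unusedSectionVars false

namespace Vale.Agent.P291Z

open Set Function Topology Matrix
open scoped TensorProduct

section gen

variable {X Y : Type} [TopologicalSpace X] [TopologicalSpace Y]

/-- a homogeneous basis adapted to a functional -/
theorem Hc.exists_basis_dual {k : ℤ} {β : BM X} (hβ : BM.IsDeg k β) (h0 : β ≠ 0) :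
    ∃ (ι : Type) (b : Module.Basis ι ℂ (Hc X)) (t : ι → Coch X) (d : ι → ℤ) (a₀ : ι),
      (∀ j, t j ∈ Zc X ∧ IsDeg (d j) (t j) ∧ 0 ≤ d j ∧ cls (t j) = b j) ∧ d a₀ = k ∧
      β (b a₀) = 1 ∧ ∀ a, a ≠ a₀ → β (b a) = 0 := by
  classical
  obtain ⟨ι, b, t, d, h⟩ := Hc.exists_basis X
  obtain ⟨a₀, ha⟩ : ∃ a₀, β (b a₀) ≠ 0 := by
    by_contra! H
    exact h0 (b.ext H)
  have hd : ∀ a, β (b a) ≠ 0 → d a = k := fun a ha => by
    by_contra H
    exact ha (BM.isDeg_iff.1 hβ _ H _ ((h a).2.2.2 ▸ cls_mem_deg (h a).2.1))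
  let φ : Hc X →ₗ[ℂ] Hc X := LinearMap.id + ((β (b a₀))⁻¹ • (b.coord a₀ - β)).smulRight (b a₀)
  have hφ : ∀ c, φ c = c + ((β (b a₀))⁻¹ * (b.repr c a₀ - β c)) • b a₀ := fun c => rfl
  have h1 : ∀ c, β (φ c) = b.repr c a₀ := fun c => by
    rw [hφ, map_add, map_smul, smul_eq_mul]
    field_simp
    ring
  have hb : Bijective φ := by
    refine ⟨(injective_iff_map_eq_zero φ).2 fun c hc => ?_,
      fun c => ⟨c + (β c - b.repr c a₀) • b a₀, ?_⟩⟩
    · have h2 := h1 c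
      rw [hc, map_zero] at h2
      have h3 := congrArg (fun c => b.repr c a₀) ((hφ c).symm.trans hc)
      simp only [map_add, map_smul, b.repr_self, Finsupp.add_apply, Finsupp.smul_apply,
        Finsupp.single_eq_same, smul_eq_mul, mul_one, map_zero, Finsupp.zero_apply, ← h2] at h3
      rw [hφ, ← h2, ← zero_add (_ * _), h3, zero_smul, add_zero] at hc
      exact hc
    · rw [hφ, add_assoc, ← add_smul]
      simp only [map_add, map_smul, b.repr_self, Finsupp.add_apply, Finsupp.smul_apply,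
        Finsupp.single_eq_same, smul_eq_mul, mul_one]
      rw [add_eq_left]
      refine smul_eq_zero_of_left ?_ _
      field_simp
      ring
  refine ⟨ι, b.map (LinearEquiv.ofBijective φ hb),
    fun a => t a + ((β (b a₀))⁻¹ * (b.repr (b a) a₀ - β (b a))) • t a₀, d, a₀, fun a => ⟨?_, ?_,
    (h a).2.2.1, ?_⟩, hd _ ha, ?_, fun a e => ?_⟩
  · exact (Zc X).add_mem (h a).1 ((Zc X).smul_mem _ (h a₀).1)
  · beta_reduce
    by_cases e : β (b a) = 0
    · have : a ≠ a₀ := fun H => ha (H ▸ e)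
      rw [e, b.repr_self, Finsupp.single_eq_of_ne this.symm, sub_self, mul_zero, zero_smul,
        add_zero]
      exact (h a).2.1
    · exact (h a).2.1.add (((hd a e).trans (hd _ ha).symm ▸ (h a₀).2.1 :).smul _)
  · rw [cls_add (h a).1 ((Zc X).smul_mem _ (h a₀).1), cls_smul _ (h a₀).1, (h a).2.2.2,
      (h a₀).2.2.2]
    rfl
  · exact (h1 _).trans (by simp)
  · exact (h1 _).trans (by simp [e.symm])

theorem BM.IsDeg.of_surjective {φ : Hc X →ₗ[ℂ] Hc Y} (hφ : Surjective φ) {r : ℤ}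
    (hd : ∀ k, ∀ c ∈ Hc.deg X k, φ c ∈ Hc.deg Y (k + r)) {k : ℤ} {β : BM X} (hβ : BM.IsDeg k β)
    {o : BM Y} (ho : ∀ c, o (φ c) = β c) : BM.IsDeg (k + r) o :=
  BM.isDeg_iff.2 fun j hj c hc => by
    obtain ⟨c, rfl⟩ := hφ c
    obtain ⟨c', h1, h2⟩ := Hc.exists_deg_of_range hd (k := j - r) (by rwa [sub_add_cancel])
    rw [← h2, ho]
    exact BM.isDeg_iff.1 hβ _ (by omega) _ h1

variable {X₁ X₂ : Type} [TopologicalSpace X₁] [TopologicalSpace X₂] [Nice X] [Nice X₁] [Nice X₂]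
  {p₁ : X → X₁} {p₂ : X → X₂} (hp : IsHomeomorph fun x => (p₁ x, p₂ x))

/-- the slant product -/
noncomputable def slant (β : BM X₂) : Hc X →ₗ[ℂ] Hc X₁ :=
  (TensorProduct.rid ℂ _).toLinearMap ∘ₗ LinearMap.lTensor _ β ∘ₗ
    (LinearEquiv.ofBijective _ (Hc.kunneth hp)).symm.toLinearMap

theorem slant_cross (β : BM X₂) (c : Hc X₁) (c' : Hc X₂) :
    slant hp β (Hc.cross (IsPr.of_isHomeomorph hp) c c') = β c' • c := by
  have : (LinearEquiv.ofBijective _ (Hc.kunneth hp)).symm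
      (Hc.cross (IsPr.of_isHomeomorph hp) c c') = c ⊗ₜ c' :=
    (LinearEquiv.symm_apply_eq _).2 rfl
  simp [slant, this]

theorem slant_dual (β₁ : BM X₁) (β₂ : BM X₂) :
    (slant hp β₂).dualMap β₁ = cross p₁ p₂ β₁ β₂ :=
  cross_ext hp fun c c' => by
    rw [LinearMap.dualMap_apply, slant_cross, map_smul, smul_eq_mul, mul_comm]

end gen

section thom

variable {G Z W P : Type} [Group G] [TopologicalSpace G] [TopologicalSpace Z] [MulAction G Z]
  [AddCommGroup W] [Module ℂ W] [TopologicalSpace W] [DistribMulAction G W] {r s : ℕ}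
  {V : SubMulAction G (Z × W)} [TopologicalSpace P] [MulAction G P] [Prin G P] [ContinuousSMul G Z]
  [Nice P] [Nice Z]

theorem isGen_thom_fibre (hW : IsRep G W s) (hV : IsSubVB V r) {X : Type} [AddCommGroup X]
    [Module ℂ X] [TopologicalSpace X] (e : X ≃L[ℂ] (Fin r → ℂ)) {z : Z} (u : P) {ψ : X →ₗ[ℂ] W}
    (hψ : Injective ψ) (h : ∀ w, (z, w) ∈ V ↔ w ∈ range ψ) :
    IsGen (2 * r) (pull (fun x => Bor.mk G (⟨(z, ψ x), (h _).2 ⟨x, rfl⟩⟩, u)) (thom V P)) := by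
  have := hW.cont
  have := hW.contSub V
  have := hV.nice' hW
  have h1 := ((isVB_fib hW hV).isGen_chart (isThom_thom hW hV)
    (φ := fun a => Bor.mk G (⟨(z, ψ (e.symm a)), (h _).2 ⟨_, rfl⟩⟩, u))
    ⟨z, u, ψ ∘ₗ e.symm.toLinearMap, hψ.comp e.symm.injective, fun w => (h w).trans
      ⟨fun ⟨x, hx⟩ => ⟨e x, by simpa using hx⟩, fun ⟨x, hx⟩ => ⟨_, hx⟩⟩,
      fun a => ⟨_, rfl⟩⟩).pull e.toHomeomorph.isHomeomorph
  rw [pull_pull] at h1
  convert h1 using 3
  funext x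
  simp

theorem isFib_base (u : P) : IsFib (Bor.map (MonoidHom.id G) (fun x => ((), x.2)) fun _ _ => rfl :
    Bor G Z P → Bor G Unit P) (Bor.mk G ((), u)) fun z => Bor.mk G (z, u) := by
  refine ⟨Bor.isClosedEmbedding_fibre u, Subset.antisymm ?_ fun x hx => ?_⟩
  · rintro _ ⟨z, rfl⟩
    rfl
  · obtain ⟨x, rfl⟩ := Bor.mk_surjective x
    obtain ⟨g, hg⟩ := Bor.mk_eq_iff.1 (show Bor.mk G ((), x.2) = Bor.mk G ((), u) from hx)
    exact ⟨g⁻¹ • x.1, (Bor.mk_smul g _).symm.trans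
      (congrArg _ (Prod.ext (smul_inv_smul g x.1) (congrArg Prod.snd hg :)))⟩

end thom

section prod

variable {G G₁ G₂ : Type} [Group G] [TopologicalSpace G] [Sys G] [Group G₁] [TopologicalSpace G₁]
  [Sys G₁] [Group G₂] [TopologicalSpace G₂] [Sys G₂] (S : SysProd G G₁ G₂)

/-- the inverse of the product decomposition of the group -/
noncomputable def SysProd.inv (g : G₁ × G₂) : G := S.homeo.homeomorph.symm g

theorem SysProd.continuous_inv : Continuous S.inv := S.homeo.homeomorph.symm.continuous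

theorem SysProd.π₁_inv (g : G₁ × G₂) : S.π₁ (S.inv g) = g.1 :=
  congrArg Prod.fst (S.homeo.homeomorph.apply_symm_apply g)

theorem SysProd.π₂_inv (g : G₁ × G₂) : S.π₂ (S.inv g) = g.2 :=
  congrArg Prod.snd (S.homeo.homeomorph.apply_symm_apply g)

theorem SysProd.ext {g g' : G} (h₁ : S.π₁ g = S.π₁ g') (h₂ : S.π₂ g = S.π₂ g') : g = g' :=
  S.homeo.injective (Prod.ext h₁ h₂)

/-- the second factor -/
noncomputable def SysProd.ι₂ : G₂ →* G where
  toFun g := S.inv (1, g)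
  map_one' := S.ext (by simp [S.π₁_inv]) (by simp [S.π₂_inv])
  map_mul' _ _ := S.ext (by simp [S.π₁_inv]) (by simp [S.π₂_inv])

theorem SysProd.π₁_ι₂ (g : G₂) : S.π₁ (S.ι₂ g) = 1 := S.π₁_inv _

theorem SysProd.π₂_ι₂ (g : G₂) : S.π₂ (S.ι₂ g) = g := S.π₂_inv _

/-- the inverse of the product decomposition of the approximations -/
noncomputable def SysProd.einv (M : ℕ) (u : Sys.P G₁ M × Sys.P G₂ M) : Sys.P G M :=
  (S.ehomeo M).homeomorph.symm u

theorem SysProd.continuous_einv (M : ℕ) : Continuous (S.einv M) :=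
  (S.ehomeo M).homeomorph.symm.continuous

theorem SysProd.e₁_einv (M : ℕ) (u) : S.e₁ M (S.einv M u) = u.1 :=
  congrArg Prod.fst ((S.ehomeo M).homeomorph.apply_symm_apply u)

theorem SysProd.e₂_einv (M : ℕ) (u) : S.e₂ M (S.einv M u) = u.2 :=
  congrArg Prod.snd ((S.ehomeo M).homeomorph.apply_symm_apply u)

theorem SysProd.eext {M : ℕ} {u u' : Sys.P G M} (h₁ : S.e₁ M u = S.e₁ M u')
    (h₂ : S.e₂ M u = S.e₂ M u') : u = u' := (S.ehomeo M).injective (Prod.ext h₁ h₂)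

variable {Z X Y : Type} [TopologicalSpace Z] [MulAction G₁ Z] [Nice Z] [ContinuousSMul G₁ Z]
  [TopologicalSpace X] [MulAction G X] [Nice X] [ContinuousSMul G X]
  [TopologicalSpace Y] [MulAction G₂ Y] [Nice Y] [ContinuousSMul G₂ Y]
  {q : X → Z} (hq : ∀ (g : G) x, q (g • x) = S.π₁ g • q x) {f : Y → X}
  (hf : ∀ (g : G₂) y, f (g • y) = S.ι₂ g • f y)

/-- the inclusion of a fibre -/
noncomputable def SysProd.fibre {M : ℕ} (u₁ : Sys.P G₁ M) : Bq G₂ Y M → Bq G X M :=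
  Bor.map S.ι₂ (fun x => (f x.1, S.einv M (u₁, x.2))) fun g x => Prod.ext (hf g x.1) (S.eext
    (by rw [Prod.smul_snd, Prod.smul_snd, S.e₁_smul, S.π₁_ι₂, one_smul, S.e₁_einv, S.e₁_einv])
    (by rw [Prod.smul_snd, Prod.smul_snd, S.e₂_smul, S.π₂_ι₂, S.e₂_einv, S.e₂_einv]))

theorem SysProd.isFib_fibre (hqc : Continuous q) {z : Z} (hi : IsFib q z f) {M : ℕ}
    (u₁ : Sys.P G₁ M) : IsFib (S.p₁ q hq M) (Bor.mk G₁ (z, u₁)) (S.fibre hf u₁) := by
  have hr : range (S.fibre hf u₁) = S.p₁ q hq M ⁻¹' {Bor.mk G₁ (z, u₁)} := by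
    refine Subset.antisymm ?_ fun x hx => ?_
    · rintro _ ⟨y, rfl⟩
      obtain ⟨y, rfl⟩ := Bor.mk_surjective y
      exact congrArg (Bor.mk G₁) (Prod.ext (hi.range_eq.subset ⟨y.1, rfl⟩) (S.e₁_einv M _))
    · obtain ⟨x, rfl⟩ := Bor.mk_surjective x
      obtain ⟨g, hg⟩ := Bor.mk_eq_iff.1
        (show Bor.mk G₁ (q x.1, S.e₁ M x.2) = Bor.mk G₁ (z, u₁) from hx)
      obtain ⟨h1, h2⟩ : g • z = q x.1 ∧ g • u₁ = S.e₁ M x.2 := Prod.ext_iff.1 hg
      obtain ⟨y, hy⟩ : (S.inv (g, 1))⁻¹ • x.1 ∈ range f := hi.range_eq.superset (by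
        rw [mem_preimage, hq, map_inv, S.π₁_inv, ← h1, inv_smul_smul]
        rfl)
      refine ⟨Bor.mk G₂ (y, S.e₂ M x.2), (Bor.mk_smul (S.inv (g, 1)) _).symm.trans
        (congrArg _ (Prod.ext ?_ (S.eext ?_ ?_)))⟩
      · exact (congrArg _ hy).trans (smul_inv_smul _ _)
      · rw [Prod.smul_snd, S.e₁_smul, S.π₁_inv, S.e₁_einv, h2]
      · rw [Prod.smul_snd, S.e₂_smul, S.π₂_inv, S.e₂_einv, one_smul]
  refine ⟨⟨?_, hr ▸ isClosed_singleton.preimage (S.continuous_p₁ hq hqc M)⟩, hr⟩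
  have := Prin.grp (G := G₁) (Sys.P G₁ M)
  have := Prin.grp (G := G) (Sys.P G M)
  obtain ⟨U, -, hu, hU, τ, hτc, hτ⟩ := Prin.loc (G := G₁) u₁
  let γ : X × Sys.P G M → G := fun a => S.inv (τ (S.e₁ M a.2) * (τ u₁)⁻¹, 1)
  let A : Set (X × Sys.P G M) := {a | S.e₁ M a.2 ∈ U ∧ (γ a)⁻¹ • a.1 ∈ range f}
  have hγ : Continuous fun a : A => γ a := S.continuous_inv.comp ((Continuous.mul
    (hτc.comp_continuous ((S.continuous_e₁ M).comp (continuous_snd.comp continuous_subtype_val))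
      fun a => a.2.1) continuous_const).prodMk continuous_const)
  refine isEmbedding_of_slice Bor.isOpenQuotientMap_mk (Bor.continuous_map' _
    ((hi.emb.continuous.comp continuous_fst).prodMk ((S.continuous_einv M).comp
      (continuous_const.prodMk continuous_snd)))) (A := A)
    (ρ := fun a => Bor.mk G₂ (hi.emb.isEmbedding.toHomeomorph.symm ⟨_, a.2.2⟩, S.e₂ M a.1.2))
    (Bor.continuous_mk.comp ((hi.emb.isEmbedding.toHomeomorph.symm.continuous.comp
      ((hγ.inv.smul (continuous_fst.comp continuous_subtype_val)).subtype_mk _)).prodMk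
      ((S.continuous_e₂ M).comp (continuous_snd.comp continuous_subtype_val)))) fun y a e => ?_
  obtain ⟨y, rfl⟩ := Bor.mk_surjective y
  obtain ⟨g, rfl⟩ := Bor.mk_eq_iff.1 e
  have h1 : S.e₁ M (g • S.einv M (u₁, y.2)) = S.π₁ g • u₁ := by rw [S.e₁_smul, S.e₁_einv]
  have h2 : (γ (g • (f y.1, S.einv M (u₁, y.2))))⁻¹ • g • f y.1 = f (S.π₂ g • y.1) := by
    rw [hf, smul_smul]
    refine congrArg (· • f y.1) (S.ext ?_ ?_)
    · simp only [γ, map_mul, map_inv, S.π₁_inv, S.π₁_ι₂, Prod.smul_snd, h1, hτ _ _ hu,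
        mul_inv_cancel_right, inv_mul_cancel]
    · simp only [γ, map_mul, map_inv, S.π₂_inv, S.π₂_ι₂, inv_one, one_mul]
  refine ⟨⟨by rw [Prod.smul_snd, h1]; exact hU _ _ hu, _, h2.symm⟩,
    (congrArg _ (Prod.ext ?_ ?_)).trans (Bor.mk_smul (S.π₂ g) y)⟩
  · exact (Homeomorph.symm_apply_eq _).2 (Subtype.ext h2)
  · exact (S.e₂_smul M g _).trans (congrArg _ (S.e₂_einv M _))

end prod

theorem IsRep.topGroup {G W : Type} [Group G] [TopologicalSpace G] [AddCommGroup W] [Module ℂ W]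
    [TopologicalSpace W] [DistribMulAction G W] {r : ℕ} (h : IsRep G W r) :
    IsTopologicalAddGroup W :=
  haveI := h.continuousAdd
  haveI := h.continuousSMul
  { toContinuousNeg := ContinuousNeg.of_continuousConstSMul ℂ W }

section ind

variable {J₂ : Type} [Fintype J₂] {n₂ : J₂ → ℕ} {G G₁ : Type} [Group G] [TopologicalSpace G] [Sys G]
  [Group G₁] [TopologicalSpace G₁] [Sys G₁] (S : SysProd G G₁ (GG n₂))
  {Z B W P : Type} [TopologicalSpace Z] [MulAction G₁ Z] [Nice Z] [ContinuousSMul G₁ Z]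
  [TopologicalSpace B] [MulAction G B] [Nice B] [ContinuousSMul G B]
  [AddCommGroup W] [Module ℂ W] [TopologicalSpace W] [DistribMulAction G W]
  [TopologicalSpace P] [MulAction G P] [Nice P] [ContinuousSMul G P]
  {b : B → Z} (hb : ∀ (g : G) y, b (g • y) = S.π₁ g • b y)
  (V : SubMulAction G (B × W)) (h0 : ∀ y, (y, 0) ∈ V) [Nice V] [ContinuousSMul G V] (j : P →[G] V)

/-- The fibres of `P ⊆ V` over `B` are the matrices with invertible top block. -/
def IndFib : Prop :=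
  ∀ y : B, ∃ (a : J₂ → ℕ)
    (ψ : (∀ i, Matrix (Fin (n₂ i) ⊕ Fin (a i)) (Fin (n₂ i)) ℂ) →ₗ[ℂ] W), Injective ψ ∧
    (∀ w, (y, w) ∈ V ↔ w ∈ range ψ) ∧
    (∀ (g : G) x, S.π₁ g = 1 → ψ (fun i => x i * ((S.π₂ g)⁻¹ i : Matrix _ _ ℂ)) = g • ψ x) ∧
    ∀ x h, (⟨(y, ψ x), h⟩ : V) ∈ range j ↔ ∀ i, (x i).toRows₁.det ≠ 0

theorem isHomeomorph_unit (hbh : IsHomeomorph b) : IsHomeomorph fun y => (b y, ()) :=
  (Homeomorph.prodUnique Z Unit).symm.isHomeomorph.comp hbh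

variable {V j} (hbh : IsHomeomorph b) {r s : ℕ} (hW : IsRep G W s) (hV : IsSubVB V r)
  (hj : IsOpenEmbedding j) (hf : IndFib S V j) {M : ℕ}
include hbh hW hV hj hf

/-- the fibres of `Bq G V M → Bq G₁ Z M` -/
theorem ind_fibre (x : Bq G₁ Z M) : ∃ (a : J₂ → ℕ) (i : Bo n₂ (RM n₂ a) M → Bq G V M),
    IsFib (S.p₁ b hb M ∘ vproj V _) x i ∧ Module.finrank ℂ (RM n₂ a) = r ∧
    (∀ z, S.p₂ (fun _ => ()) (fun _ _ => rfl) M (vproj V _ (i z)) = bpt (GG n₂) _ M z) ∧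
    range RM.emb = i ⁻¹' range (smap j M) ∧ (∀ y u, i (Bor.mk _ (y, u)) ∈ vzero V _ → y = 0) ∧
    ∀ u, IsGen (2 * r) (pull (fun y => i (Bor.mk _ (y, u))) (tho V M)) := by
  obtain ⟨⟨z, u₁⟩, rfl⟩ := Bor.mk_surjective x
  obtain ⟨y, rfl⟩ := hbh.surjective z
  obtain ⟨a, ψ, h1, h2, h3, h4⟩ : ∃ (a : J₂ → ℕ) (ψ : RM n₂ a →ₗ[ℂ] W), Injective ψ ∧
      (∀ w, (y, w) ∈ V ↔ w ∈ range ψ) ∧ (∀ (g : G) x, S.π₁ g = 1 → ψ (S.π₂ g • x) = g • ψ x) ∧
      ∀ x h, (⟨(y, ψ x), h⟩ : V) ∈ range j ↔ ∀ i, (x i).toRows₁.det ≠ 0 := hf y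
  have := hW.nice
  have := hW.topGroup
  have := hW.continuousSMul
  let f : RM n₂ a → V := fun x => ⟨(y, ψ x), (h2 _).2 ⟨x, rfl⟩⟩
  have hfe : ∀ (g : GG n₂) x, f (g • x) = S.ι₂ g • f x := fun g x => Subtype.ext (Prod.ext
    (hbh.injective (by
      show b y = b (S.ι₂ g • y)
      rw [hb, S.π₁_ι₂, one_smul])) (by
      have := h3 (S.ι₂ g) x (S.π₁_ι₂ g)
      rwa [S.π₂_ι₂] at this))
  have hψ := ψ.isClosedEmbedding_of_injective (LinearMap.ker_eq_bot.2 h1)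
  have hq : Continuous fun v : V => b v.1.1 := hbh.continuous.comp (by fun_prop)
  have hr : range f = (fun v : V => b v.1.1) ⁻¹' {b y} := by
    refine Subset.antisymm (by rintro _ ⟨x, rfl⟩; rfl) ?_
    rintro ⟨⟨y', w⟩, hw⟩ e
    obtain rfl : y' = y := hbh.injective e
    obtain ⟨x, rfl⟩ := (h2 w).1 hw
    exact ⟨x, rfl⟩
  have hi := S.isFib_fibre (q := fun v : V => b v.1.1) (fun g v => hb g v.1.1) hfe hq
    ⟨⟨IsEmbedding.of_comp (g := fun v : V => v.1.2)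
      ((continuous_const.prodMk hψ.continuous).subtype_mk _) (by fun_prop) hψ.isEmbedding,
      hr ▸ isClosed_singleton.preimage hq⟩, hr⟩ u₁
  have hk : Module.finrank ℂ (RM n₂ a) = r := by
    obtain ⟨T, e1, e2⟩ := hV.fibre y
    rw [← LinearMap.finrank_range_of_inj h1, ← e1]
    exact congrArg (fun T : Submodule ℂ W => Module.finrank ℂ T)
      (Submodule.ext fun w => (h2 w).symm.trans (e2 w))
  refine ⟨a, S.fibre hfe u₁, ?_, hk, fun z => ?_, Set.ext fun z => ?_, fun x u h => ?_, fun u => ?_⟩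
  · refine (congrArg (fun φ => IsFib φ _ _) (funext fun x => ?_)).mpr hi
    obtain ⟨x, rfl⟩ := Bor.mk_surjective x
    rfl
  · obtain ⟨z, rfl⟩ := Bor.mk_surjective z
    exact congrArg (fun v => Bor.mk (GG n₂) ((), v)) (S.e₂_einv M (u₁, z.2))
  · obtain ⟨⟨x, u⟩, rfl⟩ := Bor.mk_surjective z
    rw [RM.mk_mem_range_emb, ← h4 x (f x).2, mem_preimage, range_smap]
    refine ⟨fun h => ⟨_, h, rfl⟩, ?_⟩
    rintro ⟨v, ⟨p, hp⟩, e⟩
    obtain ⟨g, hg⟩ := Bor.mk_eq_iff.1 e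
    exact ⟨g • p, (j.map_smul g p).trans ((congrArg _ hp).trans (congrArg Prod.fst hg :))⟩
  · exact h1 ((mk_mem_vzero.1 h).trans (map_zero ψ).symm)
  · exact isGen_thom_fibre hW hV (ContinuousLinearEquiv.ofFinrankEq (by simpa using hk))
      (S.einv M (u₁, u)) h1 h2

/-- **The induction isomorphism in high degrees** -/
theorem ind_level {β : BM (Bo n₂ Unit M)} (hβ : BM.IsDeg (2 * dimB n₂ M) β)
    {c₀ : Coch (Bo n₂ Unit M)} (hc₀ : c₀ ∈ Zc _) {p₀ : Bo n₂ Unit M} (hs₀ : supp c₀ ⊆ {p₀})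
    (hβ₀ : β (cls c₀) ≠ 0) {N : ℕ} (hN : HasDim (Bq G₁ Z M) N)
    {θ : Hc (Bq G V M) →ₗ[ℂ] Hc (Bq G B M)}
    (hθ : ∀ c, θ (cgys (smap (zs V h0) M) (tho V M) c) = c) {m : ℤ}
    (hm : 2 * r + 2 * dimB n₂ M - 2 * M + 2 * (∑ i, n₂ i : ℕ) + N + 7 ≤ m) :
    (∀ c ∈ Hc.deg _ m, slant (S.isHomeomorph hb (fun _ _ => rfl) (isHomeomorph_unit hbh) M) β
      (θ (cext (smap j M) c)) = 0 → c = 0) ∧
    ∀ e ∈ Hc.deg _ (m - (2 * dimB n₂ M + 2 * r)), ∃ c, slant (S.isHomeomorph hb (fun _ _ => rfl)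
      (isHomeomorph_unit hbh) M) β (θ (cext (smap j M) c)) = e := by
  have hp := S.isHomeomorph hb (b₂ := fun _ => ()) (fun _ _ => rfl) (isHomeomorph_unit hbh) M
  have hp' := IsPr.of_isHomeomorph hp
  have := hW.cont
  have hπ : Continuous (vproj V (Sys.P G M)) := continuous_vproj
  have hT : IsThom _ _ (tho V M) := isThom_thom hW hV
  have hpr := (isVB_fib hW hV).thom_prop hT
  obtain ⟨ι, y, t, d, a₀, ht, hd, h1, h2⟩ := Hc.exists_basis_dual hβ
    (DFunLike.ne_iff.2 ⟨_, hβ₀⟩)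
  choose a i hi hr hb' ho hz hg using ind_fibre S hb hbh hW hV hj hf (M := M)
  have D : LHData (S.p₁ b hb M ∘ vproj V _) (fun α => pull (S.p₂ (fun _ => ()) (fun _ _ => rfl) M ∘
      vproj V _) (t α) * tho V M) fun α => d α + 2 * r :=
    ⟨hp'.cont₁.comp hπ, fun α => cocycle_mul (cocycle_pull (hp'.cont₂.comp hπ) (ht α).1.2) hT.1,
      fun α K hK => (hpr _ (isCompact_cross hp hK (ht α).1.1)).of_isClosed_subset
        ((isClosed_supp _).inter (hK.isClosed.preimage (hp'.cont₁.comp hπ))) fun x hx =>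
        ⟨(supp_mul _ _ hx.1).2, hx.2, supp_pull (hp'.cont₂.comp hπ) _ (supp_mul _ _ hx.1).1⟩,
      fun α => ((ht α).2.1.pull _).mul (isDeg_thom hW hV), fun α => by
        have := (ht α).2.2.1
        positivity⟩
  have hic := fun x => (hi x).emb.continuous
  have k1 : ∀ x, supp (δ (pull (i x) (tho V M))) = ∅ := fun x => cocycle_pull (hic x) hT.1
  have k2 : ∀ x, (Fam.prop (bpt (GG n₂) _ M)).mem (supp (pull (i x) (tho V M))) := fun x K hK =>
    ((hi x).emb.isCompact_preimage (hpr _ (isCompact_cross hp (isCompact_singleton (x := x))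
      hK))).of_isClosed_subset ((isClosed_supp _).inter (hK.isClosed.preimage (continuous_bpt M)))
      fun z hz => ⟨supp_pull (hic x) _ hz.1, (hi x).range_eq.subset ⟨z, rfl⟩, by
        rw [mem_preimage, hb']; exact hz.2⟩
  have k3 : ∀ x, Bijective (Hc.pullMul (continuous_bpt M) (k1 x) (k2 x)) := fun x => by
    choose u hu using fun z : Bo n₂ Unit M => Bor.mk_surjective z
    exact Hc.pullMul_bijective_of_isGen (i := fun z y => Bor.mk _ (y, (u z).2)) _
      (fun z => (congrArg (fun w => IsFib _ w _) (hu z)).mp (isFib_base (u z).2)) _ _ ((isDeg_thom hW hV).pull _) (by positivity)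
      fun z => by rw [pull_pull]; exact hg x _
  let E := fun x => LinearEquiv.ofBijective _ (k3 x)
  have k4 : ∀ x {c}, c ∈ Zc _ → cls (pull (i x) (pull (S.p₂ (fun _ => ()) (fun _ _ => rfl) M ∘
      vproj V _) c * tho V M)) = E x (cls c) := fun x c hc => by
    rw [LinearEquiv.ofBijective_apply, Hc.pullMul_cls _ _ _ hc, map_mul, pull_pull]
    exact congrArg (fun φ => cls (pull φ c * _)) (funext (hb' x))
  have k5 : ∀ x, (fun α => cls (pull (i x) (pull (S.p₂ (fun _ => ()) (fun _ _ => rfl) M ∘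
      vproj V _) (t α) * tho V M))) = y.map (E x) := fun x => funext fun α => by
    rw [k4 x (ht α).1, (ht α).2.2.2, Module.Basis.map_apply]
  have hs := fun x => (y.map (E x)).span_eq.ge
  have hl := fun x => (y.map (E x)).linearIndependent
  simp only [← k5] at hs hl
  let o := fun x => β ∘ₗ (E x).symm.toLinearMap
  have k6 : ∀ x c, o x (E x c) = β c := fun x c => congrArg β ((E x).symm_apply_apply c)
  obtain ⟨⟨_, u⟩, rfl⟩ := Bor.mk_surjective p₀
  have k7 := fun x => RM.fibre (hr x) (β := o x) (add_comm (2 * r : ℤ) _ ▸ hβ.of_surjective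
    (k3 x).2 (fun k c => Hc.pullMul_deg _ _ _ ((isDeg_thom hW hV).pull _)) (k6 x))
    (pull_mul_Zc (continuous_bpt M) (k1 x) (k2 x) hc₀) (p := Bor.mk _ (0, u)) (fun z h => by
      obtain ⟨w, rfl⟩ := (isFib_base u).range_eq.superset
        (hs₀ (supp_pull (continuous_bpt M) _ (supp_mul _ _ h).1))
      rw [hz x w u (hT.2.1 (supp_pull (hic x) _ (supp_mul _ _ h).2))]
      rfl) (by
      rw [← Hc.pullMul_cls (continuous_bpt M) (k1 x) (k2 x) hc₀]
      exact (k6 x _).trans_ne hβ₀)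
  have hzs : IsClosedEmbedding (smap (zs V h0) M) := LeftInverse.isClosedEmbedding
    (vproj_zsec h0) hπ (Bor.continuous_map' _ (Continuous.prodMk (Continuous.subtype_mk
      (by fun_prop) _) continuous_snd))
  have hz' : supp (tho V M) ⊆ range (smap (zs V h0) M) := hT.2.1.trans (range_zsec h0).ge
  have k8 : ∀ v, slant hp β (θ (D.map v)) = v a₀ := fun v => by
    classical
    induction v using Finsupp.induction_linear with
    | zero => simp
    | add v w hv hw => simp only [map_add, hv, hw, Finsupp.add_apply]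
    | single α c =>
      obtain ⟨c, hc, rfl⟩ := cls_surj c
      have : D.map (Finsupp.single α (cls c)) =
          cgys (smap (zs V h0) M) (tho V M) (Hc.cross hp' (cls c) (y α)) := by
        rw [D.map_single, Hc.pullMul_cls _ _ _ hc, cgys_eq hzs hT.1 hz',
          Hc.gys_eq_pullMul hπ hzs (vproj_zsec h0) _ _ hpr, ← (ht α).2.2.2,
          Hc.cross_cls _ hc (ht α).1, Hc.pullMul_cls _ _ _ (cross_Zc hp' hc (ht α).1), map_mul,
          pull_pull, pull_pull, mul_assoc]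
      rw [this, hθ, slant_cross]
      rcases eq_or_ne α a₀ with rfl | e
      · rw [h1, one_smul, Finsupp.single_eq_same]
      · rw [h2 _ e, zero_smul, Finsupp.single_eq_of_ne e.symm]
  have hj' := isOpenEmbedding_smap hj M
  have ho₁ : ∀ x, o x (cls (pull (i x) (pull (S.p₂ (fun _ => ()) (fun _ _ => rfl) M ∘
      vproj V _) (t a₀) * tho V M))) = 1 := fun x => by
    rw [k4 x (ht _).1, k6, (ht _).2.2.2, h1]
  have ho₂ : ∀ x α, α ≠ a₀ → o x (cls (pull (i x) (pull (S.p₂ (fun _ => ()) (fun _ _ => rfl) M ∘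
      vproj V _) (t α) * tho V M))) = 0 := fun x α e => by
    rw [k4 x (ht _).1, k6, (ht _).2.2.2, h2 _ e]
  rw [cext_eq hj']
  refine ⟨fun c hc e => ?_, fun e he => ?_⟩
  · obtain ⟨v, hv⟩ := (D.map_bijective hi hs hl).2 (Hc.push hj' c)
    exact D.coord_inj hi hN hs hl ho₁ ho₂ hj' (fun _ => RM.isOpenEmbedding_emb) ho
      (fun x => (k7 x).2) (fun x => (k7 x).1) (by omega) hc hv (by rw [← k8, hv, e])
  · obtain ⟨c, -, v, hv, e1⟩ := D.coord_surj hi hN hs hl ho₁ ho₂ hj'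
      (fun _ => RM.isOpenEmbedding_emb) ho (fun x => (k7 x).2) (fun x => (k7 x).1) (n := m)
      (by omega) (hd ▸ he)
    exact ⟨c, by rw [← hv, k8, e1]⟩

end ind

end Vale.Agent.P291Z
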