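import Mathlib

/-!
# Kempf-Ness for quiver representations: matrix algebra
-/

set_option linter.unusedSectionVars false

namespace Vale.Agent.P291Z.KN

open Matrix

section matrices

variable {m n : Type} [Fintype m] [Fintype n]

/-- The square of the Frobenius norm. -/
noncomputable def fro (x : Matrix m n ℂ) : ℝ := ∑ p, ∑ r, ‖x p r‖ ^ 2

theorem fro_nonneg (x : Matrix m n ℂ) : 0 ≤ fro x :=
  Finset.sum_nonneg fun _ _ => Finset.sum_nonneg fun _ _ => sq_nonneg _

theorem mul_conj_eq (a : ℂ) : a * star a = ((‖a‖ ^ 2 : ℝ) : ℂ) := by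
  rw [Complex.star_def, Complex.mul_conj, Complex.normSq_eq_norm_sq]

theorem trace_diag_left [DecidableEq m] (d : m → ℂ) (x : Matrix m n ℂ) :
    (diagonal d * (x * xᴴ)).trace = ∑ p, ∑ r, ((‖x p r‖ ^ 2 : ℝ) : ℂ) * d p := by
  unfold Matrix.trace
  refine Finset.sum_congr rfl fun p _ => ?_
  rw [diag_apply, diagonal_mul, mul_apply, Finset.mul_sum]
  refine Finset.sum_congr rfl fun r _ => ?_
  rw [conjTranspose_apply, mul_conj_eq, mul_comm]

theorem trace_diag_right [DecidableEq n] (d : n → ℂ) (x : Matrix m n ℂ) :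
    (diagonal d * (xᴴ * x)).trace = ∑ p, ∑ r, ((‖x p r‖ ^ 2 : ℝ) : ℂ) * d r := by
  rw [Finset.sum_comm]
  unfold Matrix.trace
  refine Finset.sum_congr rfl fun r _ => ?_
  rw [diag_apply, diagonal_mul, mul_apply, Finset.mul_sum]
  refine Finset.sum_congr rfl fun p _ => ?_
  rw [conjTranspose_apply, mul_comm (star _), mul_conj_eq, mul_comm]

theorem fro_eq (x : Matrix m n ℂ) : (fro x : ℂ) = (x * xᴴ).trace := by
  classical
  have := trace_diag_left (fun _ => 1) x
  rw [diagonal_one, Matrix.one_mul] at this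
  rw [this, fro]
  simp

theorem fro_eq' (x : Matrix m n ℂ) : (fro x : ℂ) = (xᴴ * x).trace := by
  rw [fro_eq, trace_mul_comm]

theorem fro_conjTranspose (x : Matrix m n ℂ) : fro xᴴ = fro x := by
  apply Complex.ofReal_injective
  rw [fro_eq, fro_eq', conjTranspose_conjTranspose]

theorem fro_eq_zero {x : Matrix m n ℂ} (h : fro x = 0) : x = 0 := by
  ext p r
  have h1 := (Finset.sum_eq_zero_iff_of_nonneg fun p _ =>
    Finset.sum_nonneg fun r _ => sq_nonneg ‖x p r‖).1 h p (Finset.mem_univ _)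
  have h2 := (Finset.sum_eq_zero_iff_of_nonneg fun r _ => sq_nonneg ‖x p r‖).1 h1 r
    (Finset.mem_univ _)
  simpa using h2

variable [DecidableEq m] [DecidableEq n]

theorem fro_left {a : Matrix m m ℂ} (ha : aᴴ * a = 1) (x : Matrix m n ℂ) :
    fro (a * x) = fro x := by
  apply Complex.ofReal_injective
  rw [fro_eq', fro_eq', conjTranspose_mul, Matrix.mul_assoc, ← Matrix.mul_assoc aᴴ, ha,
    Matrix.one_mul]

theorem fro_right {b : Matrix n n ℂ} (hb : b * bᴴ = 1) (x : Matrix m n ℂ) :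
    fro (x * b) = fro x := by
  apply Complex.ofReal_injective
  rw [fro_eq, fro_eq, conjTranspose_mul, Matrix.mul_assoc, ← Matrix.mul_assoc b, hb,
    Matrix.one_mul]

theorem tr_left (ξ a : Matrix m m ℂ) {b : Matrix n n ℂ} (hb : b * bᴴ = 1) (x : Matrix m n ℂ) :
    (ξ * ((a * x * b) * (a * x * b)ᴴ)).trace = ((aᴴ * ξ * a) * (x * xᴴ)).trace := by
  have : (a * x * b) * (a * x * b)ᴴ = a * (x * xᴴ) * aᴴ := by
    rw [conjTranspose_mul, conjTranspose_mul]
    calc a * x * b * (bᴴ * (xᴴ * aᴴ)) = a * x * (b * bᴴ) * (xᴴ * aᴴ) := by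
          simp only [Matrix.mul_assoc]
      _ = a * (x * xᴴ) * aᴴ := by rw [hb]; simp only [Matrix.mul_assoc, Matrix.one_mul]
  rw [this, ← Matrix.mul_assoc, trace_mul_comm]
  simp only [Matrix.mul_assoc]

theorem tr_right (ξ b : Matrix n n ℂ) {a : Matrix m m ℂ} (ha : aᴴ * a = 1) (x : Matrix m n ℂ) :
    (ξ * ((a * x * b)ᴴ * (a * x * b))).trace = ((b * ξ * bᴴ) * (xᴴ * x)).trace := by
  have : (a * x * b)ᴴ * (a * x * b) = bᴴ * (xᴴ * x) * b := by
    rw [conjTranspose_mul, conjTranspose_mul]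
    calc bᴴ * (xᴴ * aᴴ) * (a * x * b) = bᴴ * (xᴴ * (aᴴ * a) * x) * b := by
          simp only [Matrix.mul_assoc]
      _ = bᴴ * (xᴴ * x) * b := by rw [ha]; simp only [Matrix.mul_assoc, Matrix.one_mul]
  rw [this, ← Matrix.mul_assoc, trace_mul_comm]
  simp only [Matrix.mul_assoc]

/-- Spectral theorem in elementary form. -/
theorem herm_diag {a : Matrix n n ℂ} (ha : aᴴ = a) :
    ∃ (u : Matrix n n ℂ) (d : n → ℝ), uᴴ * u = 1 ∧ u * uᴴ = 1 ∧
      a = uᴴ * diagonal (fun r => (d r : ℂ)) * u := by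
  have hA : a.IsHermitian := ha
  refine ⟨(hA.eigenvectorUnitary : Matrix n n ℂ)ᴴ, hA.eigenvalues, ?_, ?_, ?_⟩
  · rw [conjTranspose_conjTranspose]
    exact hA.eigenvectorUnitary.2.2
  · rw [conjTranspose_conjTranspose]
    exact hA.eigenvectorUnitary.2.1
  · rw [conjTranspose_conjTranspose]
    conv_lhs => rw [hA.spectral_theorem, Unitary.conjStarAlgAut_apply]
    rfl

/-- The decomposition `G = K A K`. -/
theorem kak {g h : Matrix n n ℂ} (hg : h * g = 1) :
    ∃ (k u : Matrix n n ℂ) (t : n → ℝ), kᴴ * k = 1 ∧ k * kᴴ = 1 ∧ uᴴ * u = 1 ∧ u * uᴴ = 1 ∧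
      g = k * diagonal (fun r => (Real.exp (t r) : ℂ)) * u := by
  obtain ⟨u, d, hu, hu', hd⟩ := herm_diag (a := gᴴ * g) (by
    rw [conjTranspose_mul, conjTranspose_conjTranspose])
  have hD : (g * uᴴ)ᴴ * (g * uᴴ) = diagonal (fun r => (d r : ℂ)) := by
    rw [conjTranspose_mul, conjTranspose_conjTranspose]
    calc u * gᴴ * (g * uᴴ) = u * (gᴴ * g) * uᴴ := by simp only [Matrix.mul_assoc]
      _ = (u * uᴴ) * diagonal (fun r => (d r : ℂ)) * (u * uᴴ) := by
          rw [hd]; simp only [Matrix.mul_assoc]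
      _ = _ := by rw [hu', Matrix.one_mul, Matrix.mul_one]
  have hpos : ∀ r, 0 < d r := by
    intro r
    have h1 : (d r : ℂ) = ((∑ p, ‖(g * uᴴ) p r‖ ^ 2 : ℝ) : ℂ) := by
      have := congrFun (congrFun hD r) r
      rw [diagonal_apply_eq, mul_apply] at this
      rw [← this, Complex.ofReal_sum]
      refine Finset.sum_congr rfl fun p _ => ?_
      rw [conjTranspose_apply, mul_comm, mul_conj_eq]
    have h2 : d r = ∑ p, ‖(g * uᴴ) p r‖ ^ 2 := Complex.ofReal_injective h1
    have h3 : 0 ≤ d r := h2 ▸ Finset.sum_nonneg fun p _ => sq_nonneg _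
    refine lt_of_le_of_ne h3 fun h0 => ?_
    rw [h2] at h0
    have h4 := (Finset.sum_eq_zero_iff_of_nonneg fun p _ => sq_nonneg ‖(g * uᴴ) p r‖).1 h0.symm
    have h5 : ∀ p, (g * uᴴ) p r = 0 := fun p => by simpa using h4 p (Finset.mem_univ _)
    have h6 : (u * h) * (g * uᴴ) = 1 := by
      rw [Matrix.mul_assoc, ← Matrix.mul_assoc h, hg, Matrix.one_mul, hu']
    have h7 := congrFun (congrFun h6 r) r
    rw [mul_apply, one_apply_eq] at h7
    simp [h5] at h7
  set t : n → ℝ := fun r => Real.log (d r) / 2 with ht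
  have he : ∀ r, Real.exp (t r) * Real.exp (t r) = d r := by
    intro r
    rw [← Real.exp_add, ht]
    simp only [add_halves]
    exact Real.exp_log (hpos r)
  set b : Matrix n n ℂ := diagonal (fun r => (Real.exp (-t r) : ℂ)) with hb
  have hbH : bᴴ = b := by
    rw [hb, diagonal_conjTranspose]
    congr 1
    funext r
    simp only [Pi.star_apply, Complex.star_def, Complex.conj_ofReal]
  have hk : (g * uᴴ * b)ᴴ * (g * uᴴ * b) = 1 := by
    rw [conjTranspose_mul (g * uᴴ), hbH]
    calc b * (g * uᴴ)ᴴ * (g * uᴴ * b) = b * ((g * uᴴ)ᴴ * (g * uᴴ)) * b := by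
          simp only [Matrix.mul_assoc]
      _ = 1 := by
          rw [hD, hb, diagonal_mul_diagonal, diagonal_mul_diagonal, ← diagonal_one]
          congr 1
          funext r
          rw [← he r, ← Complex.ofReal_mul, ← Complex.ofReal_mul, Real.exp_neg]
          have := (Real.exp_pos (t r)).ne'
          rw [← Complex.ofReal_one]
          congr 1
          field_simp
  refine ⟨g * uᴴ * b, u, t, hk, mul_eq_one_comm.1 hk, hu, hu', ?_⟩
  have h8 : b * diagonal (fun r => (Real.exp (t r) : ℂ)) = 1 := by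
    rw [hb, diagonal_mul_diagonal, ← diagonal_one]
    congr 1
    funext r
    rw [← Complex.ofReal_mul, ← Real.exp_add, neg_add_cancel, Real.exp_zero, Complex.ofReal_one]
  rw [Matrix.mul_assoc (g * uᴴ), h8, Matrix.mul_one, Matrix.mul_assoc, hu, Matrix.mul_one]

theorem norm_det_unitary {u : Matrix n n ℂ} (hu : uᴴ * u = 1) : ‖u.det‖ = 1 := by
  have h := congrArg Matrix.det hu
  rw [det_mul, det_conjTranspose, det_one, mul_comm, mul_conj_eq, ← Complex.ofReal_one] at h
  have h1 : ‖u.det‖ ^ 2 = 1 := Complex.ofReal_injective h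
  exact (pow_eq_one_iff_of_nonneg (norm_nonneg _) two_ne_zero).1 h1

theorem norm_det_exp (t : n → ℝ) :
    ‖(diagonal (fun r => (Real.exp (t r) : ℂ))).det‖ = Real.exp (∑ r, t r) := by
  rw [det_diagonal, ← Complex.ofReal_prod, Complex.norm_real, Real.exp_sum, Real.norm_eq_abs,
    abs_of_pos (Finset.prod_pos fun r _ => Real.exp_pos _)]

/-- Functions of a positive matrix do not depend on the diagonalization. -/
theorem diag_congr {u u' : Matrix n n ℂ} (hu : uᴴ * u = 1) (hu' : u'ᴴ * u' = 1) {t t' : n → ℝ}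
    (h : uᴴ * diagonal (fun r => (Real.exp (2 * t r) : ℂ)) * u =
      u'ᴴ * diagonal (fun r => (Real.exp (2 * t' r) : ℂ)) * u') (f : ℝ → ℂ) :
    uᴴ * diagonal (fun r => f (t r)) * u = u'ᴴ * diagonal (fun r => f (t' r)) * u' := by
  have hv := mul_eq_one_comm.1 hu
  have hv' := mul_eq_one_comm.1 hu'
  have h1 : (u' * uᴴ) * diagonal (fun r => (Real.exp (2 * t r) : ℂ)) =
      diagonal (fun r => (Real.exp (2 * t' r) : ℂ)) * (u' * uᴴ) := by
    have := congrArg (fun a => u' * a * uᴴ) h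
    simp only [Matrix.mul_assoc, hv, Matrix.mul_one] at this
    rw [← Matrix.mul_assoc u' u'ᴴ, hv', Matrix.one_mul] at this
    rw [Matrix.mul_assoc, this]
  have h2 : (u' * uᴴ) * diagonal (fun r => f (t r)) =
      diagonal (fun r => f (t' r)) * (u' * uᴴ) := by
    ext p r
    have h3 := congrFun (congrFun h1 p) r
    rw [mul_diagonal, diagonal_mul] at h3 ⊢
    by_cases h0 : (u' * uᴴ) p r = 0
    · rw [h0, zero_mul, mul_zero]
    · rw [mul_comm] at h3
      have h4 := Real.exp_injective (Complex.ofReal_injective (mul_right_cancel₀ h0 h3))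
      have h5 : t r = t' p := by linarith
      rw [h5, mul_comm]
  have := congrArg (fun a => u'ᴴ * a * u) h2
  simp only [Matrix.mul_assoc, hu, Matrix.mul_one] at this
  rw [← Matrix.mul_assoc u'ᴴ u', hu', Matrix.one_mul] at this
  rw [Matrix.mul_assoc, this, Matrix.mul_assoc]

theorem isCompact_unitary : IsCompact {u : Matrix n n ℂ | uᴴ * u = 1} := by
  have h1 : IsCompact (Set.pi Set.univ fun _ : n =>
      Set.pi Set.univ fun _ : n => Metric.closedBall (0 : ℂ) 1) :=
    isCompact_univ_pi fun _ => isCompact_univ_pi fun _ => isCompact_closedBall 0 1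
  refine IsCompact.of_isClosed_subset (s := (Set.pi Set.univ fun _ : n =>
      Set.pi Set.univ fun _ : n => Metric.closedBall (0 : ℂ) 1 : Set (Matrix n n ℂ))) h1
    (isClosed_eq (by fun_prop) continuous_const) ?_
  intro u hu p _ r _
  rw [mem_closedBall_zero_iff]
  exact entry_norm_bound_of_unitary (U := u) (mem_unitaryGroup_iff'.2 hu) p r

end matrices

end Vale.Agent.P291Z.KN
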