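import Mathlib

/-!
# Kempf-Ness for tori: properness, critical points, uniqueness
-/

namespace Vale.Agent.P291Z.KN

open Filter Topology

/-- Layer cake inequality. -/
theorem layer_le {C : Type} [Fintype C] (w : C → ℝ) :
    ∀ (n : ℕ) (f : C → ℝ), (Finset.univ.filter fun c => f c ≠ 0).card ≤ n → (∀ c, 0 ≤ f c) →
      (∀ r, 0 ≤ r → ∑ c ∈ Finset.univ.filter (fun c => r < f c), w c ≤ 0) →
      ∑ c, w c * f c ≤ 0 ∧ ((∃ c, f c ≠ 0) →
        ∑ c ∈ Finset.univ.filter (fun c => 0 < f c), w c < 0 → ∑ c, w c * f c < 0) := by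
  classical
  intro n
  induction n with
  | zero =>
    intro f hn _ _
    have h0 : ∀ c, f c = 0 := by
      intro c
      by_contra hc
      have : c ∈ Finset.univ.filter fun c => f c ≠ 0 := by simp [hc]
      rw [Finset.card_eq_zero.1 (Nat.le_zero.1 hn)] at this
      simp at this
    refine ⟨by simp [h0], ?_⟩
    rintro ⟨c, hc⟩
    exact absurd (h0 c) hc
  | succ n ih =>
    intro f hn hf hw
    by_cases hne : (Finset.univ.filter fun c => f c ≠ 0).Nonempty
    · obtain ⟨c0, hc0, hmin⟩ := Finset.exists_min_image _ f hne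
      have hc0' : f c0 ≠ 0 := (Finset.mem_filter.1 hc0).2
      have hm : 0 < f c0 := lt_of_le_of_ne (hf c0) (Ne.symm hc0')
      set g : C → ℝ := fun c => if f c = 0 then 0 else f c - f c0 with hg
      have hg0 : ∀ c, 0 ≤ g c := by
        intro c
        simp only [hg]
        split_ifs with h
        · exact le_rfl
        · exact sub_nonneg.2 (hmin c (by simp [h]))
      have hcard : (Finset.univ.filter fun c => g c ≠ 0).card ≤ n := by
        have hsub : (Finset.univ.filter fun c => g c ≠ 0) ⊆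
            (Finset.univ.filter fun c => f c ≠ 0).erase c0 := by
          intro c hc
          have h1 : g c ≠ 0 := (Finset.mem_filter.1 hc).2
          refine Finset.mem_erase.2 ⟨?_, ?_⟩
          · rintro rfl
            exact h1 (by simp [hg])
          · refine Finset.mem_filter.2 ⟨Finset.mem_univ _, fun h => h1 (by simp [hg, h])⟩
        have := Finset.card_le_card hsub
        rw [Finset.card_erase_of_mem hc0] at this
        omega
      have hgw : ∀ r, 0 ≤ r → ∑ c ∈ Finset.univ.filter (fun c => r < g c), w c ≤ 0 := by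
        intro r hr
        have := hw (r + f c0) (by linarith)
        refine le_of_eq_of_le (Finset.sum_congr ?_ fun _ _ => rfl) this
        ext c
        simp only [Finset.mem_filter, Finset.mem_univ, true_and, hg]
        split_ifs with h
        · constructor
          · intro h1; linarith
          · intro h1; rw [h] at h1; linarith
        · constructor <;> intro h1 <;> linarith
      have h1 := (ih g hcard hg0 hgw).1
      have h2 : ∑ c, w c * f c =
          ∑ c, w c * g c + f c0 * ∑ c ∈ Finset.univ.filter (fun c => 0 < f c), w c := by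
        rw [Finset.sum_filter, Finset.mul_sum, ← Finset.sum_add_distrib]
        refine Finset.sum_congr rfl fun c _ => ?_
        simp only [hg]
        by_cases h : f c = 0
        · simp [h]
        · have : 0 < f c := lt_of_le_of_ne (hf c) (Ne.symm h)
          rw [if_neg h, if_pos this]; ring
      have h3 := hw 0 le_rfl
      refine ⟨?_, fun _ h4 => ?_⟩
      · rw [h2]; nlinarith
      · rw [h2]; nlinarith
    · have h0 : ∀ c, f c = 0 := by
        intro c
        by_contra hc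
        exact hne ⟨c, by simp [hc]⟩
      refine ⟨by simp [h0], ?_⟩
      rintro ⟨c, hc⟩
      exact absurd (h0 c) hc

/-- The pairing of `θ` with a nonzero real weight `s` is negative if it is so for all the steps of
the filtration defined by `s`. -/
theorem layer {C : Type} [Fintype C] (θ s : C → ℝ) (hs : s ≠ 0)
    (h1 : ∀ r, 0 ≤ r → (∃ c, s c < -r) → 0 < ∑ c ∈ Finset.univ.filter (fun c => s c < -r), θ c)
    (h2 : ∀ r, 0 ≤ r → (∃ c, r < s c) → ∑ c ∈ Finset.univ.filter (fun c => r < s c), θ c < 0) :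
    ∑ c, θ c * s c < 0 := by
  classical
  have hp := layer_le θ _ (fun c => max (s c) 0) le_rfl (fun c => le_max_right _ _) (by
    intro r hr
    have e : Finset.univ.filter (fun c => r < max (s c) 0) =
        Finset.univ.filter (fun c => r < s c) := by
      ext c
      simp only [Finset.mem_filter, Finset.mem_univ, true_and, lt_max_iff]
      constructor
      · rintro (h | h)
        · exact h
        · linarith
      · exact fun h => Or.inl h
    rw [e]
    by_cases h : ∃ c, r < s c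
    · exact (h2 r hr h).le
    · rw [Finset.filter_eq_empty_iff.2 (fun c _ hc => h ⟨c, hc⟩)]; simp)
  have hn := layer_le (fun c => -θ c) _ (fun c => max (-s c) 0) le_rfl
    (fun c => le_max_right _ _) (by
    intro r hr
    have e : Finset.univ.filter (fun c => r < max (-s c) 0) =
        Finset.univ.filter (fun c => s c < -r) := by
      ext c
      simp only [Finset.mem_filter, Finset.mem_univ, true_and, lt_max_iff]
      constructor
      · rintro (h | h) <;> linarith
      · exact fun h => Or.inl (by linarith)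
    rw [e, Finset.sum_neg_distrib]
    by_cases h : ∃ c, s c < -r
    · linarith [h1 r hr h]
    · rw [Finset.filter_eq_empty_iff.2 (fun c _ hc => h ⟨c, hc⟩)]; simp)
  have e : ∑ c, θ c * s c = ∑ c, θ c * max (s c) 0 + ∑ c, -θ c * max (-s c) 0 := by
    rw [← Finset.sum_add_distrib]
    refine Finset.sum_congr rfl fun c _ => ?_
    rcases le_total (s c) 0 with h | h
    · rw [max_eq_right h, max_eq_left (by linarith)]; ring
    · rw [max_eq_left h, max_eq_right (by linarith)]; ring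
  rw [e]
  obtain ⟨c, hc⟩ := Function.ne_iff.1 hs
  rcases lt_or_gt_of_ne hc with h | h
  · have h' : s c < 0 := h
    have := hn.2 ⟨c, by rw [max_eq_left (by linarith)]; linarith⟩ (by
      have e : Finset.univ.filter (fun c => 0 < max (-s c) 0) =
          Finset.univ.filter (fun c => s c < -0) := by
        ext c
        simp
      rw [e, Finset.sum_neg_distrib]
      linarith [h1 0 le_rfl ⟨c, by linarith⟩])
    linarith [hp.1]
  · have h' : 0 < s c := h
    have := hp.2 ⟨c, by rw [max_eq_left h'.le]; linarith⟩ (by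
      have e : Finset.univ.filter (fun c => 0 < max (s c) 0) =
          Finset.univ.filter (fun c => 0 < s c) := by
        ext c
        simp
      rw [e]
      exact h2 0 le_rfl ⟨c, h'⟩)
    linarith [hn.1]

variable {A T : Type} [Fintype A] [NormedAddCommGroup T] [NormedSpace ℝ T]
  (w : A → T →L[ℝ] ℝ) (θ : T →L[ℝ] ℝ)

/-- The Kempf-Ness function of the torus. -/
noncomputable def psi (a : A → ℂ) (t : T) : ℝ :=
  ∑ ε, ‖a ε‖ ^ 2 * Real.exp (2 * w ε t) - 2 * θ t

/-- Stability for the torus. -/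
def Good (a : A → ℂ) : Prop := ∀ s : T, s ≠ 0 → (∀ ε, a ε ≠ 0 → w ε s ≤ 0) → θ s < 0

theorem continuous_psi : Continuous fun p : (A → ℂ) × T => psi w θ p.1 p.2 := by
  unfold psi
  fun_prop

variable {w θ}

theorem crit {a : A → ℂ} {s : T} (h : ∀ r : ℝ, psi w θ a 0 ≤ psi w θ a (r • s)) :
    ∑ ε, ‖a ε‖ ^ 2 * w ε s = θ s := by
  have hd : HasDerivAt (fun r : ℝ => psi w θ a (r • s))
      (∑ ε, ‖a ε‖ ^ 2 * (2 * w ε s) - 2 * θ s) 0 := by
    have e : (fun r : ℝ => psi w θ a (r • s)) = fun r : ℝ =>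
        ∑ ε, ‖a ε‖ ^ 2 * Real.exp (2 * w ε s * r) - 2 * θ s * r := by
      funext r
      unfold psi
      simp only [map_smul, smul_eq_mul]
      congr 1
      · refine Finset.sum_congr rfl fun ε _ => ?_
        congr 2; ring
      · ring
    rw [e]
    refine HasDerivAt.sub (HasDerivAt.fun_sum fun ε _ => HasDerivAt.const_mul _ ?_) ?_
    · have := ((hasDerivAt_id (0 : ℝ)).const_mul (2 * w ε s)).exp
      simpa using this
    · simpa using (hasDerivAt_id (0 : ℝ)).const_mul (2 * θ s)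
  have hmin : IsLocalMin (fun r : ℝ => psi w θ a (r • s)) 0 :=
    Filter.Eventually.of_forall fun r => by simpa using h r
  have := hmin.hasDerivAt_eq_zero hd
  have e : ∑ ε, ‖a ε‖ ^ 2 * (2 * w ε s) = 2 * ∑ ε, ‖a ε‖ ^ 2 * w ε s := by
    rw [Finset.mul_sum]
    exact Finset.sum_congr rfl fun ε _ => by ring
  linarith

theorem uniq {a : A → ℂ} (ha : Good w θ a) {t : T} (h1 : ∑ ε, ‖a ε‖ ^ 2 * w ε t = θ t)
    (h2 : ∑ ε, ‖a ε‖ ^ 2 * Real.exp (2 * w ε t) * w ε t = θ t) : t = 0 := by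
  have hnn : ∀ ε, 0 ≤ ‖a ε‖ ^ 2 * ((Real.exp (2 * w ε t) - 1) * w ε t) := by
    intro ε
    refine mul_nonneg (sq_nonneg _) ?_
    rcases le_total (w ε t) 0 with h | h
    · exact mul_nonneg_of_nonpos_of_nonpos
        (sub_nonpos.2 (Real.exp_le_one_iff.2 (by linarith))) h
    · exact mul_nonneg (sub_nonneg.2 (Real.one_le_exp (by linarith))) h
  have hsum : ∑ ε, ‖a ε‖ ^ 2 * ((Real.exp (2 * w ε t) - 1) * w ε t) = 0 := by
    have : ∑ ε, ‖a ε‖ ^ 2 * ((Real.exp (2 * w ε t) - 1) * w ε t) =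
        ∑ ε, ‖a ε‖ ^ 2 * Real.exp (2 * w ε t) * w ε t - ∑ ε, ‖a ε‖ ^ 2 * w ε t := by
      rw [← Finset.sum_sub_distrib]
      exact Finset.sum_congr rfl fun ε _ => by ring
    rw [this, h1, h2, sub_self]
  have hz := (Finset.sum_eq_zero_iff_of_nonneg fun ε _ => hnn ε).1 hsum
  have h0 : ∀ ε, a ε ≠ 0 → w ε t = 0 := by
    intro ε hε
    have := hz ε (Finset.mem_univ _)
    rcases mul_eq_zero.1 this with h | h
    · exact absurd (norm_eq_zero.1 (pow_eq_zero_iff (two_ne_zero) |>.1 h)) hε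
    · rcases mul_eq_zero.1 h with h | h
      · have : 2 * w ε t = 0 := (Real.exp_eq_one_iff _).1 (by linarith)
        linarith
      · exact h
  by_contra ht
  have h3 := ha t ht fun ε hε => (h0 ε hε).le
  have h4 := ha (-t) (neg_ne_zero.2 ht) fun ε hε => by rw [map_neg, h0 ε hε, neg_zero]
  rw [map_neg] at h4
  linarith

theorem proper [FiniteDimensional ℝ T] {C : Set (A → ℂ)} (hC : IsCompact C)
    (hg : ∀ a ∈ C, Good w θ a) (M : ℝ) :
    ∃ R, ∀ a ∈ C, ∀ t, psi w θ a t ≤ M → ‖t‖ ≤ R := by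
  by_contra hcon
  push Not at hcon
  choose a ha t hM ht using fun n : ℕ => hcon ((n : ℝ) + 1)
  have htp : ∀ n, 0 < ‖t n‖ := fun n => lt_trans (by positivity) (ht n)
  have hK : IsCompact (C ×ˢ Metric.sphere (0 : T) 1) := hC.prod (isCompact_sphere 0 1)
  obtain ⟨⟨a0, s⟩, ⟨ha0, hs⟩, φ, hφ, hlim⟩ := hK.tendsto_subseq
    (x := fun n => (a n, ‖t n‖⁻¹ • t n)) fun n => ⟨ha n, by
      simp [norm_smul, (htp n).ne']⟩
  have hla : Tendsto (fun n => a (φ n)) atTop (𝓝 a0) := (continuous_fst.tendsto _).comp hlim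
  have hls : Tendsto (fun n => ‖t (φ n)‖⁻¹ • t (φ n)) atTop (𝓝 s) :=
    (continuous_snd.tendsto _).comp hlim
  have hN : Tendsto (fun n => ‖t (φ n)‖) atTop atTop := by
    refine tendsto_atTop_mono (fun n => ?_) (tendsto_natCast_atTop_atTop (R := ℝ))
    have h1 : (n : ℝ) ≤ φ n := by exact_mod_cast hφ.id_le n
    linarith [ht (φ n)]
  have hinv : Tendsto (fun n => ‖t (φ n)‖⁻¹) atTop (𝓝 0) := hN.inv_tendsto_atTop
  have hs0 : s ≠ 0 := by
    rintro rfl
    simp at hs
  have hsum : ∀ n, 0 ≤ ∑ ε, ‖a n ε‖ ^ 2 * Real.exp (2 * w ε (t n)) := fun n =>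
    Finset.sum_nonneg fun ε _ => by positivity
  have hθ : Tendsto (fun n => θ (‖t (φ n)‖⁻¹ • t (φ n))) atTop (𝓝 (θ s)) :=
    (θ.continuous.tendsto _).comp hls
  have h1 : 0 ≤ θ s := by
    have h2 : Tendsto (fun n => -(M / 2) * ‖t (φ n)‖⁻¹) atTop (𝓝 (-(M / 2) * 0)) :=
      hinv.const_mul _
    rw [mul_zero] at h2
    refine le_of_tendsto_of_tendsto' h2 hθ fun n => ?_
    rw [map_smul, smul_eq_mul, mul_comm (-(M / 2))]
    refine mul_le_mul_of_nonneg_left ?_ (inv_nonneg.2 (norm_nonneg _))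
    have := hM (φ n)
    unfold psi at this
    linarith [hsum (φ n)]
  refine absurd (hg a0 ha0 s hs0 fun ε hε => ?_) (not_lt.2 h1)
  by_contra hw
  push Not at hw
  have hwl : Tendsto (fun n => w ε (‖t (φ n)‖⁻¹ • t (φ n))) atTop (𝓝 (w ε s)) :=
    ((w ε).continuous.tendsto _).comp hls
  have hal : Tendsto (fun n => ‖a (φ n) ε‖ ^ 2) atTop (𝓝 (‖a0 ε‖ ^ 2)) :=
    (((continuous_apply ε).tendsto _).comp hla).norm.pow 2
  have hL : Tendsto (fun n => ‖a (φ n) ε‖ ^ 2 * (w ε (‖t (φ n)‖⁻¹ • t (φ n))) ^ 2) atTop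
      (𝓝 (‖a0 ε‖ ^ 2 * (w ε s) ^ 2)) := hal.mul (hwl.pow 2)
  have hR : Tendsto (fun n => ‖t (φ n)‖⁻¹ * (M * ‖t (φ n)‖⁻¹ + 2 * θ (‖t (φ n)‖⁻¹ • t (φ n))))
      atTop (𝓝 (0 * (M * 0 + 2 * θ s))) := hinv.mul ((hinv.const_mul M).add (hθ.const_mul 2))
  have hev : ∀ᶠ n in atTop, 0 < w ε (‖t (φ n)‖⁻¹ • t (φ n)) := hwl.eventually (lt_mem_nhds hw)
  have hle : ‖a0 ε‖ ^ 2 * (w ε s) ^ 2 ≤ 0 * (M * 0 + 2 * θ s) := by
    refine le_of_tendsto_of_tendsto hL hR (hev.mono fun n hn => ?_)
    simp only [map_smul, smul_eq_mul] at hn ⊢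
    have hp := htp (φ n)
    have hwp : 0 < w ε (t (φ n)) := (mul_pos_iff_of_pos_left (inv_pos.2 hp)).1 hn
    have h3 : ‖a (φ n) ε‖ ^ 2 * Real.exp (2 * w ε (t (φ n))) ≤ M + 2 * θ (t (φ n)) := by
      have h4 := hM (φ n)
      unfold psi at h4
      have h5 := Finset.single_le_sum (f := fun ε => ‖a (φ n) ε‖ ^ 2 *
        Real.exp (2 * w ε (t (φ n)))) (fun ε _ => by positivity) (Finset.mem_univ ε)
      linarith
    have h6 : (w ε (t (φ n))) ^ 2 ≤ Real.exp (2 * w ε (t (φ n))) := by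
      have h7 : w ε (t (φ n)) ≤ Real.exp (w ε (t (φ n))) := by
        linarith [Real.add_one_le_exp (w ε (t (φ n)))]
      rw [two_mul, Real.exp_add, sq]
      exact mul_le_mul h7 h7 hwp.le (Real.exp_pos _).le
    have h8 : ‖a (φ n) ε‖ ^ 2 * (w ε (t (φ n))) ^ 2 ≤ M + 2 * θ (t (φ n)) :=
      le_trans (mul_le_mul_of_nonneg_left h6 (sq_nonneg _)) h3
    have e1 : ‖a (φ n) ε‖ ^ 2 * (‖t (φ n)‖⁻¹ * w ε (t (φ n))) ^ 2 =
        ‖t (φ n)‖⁻¹ ^ 2 * (‖a (φ n) ε‖ ^ 2 * (w ε (t (φ n))) ^ 2) := by ring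
    have e2 : ‖t (φ n)‖⁻¹ * (M * ‖t (φ n)‖⁻¹ + 2 * (‖t (φ n)‖⁻¹ * θ (t (φ n)))) =
        ‖t (φ n)‖⁻¹ ^ 2 * (M + 2 * θ (t (φ n))) := by ring
    rw [e1, e2]
    exact mul_le_mul_of_nonneg_left h8 (sq_nonneg _)
  have h9 : 0 < ‖a0 ε‖ ^ 2 * (w ε s) ^ 2 := by
    have := norm_pos_iff.2 hε
    positivity
  linarith

end Vale.Agent.P291Z.KN
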