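import Vale.Agent.P291.Hik.Defs
import Vale.Agent.P291Z.KNTor
import Vale.Agent.P291Z.KNMat

/-!
# Kempf-Ness for quiver representations: definitions and algebra
-/

set_option linter.unusedSectionVars false

namespace Vale.Agent.P291Z.KN

open Vale.Agent.P291.Hik Matrix

variable {I E : Type} {Q : QData I E}

/-- Families of endomorphisms of the `V_i`. -/
abbrev End (Q : QData I E) : Type := ∀ i, Matrix (Fin (Q.v i)) (Fin (Q.v i)) ℂ

/-- The action of `g` (with inverse `h`). -/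
noncomputable def act (g h : End Q) (z : Q.Pt ℂ) : Q.Pt ℂ where
  x e := g (Q.t e) * z.x e * h (Q.s e)
  y e := g (Q.s e) * z.y e * h (Q.t e)
  j i := z.j i * h i
  i i := g i * z.i i

theorem pt_ext {z z' : Q.Pt ℂ} (hx : ∀ e, z.x e = z'.x e) (hy : ∀ e, z.y e = z'.y e)
    (hj : ∀ i, z.j i = z'.j i) (hi : ∀ i, z.i i = z'.i i) : z = z' := by
  cases z; cases z'
  congr
  · exact funext hx
  · exact funext hy
  · exact funext hj
  · exact funext hi

theorem act_act (g h g' h' : End Q) (z : Q.Pt ℂ) :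
    act g h (act g' h' z) = act (g * g') (h' * h) z :=
  pt_ext (fun e => by simp only [act, Pi.mul_apply, Matrix.mul_assoc])
    (fun e => by simp only [act, Pi.mul_apply, Matrix.mul_assoc])
    (fun e => by simp only [act, Pi.mul_apply, Matrix.mul_assoc])
    (fun e => by simp only [act, Pi.mul_apply, Matrix.mul_assoc])

theorem act_one (z : Q.Pt ℂ) : act 1 1 z = z :=
  pt_ext (fun e => by simp [act]) (fun e => by simp [act]) (fun e => by simp [act])
    (fun e => by simp [act])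

theorem star_apply (u : End Q) (i : I) : (star u) i = (u i)ᴴ := rfl

theorem End.mul_eq_one_comm {g h : End Q} (hg : g * h = 1) : h * g = 1 :=
  funext fun i => _root_.mul_eq_one_comm.1 (congrFun hg i)

variable [Fintype I] [Fintype E]

/-- The real moment map, paired with `ξ`. -/
noncomputable def muR (z : Q.Pt ℂ) (ξ : End Q) : ℂ :=
  ∑ e, ((ξ (Q.t e) * (z.x e * (z.x e)ᴴ)).trace - (ξ (Q.s e) * ((z.x e)ᴴ * z.x e)).trace) +
    ∑ e, ((ξ (Q.s e) * (z.y e * (z.y e)ᴴ)).trace - (ξ (Q.t e) * ((z.y e)ᴴ * z.y e)).trace) +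
    (-∑ i, (ξ i * ((z.j i)ᴴ * z.j i)).trace + ∑ i, (ξ i * (z.i i * (z.i i)ᴴ)).trace)

/-- The central element `θ`, paired with `ξ`. -/
noncomputable def cen (θ : I → ℝ) (ξ : End Q) : ℂ := ∑ i, (θ i : ℂ) * (ξ i).trace

/-- `μ_ℝ(z) = θ`. -/
def Lev (θ : I → ℝ) (z : Q.Pt ℂ) : Prop := ∀ ξ, muR z ξ = cen θ ξ

theorem muR_add (z : Q.Pt ℂ) (ξ η : End Q) : muR z (ξ + η) = muR z ξ + muR z η := by
  simp only [muR, Pi.add_apply, Matrix.add_mul, trace_add, Finset.sum_sub_distrib,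
    Finset.sum_add_distrib]
  ring

theorem muR_smul (z : Q.Pt ℂ) (c : ℂ) (ξ : End Q) : muR z (c • ξ) = c * muR z ξ := by
  simp only [muR, Pi.smul_apply, Matrix.smul_mul, trace_smul, smul_eq_mul,
    Finset.sum_sub_distrib, ← Finset.mul_sum]
  ring

theorem cen_add (θ : I → ℝ) (ξ η : End Q) : cen θ (ξ + η) = cen θ ξ + cen θ η := by
  simp only [cen, Pi.add_apply, trace_add, mul_add, Finset.sum_add_distrib]

theorem cen_smul (θ : I → ℝ) (c : ℂ) (ξ : End Q) : cen θ (c • ξ) = c * cen θ ξ := by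
  simp only [cen, Pi.smul_apply, trace_smul, smul_eq_mul, Finset.mul_sum]
  exact Finset.sum_congr rfl fun i _ => by ring

theorem cen_conj (θ : I → ℝ) {g h : End Q} (hg : g * h = 1) (ξ : End Q) :
    cen θ (h * ξ * g) = cen θ ξ := by
  refine Finset.sum_congr rfl fun i _ => ?_
  have : g i * h i = 1 := congrFun hg i
  rw [Pi.mul_apply, Pi.mul_apply, trace_mul_comm, ← Matrix.mul_assoc, this, Matrix.one_mul]

theorem muR_act {u : End Q} (hu : star u * u = 1) (z : Q.Pt ℂ) (ξ : End Q) :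
    muR (act u (star u) z) ξ = muR z (star u * ξ * u) := by
  have h1 : ∀ i, (u i)ᴴ * u i = 1 := fun i => congrFun hu i
  have h2 : ∀ i, (u i)ᴴ * (u i)ᴴᴴ = 1 := fun i => by rw [conjTranspose_conjTranspose, h1]
  unfold muR
  simp only [act, star_apply, Pi.mul_apply]
  congr 1
  · congr 1
    · refine Finset.sum_congr rfl fun e _ => ?_
      rw [tr_left _ _ (h2 _), tr_right _ _ (h1 _), conjTranspose_conjTranspose]
    · refine Finset.sum_congr rfl fun e _ => ?_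
      rw [tr_left _ _ (h2 _), tr_right _ _ (h1 _), conjTranspose_conjTranspose]
  · congr 1
    · congr 1
      refine Finset.sum_congr rfl fun i _ => ?_
      have := tr_right (ξ i) (u i)ᴴ (a := 1) (by simp) (z.j i)
      rw [Matrix.one_mul, conjTranspose_conjTranspose] at this
      exact this
    · refine Finset.sum_congr rfl fun i _ => ?_
      have := tr_left (ξ i) (u i) (b := 1) (by simp) (z.i i)
      rw [Matrix.mul_one] at this
      exact this

theorem Lev.act {θ : I → ℝ} {z : Q.Pt ℂ} (h : Lev θ z) {u : End Q} (hu : star u * u = 1) :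
    Lev θ (act u (star u) z) := fun ξ => by
  rw [muR_act hu, h, cen_conj θ (End.mul_eq_one_comm hu)]

/-- It is enough to test the level on Hermitian elements. -/
theorem lev_of_herm {θ : I → ℝ} {z : Q.Pt ℂ}
    (h : ∀ ξ : End Q, star ξ = ξ → muR z ξ = cen θ ξ) : Lev θ z := by
  intro ξ
  have e : ξ = (1 / 2 : ℂ) • (ξ + star ξ) +
      (-Complex.I / 2) • (Complex.I • (ξ - star ξ)) := by
    rw [smul_smul, show -Complex.I / 2 * Complex.I = 1 / 2 by
      rw [div_mul_eq_mul_div, neg_mul, Complex.I_mul_I, neg_neg], ← smul_add]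
    rw [show ξ + star ξ + (ξ - star ξ) = (2 : ℂ) • ξ by rw [two_smul]; abel, smul_smul]
    norm_num
  have h1 := h (ξ + star ξ) (by rw [star_add, star_star, add_comm])
  have h2 := h (Complex.I • (ξ - star ξ)) (by
    rw [star_smul, star_sub, star_star, Complex.star_def, Complex.conj_I, neg_smul, ← smul_neg,
      neg_sub])
  rw [e, muR_add, cen_add, muR_smul, cen_smul, muR_smul _ (-Complex.I / 2),
    cen_smul _ (-Complex.I / 2), h1, h2]

/-! ### Coordinates -/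

/-- The index set of the coordinates of `N ⊕ N^*`. -/
abbrev Ent (Q : QData I E) : Type :=
  ((Σ e, Fin (Q.v (Q.t e)) × Fin (Q.v (Q.s e))) ⊕ (Σ e, Fin (Q.v (Q.s e)) × Fin (Q.v (Q.t e)))) ⊕
    ((Σ i, Fin (Q.w i) × Fin (Q.v i)) ⊕ (Σ i, Fin (Q.v i) × Fin (Q.w i)))

/-- The coordinates. -/
def val (z : Q.Pt ℂ) : Ent Q → ℂ
  | .inl (.inl a) => z.x a.1 a.2.1 a.2.2
  | .inl (.inr a) => z.y a.1 a.2.1 a.2.2
  | .inr (.inl a) => z.j a.1 a.2.1 a.2.2
  | .inr (.inr a) => z.i a.1 a.2.1 a.2.2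

/-- A coordinate of the real Cartan subalgebra. -/
noncomputable def pr (c : Q.Col) : (Q.Col → ℝ) →L[ℝ] ℝ := ContinuousLinearMap.proj c

theorem pr_apply (c : Q.Col) (t : Q.Col → ℝ) : pr c t = t c := rfl

/-- The weights of the coordinates. -/
noncomputable def wt (Q : QData I E) : Ent Q → (Q.Col → ℝ) →L[ℝ] ℝ
  | .inl (.inl a) => pr ⟨Q.t a.1, a.2.1⟩ - pr ⟨Q.s a.1, a.2.2⟩
  | .inl (.inr a) => pr ⟨Q.s a.1, a.2.1⟩ - pr ⟨Q.t a.1, a.2.2⟩
  | .inr (.inl a) => -pr ⟨a.1, a.2.2⟩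
  | .inr (.inr a) => pr ⟨a.1, a.2.1⟩

/-- The character on the real Cartan subalgebra. -/
noncomputable def th (Q : QData I E) (θ : I → ℝ) : (Q.Col → ℝ) →L[ℝ] ℝ :=
  ∑ c : Q.Col, θ c.1 • pr c

theorem th_apply (θ : I → ℝ) (t : Q.Col → ℝ) : th Q θ t = ∑ c : Q.Col, θ c.1 * t c := by
  simp [th, pr_apply]

/-- Diagonal matrices. -/
noncomputable def dg (d : Q.Col → ℂ) : End Q := fun i => diagonal fun r => d ⟨i, r⟩

/-- Positive diagonal matrices. -/
noncomputable def ex (t : Q.Col → ℝ) : End Q := dg fun c => (Real.exp (t c) : ℂ)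

theorem dg_mul (d d' : Q.Col → ℂ) : dg d * dg d' = dg fun c => d c * d' c :=
  funext fun _ => diagonal_mul_diagonal _ _

theorem ex_add (t t' : Q.Col → ℝ) : ex t * ex t' = ex (t + t') := by
  unfold ex
  rw [dg_mul]
  congr 1
  funext c
  rw [Pi.add_apply, Real.exp_add, Complex.ofReal_mul]

theorem ex_zero : ex (0 : Q.Col → ℝ) = 1 := funext fun i => by simp [ex, dg]

theorem ex_neg (t : Q.Col → ℝ) : ex t * ex (-t) = 1 := by rw [ex_add, add_neg_cancel, ex_zero]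

theorem ex_neg' (t : Q.Col → ℝ) : ex (-t) * ex t = 1 := by rw [ex_add, neg_add_cancel, ex_zero]

theorem star_dg_real (s : Q.Col → ℝ) : star (dg fun c => (s c : ℂ)) = dg fun c => (s c : ℂ) := by
  funext i
  rw [star_apply]
  unfold dg
  rw [diagonal_conjTranspose]
  congr 1
  funext r
  simp only [Pi.star_apply, Complex.star_def, Complex.conj_ofReal]

theorem star_ex (t : Q.Col → ℝ) : star (ex t) = ex t := star_dg_real _

theorem val_ex (t : Q.Col → ℝ) (z : Q.Pt ℂ) (ε : Ent Q) :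
    val (act (ex t) (ex (-t)) z) ε = (Real.exp (wt Q ε t) : ℂ) * val z ε := by
  rcases ε with (a | a) | (a | a)
  · simp only [val, act, ex, dg, mul_diagonal, diagonal_mul, wt,
      pr_apply, Pi.neg_apply, sub_eq_add_neg, Real.exp_add, Complex.ofReal_mul,
      _root_.add_apply, _root_.neg_apply]
    ring
  · simp only [val, act, ex, dg, mul_diagonal, diagonal_mul, wt,
      pr_apply, Pi.neg_apply, sub_eq_add_neg, Real.exp_add, Complex.ofReal_mul,
      _root_.add_apply, _root_.neg_apply]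
    ring
  · simp only [val, act, ex, dg, mul_diagonal, wt, pr_apply, Pi.neg_apply,
      _root_.neg_apply]
    ring
  · simp only [val, act, ex, dg, diagonal_mul, wt, pr_apply]

theorem sum_ent {M : Type} [AddCommMonoid M] (f : Ent Q → M) : ∑ ε, f ε =
    ∑ e, ∑ p, ∑ r, f (.inl (.inl ⟨e, p, r⟩)) + ∑ e, ∑ p, ∑ r, f (.inl (.inr ⟨e, p, r⟩)) +
      (∑ i, ∑ p, ∑ r, f (.inr (.inl ⟨i, p, r⟩)) + ∑ i, ∑ p, ∑ r, f (.inr (.inr ⟨i, p, r⟩))) := by
  simp only [Fintype.sum_sum_type, Fintype.sum_sigma, Fintype.sum_prod_type]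

theorem muR_dg (z : Q.Pt ℂ) (s : Q.Col → ℝ) :
    muR z (dg fun c => (s c : ℂ)) = ((∑ ε, ‖val z ε‖ ^ 2 * wt Q ε s : ℝ) : ℂ) := by
  rw [sum_ent]
  unfold muR dg
  simp only [trace_diag_left, trace_diag_right, val, wt, _root_.sub_apply,
    _root_.neg_apply, pr_apply, Complex.ofReal_add, Complex.ofReal_sum,
    Complex.ofReal_mul, Complex.ofReal_sub, Complex.ofReal_neg, mul_sub, Finset.sum_sub_distrib,
    mul_neg, Finset.sum_neg_distrib]

theorem cen_dg (θ : I → ℝ) (s : Q.Col → ℝ) :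
    cen θ (dg fun c => (s c : ℂ)) = (th Q θ s : ℂ) := by
  rw [th_apply, Fintype.sum_sigma]
  unfold cen dg
  simp only [trace_diagonal, Finset.mul_sum, Complex.ofReal_sum, Complex.ofReal_mul]

/-- The square of the norm. -/
noncomputable def nrm (z : Q.Pt ℂ) : ℝ := ∑ ε, ‖val z ε‖ ^ 2

theorem nrm_eq (z : Q.Pt ℂ) : nrm z =
    ∑ e, fro (z.x e) + ∑ e, fro (z.y e) + (∑ i, fro (z.j i) + ∑ i, fro (z.i i)) := by
  rw [nrm, sum_ent]
  rfl

theorem nrm_act {u : End Q} (hu : star u * u = 1) (z : Q.Pt ℂ) :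
    nrm (act u (star u) z) = nrm z := by
  have h1 : ∀ i, (u i)ᴴ * u i = 1 := fun i => congrFun hu i
  have h2 : ∀ i, (u i)ᴴ * (u i)ᴴᴴ = 1 := fun i => by rw [conjTranspose_conjTranspose, h1]
  simp only [nrm_eq, act, star_apply, fro_right (h2 _), fro_left (h1 _)]

theorem psi_eq (θ : I → ℝ) (z : Q.Pt ℂ) (t : Q.Col → ℝ) :
    psi (wt Q) (th Q θ) (val z) t = nrm (act (ex t) (ex (-t)) z) - 2 * th Q θ t := by
  unfold psi nrm
  congr 1
  refine Finset.sum_congr rfl fun ε _ => ?_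
  rw [val_ex, norm_mul, mul_pow, Complex.norm_real, Real.norm_eq_abs, sq_abs, two_mul,
    Real.exp_add]
  ring

/-! ### Stability -/

/-- `∑ θ_i dim U_i` -/
noncomputable def pairR (θ : I → ℝ) (U : ∀ i : I, Submodule ℂ (Fin (Q.v i) → ℂ)) : ℝ :=
  ∑ i : I, θ i * (Module.finrank ℂ (U i) : ℝ)

/-- Semistability for a real parameter. -/
def SSR (θ : I → ℝ) (z : Q.Pt ℂ) : Prop :=
  ∀ U : ∀ i : I, Submodule ℂ (Fin (Q.v i) → ℂ), z.IsSub U →
    ((∀ i, ∀ u ∈ U i, (z.j i).mulVec u = 0) → 0 ≤ pairR θ U) ∧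
    ((∀ i a, (z.i i).mulVec a ∈ U i) → ∑ i, θ i * (Q.v i : ℝ) ≤ pairR θ U)

/-- Stability for a real parameter. -/
def StR (θ : I → ℝ) (z : Q.Pt ℂ) : Prop :=
  ∀ U : ∀ i : I, Submodule ℂ (Fin (Q.v i) → ℂ), z.IsSub U →
    ((∀ i, ∀ u ∈ U i, (z.j i).mulVec u = 0) → (∃ i, U i ≠ ⊥) → 0 < pairR θ U) ∧
    ((∀ i a, (z.i i).mulVec a ∈ U i) → (∃ i, U i ≠ ⊤) → ∑ i, θ i * (Q.v i : ℝ) < pairR θ U)

theorem pairR_cast (ν : I → ℤ) (U : ∀ i : I, Submodule ℂ (Fin (Q.v i) → ℂ)) :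
    pairR (fun i => (ν i : ℝ)) U = (QData.pair ν U : ℝ) := by
  simp [pairR, QData.pair]

theorem stR_cast (ν : I → ℤ) (z : Q.Pt ℂ) : StR (fun i => (ν i : ℝ)) z ↔ z.St ν := by
  have e : ∑ i, (ν i : ℝ) * (Q.v i : ℝ) = ((∑ i, ν i * (Q.v i : ℤ) : ℤ) : ℝ) := by simp
  unfold StR QData.Pt.St
  simp only [pairR_cast, e, Int.cast_pos, Int.cast_lt]

theorem ssR_cast (ν : I → ℤ) (z : Q.Pt ℂ) : SSR (fun i => (ν i : ℝ)) z ↔ z.SS ν := by
  have e : ∑ i, (ν i : ℝ) * (Q.v i : ℝ) = ((∑ i, ν i * (Q.v i : ℤ) : ℤ) : ℝ) := by simp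
  unfold SSR QData.Pt.SS
  simp only [pairR_cast, e, Int.cast_nonneg_iff, Int.cast_le]

end Vale.Agent.P291Z.KN
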