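import Vale.Agent.P291Z.KN0

/-!
# Kempf-Ness for quiver representations: stability
-/

set_option linter.unusedSectionVars false

namespace Vale.Agent.P291Z.KN

open Vale.Agent.P291.Hik Matrix Module

variable {I E : Type} {Q : QData I E} [Fintype I] [Fintype E]

theorem exists_transport {n : ℕ} {g h : Matrix (Fin n) (Fin n) ℂ} (hg : g * h = 1)
    (U : Submodule ℂ (Fin n → ℂ)) :
    ∃ U' : Submodule ℂ (Fin n → ℂ), (∀ u, u ∈ U' ↔ g.mulVec u ∈ U) ∧
      finrank ℂ U' = finrank ℂ U := by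
  let e : (Fin n → ℂ) ≃ₗ[ℂ] (Fin n → ℂ) := Matrix.toLin'OfInv hg (mul_eq_one_comm.1 hg)
  refine ⟨U.map (e : (Fin n → ℂ) →ₗ[ℂ] (Fin n → ℂ)), fun u => ?_, e.finrank_map_eq U⟩
  rw [Submodule.mem_map_equiv]
  rfl

theorem transport {g h : End Q} (hg : g * h = 1) (z : Q.Pt ℂ)
    (U : ∀ i : I, Submodule ℂ (Fin (Q.v i) → ℂ)) :
    ∃ U' : ∀ i : I, Submodule ℂ (Fin (Q.v i) → ℂ), (∀ i, finrank ℂ (U' i) = finrank ℂ (U i)) ∧
      ((act g h z).IsSub U → z.IsSub U') ∧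
      ((∀ i, ∀ u ∈ U i, ((act g h z).j i).mulVec u = 0) → ∀ i, ∀ u ∈ U' i, (z.j i).mulVec u = 0) ∧
      ((∀ i a, ((act g h z).i i).mulVec a ∈ U i) → ∀ i a, (z.i i).mulVec a ∈ U' i) := by
  choose U' h1 h2 using fun i => exists_transport (congrFun hg i : g i * h i = 1) (U i)
  have h3 : ∀ i, h i * g i = 1 := fun i => congrFun (End.mul_eq_one_comm hg) i
  refine ⟨U', h2, fun hU e => ⟨fun u hu => ?_, fun u hu => ?_⟩, fun hU i u hu => ?_,
    fun hU i a => ?_⟩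
  · have := (hU e).1 _ ((h1 _ u).1 hu)
    rw [h1, mulVec_mulVec]
    simpa only [act, mulVec_mulVec, Matrix.mul_assoc, h3, Matrix.mul_one] using this
  · have := (hU e).2 _ ((h1 _ u).1 hu)
    rw [h1, mulVec_mulVec]
    simpa only [act, mulVec_mulVec, Matrix.mul_assoc, h3, Matrix.mul_one] using this
  · have := hU i _ ((h1 _ u).1 hu)
    simpa only [act, mulVec_mulVec, Matrix.mul_assoc, h3, Matrix.mul_one] using this
  · rw [h1, mulVec_mulVec]
    exact hU i a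

theorem pairR_congr (θ : I → ℝ) {U U' : ∀ i : I, Submodule ℂ (Fin (Q.v i) → ℂ)}
    (h : ∀ i, finrank ℂ (U' i) = finrank ℂ (U i)) : pairR θ U' = pairR θ U :=
  Finset.sum_congr rfl fun i _ => by rw [h i]

theorem StR.act {θ : I → ℝ} {z : Q.Pt ℂ} (hz : StR θ z) {g h : End Q} (hg : g * h = 1) :
    StR θ (act g h z) := by
  intro U hU
  obtain ⟨U', h0, h1, h2, h3⟩ := transport hg z U
  obtain ⟨h4, h5⟩ := hz U' (h1 hU)
  rw [pairR_congr θ h0] at h4 h5
  refine ⟨fun hj ⟨i, hi⟩ => h4 (h2 hj) ⟨i, fun hb => hi ?_⟩,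
    fun hj ⟨i, hi⟩ => h5 (h3 hj) ⟨i, fun hb => hi ?_⟩⟩
  · rw [← Submodule.finrank_eq_zero, ← h0, hb, finrank_bot]
  · apply Submodule.eq_top_of_finrank_eq
    rw [← h0, hb, finrank_top]

theorem SSR.act {θ : I → ℝ} {z : Q.Pt ℂ} (hz : SSR θ z) {g h : End Q} (hg : g * h = 1) :
    SSR θ (act g h z) := by
  intro U hU
  obtain ⟨U', h0, h1, h2, h3⟩ := transport hg z U
  obtain ⟨h4, h5⟩ := hz U' (h1 hU)
  rw [pairR_congr θ h0] at h4 h5
  exact ⟨fun hj => h4 (h2 hj), fun hj => h5 (h3 hj)⟩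

theorem StR.ssR {θ : I → ℝ} {z : Q.Pt ℂ} (hz : StR θ z) : SSR θ z := by
  intro U hU
  obtain ⟨h1, h2⟩ := hz U hU
  refine ⟨fun hj => ?_, fun hi => ?_⟩
  · by_cases h : ∃ i, U i ≠ ⊥
    · exact (h1 hj h).le
    · push Not at h
      refine le_of_eq (Finset.sum_eq_zero fun i _ => ?_).symm
      rw [h i, finrank_bot, Nat.cast_zero, mul_zero]
  · by_cases h : ∃ i, U i ≠ ⊤
    · exact (h2 hi h).le
    · push Not at h
      refine le_of_eq (Finset.sum_congr rfl fun i _ => ?_)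
      rw [h i, finrank_top, finrank_fin_fun]

/-! ### Coordinate subspaces -/

/-- Coordinate subspaces. -/
noncomputable def coord (P : Q.Col → Prop) (i : I) : Submodule ℂ (Fin (Q.v i) → ℂ) :=
  Pi.spanSubset ℂ {r | P ⟨i, r⟩}

theorem mem_coord {P : Q.Col → Prop} {i : I} {u : Fin (Q.v i) → ℂ} :
    u ∈ coord P i ↔ ∀ r, ¬P ⟨i, r⟩ → u r = 0 := Pi.mem_spanSubset_iff

theorem pairR_coord (θ : I → ℝ) (P : Q.Col → Prop) [DecidablePred P] :
    pairR θ (coord P) = ∑ c ∈ Finset.univ.filter P, θ c.1 := by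
  rw [Finset.sum_filter, Fintype.sum_sigma]
  refine Finset.sum_congr rfl fun i _ => ?_
  change _ = ∑ a : Fin (Q.v i), if P ⟨i, a⟩ then θ i else 0
  rw [coord, Pi.dim_spanSubset, ← Finset.sum_filter, Finset.sum_const, nsmul_eq_mul, mul_comm,
    Set.ncard_eq_toFinset_card', Set.toFinset_ofPred]

theorem mulVec_zero {m n : Type} [Fintype n] (x : Matrix m n ℂ) (u : n → ℂ) (p : m)
    (h : ∀ r, x p r ≠ 0 → u r = 0) : x.mulVec u p = 0 := by
  refine Finset.sum_eq_zero fun r _ => ?_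
  change x p r * u r = 0
  by_cases hx : x p r = 0
  · rw [hx, zero_mul]
  · rw [h r hx, mul_zero]

theorem isSub_coord {z : Q.Pt ℂ} {s : Q.Col → ℝ} (hs : ∀ ε, val z ε ≠ 0 → wt Q ε s ≤ 0)
    (P : ℝ → Prop) (hP : ∀ a b, a ≤ b → P b → P a) : z.IsSub (coord fun c => P (s c)) := by
  intro e
  refine ⟨fun u hu => mem_coord.2 fun p hp => mulVec_zero _ _ _ fun r hr => ?_,
    fun u hu => mem_coord.2 fun p hp => mulVec_zero _ _ _ fun r hr => ?_⟩
  · refine mem_coord.1 hu r fun h => hp (hP _ _ ?_ h)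
    have := hs (.inl (.inl ⟨e, p, r⟩)) hr
    exact sub_nonpos.1 this
  · refine mem_coord.1 hu r fun h => hp (hP _ _ ?_ h)
    have := hs (.inl (.inr ⟨e, p, r⟩)) hr
    exact sub_nonpos.1 this

theorem StR.good {θ : I → ℝ} {z : Q.Pt ℂ} (hz : StR θ z) : Good (wt Q) (th Q θ) (val z) := by
  classical
  intro s hs0 hs
  rw [th_apply]
  refine layer (fun c : Q.Col => θ c.1) s hs0 (fun r hr ⟨c, hc⟩ => ?_) (fun r hr ⟨c, hc⟩ => ?_)
  · have h1 := (hz _ (isSub_coord hs (fun a => a < -r) fun a b hab hb => lt_of_le_of_lt hab hb)).1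
      (fun i u hu => funext fun l => mulVec_zero _ _ _ fun p hp => mem_coord.1 hu p fun h => by
        have h2 : -s ⟨i, p⟩ ≤ 0 := hs (.inr (.inl ⟨i, l, p⟩)) hp
        linarith)
      ⟨c.1, fun hb => by
        have h3 : (Pi.single c.2 1 : Fin (Q.v c.1) → ℂ) ∈ coord (fun c => s c < -r) c.1 :=
          mem_coord.2 fun p hp => Pi.single_eq_of_ne (by rintro rfl; exact hp hc) _
        rw [hb, Submodule.mem_bot] at h3
        simpa using congrFun h3 c.2⟩
    rwa [pairR_coord] at h1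
  · have h1 := (hz _ (isSub_coord hs (fun a => a ≤ r) fun a b hab hb => hab.trans hb)).2
      (fun i a => mem_coord.2 fun p hp => mulVec_zero _ _ _ fun l hl => by
        have h2 : s ⟨i, p⟩ ≤ 0 := hs (.inr (.inr ⟨i, p, l⟩)) hl
        exact absurd (h2.trans hr) hp)
      ⟨c.1, fun hb => by
        have h3 : (Pi.single c.2 1 : Fin (Q.v c.1) → ℂ) ∈ coord (fun c => s c ≤ r) c.1 := by
          rw [hb]; trivial
        have := mem_coord.1 h3 c.2 (not_le.2 hc)
        simp at this⟩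
    rw [pairR_coord] at h1
    have h4 : ∑ i, θ i * (Q.v i : ℝ) = ∑ c : Q.Col, θ c.1 := by
      rw [Fintype.sum_sigma]
      simp [mul_comm]
    have h5 := Finset.sum_filter_add_sum_filter_not Finset.univ (fun c : Q.Col => s c ≤ r)
      (fun c => θ c.1)
    simp only [not_le] at h5
    linarith

/-! ### Orthogonal projections -/

theorem exists_proj {n : ℕ} (U : Submodule ℂ (Fin n → ℂ)) :
    ∃ p : Matrix (Fin n) (Fin n) ℂ, pᴴ = p ∧ p * p = p ∧ (∀ u, p.mulVec u ∈ U) ∧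
      (∀ u ∈ U, p.mulVec u = u) ∧ p.trace = (finrank ℂ U : ℂ) := by
  let e := WithLp.linearEquiv 2 ℂ (Fin n → ℂ)
  let U' : Submodule ℂ (EuclideanSpace ℂ (Fin n)) := U.comap (e : _ →ₗ[ℂ] _)
  let p : Matrix (Fin n) (Fin n) ℂ :=
    Matrix.toEuclideanLin.symm (U'.starProjection : EuclideanSpace ℂ (Fin n) →ₗ[ℂ] _)
  have hp : ∀ u, p.mulVec u = (U'.starProjection (WithLp.toLp 2 u)).ofLp := by
    intro u
    have h : Matrix.toEuclideanLin p = (U'.starProjection : EuclideanSpace ℂ (Fin n) →ₗ[ℂ] _) :=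
      LinearEquiv.apply_symm_apply _ _
    have h2 := congrArg (fun f : EuclideanSpace ℂ (Fin n) →ₗ[ℂ] EuclideanSpace ℂ (Fin n) =>
      (f (WithLp.toLp 2 u)).ofLp) h
    exact h2
  have h1 : ∀ u, p.mulVec u ∈ U := fun u => by
    rw [hp]; exact U'.starProjection_apply_mem _
  have h2 : ∀ u ∈ U, p.mulVec u = u := fun u hu => by
    rw [hp, Submodule.starProjection_eq_self_iff.2 (show WithLp.toLp 2 u ∈ U' from hu)]
  refine ⟨p, ?_, ?_, h1, h2, ?_⟩
  · apply Matrix.isSymmetric_toEuclideanLin_iff.1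
    rw [LinearEquiv.apply_symm_apply]
    exact U'.starProjection_isSymmetric
  · apply Matrix.toLin'.injective
    refine LinearMap.ext fun u => ?_
    rw [toLin'_apply, toLin'_apply, ← mulVec_mulVec, h2 _ (h1 u)]
  · have : LinearMap.IsProj U (Matrix.toLin' p) := ⟨h1, h2⟩
    rw [← this.trace, Matrix.trace_toLin'_eq]

theorem mat_ext {m n : Type} [Fintype n] [DecidableEq n] {a b : Matrix m n ℂ}
    (h : ∀ u, a.mulVec u = b.mulVec u) : a = b := by
  ext p r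
  simpa using congrFun (h (Pi.single r 1)) p

/-- Orthogonal projections onto a subrepresentation. -/
theorem exists_projs (z : Q.Pt ℂ) (U : ∀ i : I, Submodule ℂ (Fin (Q.v i) → ℂ)) (hU : z.IsSub U) :
    ∃ p : End Q, star p = p ∧ p * p = p ∧ (∀ i, (p i).trace = (finrank ℂ (U i) : ℂ)) ∧
      (∀ e, p (Q.t e) * (z.x e * p (Q.s e)) = z.x e * p (Q.s e)) ∧
      (∀ e, p (Q.s e) * (z.y e * p (Q.t e)) = z.y e * p (Q.t e)) ∧
      ((∀ i, ∀ u ∈ U i, (z.j i).mulVec u = 0) → ∀ i, z.j i * p i = 0) ∧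
      ((∀ i a, (z.i i).mulVec a ∈ U i) → ∀ i, p i * z.i i = z.i i) := by
  choose p h1 h2 h3 h4 h5 using fun i => exists_proj (U i)
  refine ⟨p, funext h1, funext h2, h5, fun e => mat_ext fun u => ?_, fun e => mat_ext fun u => ?_,
    fun hj i => mat_ext fun u => ?_, fun hi i => mat_ext fun u => ?_⟩
  · rw [← mulVec_mulVec, ← mulVec_mulVec, h4 _ _ ((hU e).1 _ (h3 _ u))]
  · rw [← mulVec_mulVec, ← mulVec_mulVec, h4 _ _ ((hU e).2 _ (h3 _ u))]
  · rw [← mulVec_mulVec, hj _ _ (h3 _ u), zero_mulVec]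
  · rw [← mulVec_mulVec, h4 _ _ (hi _ u)]

section proj

variable {m n : Type} [Fintype m] [Fintype n] [DecidableEq m] [DecidableEq n]

theorem fro_proj_left {p : Matrix m m ℂ} (h1 : pᴴ = p) (h2 : p * p = p) (x : Matrix m n ℂ) :
    (p * (x * xᴴ)).trace = (fro (p * x) : ℂ) := by
  rw [fro_eq', conjTranspose_mul, h1, Matrix.mul_assoc, ← Matrix.mul_assoc p p, h2,
    trace_mul_comm xᴴ, Matrix.mul_assoc]

theorem fro_proj_right {p : Matrix n n ℂ} (h1 : pᴴ = p) (h2 : p * p = p) (x : Matrix m n ℂ) :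
    (p * (xᴴ * x)).trace = (fro (x * p) : ℂ) := by
  rw [fro_eq, conjTranspose_mul, h1, Matrix.mul_assoc, ← Matrix.mul_assoc p p, h2,
    trace_mul_comm x, Matrix.mul_assoc]

theorem compl_herm {p : Matrix n n ℂ} (h1 : pᴴ = p) : (1 - p)ᴴ = 1 - p := by
  rw [conjTranspose_sub, conjTranspose_one, h1]

theorem compl_idem {p : Matrix n n ℂ} (h2 : p * p = p) : (1 - p) * (1 - p) = 1 - p := by
  rw [Matrix.sub_mul, Matrix.one_mul, Matrix.mul_sub, Matrix.mul_one, h2, sub_self, sub_zero]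

theorem fro_le_right {p : Matrix n n ℂ} (h1 : pᴴ = p) (h2 : p * p = p) (x : Matrix m n ℂ) :
    fro (x * p) ≤ fro x := by
  have : fro x = fro (x * p) + fro (x * (1 - p)) := by
    apply Complex.ofReal_injective
    rw [Complex.ofReal_add, ← fro_proj_right h1 h2,
      ← fro_proj_right (compl_herm h1) (compl_idem h2), ← trace_add, ← Matrix.add_mul,
      add_sub_cancel, Matrix.one_mul, fro_eq']
  linarith [fro_nonneg (x * (1 - p))]

theorem fro_le_left {p : Matrix m m ℂ} (h1 : pᴴ = p) (h2 : p * p = p) (x : Matrix m n ℂ) :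
    fro (p * x) ≤ fro x := by
  rw [← fro_conjTranspose, ← fro_conjTranspose x, conjTranspose_mul, h1]
  exact fro_le_right h1 h2 _

theorem fro_sub {p : Matrix m m ℂ} {q : Matrix n n ℂ} (h1 : qᴴ = q) (h2 : q * q = q)
    {x : Matrix m n ℂ} (h : p * (x * q) = x * q) : fro (x * q) ≤ fro (p * x) := by
  rw [← h, ← Matrix.mul_assoc]
  exact fro_le_right h1 h2 _

theorem fro_quot {p : Matrix m m ℂ} {q : Matrix n n ℂ} (h1 : pᴴ = p) (h2 : p * p = p)
    {x : Matrix m n ℂ} (h : p * (x * q) = x * q) : fro ((1 - p) * x) ≤ fro (x * (1 - q)) := by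
  have : (1 - p) * x = (1 - p) * (x * (1 - q)) := by
    rw [Matrix.mul_sub x, Matrix.mul_one, Matrix.mul_sub, Matrix.sub_mul _ _ (x * q),
      Matrix.one_mul, h, sub_self, sub_zero]
  rw [this]
  exact fro_le_left (compl_herm h1) (compl_idem h2) _

end proj

theorem muR_proj (z : Q.Pt ℂ) {p : End Q} (h1 : star p = p) (h2 : p * p = p) :
    muR z p = ((∑ e, (fro (p (Q.t e) * z.x e) - fro (z.x e * p (Q.s e))) +
      ∑ e, (fro (p (Q.s e) * z.y e) - fro (z.y e * p (Q.t e))) +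
      (-∑ i, fro (z.j i * p i) + ∑ i, fro (p i * z.i i)) : ℝ) : ℂ) := by
  have h3 : ∀ i, (p i)ᴴ = p i := fun i => congrFun h1 i
  have h4 : ∀ i, p i * p i = p i := fun i => congrFun h2 i
  simp only [muR, fro_proj_left (h3 _) (h4 _), fro_proj_right (h3 _) (h4 _), Complex.ofReal_add,
    Complex.ofReal_sum, Complex.ofReal_sub, Complex.ofReal_neg]

theorem cen_proj (θ : I → ℝ) {U : ∀ i : I, Submodule ℂ (Fin (Q.v i) → ℂ)} {p : End Q}
    (h : ∀ i, (p i).trace = (finrank ℂ (U i) : ℂ)) : cen θ p = (pairR θ U : ℂ) := by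
  simp [cen, pairR, h]

theorem cen_compl (θ : I → ℝ) {U : ∀ i : I, Submodule ℂ (Fin (Q.v i) → ℂ)} {p : End Q}
    (h : ∀ i, (p i).trace = (finrank ℂ (U i) : ℂ)) :
    cen θ (1 - p) = ((∑ i, θ i * (Q.v i : ℝ) - pairR θ U : ℝ) : ℂ) := by
  simp [cen, pairR, h, mul_sub]

theorem fro_zero {m n : Type} [Fintype m] [Fintype n] : fro (0 : Matrix m n ℂ) = 0 := by
  simp [fro]

/-- Points of the level `θ` of the real moment map are semistable. -/
theorem Lev.ssR {θ : I → ℝ} {z : Q.Pt ℂ} (hz : Lev θ z) : SSR θ z := by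
  intro U hU
  obtain ⟨p, h1, h2, h3, hx, hy, hj, hi⟩ := exists_projs z U hU
  have h4 : ∀ i, (p i)ᴴ = p i := fun i => congrFun h1 i
  have h5 : ∀ i, p i * p i = p i := fun i => congrFun h2 i
  refine ⟨fun h => ?_, fun h => ?_⟩
  · have h6 := hz p
    rw [muR_proj z h1 h2, cen_proj θ h3] at h6
    rw [← Complex.ofReal_injective h6]
    simp only [hj h, fro_zero, Finset.sum_const_zero, neg_zero, zero_add]
    refine add_nonneg (add_nonneg (Finset.sum_nonneg fun e _ => ?_)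
      (Finset.sum_nonneg fun e _ => ?_)) (Finset.sum_nonneg fun i _ => fro_nonneg _)
    · exact sub_nonneg.2 (fro_sub (h4 _) (h5 _) (hx e))
    · exact sub_nonneg.2 (fro_sub (h4 _) (h5 _) (hy e))
  · have h6 := hz (1 - p)
    rw [muR_proj z (p := 1 - p) (funext fun i => compl_herm (h4 i))
      (funext fun i => compl_idem (h5 i)), cen_compl θ h3] at h6
    rw [← sub_nonpos, ← Complex.ofReal_injective h6]
    have h7 : ∀ i, (1 - p) i * z.i i = 0 := fun i => by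
      rw [Pi.sub_apply, Pi.one_apply, Matrix.sub_mul, Matrix.one_mul, hi h, sub_self]
    simp only [h7, fro_zero, Finset.sum_const_zero, add_zero]
    refine add_nonpos (add_nonpos (Finset.sum_nonpos fun e _ => ?_)
      (Finset.sum_nonpos fun e _ => ?_)) (neg_nonpos.2 (Finset.sum_nonneg fun i _ => fro_nonneg _))
    · exact sub_nonpos.2 (fro_quot (h4 _) (h5 _) (hx e))
    · exact sub_nonpos.2 (fro_quot (h4 _) (h5 _) (hy e))

/-! ### Generic parameters -/

/-- `θ · d ≠ 0` for `0 < d ≤ v`. -/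
def Gen (Q : QData I E) (θ : I → ℝ) : Prop :=
  ∀ d : I → ℕ, (∀ i, d i ≤ Q.v i) → d ≠ 0 → ∑ i, θ i * (d i : ℝ) ≠ 0

theorem finrank_le_v (i : I) (U : Submodule ℂ (Fin (Q.v i) → ℂ)) : finrank ℂ U ≤ Q.v i :=
  U.finrank_le.trans (finrank_fin_fun ℂ).le

theorem Gen.pair_ne {θ : I → ℝ} (hθ : Gen Q θ) {U : ∀ i : I, Submodule ℂ (Fin (Q.v i) → ℂ)}
    (h : ∃ i, U i ≠ ⊥) : pairR θ U ≠ 0 := by
  obtain ⟨i, hi⟩ := h
  exact hθ (fun i => finrank ℂ (U i)) (fun i => finrank_le_v i _) fun h0 =>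
    hi (Submodule.finrank_eq_zero.1 (congrFun h0 i))

theorem Gen.copair_ne {θ : I → ℝ} (hθ : Gen Q θ) {U : ∀ i : I, Submodule ℂ (Fin (Q.v i) → ℂ)}
    (h : ∃ i, U i ≠ ⊤) : ∑ i, θ i * (Q.v i : ℝ) - pairR θ U ≠ 0 := by
  obtain ⟨i, hi⟩ := h
  have := hθ (fun i => Q.v i - finrank ℂ (U i)) (fun i => Nat.sub_le _ _) fun h0 => hi (by
    have h1 : Q.v i - finrank ℂ (U i) = 0 := congrFun h0 i
    apply Submodule.eq_top_of_finrank_eq
    rw [finrank_fin_fun]
    have := finrank_le_v i (U i)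
    omega)
  rw [pairR, ← Finset.sum_sub_distrib]
  refine fun h => this (Eq.trans (Finset.sum_congr rfl fun i _ => ?_) h)
  rw [Nat.cast_sub (finrank_le_v i _), mul_sub]

theorem SSR.stR {θ : I → ℝ} {z : Q.Pt ℂ} (hz : SSR θ z) (hθ : Gen Q θ) : StR θ z := by
  intro U hU
  obtain ⟨h1, h2⟩ := hz U hU
  exact ⟨fun hj h => lt_of_le_of_ne (h1 hj) (hθ.pair_ne h).symm,
    fun hi h => lt_of_le_of_ne (h2 hi) (sub_ne_zero.1 (hθ.copair_ne h))⟩

/-- For generic `θ` all points of a fibre `μ_ℂ = c θ`, `c ≠ 0`, are stable for the parameter `0`. -/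
theorem Gen.stR_zero {θ : I → ℝ} (hθ : Gen Q θ) {c : ℂ} (hc : c ≠ 0) {z : Q.Pt ℂ}
    (hz : ∀ ξ, z.mu ξ = c * cen θ ξ) : StR 0 z := by
  intro U hU
  obtain ⟨p, h1, h2, h3, hx, hy, hj, hi⟩ := exists_projs z U hU
  have h4 : ∀ e, (z.y e * (p (Q.t e) * z.x e - z.x e * p (Q.s e))).trace = 0 := by
    intro e
    rw [Matrix.mul_sub, trace_sub, ← hx e, ← Matrix.mul_assoc, ← hy e, sub_eq_zero,
      Matrix.mul_assoc (p _), trace_mul_comm (p _)]
    simp only [Matrix.mul_assoc]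
  refine ⟨fun h hne => absurd ?_ (hθ.pair_ne hne), fun h hne => absurd ?_ (hθ.copair_ne hne)⟩
  · have h5 := hz p
    rw [cen_proj θ h3, QData.Pt.mu] at h5
    simp only [h4, hj h, Matrix.mul_zero, trace_zero, Finset.sum_const_zero, sub_zero] at h5
    exact Complex.ofReal_eq_zero.1 ((mul_eq_zero.1 h5.symm).resolve_left hc)
  · have h5 := hz (1 - p)
    rw [cen_compl θ h3, QData.Pt.mu] at h5
    have h6 : ∀ e, (z.y e * ((1 - p) (Q.t e) * z.x e - z.x e * (1 - p) (Q.s e))).trace = 0 := by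
      intro e
      have : (1 - p) (Q.t e) * z.x e - z.x e * (1 - p) (Q.s e) =
          -(p (Q.t e) * z.x e - z.x e * p (Q.s e)) := by
        simp only [Pi.sub_apply, Pi.one_apply, Matrix.sub_mul, Matrix.mul_sub, Matrix.one_mul,
          Matrix.mul_one]
        abel
      rw [this, Matrix.mul_neg, trace_neg, h4, neg_zero]
    have h7 : ∀ i, (z.i i * (z.j i * (1 - p) i)).trace = 0 := by
      intro i
      rw [← Matrix.mul_assoc, trace_mul_comm, ← Matrix.mul_assoc, Pi.sub_apply, Pi.one_apply,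
        Matrix.sub_mul, Matrix.one_mul, hi h, sub_self, Matrix.zero_mul, trace_zero]
    simp only [h6, h7, Finset.sum_const_zero, sub_zero] at h5
    exact Complex.ofReal_eq_zero.1 ((mul_eq_zero.1 h5.symm).resolve_left hc)

/-- Every integral character has a generic integral character nearby. -/
theorem exists_gen (Q : QData I E) (ν : I → ℤ) : ∃ ν' : I → ℤ, Gen Q (fun i => (ν' i : ℝ)) ∧
    ∀ z : Q.Pt ℂ, (z.St ν → z.St ν') ∧ (z.SS ν' → z.SS ν) := by
  set N : ℤ := ∑ i, (Q.v i : ℤ) + 1 with hN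
  have key : ∀ d : I → ℕ, ∑ i, (N * ν i + 1) * (d i : ℤ) =
      N * ∑ i, ν i * (d i : ℤ) + ∑ i, (d i : ℤ) := by
    intro d
    rw [Finset.mul_sum, ← Finset.sum_add_distrib]
    exact Finset.sum_congr rfl fun i _ => by ring
  have hb : ∀ d : I → ℕ, (∀ i, d i ≤ Q.v i) → 0 ≤ ∑ i, (d i : ℤ) ∧ ∑ i, (d i : ℤ) < N ∧
      ∑ i, (d i : ℤ) ≤ ∑ i, (Q.v i : ℤ) := by
    intro d hd
    have : ∑ i, (d i : ℤ) ≤ ∑ i, (Q.v i : ℤ) :=
      Finset.sum_le_sum fun i _ => by exact_mod_cast hd i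
    exact ⟨Finset.sum_nonneg fun i _ => Int.natCast_nonneg _, by omega, this⟩
  refine ⟨fun i => N * ν i + 1, fun d hd hd0 h => ?_, fun z => ⟨fun hz U hU => ?_,
    fun hz U hU => ?_⟩⟩
  · have h1 : ∑ i, (N * ν i + 1) * (d i : ℤ) = 0 := by
      beta_reduce at h
      exact_mod_cast h
    rw [key] at h1
    obtain ⟨h2, h3, -⟩ := hb d hd
    have h4 : 0 < ∑ i, (d i : ℤ) := by
      obtain ⟨i, hi⟩ := Function.ne_iff.1 hd0
      exact Finset.sum_pos' (fun i _ => Int.natCast_nonneg _)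
        ⟨i, Finset.mem_univ _, by exact_mod_cast Nat.pos_of_ne_zero hi⟩
    rcases lt_trichotomy (∑ i, ν i * (d i : ℤ)) 0 with h5 | h5 | h5
    · nlinarith
    · rw [h5] at h1; omega
    · nlinarith
  · obtain ⟨h1, h2⟩ := hz U hU
    obtain ⟨h3, h4, h5⟩ := hb (fun i => finrank ℂ (U i)) fun i => finrank_le_v i _
    obtain ⟨h6, h7, -⟩ := hb Q.v fun i => le_rfl
    unfold QData.pair at h1 h2 ⊢
    rw [key, key]
    refine ⟨fun hj h => ?_, fun hi h => ?_⟩
    · have := h1 hj h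
      nlinarith
    · have := h2 hi h
      nlinarith
  · obtain ⟨h1, h2⟩ := hz U hU
    obtain ⟨h3, h4, h5⟩ := hb (fun i => finrank ℂ (U i)) fun i => finrank_le_v i _
    obtain ⟨h6, h7, -⟩ := hb Q.v fun i => le_rfl
    unfold QData.pair at h1 h2 ⊢
    rw [key] at h1
    rw [key, key] at h2
    refine ⟨fun hj => ?_, fun hi => ?_⟩
    · have := h1 hj
      by_contra h
      push Not at h
      nlinarith
    · have := h2 hi
      by_contra h
      push Not at h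
      nlinarith

theorem st_ss {ν : I → ℤ} {z : Q.Pt ℂ} (h : z.St ν) : z.SS ν :=
  (ssR_cast ν z).1 ((stR_cast ν z).2 h).ssR

/-- A regular character has the same stable locus as a generic one. -/
theorem exists_gen_of_regular {ν : I → ℤ} (hν : Q.Regular ν) :
    ∃ ν' : I → ℤ, Gen Q (fun i => (ν' i : ℝ)) ∧
      ∀ z : Q.Pt ℂ, (∀ ξ, z.mu ξ = 0) → (z.St ν ↔ z.St ν') := by
  obtain ⟨ν', h1, h2⟩ := exists_gen Q ν
  exact ⟨ν', h1, fun z hz => ⟨(h2 z).1, fun h => hν z hz ((h2 z).2 (st_ss h))⟩⟩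

end Vale.Agent.P291Z.KN
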