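import Vale.Agent.P291Z.KN1

/-!
# The Kempf-Ness theorem for quiver representations, with continuous dependence on the point
-/

set_option linter.unusedSectionVars false

namespace Vale.Agent.P291Z.KN

open Vale.Agent.P291.Hik Matrix Module Filter Topology

variable {I E : Type} {Q : QData I E} [Fintype I] [Fintype E]

/-! ### Coordinates and continuity -/

/-- The point with given coordinates. -/
def unval (a : Ent Q → ℂ) : Q.Pt ℂ where
  x e := Matrix.of fun p r => a (.inl (.inl ⟨e, p, r⟩))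
  y e := Matrix.of fun p r => a (.inl (.inr ⟨e, p, r⟩))
  j i := Matrix.of fun p r => a (.inr (.inl ⟨i, p, r⟩))
  i i := Matrix.of fun p r => a (.inr (.inr ⟨i, p, r⟩))

theorem unval_val (z : Q.Pt ℂ) : unval (val z) = z := rfl

theorem val_unval (a : Ent Q → ℂ) : val (unval a) = a := by
  funext ε
  rcases ε with (a | a) | (a | a) <;> rfl

variable {T : Type*} [TopologicalSpace T]

/-- Continuity of a family of points. -/
structure Cont (f : T → Q.Pt ℂ) : Prop where
  x : ∀ e, Continuous fun τ => (f τ).x e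
  y : ∀ e, Continuous fun τ => (f τ).y e
  j : ∀ i, Continuous fun τ => (f τ).j i
  i : ∀ i, Continuous fun τ => (f τ).i i

theorem Cont.val {f : T → Q.Pt ℂ} (h : Cont f) : Continuous fun τ => val (f τ) := by
  refine continuous_pi fun ε => ?_
  rcases ε with (a | a) | (a | a)
  · exact (h.x a.1).matrix_elem a.2.1 a.2.2
  · exact (h.y a.1).matrix_elem a.2.1 a.2.2
  · exact (h.j a.1).matrix_elem a.2.1 a.2.2
  · exact (h.i a.1).matrix_elem a.2.1 a.2.2

theorem cont_unval {f : T → Ent Q → ℂ} (h : Continuous f) : Cont fun τ => unval (f τ) :=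
  ⟨fun e => continuous_matrix fun p r =>
      (continuous_apply (Sum.inl (Sum.inl ⟨e, p, r⟩) : Ent Q)).comp h,
    fun e => continuous_matrix fun p r =>
      (continuous_apply (Sum.inl (Sum.inr ⟨e, p, r⟩) : Ent Q)).comp h,
    fun e => continuous_matrix fun p r =>
      (continuous_apply (Sum.inr (Sum.inl ⟨e, p, r⟩) : Ent Q)).comp h,
    fun e => continuous_matrix fun p r =>
      (continuous_apply (Sum.inr (Sum.inr ⟨e, p, r⟩) : Ent Q)).comp h⟩

theorem cont_iff {f : T → Q.Pt ℂ} : Cont f ↔ Continuous fun τ => val (f τ) :=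
  ⟨Cont.val, fun h => cont_unval h⟩

theorem cont_const (z : Q.Pt ℂ) : Cont fun _ : T => z :=
  ⟨fun _ => continuous_const, fun _ => continuous_const, fun _ => continuous_const,
    fun _ => continuous_const⟩

theorem Cont.comp {T' : Type*} [TopologicalSpace T'] {f : T → Q.Pt ℂ} (h : Cont f) {g : T' → T}
    (hg : Continuous g) : Cont fun τ => f (g τ) :=
  ⟨fun e => (h.x e).comp hg, fun e => (h.y e).comp hg, fun e => (h.j e).comp hg,
    fun e => (h.i e).comp hg⟩

theorem Cont.act {f : T → Q.Pt ℂ} (hf : Cont f) {g h : T → End Q} (hg : Continuous g)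
    (hh : Continuous h) : Cont fun τ => act (g τ) (h τ) (f τ) := by
  have h1 : ∀ i, Continuous fun τ => g τ i := fun i => (continuous_apply i).comp hg
  have h2 : ∀ i, Continuous fun τ => h τ i := fun i => (continuous_apply i).comp hh
  exact ⟨fun e => ((h1 _).matrix_mul (hf.x e)).matrix_mul (h2 _),
    fun e => ((h1 _).matrix_mul (hf.y e)).matrix_mul (h2 _),
    fun i => (hf.j i).matrix_mul (h2 _), fun i => (h1 _).matrix_mul (hf.i i)⟩

theorem Cont.muR {f : T → Q.Pt ℂ} (hf : Cont f) (ξ : End Q) :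
    Continuous fun τ => muR (f τ) ξ := by
  have h1 := hf.x
  have h2 := hf.y
  have h3 := hf.j
  have h4 := hf.i
  unfold KN.muR
  fun_prop

theorem Cont.mu {f : T → Q.Pt ℂ} (hf : Cont f) (ξ : End Q) :
    Continuous fun τ => (f τ).mu ξ := by
  have h1 := hf.x
  have h2 := hf.y
  have h3 := hf.j
  have h4 := hf.i
  unfold QData.Pt.mu
  fun_prop

theorem continuous_ex : Continuous (ex : (Q.Col → ℝ) → End Q) := by
  refine continuous_pi fun i => ?_
  unfold ex dg
  fun_prop

theorem continuous_mulE {g h : T → End Q} (hg : Continuous g) (hh : Continuous h) :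
    Continuous fun τ => g τ * h τ :=
  continuous_pi fun i =>
    ((continuous_apply i).comp hg).matrix_mul ((continuous_apply i).comp hh)

theorem continuous_starE {g : T → End Q} (hg : Continuous g) : Continuous fun τ => star (g τ) :=
  continuous_pi fun i => ((continuous_apply i).comp hg).matrix_conjTranspose

theorem isCompact_K (Q : QData I E) : IsCompact {u : End Q | star u * u = 1} := by
  have := isCompact_univ_pi fun i : I => isCompact_unitary (n := Fin (Q.v i))
  have e : {u : End Q | star u * u = 1} = Set.pi Set.univ fun i : I =>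
      {u : Matrix (Fin (Q.v i)) (Fin (Q.v i)) ℂ | uᴴ * u = 1} :=
    Set.ext fun u => ⟨fun h i _ => congrFun h i, fun h => funext fun i => h i trivial⟩
  rw [e]
  exact this

theorem firstCountable_End (Q : QData I E) : FirstCountableTopology (End Q) :=
  inferInstanceAs (FirstCountableTopology (∀ i, Fin (Q.v i) → Fin (Q.v i) → ℂ))

/-! ### Decompositions -/

theorem kakE {g h : End Q} (hg : g * h = 1) :
    ∃ (k u : End Q) (t : Q.Col → ℝ), star k * k = 1 ∧ star u * u = 1 ∧ g = k * ex t * u ∧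
      h = star u * ex (-t) * star k := by
  have hg' := End.mul_eq_one_comm hg
  choose k u t h1 _ h3 _ h5 using fun i => kak (congrFun hg' i : h i * g i = 1)
  have hk : star k * k = (1 : End Q) := funext h1
  have hu : star u * u = (1 : End Q) := funext h3
  have e : g = k * ex (fun c => t c.1 c.2) * u := funext h5
  refine ⟨k, u, fun c => t c.1 c.2, hk, hu, e, ?_⟩
  have : (star u * ex (-fun c : Q.Col => t c.1 c.2) * star k) * g = 1 := by
    rw [e]
    calc star u * ex (-fun c : Q.Col => t c.1 c.2) * star k * (k * ex (fun c => t c.1 c.2) * u)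
        = star u * (ex (-fun c : Q.Col => t c.1 c.2) * (star k * k) *
            ex (fun c => t c.1 c.2)) * u := by simp only [mul_assoc]
      _ = 1 := by rw [hk, mul_one, ex_neg', mul_one, hu]
  rw [← one_mul h, ← this, mul_assoc, hg, mul_one]

theorem herm_diagE {ξ : End Q} (h : star ξ = ξ) :
    ∃ (u : End Q) (s : Q.Col → ℝ), star u * u = 1 ∧ ξ = star u * dg (fun c => (s c : ℂ)) * u := by
  choose u d h1 _ h3 using fun i => herm_diag (congrFun h i : (ξ i)ᴴ = ξ i)
  exact ⟨u, fun c => d c.1 c.2, funext h1, funext h3⟩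

theorem th_det (θ : I → ℝ) {k u u₁ u₂ : End Q} (hk : star k * k = 1) (hu : star u * u = 1)
    (h₁ : star u₁ * u₁ = 1) (h₂ : star u₂ * u₂ = 1) {t t₁ t₂ : Q.Col → ℝ}
    (h : ex t₁ * u₁ * (ex t₂ * u₂) = k * ex t * u) : th Q θ t = th Q θ t₁ + th Q θ t₂ := by
  simp only [th_apply, Fintype.sum_sigma, ← Finset.sum_add_distrib]
  refine Finset.sum_congr rfl fun i _ => ?_
  have h1 := congrArg (fun a => ‖(a i).det‖) h
  simp only [Pi.mul_apply, det_mul, norm_mul, norm_det_unitary (congrFun hk i),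
    norm_det_unitary (congrFun hu i), norm_det_unitary (congrFun h₁ i),
    norm_det_unitary (congrFun h₂ i), ex, dg, norm_det_exp, mul_one, one_mul,
    ← Real.exp_add] at h1
  have h2 := Real.exp_injective h1
  rw [Finset.sum_add_distrib, ← Finset.mul_sum, ← Finset.mul_sum, ← Finset.mul_sum, ← h2, mul_add]

theorem ex_u_inv {u : End Q} (hu : star u * u = 1) (t : Q.Col → ℝ) :
    (ex t * u) * (star u * ex (-t)) = 1 := by
  rw [mul_assoc, ← mul_assoc u, End.mul_eq_one_comm hu, one_mul, ex_neg]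

/-! ### Existence -/

theorem lev_of_min {θ : I → ℝ} {z : Q.Pt ℂ} {u₀ : End Q} (h₀ : star u₀ * u₀ = 1)
    {t₀ : Q.Col → ℝ} (hmin : ∀ u t, star u * u = 1 →
      psi (wt Q) (th Q θ) (val (act u₀ (star u₀) z)) t₀ ≤
        psi (wt Q) (th Q θ) (val (act u (star u) z)) t) :
    Lev θ (act (ex t₀ * u₀) (star u₀ * ex (-t₀)) z) := by
  refine lev_of_herm fun ξ hξ => ?_
  obtain ⟨u, s, hu, rfl⟩ := herm_diagE hξ
  rw [← muR_act hu, cen_conj θ (End.mul_eq_one_comm hu), muR_dg, cen_dg]
  congr 1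
  refine crit fun r => ?_
  have hinv : (ex (r • s) * u * (ex t₀ * u₀)) *
      (star u₀ * ex (-t₀) * (star u * ex (-(r • s)))) = 1 := by
    rw [mul_assoc, ← mul_assoc (ex t₀ * u₀), ex_u_inv h₀, one_mul, ex_u_inv hu]
  obtain ⟨k, u', t', hk, hu', e1, e2⟩ := kakE hinv
  have h1 := hmin u' t' hu'
  have h2 := th_det θ hk hu' hu h₀ e1
  rw [psi_eq, psi_eq, act_act, act_act] at h1
  rw [psi_eq, psi_eq, neg_zero, ex_zero, act_one, nrm_act hu, act_act, act_act, e1, e2,
    mul_assoc k, ← act_act k, nrm_act hk, map_zero]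
  linarith

theorem exists_lev_bound (θ : I → ℝ) {C : Set (Ent Q → ℂ)} (hC : IsCompact C)
    (hs : ∀ a ∈ C, StR θ (unval a)) :
    ∃ R, ∀ z : Q.Pt ℂ, val z ∈ C → ∃ (u : End Q) (t : Q.Col → ℝ), star u * u = 1 ∧ ‖t‖ ≤ R ∧
      Lev θ (act (ex t * u) (star u * ex (-t)) z) := by
  have hc : Continuous fun p : End Q × (Ent Q → ℂ) => val (act p.1 (star p.1) (unval p.2)) :=
    ((cont_unval continuous_snd).act continuous_fst (continuous_starE continuous_fst)).val
  have hC' := ((isCompact_K Q).prod hC).image hc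
  obtain ⟨M, hM⟩ := (hC.image (f := fun a : Ent Q → ℂ => ∑ ε, ‖a ε‖ ^ 2)
    (by fun_prop)).bddAbove
  obtain ⟨R, hR⟩ := proper (w := wt Q) (θ := th Q θ) hC' (by
    rintro _ ⟨⟨u, a⟩, ⟨hu, ha⟩, rfl⟩
    exact ((hs a ha).act (End.mul_eq_one_comm hu)).good) M
  refine ⟨R, fun z hz => ?_⟩
  have hR' : ∀ u t, star u * u = 1 → psi (wt Q) (th Q θ) (val (act u (star u) z)) t ≤ M →
      ‖t‖ ≤ R := fun u t hu => hR (val (act u (star u) z)) ⟨(u, val z), ⟨hu, hz⟩, by
        simp only [unval_val]⟩ t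
  have h1 : star (1 : End Q) * 1 = 1 := by rw [star_one, mul_one]
  have h0 : psi (wt Q) (th Q θ) (val (act 1 (star 1) z)) 0 ≤ M := by
    rw [psi_eq, neg_zero, ex_zero, act_one, star_one, act_one, map_zero, mul_zero, sub_zero]
    exact hM ⟨val z, hz, rfl⟩
  have hF : Continuous fun p : End Q × (Q.Col → ℝ) =>
      psi (wt Q) (th Q θ) (val (act p.1 (star p.1) z)) p.2 :=
    Continuous.comp (g := fun p : (Ent Q → ℂ) × (Q.Col → ℝ) => psi (wt Q) (th Q θ) p.1 p.2)
      (f := fun p : End Q × (Q.Col → ℝ) => (val (act p.1 (star p.1) z), p.2))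
      (continuous_psi (wt Q) (th Q θ))
      ((((cont_const z).act continuous_fst (continuous_starE continuous_fst)).val).prodMk
        continuous_snd)
  have hmem : ((1, 0) : End Q × (Q.Col → ℝ)) ∈
      {u : End Q | star u * u = 1} ×ˢ Metric.closedBall (0 : Q.Col → ℝ) R :=
    ⟨h1, mem_closedBall_zero_iff.2 (hR' 1 0 h1 h0)⟩
  obtain ⟨⟨u₀, t₀⟩, ⟨hu₀, ht₀⟩, hmin⟩ :=
    ((isCompact_K Q).prod (isCompact_closedBall (0 : Q.Col → ℝ) R)).exists_isMinOn ⟨_, hmem⟩
      hF.continuousOn
  refine ⟨u₀, t₀, hu₀, mem_closedBall_zero_iff.1 ht₀, lev_of_min hu₀ fun u t hu => ?_⟩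
  by_cases ht : ‖t‖ ≤ R
  · exact hmin (a := (u, t)) ⟨hu, mem_closedBall_zero_iff.2 ht⟩
  · have h2 : M < psi (wt Q) (th Q θ) (val (act u (star u) z)) t :=
      not_le.1 fun h => ht (hR' u t hu h)
    exact (le_trans (hmin hmem) h0).trans h2.le

theorem StR.exists_lev {θ : I → ℝ} {z : Q.Pt ℂ} (hz : StR θ z) :
    ∃ (u : End Q) (t : Q.Col → ℝ), star u * u = 1 ∧
      Lev θ (KN.act (ex t * u) (star u * ex (-t)) z) := by
  obtain ⟨R, hR⟩ := exists_lev_bound θ (isCompact_singleton (x := val z)) (by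
    rintro _ rfl
    exact hz)
  obtain ⟨u, t, hu, -, h⟩ := hR z rfl
  exact ⟨u, t, hu, h⟩

/-! ### Uniqueness -/

/-- Two points of a stable orbit in the level `θ` differ by a unitary element. -/
theorem unitary_of_lev {θ : I → ℝ} {z : Q.Pt ℂ} (hz : StR θ z) (h1 : Lev θ z) {g h : End Q}
    (hg : g * h = 1) (h2 : Lev θ (act g h z)) : star g * g = 1 ∧ h = star g := by
  obtain ⟨k, u, t, hk, hu, rfl, rfl⟩ := kakE hg
  have hk' : star (star k) * star k = 1 := by rw [star_star]; exact End.mul_eq_one_comm hk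
  have h3 := h2.act hk'
  rw [act_act, star_star, ← mul_assoc, ← mul_assoc, hk, one_mul, mul_assoc, hk, mul_one,
    ← act_act] at h3
  have h4 := h1.act hu
  have h5 := h4 (dg fun c => (t c : ℂ))
  have h6 := h3 (dg fun c => (t c : ℂ))
  rw [muR_dg, cen_dg] at h5 h6
  have ht : t = 0 := by
    refine uniq (hz.act (End.mul_eq_one_comm hu)).good (Complex.ofReal_injective h5) ?_
    rw [← Complex.ofReal_injective h6]
    refine Finset.sum_congr rfl fun ε _ => ?_
    rw [val_ex, norm_mul, mul_pow, Complex.norm_real, Real.norm_eq_abs, sq_abs, two_mul,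
      Real.exp_add]
    ring
  subst ht
  rw [neg_zero, ex_zero, mul_one, mul_one, star_mul]
  refine ⟨?_, rfl⟩
  rw [mul_assoc, ← mul_assoc (star k), hk, one_mul, hu]

theorem diag_unique {θ : I → ℝ} {z : Q.Pt ℂ} (hz : StR θ z) {u u' : End Q} (hu : star u * u = 1)
    (hu' : star u' * u' = 1) {t t' : Q.Col → ℝ}
    (h : Lev θ (act (ex t * u) (star u * ex (-t)) z))
    (h' : Lev θ (act (ex t' * u') (star u' * ex (-t')) z)) (s : ℝ) :
    star u * ex (s • t) * u = star u' * ex (s • t') * u' := by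
  have e1 := ex_u_inv hu t
  have e2 := ex_u_inv hu' t'
  have e1' := End.mul_eq_one_comm e1
  have hinv : (ex t' * u' * (star u * ex (-t))) * (ex t * u * (star u' * ex (-t'))) = 1 := by
    rw [mul_assoc, ← mul_assoc (star u * ex (-t)), e1', one_mul, e2]
  have h1 := (unitary_of_lev (hz.act e1) h hinv (by
    rw [act_act, mul_assoc (ex t' * u'), e1', mul_one, ← mul_assoc (star u * ex (-t)), e1',
      one_mul]
    exact h')).1
  have h2 : star u * ex ((2 : ℝ) • t) * u = star u' * ex ((2 : ℝ) • t') * u' := by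
    have h3 := congrArg (fun a => star (ex t * u) * a * (ex t * u)) h1
    simp only [mul_one] at h3
    have h4 : star (ex t * u) * (star (ex t' * u' * (star u * ex (-t))) *
        (ex t' * u' * (star u * ex (-t)))) * (ex t * u) =
        star (ex t' * u' * (star u * ex (-t) * (ex t * u))) *
          (ex t' * u' * (star u * ex (-t) * (ex t * u))) := by
      simp only [star_mul, mul_assoc]
    rw [h4, e1', mul_one, star_mul, star_mul, star_ex, star_ex] at h3
    rw [two_smul, two_smul, ← ex_add, ← ex_add]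
    simpa only [mul_assoc] using h3.symm
  funext i
  exact diag_congr (congrFun hu i) (congrFun hu' i) (t := fun r => t ⟨i, r⟩)
    (t' := fun r => t' ⟨i, r⟩) (congrFun h2 i) fun a => (Real.exp (s * a) : ℂ)

/-! ### The Kempf-Ness element -/

open Classical in
/-- A choice of diagonalization of the Kempf-Ness element. -/
noncomputable def kn (θ : I → ℝ) (z : Q.Pt ℂ) : End Q × (Q.Col → ℝ) :=
  if h : ∃ p : End Q × (Q.Col → ℝ), star p.1 * p.1 = 1 ∧
    Lev θ (act (ex p.2 * p.1) (star p.1 * ex (-p.2)) z) then h.choose else (1, 0)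

theorem kn_unitary (θ : I → ℝ) (z : Q.Pt ℂ) : star (kn θ z).1 * (kn θ z).1 = 1 := by
  unfold kn
  split_ifs with h
  · exact h.choose_spec.1
  · rw [star_one, mul_one]

theorem kn_lev {θ : I → ℝ} {z : Q.Pt ℂ} (hz : StR θ z) :
    Lev θ (act (ex (kn θ z).2 * (kn θ z).1) (star (kn θ z).1 * ex (-(kn θ z).2)) z) := by
  obtain ⟨u, t, hu, h⟩ := hz.exists_lev
  have h1 : ∃ p : End Q × (Q.Col → ℝ), star p.1 * p.1 = 1 ∧
    Lev θ (act (ex p.2 * p.1) (star p.1 * ex (-p.2)) z) := ⟨(u, t), hu, h⟩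
  unfold kn
  rw [dif_pos h1]
  exact h1.choose_spec.2

/-- The power `γ(z)^s` of the positive definite element `γ(z)` with `μ_ℝ(γ(z) z) = θ`. -/
noncomputable def gam (θ : I → ℝ) (z : Q.Pt ℂ) (s : ℝ) : End Q :=
  star (kn θ z).1 * ex (s • (kn θ z).2) * (kn θ z).1

theorem gam_add (θ : I → ℝ) (z : Q.Pt ℂ) (s s' : ℝ) :
    gam θ z s * gam θ z s' = gam θ z (s + s') := by
  unfold gam
  rw [add_smul, ← ex_add]
  calc _ = star (kn θ z).1 * ex (s • (kn θ z).2) * ((kn θ z).1 * star (kn θ z).1) *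
        ex (s' • (kn θ z).2) * (kn θ z).1 := by simp only [mul_assoc]
    _ = _ := by rw [End.mul_eq_one_comm (kn_unitary θ z), mul_one, mul_assoc (star _)]

theorem gam_zero (θ : I → ℝ) (z : Q.Pt ℂ) : gam θ z 0 = 1 := by
  rw [gam, zero_smul, ex_zero, mul_one, kn_unitary]

theorem gam_neg (θ : I → ℝ) (z : Q.Pt ℂ) (s : ℝ) : gam θ z s * gam θ z (-s) = 1 := by
  rw [gam_add, add_neg_cancel, gam_zero]

theorem gam_neg' (θ : I → ℝ) (z : Q.Pt ℂ) (s : ℝ) : gam θ z (-s) * gam θ z s = 1 := by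
  rw [gam_add, neg_add_cancel, gam_zero]

theorem star_gam (θ : I → ℝ) (z : Q.Pt ℂ) (s : ℝ) : star (gam θ z s) = gam θ z s := by
  rw [gam, star_mul, star_mul, star_star, star_ex, mul_assoc]

theorem gam_eq {θ : I → ℝ} {z : Q.Pt ℂ} (hz : StR θ z) {u : End Q} (hu : star u * u = 1)
    {t : Q.Col → ℝ} (h : Lev θ (act (ex t * u) (star u * ex (-t)) z)) (s : ℝ) :
    gam θ z s = star u * ex (s • t) * u :=
  diag_unique hz (kn_unitary θ z) hu (kn_lev hz) h s

/-- `μ_ℝ(γ(z) z) = θ`. -/
theorem lev_gam {θ : I → ℝ} {z : Q.Pt ℂ} (hz : StR θ z) :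
    Lev θ (act (gam θ z 1) (gam θ z (-1)) z) := by
  have hu : star (star (kn θ z).1) * star (kn θ z).1 = 1 := by
    rw [star_star]; exact End.mul_eq_one_comm (kn_unitary θ z)
  have h := (kn_lev hz).act hu
  rw [act_act, star_star, ← mul_assoc] at h
  rw [gam, gam, one_smul, neg_smul, one_smul]
  exact h

theorem gam_of_lev {θ : I → ℝ} {z : Q.Pt ℂ} (hz : StR θ z) (h : Lev θ z) (s : ℝ) :
    gam θ z s = 1 := by
  rw [gam_eq hz (u := 1) (t := 0) (by rw [star_one, mul_one]) (by
    rw [neg_zero, ex_zero, star_one, mul_one, act_one]; exact h), smul_zero, ex_zero, star_one,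
    mul_one, mul_one]

/-- Equivariance for the unitary group. -/
theorem gam_act {θ : I → ℝ} {z : Q.Pt ℂ} (hz : StR θ z) {k : End Q} (hk : star k * k = 1)
    (s : ℝ) : gam θ (act k (star k) z) s = k * gam θ z s * star k := by
  have hk' := End.mul_eq_one_comm hk
  rw [gam_eq (hz.act hk') (u := (kn θ z).1 * star k) (t := (kn θ z).2) (by
      rw [star_mul, star_star, mul_assoc, ← mul_assoc (star _), kn_unitary, one_mul, hk']) (by
      rw [act_act, star_mul, star_star, mul_assoc, mul_assoc, hk, mul_one, ← mul_assoc,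
        ← mul_assoc, hk, one_mul]
      exact kn_lev hz), star_mul, star_star, gam]
  simp only [mul_assoc]

/-- Invariance under symmetries that commute with the group and preserve the level. -/
theorem gam_congr {θ : I → ℝ} {z z' : Q.Pt ℂ} (hz : StR θ z) (hz' : StR θ z')
    (h : ∀ g h : End Q, g * h = 1 → Lev θ (act g h z) → Lev θ (act g h z')) (s : ℝ) :
    gam θ z' s = gam θ z s :=
  gam_eq hz' (kn_unitary θ z) (h _ _ (ex_u_inv (kn_unitary θ z) _) (kn_lev hz)) s

/-- The cocycle relating the Kempf-Ness elements along an orbit is unitary. -/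
theorem gam_cocycle {θ : I → ℝ} {z : Q.Pt ℂ} (hz : StR θ z) {g h : End Q} (hg : g * h = 1) :
    star (gam θ (act g h z) 1 * g * gam θ z (-1)) * (gam θ (act g h z) 1 * g * gam θ z (-1)) = 1 ∧
      gam θ z 1 * h * gam θ (act g h z) (-1) = star (gam θ (act g h z) 1 * g * gam θ z (-1)) := by
  refine unitary_of_lev (hz.act (gam_neg θ z 1)) (lev_gam hz) ?_ ?_
  · calc _ = gam θ (act g h z) 1 * (g * (gam θ z (-1) * gam θ z 1) * h) *
          gam θ (act g h z) (-1) := by simp only [mul_assoc]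
      _ = 1 := by rw [gam_neg', mul_one, hg, mul_one, gam_neg]
  · have := lev_gam (hz.act hg)
    rw [act_act] at this
    rw [act_act, mul_assoc _ _ (gam θ z 1), gam_neg', mul_one, ← mul_assoc, ← mul_assoc, gam_neg',
      one_mul]
    exact this

theorem continuous_gam_aux (θ : I → ℝ) : Continuous fun
    p : {a : Ent Q → ℂ // StR θ (unval a)} × ℝ => gam θ (unval p.1.1) p.2 := by
  have := firstCountable_End Q
  refine continuous_iff_seqContinuous.2 fun x p hx => ?_
  refine tendsto_of_subseq_tendsto fun ns hns => ?_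
  have hx1 : Tendsto (fun n => (x (ns n)).1.1) atTop (𝓝 p.1.1) :=
    ((continuous_subtype_val.comp continuous_fst).tendsto p).comp (hx.comp hns)
  have hx2 : Tendsto (fun n => (x (ns n)).2) atTop (𝓝 p.2) :=
    (continuous_snd.tendsto p).comp (hx.comp hns)
  obtain ⟨R, hR⟩ := exists_lev_bound θ hx1.isCompact_insert_range (by
    rintro a (rfl | ⟨n, rfl⟩)
    · exact p.1.2
    · exact (x (ns n)).1.2)
  choose u t hu ht hl using fun n => hR (unval (x (ns n)).1.1) (by
    rw [val_unval]; exact Or.inr ⟨n, rfl⟩)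
  obtain ⟨⟨u₀, t₀⟩, ⟨hu₀, -⟩, φ, hφ, hlim⟩ :=
    ((isCompact_K Q).prod (isCompact_closedBall (0 : Q.Col → ℝ) R)).tendsto_subseq
      (x := fun n => (u n, t n)) fun n => ⟨hu n, mem_closedBall_zero_iff.2 (ht n)⟩
  have hl₀ : Lev θ (act (ex t₀ * u₀) (star u₀ * ex (-t₀)) (unval p.1.1)) := by
    intro ξ
    have hc : Continuous fun q : (End Q × (Q.Col → ℝ)) × (Ent Q → ℂ) =>
        muR (act (ex q.1.2 * q.1.1) (star q.1.1 * ex (-q.1.2)) (unval q.2)) ξ :=
      ((cont_unval continuous_snd).act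
        (continuous_mulE (continuous_ex.comp continuous_fst.snd) continuous_fst.fst)
        (continuous_mulE (continuous_starE continuous_fst.fst)
          (continuous_ex.comp continuous_fst.snd.neg))).muR ξ
    have h1 := (hc.tendsto ((u₀, t₀), p.1.1)).comp
      (hlim.prodMk_nhds (hx1.comp hφ.tendsto_atTop))
    refine tendsto_nhds_unique h1 (tendsto_const_nhds.congr fun n => ?_)
    exact (hl (φ n) ξ).symm
  refine ⟨φ, ?_⟩
  have hc : Continuous fun q : (End Q × (Q.Col → ℝ)) × ℝ =>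
      star q.1.1 * ex (q.2 • q.1.2) * q.1.1 :=
    continuous_mulE (continuous_mulE (continuous_starE continuous_fst.fst)
      (continuous_ex.comp (continuous_snd.smul continuous_fst.snd))) continuous_fst.fst
  have h1 := (hc.tendsto ((u₀, t₀), p.2)).comp (hlim.prodMk_nhds (hx2.comp hφ.tendsto_atTop))
  rw [gam_eq p.1.2 hu₀ hl₀]
  refine h1.congr fun n => ?_
  exact (gam_eq (x (ns (φ n))).1.2 (hu (φ n)) (hl (φ n)) _).symm

/-- The Kempf-Ness element depends continuously on the stable point. -/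
theorem Cont.gam {θ : I → ℝ} {f : T → Q.Pt ℂ} (hf : Cont f) (hs : ∀ τ, StR θ (f τ)) {s : T → ℝ}
    (h : Continuous s) : Continuous fun τ => gam θ (f τ) (s τ) := by
  have hs' : ∀ τ, StR θ (unval (KN.val (f τ))) := fun τ => by rw [unval_val]; exact hs τ
  have h1 : Continuous fun τ =>
      ((⟨KN.val (f τ), hs' τ⟩, s τ) : {a : Ent Q → ℂ // StR θ (unval a)} × ℝ) :=
    (hf.val.subtype_mk hs').prodMk h
  have h2 := (continuous_gam_aux θ).comp h1
  refine h2.congr fun τ => ?_
  simp only [Function.comp_apply, unval_val]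

end Vale.Agent.P291Z.KN
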