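import Vale.Agent.P291Z.KN2

/-!
# Hyperkaehler rotation and flavour symmetries
-/

set_option linter.unusedSectionVars false

namespace Vale.Agent.P291Z.KN

open Vale.Agent.P291.Hik Matrix Module Filter Topology

variable {I E : Type} {Q : QData I E} [Fintype I] [Fintype E]

theorem mu_eq (z : Q.Pt ℂ) (ξ : End Q) : z.mu ξ =
    ∑ e, ((ξ (Q.t e) * (z.x e * z.y e)).trace - (ξ (Q.s e) * (z.y e * z.x e)).trace) -
      ∑ i, (ξ i * (z.i i * z.j i)).trace := by
  unfold QData.Pt.mu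
  congr 1
  · refine Finset.sum_congr rfl fun e _ => ?_
    rw [Matrix.mul_sub, trace_sub, trace_mul_comm (z.y e), Matrix.mul_assoc,
      ← Matrix.mul_assoc (z.y e), trace_mul_comm (z.y e * z.x e)]
  · refine Finset.sum_congr rfl fun i _ => ?_
    rw [← Matrix.mul_assoc, trace_mul_comm]

theorem star_trace_aux {n : Type} [Fintype n] (ξ a : Matrix n n ℂ) :
    star (ξᴴ * a).trace = (ξ * aᴴ).trace := by
  rw [← trace_conjTranspose, conjTranspose_mul, conjTranspose_conjTranspose, trace_mul_comm]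

theorem star_mu (z : Q.Pt ℂ) (ξ : End Q) : star (z.mu (star ξ)) =
    ∑ e, ((ξ (Q.t e) * ((z.y e)ᴴ * (z.x e)ᴴ)).trace -
      (ξ (Q.s e) * ((z.x e)ᴴ * (z.y e)ᴴ)).trace) - ∑ i, (ξ i * ((z.j i)ᴴ * (z.i i)ᴴ)).trace := by
  simp only [mu_eq, star_apply, star_sub, star_sum, star_trace_aux, conjTranspose_mul]

theorem star_muR (z : Q.Pt ℂ) (ξ : End Q) : star (muR z (star ξ)) = muR z ξ := by
  simp only [muR, star_apply, star_sub, star_add, star_neg, star_sum, star_trace_aux,
    conjTranspose_mul, conjTranspose_conjTranspose]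

theorem star_cen (θ : I → ℝ) (ξ : End Q) : star (cen θ (star ξ)) = cen θ ξ := by
  simp only [cen, star_apply, star_sum, star_mul', trace_conjTranspose,
    Complex.star_def, Complex.conj_ofReal, Complex.conj_conj]

theorem mu_add (z : Q.Pt ℂ) (ξ η : End Q) : z.mu (ξ + η) = z.mu ξ + z.mu η := by
  simp only [mu_eq, Pi.add_apply, Matrix.add_mul, trace_add, Finset.sum_sub_distrib,
    Finset.sum_add_distrib]
  ring

theorem mu_smul (z : Q.Pt ℂ) (c : ℂ) (ξ : End Q) : z.mu (c • ξ) = c * z.mu ξ := by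
  simp only [mu_eq, Pi.smul_apply, Matrix.smul_mul, trace_smul, smul_eq_mul,
    Finset.sum_sub_distrib, ← Finset.mul_sum]
  ring

/-- Equivariance of the complex moment map. -/
theorem mu_act {g h : End Q} (hg : g * h = 1) (z : Q.Pt ℂ) (ξ : End Q) :
    (act g h z).mu ξ = z.mu (h * ξ * g) := by
  have h1 : ∀ i, h i * g i = 1 := fun i => congrFun (End.mul_eq_one_comm hg) i
  have key : ∀ {m : Type} [Fintype m] (ξ g h a : Matrix m m ℂ),
      (ξ * (g * a * h)).trace = (h * ξ * g * a).trace := by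
    intro m _ ξ g h a
    rw [← Matrix.mul_assoc, trace_mul_comm]
    simp only [Matrix.mul_assoc]
  simp only [mu_eq, act, Pi.mul_apply]
  congr 1
  · refine Finset.sum_congr rfl fun e _ => ?_
    rw [← key, ← key]
    simp only [Matrix.mul_assoc]
    rw [← Matrix.mul_assoc (h (Q.s e)) (g (Q.s e)), ← Matrix.mul_assoc (h (Q.t e)) (g (Q.t e)),
      h1, h1, Matrix.one_mul, Matrix.one_mul]
  · refine Finset.sum_congr rfl fun i _ => ?_
    rw [← key]
    simp only [Matrix.mul_assoc]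

/-- The hyperkaehler rotation (up to the factor `√2`). -/
noncomputable def rot (z : Q.Pt ℂ) : Q.Pt ℂ where
  x e := z.x e - (z.y e)ᴴ
  y e := z.y e + (z.x e)ᴴ
  j i := z.j i - (z.i i)ᴴ
  i i := z.i i + (z.j i)ᴴ

/-- The inverse rotation. -/
noncomputable def unrot (z : Q.Pt ℂ) : Q.Pt ℂ where
  x e := (1 / 2 : ℂ) • (z.x e + (z.y e)ᴴ)
  y e := (1 / 2 : ℂ) • (z.y e - (z.x e)ᴴ)
  j i := (1 / 2 : ℂ) • (z.j i + (z.i i)ᴴ)
  i i := (1 / 2 : ℂ) • (z.i i - (z.j i)ᴴ)

theorem star_half : star (1 / 2 : ℂ) = 1 / 2 := by simp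

theorem unrot_rot (z : Q.Pt ℂ) : unrot (rot z) = z := by
  refine pt_ext (fun e => ?_) (fun e => ?_) (fun e => ?_) (fun e => ?_) <;>
  · simp only [rot, unrot, conjTranspose_add, conjTranspose_sub, conjTranspose_conjTranspose]
    module

theorem rot_unrot (z : Q.Pt ℂ) : rot (unrot z) = z := by
  refine pt_ext (fun e => ?_) (fun e => ?_) (fun e => ?_) (fun e => ?_) <;>
  · simp only [rot, unrot, conjTranspose_add, conjTranspose_sub, conjTranspose_conjTranspose,
      conjTranspose_smul, star_half]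
    module

theorem mu_rot (z : Q.Pt ℂ) (ξ : End Q) :
    (rot z).mu ξ = muR z ξ + z.mu ξ - star (z.mu (star ξ)) := by
  rw [star_mu]
  simp only [mu_eq, muR, rot, Matrix.mul_add, Matrix.add_mul, Matrix.mul_sub, Matrix.sub_mul,
    trace_add, trace_sub, Finset.sum_add_distrib, Finset.sum_sub_distrib]
  ring

theorem muR_rot (z : Q.Pt ℂ) (ξ : End Q) :
    muR (rot z) ξ = -2 * (z.mu ξ + star (z.mu (star ξ))) := by
  rw [star_mu]
  simp only [mu_eq, muR, rot, conjTranspose_add, conjTranspose_sub, conjTranspose_conjTranspose,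
    Matrix.mul_add, Matrix.add_mul, Matrix.mul_sub, Matrix.sub_mul,
    trace_add, trace_sub, Finset.sum_add_distrib, Finset.sum_sub_distrib]
  ring

theorem cen_zero (ξ : End Q) : cen (0 : I → ℝ) ξ = 0 := by simp [cen]

/-- The rotation maps `μ_ℂ = 0, μ_ℝ = θ` onto `μ_ℂ = θ, μ_ℝ = 0`. -/
theorem rot_iff (θ : I → ℝ) (z : Q.Pt ℂ) :
    ((∀ ξ, (rot z).mu ξ = cen θ ξ) ∧ Lev 0 (rot z)) ↔ ((∀ ξ, z.mu ξ = 0) ∧ Lev θ z) := by
  constructor
  · rintro ⟨h1, h2⟩
    have h3 : ∀ ξ, star (z.mu (star ξ)) = -z.mu ξ := fun ξ => by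
      have := h2 ξ
      rw [muR_rot, cen_zero] at this
      linear_combination (-1 / 2 : ℂ) * this
    have h4 : ∀ ξ, muR z ξ + 2 * z.mu ξ = cen θ ξ := fun ξ => by
      rw [← h1, mu_rot, h3]; ring
    have h5 : ∀ ξ, z.mu ξ = 0 := fun ξ => by
      have h6 := congrArg star (h4 (star ξ))
      rw [star_add, star_mul', star_muR, star_cen, h3, ← h4 ξ] at h6
      have h7 : star (2 : ℂ) = 2 := by simp
      rw [h7] at h6
      linear_combination (-1 / 4 : ℂ) * h6
    exact ⟨h5, fun ξ => by rw [← h4, h5, mul_zero, add_zero]⟩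
  · rintro ⟨h1, h2⟩
    exact ⟨fun ξ => by rw [mu_rot, h1, h1, h2, star_zero, add_zero, sub_zero],
      fun ξ => by rw [muR_rot, h1, h1, cen_zero, star_zero, add_zero, mul_zero]⟩

theorem rot_act (u : End Q) (z : Q.Pt ℂ) : rot (act u (star u) z) = act u (star u) (rot z) := by
  refine pt_ext (fun e => ?_) (fun e => ?_) (fun e => ?_) (fun e => ?_) <;>
  simp only [rot, act, star_apply, conjTranspose_mul, conjTranspose_conjTranspose, Matrix.mul_add,
    Matrix.add_mul, Matrix.mul_sub, Matrix.sub_mul, Matrix.mul_assoc]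

theorem unrot_act (u : End Q) (z : Q.Pt ℂ) :
    unrot (act u (star u) z) = act u (star u) (unrot z) := by
  conv_lhs => rw [← rot_unrot z, ← rot_act, unrot_rot]

variable {T : Type*} [TopologicalSpace T]

theorem Cont.rot {f : T → Q.Pt ℂ} (hf : Cont f) : Cont fun τ => rot (f τ) :=
  ⟨fun e => (hf.x e).sub (hf.y e).matrix_conjTranspose,
    fun e => (hf.y e).add (hf.x e).matrix_conjTranspose,
    fun e => (hf.j e).sub (hf.i e).matrix_conjTranspose,
    fun e => (hf.i e).add (hf.j e).matrix_conjTranspose⟩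

theorem Cont.unrot {f : T → Q.Pt ℂ} (hf : Cont f) : Cont fun τ => unrot (f τ) :=
  ⟨fun e => ((hf.x e).add (hf.y e).matrix_conjTranspose).const_smul (1 / 2 : ℂ),
    fun e => ((hf.y e).sub (hf.x e).matrix_conjTranspose).const_smul (1 / 2 : ℂ),
    fun e => ((hf.j e).add (hf.i e).matrix_conjTranspose).const_smul (1 / 2 : ℂ),
    fun e => ((hf.i e).sub (hf.j e).matrix_conjTranspose).const_smul (1 / 2 : ℂ)⟩

/-! ### Free action on stable points -/

/-- A stable point has trivial stabilizer. -/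
theorem StR.free {θ : I → ℝ} {z : Q.Pt ℂ} (hz : StR θ z) {g h : End Q} (hg : g * h = 1)
    (e : KN.act g h z = z) : g = 1 := by
  have h1 : ∀ i, h i * g i = 1 := fun i => congrFun (End.mul_eq_one_comm hg) i
  have hx : ∀ a, g (Q.t a) * z.x a = z.x a * g (Q.s a) := fun a => by
    have : g (Q.t a) * z.x a * h (Q.s a) = z.x a := congrArg (fun z => z.x a) e
    conv_rhs => rw [← this, Matrix.mul_assoc, h1, Matrix.mul_one]
  have hy : ∀ a, g (Q.s a) * z.y a = z.y a * g (Q.t a) := fun a => by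
    have : g (Q.s a) * z.y a * h (Q.t a) = z.y a := congrArg (fun z => z.y a) e
    conv_rhs => rw [← this, Matrix.mul_assoc, h1, Matrix.mul_one]
  have hj : ∀ a, z.j a = z.j a * g a := fun a => by
    have : z.j a * h a = z.j a := congrArg (fun z => z.j a) e
    conv_rhs => rw [← this, Matrix.mul_assoc, h1, Matrix.mul_one]
  have hi : ∀ a, g a * z.i a = z.i a := fun a => congrArg (fun z => z.i a) e
  let f : ∀ i, (Fin (Q.v i) → ℂ) →ₗ[ℂ] (Fin (Q.v i) → ℂ) := fun i => Matrix.toLin' (g i - 1)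
  have hf : ∀ i u, f i u = (g i - 1).mulVec u := fun i u => Matrix.toLin'_apply _ _
  have cx : ∀ a u, f (Q.t a) ((z.x a).mulVec u) = (z.x a).mulVec (f (Q.s a) u) := fun a u => by
    rw [hf, hf, mulVec_mulVec, mulVec_mulVec, Matrix.sub_mul, Matrix.mul_sub, hx,
      Matrix.one_mul, Matrix.mul_one]
  have cy : ∀ a u, f (Q.s a) ((z.y a).mulVec u) = (z.y a).mulVec (f (Q.t a) u) := fun a u => by
    rw [hf, hf, mulVec_mulVec, mulVec_mulVec, Matrix.sub_mul, Matrix.mul_sub, hy,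
      Matrix.one_mul, Matrix.mul_one]
  by_contra hne
  obtain ⟨i, hi0⟩ := Function.ne_iff.1 hne
  have hf0 : f i ≠ 0 := fun h0 => hi0 (by
    have : g i - 1 = 0 := Matrix.toLin'.injective (by rw [map_zero]; exact h0)
    exact sub_eq_zero.1 this)
  have h2 := (hz (fun i => LinearMap.range (f i)) fun a =>
    ⟨by rintro _ ⟨u, rfl⟩; exact ⟨_, cx a u⟩, by rintro _ ⟨u, rfl⟩; exact ⟨_, cy a u⟩⟩).1
    (by
      rintro a _ ⟨u, rfl⟩
      rw [hf, mulVec_mulVec, Matrix.mul_sub, ← hj, Matrix.mul_one, sub_self, zero_mulVec])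
    ⟨i, fun h0 => hf0 (LinearMap.range_eq_bot.1 h0)⟩
  have h3 := (hz (fun i => LinearMap.ker (f i)) fun a =>
    ⟨fun u hu => by rw [LinearMap.mem_ker] at hu ⊢; rw [cx, hu, Matrix.mulVec_zero],
      fun u hu => by rw [LinearMap.mem_ker] at hu ⊢; rw [cy, hu, Matrix.mulVec_zero]⟩).2
    (fun a u => by
      rw [LinearMap.mem_ker, hf, mulVec_mulVec, Matrix.sub_mul, hi, Matrix.one_mul, sub_self,
        zero_mulVec])
    ⟨i, fun h0 => hf0 (LinearMap.ker_eq_top.1 h0)⟩
  have h4 : pairR θ (fun i => LinearMap.range (f i)) + pairR θ (fun i => LinearMap.ker (f i)) =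
      ∑ i, θ i * (Q.v i : ℝ) := by
    rw [pairR, pairR, ← Finset.sum_add_distrib]
    refine Finset.sum_congr rfl fun i _ => ?_
    rw [← mul_add, ← Nat.cast_add, LinearMap.finrank_range_add_finrank_ker, finrank_fin_fun]
  linarith

/-! ### Flavour symmetries -/

/-- Families of endomorphisms of the `W_i`. -/
abbrev EndW (Q : QData I E) : Type := ∀ i, Matrix (Fin (Q.w i)) (Fin (Q.w i)) ℂ

/-- Scalars `a` (inverses `b`) on the arrows and `w` (inverse `w'`) on the framing. -/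
noncomputable def fl (a b : E → ℂ) (w w' : EndW Q) (z : Q.Pt ℂ) : Q.Pt ℂ where
  x e := a e • z.x e
  y e := b e • z.y e
  j i := w i * z.j i
  i i := z.i i * w' i

theorem fl_act (a b : E → ℂ) (w w' : EndW Q) (g h : End Q) (z : Q.Pt ℂ) :
    fl a b w w' (act g h z) = act g h (fl a b w w' z) := by
  refine pt_ext (fun e => ?_) (fun e => ?_) (fun e => ?_) (fun e => ?_) <;>
  simp only [fl, act, Matrix.mul_smul, Matrix.smul_mul, Matrix.mul_assoc]

theorem fl_fl (a b a' b' : E → ℂ) (w w' u u' : EndW Q) (z : Q.Pt ℂ) :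
    fl a b w w' (fl a' b' u u' z) = fl (a * a') (b * b') (w * u) (u' * w') z := by
  refine pt_ext (fun e => ?_) (fun e => ?_) (fun e => ?_) (fun e => ?_) <;>
  simp only [fl, smul_smul, Pi.mul_apply, Matrix.mul_assoc]

theorem fl_one (z : Q.Pt ℂ) : fl 1 1 1 1 z = z := by
  refine pt_ext (fun e => ?_) (fun e => ?_) (fun e => ?_) (fun e => ?_) <;> simp [fl]

theorem mu_fl {a b : E → ℂ} (hab : a * b = 1) {w w' : EndW Q} (hw : w' * w = 1) (z : Q.Pt ℂ)
    (ξ : End Q) : (fl a b w w' z).mu ξ = z.mu ξ := by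
  have h1 : ∀ e, a e * b e = 1 := fun e => congrFun hab e
  have h2 : ∀ e, b e * a e = 1 := fun e => by rw [mul_comm, h1]
  have h3 : ∀ i, z.i i * w' i * (w i * z.j i) = z.i i * z.j i := fun i => by
    rw [Matrix.mul_assoc, ← Matrix.mul_assoc (w' i), show w' i * w i = 1 from congrFun hw i,
      Matrix.one_mul]
  simp only [mu_eq, fl, Matrix.mul_smul, Matrix.smul_mul, smul_smul, h1, h2, one_smul, h3]

theorem muR_fl {a : E → ℂ} (ha : a * star a = 1) {w : EndW Q} (hw : star w * w = 1) (z : Q.Pt ℂ)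
    (ξ : End Q) : muR (fl a (star a) w (star w) z) ξ = muR z ξ := by
  have h1 : ∀ e, a e * star (a e) = 1 := fun e => congrFun ha e
  have h2 : ∀ e, star (a e) * a e = 1 := fun e => by rw [mul_comm, h1]
  have h0 : ∀ i, (w i)ᴴ * w i = 1 := fun i => congrFun hw i
  have h3 : ∀ i, (w i * z.j i)ᴴ * (w i * z.j i) = (z.j i)ᴴ * z.j i := fun i => by
    rw [conjTranspose_mul, Matrix.mul_assoc, ← Matrix.mul_assoc (w i)ᴴ, h0, Matrix.one_mul]
  have h4 : ∀ i, (z.i i * (star w) i) * (z.i i * (star w) i)ᴴ = z.i i * (z.i i)ᴴ := fun i => by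
    change (z.i i * (w i)ᴴ) * (z.i i * (w i)ᴴ)ᴴ = _
    rw [conjTranspose_mul, conjTranspose_conjTranspose, Matrix.mul_assoc,
      ← Matrix.mul_assoc (w i)ᴴ, h0, Matrix.one_mul]
  simp only [muR, fl, conjTranspose_smul, Matrix.mul_smul, Matrix.smul_mul, smul_smul,
    Pi.star_apply a, star_star, h1, h2, one_smul, h3, h4]

theorem rot_fl (a : E → ℂ) (w : EndW Q) (z : Q.Pt ℂ) :
    rot (fl a (star a) w (star w) z) = fl a (star a) w (star w) (rot z) := by
  have h : ∀ i, (star w) i = (w i)ᴴ := fun _ => rfl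
  refine pt_ext (fun e => ?_) (fun e => ?_) (fun e => ?_) (fun e => ?_) <;>
  simp only [rot, fl, h, Pi.star_apply a, conjTranspose_smul, star_star, smul_sub, smul_add,
    conjTranspose_mul, conjTranspose_conjTranspose, Matrix.mul_sub, Matrix.add_mul]

theorem unrot_fl (a : E → ℂ) (w : EndW Q) (z : Q.Pt ℂ) :
    unrot (fl a (star a) w (star w) z) = fl a (star a) w (star w) (unrot z) := by
  conv_lhs => rw [← rot_unrot z, ← rot_fl, unrot_rot]

theorem fl_sub {a b : E → ℂ} (hab : a * b = 1) {w w' : EndW Q} (hw : w' * w = 1) (z : Q.Pt ℂ)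
    (U : ∀ i : I, Submodule ℂ (Fin (Q.v i) → ℂ)) :
    ((fl a b w w' z).IsSub U → z.IsSub U) ∧
      ((∀ i, ∀ u ∈ U i, ((fl a b w w' z).j i).mulVec u = 0) →
        ∀ i, ∀ u ∈ U i, (z.j i).mulVec u = 0) ∧
      ((∀ i c, ((fl a b w w' z).i i).mulVec c ∈ U i) → ∀ i c, (z.i i).mulVec c ∈ U i) := by
  have h1 : ∀ e, a e * b e = 1 := fun e => congrFun hab e
  have h2 : ∀ e, b e * a e = 1 := fun e => by rw [mul_comm, h1]
  have h3 : ∀ i, w' i * w i = 1 := fun i => congrFun hw i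
  refine ⟨fun hU e => ⟨fun u hu => ?_, fun u hu => ?_⟩, fun h i u hu => ?_, fun h i c => ?_⟩
  · have := (U _).smul_mem (b e) ((hU e).1 u hu)
    simpa only [fl, smul_mulVec, smul_smul, h2, one_smul] using this
  · have := (U _).smul_mem (a e) ((hU e).2 u hu)
    simpa only [fl, smul_mulVec, smul_smul, h1, one_smul] using this
  · have := congrArg (w' i).mulVec (h i u hu)
    simpa only [fl, mulVec_mulVec, ← Matrix.mul_assoc, h3, Matrix.one_mul,
      Matrix.mulVec_zero] using this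
  · have := h i ((w i).mulVec c)
    simpa only [fl, mulVec_mulVec, Matrix.mul_assoc, h3, Matrix.mul_one] using this

theorem StR.fl {θ : I → ℝ} {z : Q.Pt ℂ} (hz : StR θ z) {a b : E → ℂ} (hab : a * b = 1)
    {w w' : EndW Q} (hw : w' * w = 1) : StR θ (fl a b w w' z) := fun U hU =>
  have h := fl_sub hab hw z U
  ⟨fun hj => (hz U (h.1 hU)).1 (h.2.1 hj), fun hi => (hz U (h.1 hU)).2 (h.2.2 hi)⟩

theorem SSR.fl {θ : I → ℝ} {z : Q.Pt ℂ} (hz : SSR θ z) {a b : E → ℂ} (hab : a * b = 1)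
    {w w' : EndW Q} (hw : w' * w = 1) : SSR θ (fl a b w w' z) := fun U hU =>
  have h := fl_sub hab hw z U
  ⟨fun hj => (hz U (h.1 hU)).1 (h.2.1 hj), fun hi => (hz U (h.1 hU)).2 (h.2.2 hi)⟩

theorem Lev.fl {θ : I → ℝ} {z : Q.Pt ℂ} (hz : Lev θ z) {a : E → ℂ} (ha : a * star a = 1)
    {w : EndW Q} (hw : star w * w = 1) : Lev θ (fl a (star a) w (star w) z) := fun ξ => by
  rw [muR_fl ha hw, hz]

/-- The Kempf-Ness element is invariant under unitary flavour symmetries. -/
theorem gam_fl {θ : I → ℝ} {z : Q.Pt ℂ} (hz : StR θ z) {a : E → ℂ} (ha : a * star a = 1)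
    {w : EndW Q} (hw : star w * w = 1) (s : ℝ) :
    gam θ (fl a (star a) w (star w) z) s = gam θ z s :=
  gam_congr hz (hz.fl ha hw) (fun g h _ hl => by rw [← fl_act]; exact hl.fl ha hw) s

theorem Cont.fl {f : T → Q.Pt ℂ} (hf : Cont f) {a b : T → E → ℂ} (ha : Continuous a)
    (hb : Continuous b) {w w' : T → EndW Q} (hw : Continuous w) (hw' : Continuous w') :
    Cont fun τ => fl (a τ) (b τ) (w τ) (w' τ) (f τ) :=
  ⟨fun e => ((continuous_apply e).comp ha).smul (hf.x e),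
    fun e => ((continuous_apply e).comp hb).smul (hf.y e),
    fun i => ((continuous_apply i).comp hw).matrix_mul (hf.j i),
    fun i => (hf.i i).matrix_mul ((continuous_apply i).comp hw')⟩

end Vale.Agent.P291Z.KN
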