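import Vale.Agent.P291Z.KNB0

/-!
# Automorphisms of `N` that commute with the gauge group preserve the moment map and stability
-/

set_option linter.unusedSectionVars false

namespace Vale.Agent.P291Z.KN

open Matrix Module Vale.Agent.P291.Hik Quiv Flav

variable {I E Φ : Type} {Q : Quiv I E} [Fintype Φ] [Fintype I] [Fintype E] {A : Flav Q Φ}

theorem lie_add (ξ η : Q.En ℂ) : Q.lie (ξ + η) = Q.lie ξ + Q.lie η := by
  refine LinearMap.ext fun x => Prod.ext (funext fun e => ?_) (funext fun i => ?_)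
  · simp only [Quiv.lie, LinearMap.coe_mk, AddHom.coe_mk, Pi.add_apply, LinearMap.add_apply,
      Prod.fst_add, Matrix.add_mul, Matrix.mul_add]
    abel
  · simp only [Quiv.lie, LinearMap.coe_mk, AddHom.coe_mk, Pi.add_apply, LinearMap.add_apply,
      Prod.snd_add, Matrix.mul_add]
    abel

theorem lie_smul (c : ℂ) (ξ : Q.En ℂ) : Q.lie (c • ξ) = c • Q.lie ξ := by
  refine LinearMap.ext fun x => Prod.ext (funext fun e => ?_) (funext fun i => ?_)
  · simp only [Quiv.lie, LinearMap.coe_mk, AddHom.coe_mk, Pi.smul_apply, LinearMap.smul_apply,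
      Prod.smul_fst, Matrix.smul_mul, Matrix.mul_smul, smul_sub]
  · simp only [Quiv.lie, LinearMap.coe_mk, AddHom.coe_mk, Pi.smul_apply, LinearMap.smul_apply,
      Prod.smul_snd, Matrix.mul_smul, smul_neg]

/-- The action of the Lie algebra, as a linear map. -/
def lieL (Q : Quiv I E) : Q.En ℂ →ₗ[ℂ] Module.End ℂ (Q.N ℂ) where
  toFun := Q.lie
  map_add' := lie_add
  map_smul' := lie_smul

/-- A group element with given inverse. -/
def mkG {g h : Q.En ℂ} (hg : g * h = 1) : GG Q.v := fun i =>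
  ⟨g i, h i, congrFun hg i, congrFun (End.mul_eq_one_comm (Q := Q.qd) hg) i⟩

theorem gauge_apply {g h : Q.En ℂ} (hg : g * h = 1) (s : Q.N ℂ) :
    Q.gauge g s = (fun e => g (Q.t e) * s.1 e * h (Q.s e), fun i => s.2 i * h i) := by
  have h1 : ∀ i, (g i)⁻¹ = h i := fun i => Matrix.inv_eq_right_inv (congrFun hg i)
  simp only [Quiv.gauge, LinearMap.coe_mk, AddHom.coe_mk, h1]

theorem lie_idem {π : Q.En ℂ} (h : π * π = π) :
    Q.gauge (1 + π) - Q.gauge (1 - (1 / 2 : ℂ) • π) = (3 / 2 : ℂ) • Q.lie π := by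
  have h1 : (1 + π) * (1 - (1 / 2 : ℂ) • π) = 1 := by
    rw [mul_sub, mul_smul_comm, add_mul, add_mul, h, one_mul, one_mul, mul_one]
    module
  have h2 := End.mul_eq_one_comm (Q := Q.qd) h1
  refine LinearMap.ext fun s => ?_
  rw [LinearMap.sub_apply, gauge_apply h1, gauge_apply h2]
  refine Prod.ext (funext fun e => ?_) (funext fun i => ?_)
  · simp only [Quiv.lie, LinearMap.coe_mk, AddHom.coe_mk, Pi.smul_apply, LinearMap.smul_apply,
      Prod.smul_fst, Prod.fst_sub, Pi.sub_apply, Pi.add_apply, Pi.one_apply, Matrix.add_mul,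
      Matrix.mul_add, Matrix.sub_mul, Matrix.mul_sub, Matrix.smul_mul, Matrix.mul_smul,
      Matrix.one_mul, Matrix.mul_one]
    module
  · simp only [Quiv.lie, LinearMap.coe_mk, AddHom.coe_mk, Pi.smul_apply, LinearMap.smul_apply,
      Prod.smul_snd, Prod.snd_sub, Pi.sub_apply, Pi.add_apply, Pi.one_apply, Matrix.add_mul,
      Matrix.mul_add, Matrix.sub_mul, Matrix.mul_sub, Matrix.smul_mul, Matrix.mul_smul,
      Matrix.one_mul, Matrix.mul_one]
    module

/-- `T` commutes with the gauge group. -/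
def CommG (T : Module.End ℂ (Q.N ℂ)) : Prop :=
  ∀ g h : Q.En ℂ, g * h = 1 → T * Q.gauge g = Q.gauge g * T

theorem CommG.of {T : Module.End ℂ (Q.N ℂ)}
    (h : ∀ (g : GG Q.v) s, T (Q.gauge (fun i => g i) s) = Q.gauge (fun i => g i) (T s)) :
    CommG T := fun _ _ hg => LinearMap.ext (h (mkG hg))

theorem CommG.inv {T T' : Module.End ℂ (Q.N ℂ)} (h : CommG T) (h1 : T * T' = 1) (h2 : T' * T = 1) :
    CommG T' := fun g g' hg => by
  calc T' * Q.gauge g = T' * (Q.gauge g * T) * T' := by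
        rw [mul_assoc, mul_assoc, h1, mul_one]
    _ = Q.gauge g * T' := by rw [← h g g' hg, ← mul_assoc, h2, one_mul]

theorem CommG.mul {T T' : Module.End ℂ (Q.N ℂ)} (h : CommG T) (h' : CommG T') :
    CommG (T * T') := fun g g' hg => by
  rw [mul_assoc, h' g g' hg, ← mul_assoc, h g g' hg, mul_assoc]

theorem commG_rho (A : Flav Q Φ) (f : Φ → ℂˣ) : CommG (A.ρ f) :=
  fun _ _ hg => A.comm f (mkG hg)

theorem CommG.lie {T : Module.End ℂ (Q.N ℂ)} (h : CommG T) (ξ : Q.En ℂ) :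
    T * Q.lie ξ = Q.lie ξ * T := by
  classical
  have h1 : ∀ π : Q.En ℂ, π * π = π → T * Q.lie π = Q.lie π * T := fun π hπ => by
    have h1 : (1 + π) * (1 - (1 / 2 : ℂ) • π) = 1 := by
      rw [mul_sub, mul_smul_comm, add_mul, add_mul, hπ, one_mul, one_mul, mul_one]
      module
    have h2 : T * ((3 / 2 : ℂ) • Q.lie π) = ((3 / 2 : ℂ) • Q.lie π) * T := by
      rw [← lie_idem hπ, mul_sub, sub_mul, h _ _ h1, h _ _ (End.mul_eq_one_comm (Q := Q.qd) h1)]
    rw [mul_smul_comm, smul_mul_assoc] at h2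
    exact smul_right_injective _ (by norm_num) h2
  let S : Submodule ℂ (Q.En ℂ) :=
    LinearMap.ker ((LinearMap.mulLeft ℂ T - LinearMap.mulRight ℂ T) ∘ₗ lieL Q)
  have hS : ∀ η, η ∈ S ↔ T * Q.lie η = Q.lie η * T := fun η => sub_eq_zero
  have h2 : ∀ i (m : Matrix (Fin (Q.v i)) (Fin (Q.v i)) ℂ), m * m = m → Pi.single i m ∈ S :=
    fun i m hm => (hS _).2 (h1 _ (by rw [← Pi.single_mul, hm]))
  rw [← hS, ← Finset.univ_sum_single ξ]
  refine S.sum_mem fun i _ => ?_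
  have h3 : ∀ a b, (Pi.single i (Matrix.single a b 1) : Q.En ℂ) ∈ S := fun a b => by
    by_cases hab : a = b
    · subst hab
      exact h2 i _ (by rw [single_mul_single_same, one_mul])
    · have h4 := S.sub_mem (h2 i (Matrix.single a a 1 + Matrix.single a b 1) (by
        rw [add_mul, mul_add, mul_add, single_mul_single_same, single_mul_single_same,
          single_mul_single_of_ne (h := Ne.symm hab), single_mul_single_of_ne (h := Ne.symm hab),
          one_mul, add_zero, add_zero])) (h2 i (Matrix.single a a 1)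
        (by rw [single_mul_single_same, one_mul]))
      rwa [← Pi.single_sub, add_sub_cancel_left] at h4
  have h4 : (Pi.single i (ξ i) : Q.En ℂ) =
      ∑ a, ∑ b, ξ i a b • (Pi.single i (Matrix.single a b 1) : Q.En ℂ) := by
    conv_lhs => rw [matrix_eq_sum_single (ξ i)]
    simp only [← Pi.single_smul, smul_single, smul_eq_mul, mul_one]
    have : ∀ m, (Pi.single i m : Q.En ℂ) =
        AddMonoidHom.single (fun j => Matrix (Fin (Q.v j)) (Fin (Q.v j)) ℂ) i m := fun _ => rfl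
    simp only [this, map_sum]
  rw [h4]
  exact S.sum_mem fun a _ => S.sum_mem fun b _ => S.smul_mem _ (h3 a b)

theorem hN_lie (ξ : Q.En ℂ) (s s' : Q.N ℂ) : hN (Q.lie ξ s) s' = hN s (Q.lie (star ξ) s') := by
  simp only [hN, Quiv.lie, LinearMap.coe_mk, AddHom.coe_mk, Pi.star_apply, star_eq_conjTranspose,
    conjTranspose_sub, conjTranspose_mul, conjTranspose_neg, conjTranspose_conjTranspose,
    Matrix.sub_mul, Matrix.mul_sub, Matrix.neg_mul, Matrix.mul_neg, trace_sub, Matrix.mul_assoc]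
  congr 1
  refine Finset.sum_congr rfl fun e _ => ?_
  rw [trace_mul_comm (ξ _), Matrix.mul_assoc]

section proj

variable {π : Q.En ℂ} (h : π * π = π) (s : Q.N ℂ)
include h

theorem lie_sq (c : ℂ) : Q.lie (π - c • 1) (Q.lie (π - c • 1) s) =
    (fun e => π (Q.t e) * s.1 e - (2 : ℂ) • (π (Q.t e) * s.1 e * π (Q.s e)) +
      s.1 e * π (Q.s e),
      fun i => s.2 i * π i - (2 * c) • (s.2 i * π i) + (c * c) • s.2 i) := by
  have h1 : ∀ i, π i * π i = π i := congrFun h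
  refine Prod.ext (funext fun e => ?_) (funext fun i => ?_)
  · simp only [Quiv.lie, LinearMap.coe_mk, AddHom.coe_mk, Pi.sub_apply, Pi.smul_apply, Pi.one_apply,
      Matrix.sub_mul, Matrix.mul_sub, Matrix.smul_mul, Matrix.mul_smul, Matrix.one_mul,
      Matrix.mul_one, ← Matrix.mul_assoc (π _), h1, Matrix.mul_assoc _ (π (Q.s e)) (π (Q.s e))]
    module
  · simp only [Quiv.lie, LinearMap.coe_mk, AddHom.coe_mk, Pi.sub_apply, Pi.smul_apply, Pi.one_apply,
      Matrix.sub_mul, Matrix.mul_sub, Matrix.smul_mul, Matrix.mul_smul, Matrix.neg_mul,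
      Matrix.mul_one, h1, Matrix.mul_assoc _ (π i) (π i)]
    module

omit h in
theorem lie_shift (c : ℂ) : Q.lie (π - c • 1) s =
    (fun e => π (Q.t e) * s.1 e - s.1 e * π (Q.s e), fun i => c • s.2 i - s.2 i * π i) := by
  refine Prod.ext (funext fun e => ?_) (funext fun i => ?_)
  · simp only [Quiv.lie, LinearMap.coe_mk, AddHom.coe_mk, Pi.sub_apply, Pi.smul_apply, Pi.one_apply,
      Matrix.sub_mul, Matrix.mul_sub, Matrix.smul_mul, Matrix.mul_smul, Matrix.one_mul,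
      Matrix.mul_one]
    module
  · simp only [Quiv.lie, LinearMap.coe_mk, AddHom.coe_mk, Pi.sub_apply, Pi.smul_apply, Pi.one_apply,
      Matrix.mul_sub, Matrix.mul_smul, Matrix.mul_one]
    module

theorem lie_minus (c : ℂ) (hc : c * c = c) :
    Q.lie (π - c • 1) (Q.lie (π - c • 1) s) - Q.lie (π - c • 1) s = (2 : ℂ) •
      ((fun e => s.1 e * π (Q.s e) - π (Q.t e) * s.1 e * π (Q.s e),
        fun i => (1 - c) • (s.2 i * π i)) : Q.N ℂ) := by
  rw [lie_sq h, lie_shift, hc]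
  refine Prod.ext (funext fun e => ?_) (funext fun i => ?_)
  · simp only [Prod.fst_sub, Prod.smul_fst, Pi.sub_apply, Pi.smul_apply]
    module
  · simp only [Prod.snd_sub, Prod.smul_snd, Pi.sub_apply, Pi.smul_apply]
    module

theorem lie_plus (c : ℂ) (hc : c * c = c) :
    Q.lie (π - c • 1) (Q.lie (π - c • 1) s) + Q.lie (π - c • 1) s = (2 : ℂ) •
      ((fun e => π (Q.t e) * s.1 e - π (Q.t e) * s.1 e * π (Q.s e),
        fun i => c • (s.2 i - s.2 i * π i)) : Q.N ℂ) := by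
  rw [lie_sq h, lie_shift, hc]
  refine Prod.ext (funext fun e => ?_) (funext fun i => ?_)
  · simp only [Prod.fst_add, Prod.smul_fst, Pi.add_apply, Pi.smul_apply]
    module
  · simp only [Prod.snd_add, Prod.smul_snd, Pi.add_apply, Pi.smul_apply]
    module

end proj

/-- The conditions that define subrepresentations, in terms of the Lie algebra action. -/
def Cnd (ξ : Q.En ℂ) (z : A.NN × A.ND) : Prop :=
  Q.lie ξ (Q.lie ξ z.1) - Q.lie ξ z.1 = 0 ∧ ∀ s, lf z.2 (Q.lie ξ (Q.lie ξ s) + Q.lie ξ s) = 0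

theorem Cnd.tw {ξ : Q.En ℂ} {z : A.NN × A.ND} (h : Cnd ξ z) {T T' : Module.End ℂ (Q.N ℂ)}
    (hT : CommG T) (hT' : CommG T') : Cnd ξ (tw T T' z) := by
  have h1 : ∀ s, Q.lie ξ (T s) = T (Q.lie ξ s) := fun s => (congrArg (· s) (hT.lie ξ)).symm
  have h2 : ∀ s, T' (Q.lie ξ s) = Q.lie ξ (T' s) := fun s => congrArg (· s) (hT'.lie ξ)
  have h3 : ∀ s, Q.lie ξ (Q.lie ξ s) - Q.lie ξ s = 0 →
      Q.lie ξ (Q.lie ξ (T s)) - Q.lie ξ (T s) = 0 := fun s hs => by
    rw [h1, h1, ← map_sub, hs, map_zero]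
  refine ⟨h3 z.1 h.1, fun s => ?_⟩
  change lf z.2 (T' _) = 0
  rw [map_add, h2, h2]
  exact h.2 _

theorem cnd_iff {π : Q.En ℂ} (h : π * π = π) (hs : star π = π) {c : ℂ} (hc : c * c = c)
    (hc' : star c = c) (z : A.NN × A.ND) : Cnd (π - c • 1) z ↔
      (∀ e, π (Q.t e) * (z.1.1 e * π (Q.s e)) = z.1.1 e * π (Q.s e) ∧
        π (Q.s e) * (yy z.2 e * π (Q.t e)) = yy z.2 e * π (Q.t e)) ∧
        ∀ i, (1 - c) • (z.1.2 i * π i) = 0 ∧ c • (ii z.2 i - π i * ii z.2 i) = 0 := by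
  have hs' : ∀ i, (π i)ᴴ = π i := congrFun hs
  have h0 : star (π - c • 1) = π - c • 1 := by rw [star_sub, star_smul, hs, hc', star_one]
  have h1 : (∀ s, lf z.2 (Q.lie (π - c • 1) (Q.lie (π - c • 1) s) + Q.lie (π - c • 1) s) = 0) ↔
      Q.lie (π - c • 1) (Q.lie (π - c • 1) (sharp z.2)) + Q.lie (π - c • 1) (sharp z.2) = 0 := by
    have h2 : ∀ s, lf z.2 (Q.lie (π - c • 1) (Q.lie (π - c • 1) s) + Q.lie (π - c • 1) s) =
        hN s (Q.lie (π - c • 1) (Q.lie (π - c • 1) (sharp z.2)) + Q.lie (π - c • 1) (sharp z.2)) :=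
      fun s => by
        rw [lf_eq_hN, hN_add_left, hN_lie, hN_lie, hN_lie, h0, ← star_hN (_ + _), hN_add_left,
          star_add, star_hN, star_hN]
    have h3 : ∀ s : Q.N ℂ, hN s 0 = 0 := fun s => by simp [hN]
    simp only [h2]
    exact ⟨fun h => hN_ext fun s => (h s).trans (h3 s).symm, fun h s => h ▸ h3 s⟩
  have h2 : ∀ s : Q.N ℂ, (2 : ℂ) • s = 0 ↔ (∀ e, s.1 e = 0) ∧ ∀ i, s.2 i = 0 := fun s => by
    rw [smul_eq_zero_iff_right two_ne_zero, Prod.ext_iff, funext_iff, funext_iff]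
    rfl
  have h3 := lie_minus h z.1 c hc
  rw [Cnd, h1, lie_plus h _ c hc, h3, h2, h2]
  have h4 : ∀ e, π (Q.t e) * (sharp z.2).1 e - π (Q.t e) * (sharp z.2).1 e * π (Q.s e) = 0 ↔
      π (Q.s e) * (yy z.2 e * π (Q.t e)) = yy z.2 e * π (Q.t e) := fun e => by
    rw [← conjTranspose_eq_zero]
    simp only [sharp, conjTranspose_sub, conjTranspose_mul, conjTranspose_conjTranspose, hs',
      sub_eq_zero]
    exact eq_comm
  have h5 : ∀ i, c • ((sharp z.2).2 i - (sharp z.2).2 i * π i) = 0 ↔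
      c • (ii z.2 i - π i * ii z.2 i) = 0 := fun i => by
    rw [← conjTranspose_eq_zero]
    simp only [sharp, conjTranspose_smul, conjTranspose_sub, conjTranspose_mul,
      conjTranspose_conjTranspose, hs', hc']
  simp only [h4, h5, forall_and]
  have h6 : ∀ e, z.1.1 e * π (Q.s e) - π (Q.t e) * z.1.1 e * π (Q.s e) = 0 ↔
      π (Q.t e) * (z.1.1 e * π (Q.s e)) = z.1.1 e * π (Q.s e) := fun e => by
    rw [sub_eq_zero, Matrix.mul_assoc, eq_comm]
  simp only [h6]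
  tauto

theorem exists_cnd (U : ∀ i, Submodule ℂ (Fin (Q.v i) → ℂ)) : ∃ ξ η : Q.En ℂ,
    ∀ z : A.NN × A.ND, (Cnd ξ z ↔ IsSub z U ∧ ∀ i, ∀ u ∈ U i, z.1.2 i *ᵥ u = 0) ∧
      (Cnd η z ↔ IsSub z U ∧ ∀ i a, ii z.2 i *ᵥ a ∈ U i) := by
  choose π h1 h2 h3 h4 _ using fun i => exists_proj (U i)
  have h5 : ∀ {a b : I} (x : Matrix (Fin (Q.v a)) (Fin (Q.v b)) ℂ),
      π a * (x * π b) = x * π b ↔ ∀ u ∈ U b, x *ᵥ u ∈ U a := fun {a b} x => by
    refine ⟨fun h u hu => ?_, fun h => mat_ext fun u => ?_⟩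
    · have := h3 a ((x * π b) *ᵥ u)
      rwa [mulVec_mulVec, h, ← mulVec_mulVec, h4 b u hu] at this
    · rw [← mulVec_mulVec, h4 a]
      rw [← mulVec_mulVec]
      exact h _ (h3 b u)
  refine ⟨π - (0 : ℂ) • 1, π - (1 : ℂ) • 1, fun z => ⟨?_, ?_⟩⟩
  · rw [cnd_iff (funext h2) (funext h1) (mul_zero _) (star_zero _)]
    simp only [h5, sub_zero, one_smul, zero_smul, and_true]
    refine and_congr Iff.rfl (forall_congr' fun i => ⟨fun h u hu => ?_, fun h => ?_⟩)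
    · rw [← h4 i u hu, mulVec_mulVec, h, zero_mulVec]
    · exact mat_ext fun u => by rw [← mulVec_mulVec, h _ (h3 i u), zero_mulVec]
  · rw [cnd_iff (funext h2) (funext h1) (mul_one _) (star_one _)]
    simp only [h5, sub_self, one_smul, zero_smul, true_and, sub_eq_zero]
    refine and_congr Iff.rfl (forall_congr' fun i => ⟨fun h a => ?_, fun h => ?_⟩)
    · rw [h, ← mulVec_mulVec]
      exact h3 i _
    · exact mat_ext fun u => by rw [← mulVec_mulVec, h4 i _ (h u)]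

section tw

variable {T T' : Module.End ℂ (Q.N ℂ)} (hT : CommG T) (h1 : T * T' = 1) (h2 : T' * T = 1)
include hT h1 h2

theorem cnd_tw (ξ : Q.En ℂ) (z : A.NN × A.ND) : Cnd ξ (tw T T' z) ↔ Cnd ξ z := by
  refine ⟨fun h => ?_, fun h => h.tw hT (hT.inv h1 h2)⟩
  have := h.tw (hT.inv h1 h2) hT
  rwa [tw_tw, h2, tw_one] at this

theorem sub_tw (U : ∀ i, Submodule ℂ (Fin (Q.v i) → ℂ)) (z : A.NN × A.ND) :
    (((pt (tw T T' z)).IsSub U ∧ ∀ i, ∀ u ∈ U i, (pt (tw T T' z)).j i *ᵥ u = 0) ↔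
      (pt z).IsSub U ∧ ∀ i, ∀ u ∈ U i, (pt z).j i *ᵥ u = 0) ∧
    (((pt (tw T T' z)).IsSub U ∧ ∀ i a, (pt (tw T T' z)).i i *ᵥ a ∈ U i) ↔
      (pt z).IsSub U ∧ ∀ i a, (pt z).i i *ᵥ a ∈ U i) := by
  obtain ⟨ξ, η, h⟩ := exists_cnd (A := A) U
  exact ⟨((h _).1.symm.trans (cnd_tw hT h1 h2 ξ z)).trans (h z).1,
    ((h _).2.symm.trans (cnd_tw hT h1 h2 η z)).trans (h z).2⟩

theorem StR.tw {θ : I → ℝ} {z : A.NN × A.ND} (hz : StR θ (pt z)) : StR θ (pt (tw T T' z)) :=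
  fun U hU => ⟨fun h => let k := (sub_tw hT h1 h2 U z).1.1 ⟨hU, h⟩; (hz U k.1).1 k.2,
    fun h => let k := (sub_tw hT h1 h2 U z).2.1 ⟨hU, h⟩; (hz U k.1).2 k.2⟩

theorem SSR.tw {θ : I → ℝ} {z : A.NN × A.ND} (hz : SSR θ (pt z)) : SSR θ (pt (tw T T' z)) :=
  fun U hU => ⟨fun h => let k := (sub_tw hT h1 h2 U z).1.1 ⟨hU, h⟩; (hz U k.1).1 k.2,
    fun h => let k := (sub_tw hT h1 h2 U z).2.1 ⟨hU, h⟩; (hz U k.1).2 k.2⟩

theorem stR_tw (θ : I → ℝ) (z : A.NN × A.ND) : StR θ (pt (tw T T' z)) ↔ StR θ (pt z) := by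
  refine ⟨fun h => ?_, fun h => h.tw hT h1 h2⟩
  have := h.tw (hT.inv h1 h2) h2 h1
  rwa [tw_tw, h2, tw_one] at this

theorem mu_pt_tw (z : A.NN × A.ND) (ξ : Q.En ℂ) : (pt (tw T T' z)).mu ξ = (pt z).mu ξ := by
  rw [mu_pt, mu_pt, mu_tw h2 hT.lie]

end tw

end Vale.Agent.P291Z.KN
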