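import Vale.Agent.P291Z.KNB1

/-!
# The stable locus of `μ⁻¹(0)` and a generic central fibre of `μ` have homeomorphic Borel spaces
-/

set_option linter.unusedSectionVars false

namespace Vale.Agent.P291Z.KN

open Matrix Module Vale.Agent.P291.Hik Quiv Flav

variable {I E Φ : Type} {Q : Quiv I E} [Fintype Φ] [Fintype I] [Fintype E] {A : Flav Q Φ}

theorem ga_inv (h : GG (Q.nn Φ)) : ga Q Φ h * ga Q Φ h⁻¹ = 1 := by
  rw [← map_mul, mul_inv_cancel, map_one]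

theorem rho_inv (A : Flav Q Φ) (f : Φ → ℂˣ) : A.ρ f * A.ρ f⁻¹ = 1 := by
  rw [← map_mul, mul_inv_cancel, map_one]

theorem rho_inv' (A : Flav Q Φ) (f : Φ → ℂˣ) : A.ρ f⁻¹ * A.ρ f = 1 := by
  rw [← map_mul, inv_mul_cancel, map_one]

theorem smul_eq (h : GG (Q.nn Φ)) (z : A.NN × A.ND) : h • z =
    tw (Q.gauge (ga Q Φ h)) (Q.gauge (ga Q Φ h⁻¹))
      (tw (A.ρ (Flav.fl Q Φ h)) (A.ρ (Flav.fl Q Φ h)⁻¹) z) := by
  rw [tw_tw, commG_rho A _ _ _ (End.mul_eq_one_comm (Q := Q.qd) (ga_inv h)), ← map_inv]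
  rfl

theorem pt_smul (h : GG (Q.nn Φ)) (z : A.NN × A.ND) : pt (h • z) =
    act (ga Q Φ h) (ga Q Φ h⁻¹) (pt (tw (A.ρ (Flav.fl Q Φ h)) (A.ρ (Flav.fl Q Φ h)⁻¹) z)) := by
  rw [smul_eq, pt_tw_gauge (ga_inv h)]

theorem mu_smul_eq (h : GG (Q.nn Φ)) (z : A.NN × A.ND) (ξ : Q.En ℂ) :
    mu (h • z) ξ = mu z (ga Q Φ h⁻¹ * ξ * ga Q Φ h) := by
  rw [← mu_pt, pt_smul, mu_act (ga_inv h), mu_pt_tw (commG_rho A _) (rho_inv A _) (rho_inv' A _),
    mu_pt]

theorem StR.smul {θ : I → ℝ} {z : A.NN × A.ND} (hz : StR θ (pt z)) (h : GG (Q.nn Φ)) :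
    StR θ (pt (h • z)) := by
  rw [pt_smul]
  exact (hz.tw (commG_rho A _) (rho_inv A _) (rho_inv' A _)).act (ga_inv h)

theorem SSR.smul {θ : I → ℝ} {z : A.NN × A.ND} (hz : SSR θ (pt z)) (h : GG (Q.nn Φ)) :
    SSR θ (pt (h • z)) := by
  rw [pt_smul]
  exact (hz.tw (commG_rho A _) (rho_inv A _) (rho_inv' A _)).act (ga_inv h)

/-- The fibre of the moment map over the central element `θ`. -/
noncomputable def Zlev (A : Flav Q Φ) (θ : I → ℝ) : SubMulAction (GG (Q.nn Φ)) (A.NN × A.ND) where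
  carrier := {z | ∀ ξ, mu z ξ = cen (Q := Q.qd) θ ξ}
  smul_mem' h z hz ξ := by rw [mu_smul_eq, hz, cen_conj θ (ga_inv h)]

theorem mem_Zlev {θ : I → ℝ} {z : A.NN × A.ND} :
    z ∈ Zlev A θ ↔ ∀ ξ : Q.En ℂ, mu z ξ = ∑ i, (θ i : ℂ) * (ξ i).trace := Iff.rfl

/-- An element of `G × F` with given components. -/
noncomputable def mkH {g h : Q.En ℂ} (hg : g * h = 1) (f : Φ → ℂˣ) : GG (Q.nn Φ) := fun j =>
  match j with
  | Sum.inl i => mkG hg i
  | Sum.inr a => Units.map (scalar (Fin 1) : ℂ →+* Matrix (Fin 1) (Fin 1) ℂ).toMonoidHom (f a)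

theorem ga_mkH {g h : Q.En ℂ} (hg : g * h = 1) (f : Φ → ℂˣ) : ga Q Φ (mkH hg f) = g := rfl

theorem ga_mkH_inv {g h : Q.En ℂ} (hg : g * h = 1) (f : Φ → ℂˣ) : ga Q Φ (mkH hg f)⁻¹ = h := rfl

theorem fl_mkH {g h : Q.En ℂ} (hg : g * h = 1) (f : Φ → ℂˣ) : Flav.fl Q Φ (mkH hg f) = f :=
  funext fun a => Units.ext (by
    change (scalar (Fin 1) (f a : ℂ)).det = _
    simp)

variable {T : Type*} [TopologicalSpace T]

theorem continuous_mkH {g h : T → Q.En ℂ} (hg : ∀ τ, g τ * h τ = 1) {f : T → Φ → ℂˣ}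
    (h1 : Continuous g) (h2 : Continuous h) (h3 : Continuous f) :
    Continuous fun τ => mkH (hg τ) (f τ) := by
  refine continuous_pi fun j => ?_
  rcases j with i | a
  · exact Units.continuous_iff.2 ⟨(continuous_apply i).comp h1, (continuous_apply i).comp h2⟩
  · have h4 : Continuous (scalar (Fin 1) : ℂ → Matrix (Fin 1) (Fin 1) ℂ) :=
      Continuous.matrix_diagonal (continuous_pi fun _ => continuous_id)
    exact (Continuous.units_map _ h4).comp ((continuous_apply a).comp h3)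

/-- The logarithms of the absolute values of the flavour components. -/
noncomputable def lg (h : GG (Q.nn Φ)) : Φ → ℝ := fun a => Real.log ‖(Flav.fl Q Φ h a : ℂ)‖

theorem lg_mul (h k : GG (Q.nn Φ)) : lg (h * k) = lg h + lg k := funext fun a => by
  simp only [lg, map_mul, Pi.mul_apply, Units.val_mul, norm_mul, Pi.add_apply]
  exact Real.log_mul (norm_ne_zero_iff.2 (Units.ne_zero _)) (norm_ne_zero_iff.2 (Units.ne_zero _))

theorem lg_inv (h : GG (Q.nn Φ)) : lg h⁻¹ = -lg h := funext fun a => by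
  simp only [lg, map_inv, Pi.inv_apply, Units.val_inv_eq_inv_val, norm_inv, Real.log_inv,
    Pi.neg_apply]

/-- Positive real units. -/
noncomputable def expU (t : Φ → ℝ) : Φ → ℂˣ := fun a =>
  Units.mk0 (Real.exp (t a) : ℂ) (Complex.ofReal_ne_zero.2 (Real.exp_ne_zero _))

theorem continuous_expU : Continuous (expU : (Φ → ℝ) → Φ → ℂˣ) := by
  refine continuous_pi fun a => Units.continuous_iff.2 ⟨?_, ?_⟩
  · change Continuous fun t : Φ → ℝ => (Real.exp (t a) : ℂ)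
    fun_prop
  · change Continuous fun t : Φ → ℝ => (Real.exp (t a) : ℂ)⁻¹
    exact Continuous.inv₀ (by fun_prop) fun t => Complex.ofReal_ne_zero.2 (Real.exp_ne_zero _)

theorem lg_mkH {g h : Q.En ℂ} (hg : g * h = 1) (t : Φ → ℝ) : lg (mkH hg (expU t)) = t :=
  funext fun a => by simp [lg, fl_mkH, expU]

/-- The coordinate change that makes the compact flavour torus unitary. -/
noncomputable def ph (A : Flav Q Φ) : Module.End ℂ (Q.N ℂ) := A.exists_unit.choose.toLinearMap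

/-- Its inverse. -/
noncomputable def ph' (A : Flav Q Φ) : Module.End ℂ (Q.N ℂ) :=
  A.exists_unit.choose.symm.toLinearMap

theorem ph_ph' : ph A * ph' A = 1 := LinearMap.ext A.exists_unit.choose.apply_symm_apply

theorem ph'_ph : ph' A * ph A = 1 := LinearMap.ext A.exists_unit.choose.symm_apply_apply

theorem commG_ph : CommG (ph A) := CommG.of A.exists_unit.choose_spec.1

theorem commG_ph' : CommG (ph' A) := commG_ph.inv ph_ph' ph'_ph

theorem ph_rho {f : Φ → ℂˣ} (hf : ∀ a, ‖(f a : ℂ)‖ = 1) (s s' : Q.N ℂ) :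
    hN ((ph A * A.ρ f * ph' A) s) ((ph A * A.ρ f * ph' A) s') = hN s s' := by
  have h : ∀ s, ph A (ph' A s) = s := fun s => congrArg (· s) (ph_ph' (A := A))
  have := A.exists_unit.choose_spec.2 f hf (ph' A s) (ph' A s')
  exact this.trans (congrArg₂ hN (h s) (h s'))

theorem tw_conj (S S' : Module.End ℂ (Q.N ℂ)) (z : A.NN × A.ND) :
    tw (ph A) (ph' A) (tw S S' z) =
      tw (ph A * S * ph' A) (ph A * S' * ph' A) (tw (ph A) (ph' A) z) := by
  rw [tw_tw, tw_tw, mul_assoc, ph'_ph, mul_one, ← mul_assoc, ← mul_assoc, ph'_ph, one_mul]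

theorem conj_inv {S S' : Module.End ℂ (Q.N ℂ)} (h : S * S' = 1) :
    (ph A * S * ph' A) * (ph A * S' * ph' A) = 1 := by
  rw [mul_assoc, ← mul_assoc (ph' A), ← mul_assoc (ph' A), ph'_ph, one_mul, mul_assoc,
    ← mul_assoc S, h, one_mul, ph_ph']

/-- The twisted coordinates. -/
noncomputable def PP (z : A.NN × A.ND) : Q.qd.Pt ℂ := pt (tw (ph A) (ph' A) z)

theorem stR_PP (θ : I → ℝ) (z : A.NN × A.ND) : StR θ (PP z) ↔ StR θ (pt z) :=
  stR_tw commG_ph ph_ph' ph'_ph θ z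

theorem mu_PP (z : A.NN × A.ND) (ξ : Q.En ℂ) : (PP z).mu ξ = mu z ξ :=
  (mu_pt_tw commG_ph ph_ph' ph'_ph z ξ).trans (mu_pt z ξ)

theorem PP_gauge {g h : Q.En ℂ} (hg : g * h = 1) (z : A.NN × A.ND) :
    PP (tw (Q.gauge g) (Q.gauge h) z) = act g h (PP z) := by
  rw [PP, PP, ← pt_tw_gauge hg, tw_tw, tw_tw, commG_ph g h hg,
    commG_ph' h g (End.mul_eq_one_comm (Q := Q.qd) hg)]

theorem PP_smul (h : GG (Q.nn Φ)) (z : A.NN × A.ND) : PP (h • z) =
    act (ga Q Φ h) (ga Q Φ h⁻¹) (PP (tw (A.ρ (Flav.fl Q Φ h)) (A.ρ (Flav.fl Q Φ h)⁻¹) z)) := by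
  rw [smul_eq, PP_gauge (ga_inv h)]

/-- Elements of the maximal compact subgroup. -/
def Un (h : GG (Q.nn Φ)) : Prop :=
  star (ga Q Φ h) * ga Q Φ h = 1 ∧ ∀ a, ‖(Flav.fl Q Φ h a : ℂ)‖ = 1

theorem un_of_lev {θ : I → ℝ} {z : A.NN × A.ND} (hz : StR θ (pt z)) (h1 : Lev θ (PP z))
    {h : GG (Q.nn Φ)} (h2 : Lev θ (PP (h • z))) (h3 : lg h = 0) : Un h := by
  have h4 : ∀ a, ‖(Flav.fl Q Φ h a : ℂ)‖ = 1 := fun a =>
    Real.eq_one_of_pos_of_log_eq_zero (norm_pos_iff.2 (Units.ne_zero _)) (congrFun h3 a)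
  refine ⟨?_, h4⟩
  rw [PP_smul] at h2
  refine (unitary_of_lev ((stR_PP θ _).2 (hz.tw (commG_rho A _) (rho_inv A _) (rho_inv' A _)))
    (fun ξ => ?_) (ga_inv h) h2).1
  rw [PP, tw_conj, muR_tw (conj_inv (rho_inv A _)) (ph_rho h4)
    ((commG_ph.mul (commG_rho A _)).mul commG_ph').lie]
  exact h1 ξ

theorem Un.hN {h : GG (Q.nn Φ)} (hh : Un h) (s s' : Q.N ℂ) :
    hN ((ph A * A.rep h * ph' A) s) ((ph A * A.rep h * ph' A) s') = hN s s' := by
  have h1 : ph A * A.rep h * ph' A = Q.gauge (ga Q Φ h) * (ph A * A.ρ (Flav.fl Q Φ h) * ph' A) := by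
    rw [← mul_assoc, ← mul_assoc, ← commG_ph _ _ (ga_inv h)]
    rfl
  have h2 : ∀ s, Q.gauge (star (ga Q Φ h)) (Q.gauge (ga Q Φ h) s) = s := fun s => by
    have := Q.gauge_mul (star (ga Q Φ h)) (ga Q Φ h)
    rw [hh.1, Q.gauge_one] at this
    exact (congrArg (· s) this).symm
  rw [h1, Module.End.mul_apply, Module.End.mul_apply (Q.gauge _), hN_gauge, h2, ph_rho hh.2]

/-- The rotation in twisted coordinates. -/
noncomputable def rotP (z : A.NN × A.ND) : A.NN × A.ND :=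
  tw (ph' A) (ph A) (rotZ (tw (ph A) (ph' A) z))

/-- The inverse rotation in twisted coordinates. -/
noncomputable def unrotP (z : A.NN × A.ND) : A.NN × A.ND :=
  tw (ph' A) (ph A) (unrotZ (tw (ph A) (ph' A) z))

theorem tw_ph (z : A.NN × A.ND) : tw (ph A) (ph' A) (tw (ph' A) (ph A) z) = z := by
  rw [tw_tw, ph_ph', tw_one]

theorem tw_ph' (z : A.NN × A.ND) : tw (ph' A) (ph A) (tw (ph A) (ph' A) z) = z := by
  rw [tw_tw, ph'_ph, tw_one]

theorem PP_rotP (z : A.NN × A.ND) : PP (rotP z) = rot (PP z) := by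
  rw [PP, rotP, tw_ph, pt_rotZ, PP]

theorem PP_unrotP (z : A.NN × A.ND) : PP (unrotP z) = unrot (PP z) := by
  rw [PP, unrotP, tw_ph, pt_unrotZ, PP]

theorem unrotP_rotP (z : A.NN × A.ND) : unrotP (rotP z) = z := by
  rw [unrotP, rotP, tw_ph, unrotZ_rotZ, tw_ph']

theorem rotP_unrotP (z : A.NN × A.ND) : rotP (unrotP z) = z := by
  rw [unrotP, rotP, tw_ph, rotZ_unrotZ, tw_ph']

theorem rotP_smul {h : GG (Q.nn Φ)} (hh : Un h) (z : A.NN × A.ND) : rotP (h • z) = h • rotP z := by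
  have h1 : A.rep h * A.rep h⁻¹ = 1 := by rw [← map_mul, mul_inv_cancel, map_one]
  rw [rotP, smul_eq_tw, tw_conj, rotZ_tw (conj_inv h1) hh.hN, smul_eq_tw,
    ← tw_ph' (tw (A.rep h) _ _), tw_conj, rotP, tw_ph]

theorem unrotP_smul {h : GG (Q.nn Φ)} (hh : Un h) (z : A.NN × A.ND) :
    unrotP (h • z) = h • unrotP z := by
  conv_lhs => rw [← rotP_unrotP z, ← rotP_smul hh, unrotP_rotP]

theorem continuous_rotP : Continuous (rotP : A.NN × A.ND → _) :=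
  (continuous_tw _ _).comp (continuous_rotZ.comp (continuous_tw _ _))

theorem continuous_unrotP : Continuous (unrotP : A.NN × A.ND → _) :=
  (continuous_tw _ _).comp (continuous_unrotZ.comp (continuous_tw _ _))

/-- The normalizing element. -/
noncomputable def cN (θ : I → ℝ) (z : A.NN × A.ND) (t : Φ → ℝ) : GG (Q.nn Φ) :=
  mkH (gam_neg θ (PP (mkH (mul_one (1 : Q.En ℂ)) (expU (-t)) • z)) 1) (expU 0) *
    mkH (mul_one (1 : Q.En ℂ)) (expU (-t))

theorem lg_cN (θ : I → ℝ) (z : A.NN × A.ND) (t : Φ → ℝ) : lg (cN θ z t) = -t := by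
  rw [cN, lg_mul, lg_mkH, lg_mkH, zero_add]

theorem lev_cN {θ : I → ℝ} {z : A.NN × A.ND} (hz : StR θ (pt z)) (t : Φ → ℝ) :
    Lev θ (PP (cN θ z t • z)) := by
  have h1 : expU (0 : Φ → ℝ) = 1 := funext fun a => Units.ext (by simp [expU])
  rw [cN, mul_smul, PP_smul, fl_mkH, ga_mkH, ga_mkH_inv, h1, inv_one, map_one, tw_one]
  exact lev_gam ((stR_PP θ _).2 (hz.smul _))

theorem continuous_cN {θ : I → ℝ} {z : T → A.NN × A.ND} {t : T → Φ → ℝ} (hz : Continuous z)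
    (hs : ∀ τ, StR θ (pt (z τ))) (ht : Continuous t) : Continuous fun τ => cN θ (z τ) (t τ) := by
  have := continuousSMul_NN (A := A)
  have := continuousSMul_ND (A := A)
  have h1 : Continuous fun τ => mkH (mul_one (1 : Q.En ℂ)) (expU (-t τ)) :=
    continuous_mkH (fun _ => mul_one _) continuous_const continuous_const
      (continuous_expU.comp ht.neg)
  have h2 : Cont fun τ => PP (mkH (mul_one (1 : Q.En ℂ)) (expU (-t τ)) • z τ) :=
    cont_pt ((continuous_tw _ _).comp (h1.smul hz))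
  have h3 := fun τ => (stR_PP θ _).2 ((hs τ).smul (mkH (mul_one (1 : Q.En ℂ)) (expU (-t τ))))
  exact (continuous_mkH (fun _ => gam_neg _ _ _) (h2.gam h3 continuous_const)
    (h2.gam h3 continuous_const) continuous_const).mul h1

/-- The equivariant extension of a map that is equivariant for the compact group. -/
noncomputable def psi' (θ : I → ℝ) (R : A.NN × A.ND → A.NN × A.ND) (z : A.NN × A.ND)
    (t : Φ → ℝ) : A.NN × A.ND := (cN θ z t)⁻¹ • R (cN θ z t • z)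

theorem psi'_eq {θ : I → ℝ} {R : A.NN × A.ND → A.NN × A.ND}
    (hR : ∀ h : GG (Q.nn Φ), Un h → ∀ z, R (h • z) = h • R z) {z : A.NN × A.ND}
    (hz : StR θ (pt z)) {t : Φ → ℝ} {h : GG (Q.nn Φ)} (h1 : Lev θ (PP (h • z))) (h2 : lg h = -t) :
    psi' θ R z t = h⁻¹ • R (h • z) := by
  have h3 : (cN θ z t * h⁻¹) • h • z = cN θ z t • z := by rw [smul_smul, inv_mul_cancel_right]
  have h4 : Un (cN θ z t * h⁻¹) := un_of_lev (hz.smul h) h1 (by rw [h3]; exact lev_cN hz t)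
    (by rw [lg_mul, lg_inv, lg_cN, h2, add_neg_cancel])
  rw [psi', ← h3, hR _ h4, smul_smul, inv_mul_cancel_left]

theorem psi'_smul {θ : I → ℝ} {R : A.NN × A.ND → A.NN × A.ND}
    (hR : ∀ h : GG (Q.nn Φ), Un h → ∀ z, R (h • z) = h • R z) {z : A.NN × A.ND}
    (hz : StR θ (pt z)) (t : Φ → ℝ) (h : GG (Q.nn Φ)) :
    psi' θ R (h • z) (lg h + t) = h • psi' θ R z t := by
  have h3 : (cN θ z t * h⁻¹) • h • z = cN θ z t • z := by rw [smul_smul, inv_mul_cancel_right]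
  rw [psi'_eq hR (hz.smul h) (h := cN θ z t * h⁻¹) (by rw [h3]; exact lev_cN hz t)
    (by rw [lg_mul, lg_inv, lg_cN, neg_add_rev]), h3, _root_.mul_inv_rev, inv_inv, mul_smul, psi']

theorem continuous_psi' {θ : I → ℝ} {R : A.NN × A.ND → A.NN × A.ND} (hR : Continuous R)
    {z : T → A.NN × A.ND} {t : T → Φ → ℝ} (hz : Continuous z) (hs : ∀ τ, StR θ (pt (z τ)))
    (ht : Continuous t) : Continuous fun τ => psi' θ R (z τ) (t τ) := by
  have := continuousSMul_NN (A := A)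
  have := continuousSMul_ND (A := A)
  have h := continuous_cN hz hs ht
  exact h.inv.smul (hR.comp (h.smul hz))

theorem exists_psi {ν : I → ℤ} (hν : A.Regular ν) : ∃ θ : I → ℝ, Gen Q.qd θ ∧
    (∀ z : A.NN × A.ND, (∀ ξ, mu z ξ = 0) ∧ St ν z → StR θ (pt z) ∧
      ∀ t, psi' θ rotP z t ∈ Zlev A θ ∧ psi' 0 unrotP (psi' θ rotP z t) t = z) ∧
    ∀ w ∈ Zlev A θ, StR 0 (pt w) ∧ ∀ t, ((∀ ξ, mu (psi' 0 unrotP w t) ξ = 0) ∧
      St ν (psi' 0 unrotP w t)) ∧ psi' θ rotP (psi' 0 unrotP w t) t = w := by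
  obtain ⟨ν', h1, h2⟩ := exists_gen Q.qd ν
  have h0 : ∀ w ∈ Zlev A fun i => (ν' i : ℝ), StR 0 (pt w) := fun w hw =>
    h1.stR_zero one_ne_zero fun ξ => by rw [one_mul, mu_pt]; exact hw ξ
  have h3 : ∀ z : A.NN × A.ND, St ν z → StR (fun i => (ν' i : ℝ)) (pt z) := fun z hz =>
    (stR_cast _ _).2 ((h2 _).1 hz)
  have h4 : ∀ (h : GG (Q.nn Φ)) (z : A.NN × A.ND), (∀ ξ, mu z ξ = 0) → ∀ ξ, mu (h • z) ξ = 0 :=
    fun h z hz ξ => by rw [mu_smul_eq, hz]
  refine ⟨_, h1, fun z hz => ⟨h3 z hz.2, fun t => ?_⟩, fun w hw => ⟨h0 w hw, fun t => ?_⟩⟩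
  · have h5 := (rot_iff (fun i => (ν' i : ℝ)) (PP (cN (fun i => (ν' i : ℝ)) z t • z))).2
      ⟨fun ξ => (mu_PP _ ξ).trans (h4 (cN (fun i => (ν' i : ℝ)) z t) z hz.1 ξ),
        lev_cN (h3 z hz.2) t⟩
    rw [← PP_rotP] at h5
    have h6 : psi' (fun i => (ν' i : ℝ)) rotP z t ∈ Zlev A fun i => (ν' i : ℝ) :=
      (Zlev A _).smul_mem _ fun ξ => (mu_PP _ ξ).symm.trans (h5.1 ξ)
    refine ⟨h6, ?_⟩
    rw [psi'_eq (fun _ => unrotP_smul) (h0 _ h6) (h := cN (fun i => (ν' i : ℝ)) z t)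
      (by rw [psi', smul_inv_smul]; exact h5.2) (lg_cN _ _ _), psi', smul_inv_smul, unrotP_rotP,
      inv_smul_smul]
  · have h5 := (rot_iff (fun i => (ν' i : ℝ)) (PP (unrotP (cN 0 w t • w)))).1 (by
      rw [PP_unrotP, rot_unrot]
      exact ⟨fun ξ => (mu_PP _ ξ).trans ((Zlev A _).smul_mem _ hw ξ), lev_cN (h0 w hw) t⟩)
    have h6 : ∀ ξ, mu (psi' 0 unrotP w t) ξ = 0 :=
      h4 _ _ fun ξ => (mu_PP _ ξ).symm.trans (h5.1 ξ)
    have h7 : StR (fun i => (ν' i : ℝ)) (pt (psi' 0 unrotP w t)) :=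
      ((stR_PP _ _).1 (h5.2.ssR.stR h1)).smul _
    refine ⟨⟨h6, (hν _ h6).1.1 ((h2 _).2 ((ssR_cast _ _).1 h7.ssR))⟩, ?_⟩
    rw [psi'_eq (fun _ => rotP_smul) h7 (h := cN 0 w t)
      (by rw [psi', smul_inv_smul]; exact h5.2) (lg_cN _ _ _), psi', smul_inv_smul, rotP_unrotP,
      inv_smul_smul]

/-- The logarithms of the norms of the flavour rows. -/
noncomputable def tE {M : ℕ} (u : EE (Q.nn Φ) M) : Φ → ℝ :=
  fun a => Real.log (fro (u.1 (Sum.inr a))) / 2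

theorem fro_ne {M : ℕ} (u : EE (Q.nn Φ) M) (a : Φ) : fro (u.1 (Sum.inr a)) ≠ 0 := fun h => by
  obtain ⟨x, hx⟩ := u.2 (Sum.inr a) 1
  rw [fro_eq_zero h, zero_mulVec] at hx
  exact zero_ne_one (congrFun hx (0 : Fin 1))

theorem tE_smul {M : ℕ} (h : GG (Q.nn Φ)) (u : EE (Q.nn Φ) M) : tE (h • u) = lg h + tE u := by
  funext a
  have h1 : ∀ (g : Matrix (Fin 1) (Fin 1) ℂ) (x : Matrix (Fin 1) (Fin M) ℂ),
      fro (g * x) = ‖g.det‖ ^ 2 * fro x := fun g x => by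
    simp [fro, mul_apply, mul_pow, Finset.mul_sum]
  have h2 : fro ((h • u).1 (Sum.inr a)) = ‖(Flav.fl Q Φ h a : ℂ)‖ ^ 2 * fro (u.1 (Sum.inr a)) :=
    h1 (h (Sum.inr a)).1 (u.1 (Sum.inr a))
  rw [tE, h2, Real.log_mul (pow_ne_zero _ (norm_ne_zero_iff.2 (Units.ne_zero _))) (fro_ne u a),
    Real.log_pow, Pi.add_apply, lg, tE]
  push_cast
  ring

theorem tE_addCol {M : ℕ} (u : EE (Q.nn Φ) M) : tE (addCol M u) = tE u := by
  funext a
  have h1 : ∀ x : Matrix (Fin 1) (Fin M) ℂ,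
      fro (of fun a => (Fin.snoc (x a) 0 : Fin (M + 1) → ℂ)) = fro x := fun x => by
    simp [fro, Fin.sum_univ_castSucc]
  exact congrArg (Real.log · / 2) (h1 (u.1 (Sum.inr a)))

theorem continuous_tE {M : ℕ} : Continuous (tE : EE (Q.nn Φ) M → Φ → ℝ) := by
  refine continuous_pi fun a => (Continuous.log ?_ fun u => fro_ne u a).div_const _
  have h : Continuous fun u : EE (Q.nn Φ) M => u.1 (Sum.inr a) :=
    (continuous_apply (Sum.inr a)).comp continuous_subtype_val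
  exact continuous_finsetSum _ fun p _ => continuous_finsetSum _ fun r _ =>
    (h.matrix_elem p r).norm.pow 2

/-- The Borel spaces of the stable locus of `μ⁻¹(0)` and of a generic central fibre of the moment
map are homeomorphic over the classifying space, compatibly with stabilization. -/
theorem exists_homeo {ν : I → ℤ} (hν : A.Regular ν)
    (S : SubMulAction (GG (Q.nn Φ)) (A.NN × A.ND))
    (hS : ∀ z, z ∈ S ↔ (∀ ξ, mu z ξ = 0) ∧ St ν z) : ∃ θ : I → ℝ, Gen Q.qd θ ∧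
      ∃ Ψ : ∀ M, Bo (Q.nn Φ) S M ≃ₜ Bo (Q.nn Φ) (Zlev A θ) M, ∀ M z u, ∃ w,
        Ψ M (Bor.mk _ (z, u)) = Bor.mk _ (w, u) ∧
          Ψ (M + 1) (Bor.mk _ (z, addCol M u)) = Bor.mk _ (w, addCol M u) := by
  obtain ⟨θ, h0, h1, h2⟩ := exists_psi hν
  let a : S → (Φ → ℝ) → Zlev A θ := fun z t =>
    ⟨psi' θ rotP z.1 t, ((h1 _ ((hS _).1 z.2)).2 t).1⟩
  let b : Zlev A θ → (Φ → ℝ) → S := fun w t =>
    ⟨psi' 0 unrotP w.1 t, (hS _).2 ((h2 _ w.2).2 t).1⟩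
  have ha : ∀ M, Continuous fun x : S × EE (Q.nn Φ) M => (a x.1 (tE x.2), x.2) := fun M =>
    ((continuous_psi' continuous_rotP (continuous_subtype_val.comp continuous_fst)
      (fun x => (h1 _ ((hS _).1 x.1.2)).1) (continuous_tE.comp continuous_snd)).subtype_mk _).prodMk
      continuous_snd
  have hb : ∀ M, Continuous fun x : Zlev A θ × EE (Q.nn Φ) M => (b x.1 (tE x.2), x.2) := fun M =>
    ((continuous_psi' continuous_unrotP (continuous_subtype_val.comp continuous_fst)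
      (fun x => (h2 _ x.1.2).1) (continuous_tE.comp continuous_snd)).subtype_mk _).prodMk
      continuous_snd
  let a' : ∀ M, C(Bo (Q.nn Φ) S M, Bo (Q.nn Φ) (Zlev A θ) M) := fun M =>
    Bor.mapC (MonoidHom.id _) ⟨_, ha M⟩ fun h x => Prod.ext (Subtype.ext (by
      change psi' θ rotP (h • x.1.1) (tE (h • x.2)) = h • psi' θ rotP x.1.1 (tE x.2)
      rw [tE_smul, psi'_smul (fun _ => rotP_smul) (h1 _ ((hS _).1 x.1.2)).1])) rfl
  let b' : ∀ M, C(Bo (Q.nn Φ) (Zlev A θ) M, Bo (Q.nn Φ) S M) := fun M =>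
    Bor.mapC (MonoidHom.id _) ⟨_, hb M⟩ fun h x => Prod.ext (Subtype.ext (by
      change psi' 0 unrotP (h • x.1.1) (tE (h • x.2)) = h • psi' 0 unrotP x.1.1 (tE x.2)
      rw [tE_smul, psi'_smul (fun _ => unrotP_smul) (h2 _ x.1.2).1])) rfl
  refine ⟨θ, h0, fun M => ⟨⟨a' M, b' M, fun x => ?_, fun x => ?_⟩, (a' M).2, (b' M).2⟩,
    fun M z u => ⟨a z (tE u), rfl, ?_⟩⟩
  · induction x using Quotient.inductionOn' with | h x =>
    exact congrArg (Bor.mk _) (Prod.ext (Subtype.ext ((h1 _ ((hS _).1 x.1.2)).2 _).2) rfl)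
  · induction x using Quotient.inductionOn' with | h x =>
    exact congrArg (Bor.mk _) (Prod.ext (Subtype.ext ((h2 _ x.1.2).2 _).2) rfl)
  · rw [← tE_addCol u]
    rfl

end Vale.Agent.P291Z.KN
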