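import Vale.Agent.P291Z.Quiv0
import Vale.Agent.P291Z.KN3

/-!
# The Hermitian form on `N`, weight bases of the flavour torus, and a unitarizing automorphism
-/

set_option linter.unusedSectionVars false

namespace Vale.Agent.P291Z

open Matrix Module

namespace KN

theorem exists_sqrt {n : Type} [Fintype n] [DecidableEq n] {P : Matrix n n ℂ} (hP : Pᴴ = P)
    (hpos : ∀ x : n → ℂ, x ≠ 0 → 0 < (star x ⬝ᵥ P.mulVec x).re) :
    ∃ φ φ' : Matrix n n ℂ, φ * φ' = 1 ∧ φᴴ * φ = P ∧ ∀ a, a * P = P * a → a * φ = φ * a := by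
  obtain ⟨u, d, hu, hu', e⟩ := herm_diag hP
  have hD : diagonal (fun r => (d r : ℂ)) = u * P * uᴴ := by
    rw [e]
    simp only [Matrix.mul_assoc, hu', Matrix.mul_one]
    rw [← Matrix.mul_assoc, hu', Matrix.one_mul]
  have hd : ∀ r, 0 < d r := by
    intro r
    have h1 := hpos (star (u r)) fun h0 => by
      have h2 := congrFun (congrFun hu' r) r
      rw [mul_apply, one_apply_eq, Finset.sum_eq_zero] at h2
      · exact zero_ne_one h2
      · intro q _
        rw [show u r q = 0 from star_eq_zero.1 (congrFun h0 q), zero_mul]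
    have h3 := congrFun (congrFun hD r) r
    rw [diagonal_apply_eq, Matrix.mul_assoc, mul_apply] at h3
    have h4 : star (star (u r)) ⬝ᵥ P.mulVec (star (u r)) = (d r : ℂ) := by
      rw [h3, star_star]
      rfl
    rwa [h4, Complex.ofReal_re] at h1
  have hs : ∀ r, ((Real.sqrt (d r) : ℝ) : ℂ) * (Real.sqrt (d r) : ℝ) = d r := fun r => by
    rw [← Complex.ofReal_mul, Real.mul_self_sqrt (hd r).le]
  have hs0 : ∀ r, ((Real.sqrt (d r) : ℝ) : ℂ) ≠ 0 := fun r =>
    Complex.ofReal_ne_zero.2 (Real.sqrt_pos.2 (hd r)).ne'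
  have conj : ∀ a b : Matrix n n ℂ, uᴴ * a * u * (uᴴ * b * u) = uᴴ * (a * b) * u := fun a b => by
    simp only [Matrix.mul_assoc]
    rw [← Matrix.mul_assoc u, hu', Matrix.one_mul]
  refine ⟨uᴴ * diagonal (fun r => ((Real.sqrt (d r) : ℝ) : ℂ)) * u,
    uᴴ * diagonal (fun r => ((Real.sqrt (d r) : ℝ) : ℂ)⁻¹) * u, ?_, ?_, fun a ha => ?_⟩
  · rw [conj, diagonal_mul_diagonal]
    simp only [mul_inv_cancel₀ (hs0 _), diagonal_one, Matrix.mul_one, hu]
  · have : (uᴴ * diagonal (fun r => ((Real.sqrt (d r) : ℝ) : ℂ)) * u)ᴴ =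
        uᴴ * diagonal (fun r => ((Real.sqrt (d r) : ℝ) : ℂ)) * u := by
      rw [conjTranspose_mul, conjTranspose_mul, conjTranspose_conjTranspose,
        diagonal_conjTranspose, Matrix.mul_assoc]
      congr 3
      funext r
      simp only [Pi.star_apply, Complex.star_def, Complex.conj_ofReal]
    rw [this, conj, diagonal_mul_diagonal, e]
    simp only [hs]
  · have h1 : (u * a * uᴴ) * diagonal (fun r => (d r : ℂ)) =
        diagonal (fun r => (d r : ℂ)) * (u * a * uᴴ) := by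
      rw [hD]
      simp only [Matrix.mul_assoc]
      rw [← Matrix.mul_assoc uᴴ u, ← Matrix.mul_assoc uᴴ u, hu, Matrix.one_mul, Matrix.one_mul,
        ← Matrix.mul_assoc a, ha, Matrix.mul_assoc]
    have h2 : (u * a * uᴴ) * diagonal (fun r => ((Real.sqrt (d r) : ℝ) : ℂ)) =
        diagonal (fun r => ((Real.sqrt (d r) : ℝ) : ℂ)) * (u * a * uᴴ) := by
      ext p r
      have h3 := congrFun (congrFun h1 p) r
      rw [mul_diagonal, diagonal_mul] at h3 ⊢
      by_cases h0 : (u * a * uᴴ) p r = 0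
      · rw [h0, zero_mul, mul_zero]
      · rw [mul_comm] at h3
        rw [Complex.ofReal_injective (mul_right_cancel₀ h0 h3), mul_comm]
    have := congrArg (fun b => uᴴ * b * u) h2
    simp only [Matrix.mul_assoc, hu, Matrix.mul_one] at this
    rw [← Matrix.mul_assoc uᴴ u, hu, Matrix.one_mul] at this
    simpa only [Matrix.mul_assoc] using this

end KN

namespace Quiv

variable {I E : Type} (Q : Quiv I E)

/-- The index set of the coordinates of `N`. -/
def Co : Type :=
  (Σ e, Fin (Q.v (Q.t e)) × Fin (Q.v (Q.s e))) ⊕ (Σ i, Fin (Q.w i) × Fin (Q.v i))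

noncomputable instance : DecidableEq Q.Co := Classical.decEq _

instance [Fintype I] [Fintype E] : Fintype Q.Co := inferInstanceAs (Fintype
  ((Σ e, Fin (Q.v (Q.t e)) × Fin (Q.v (Q.s e))) ⊕ (Σ i, Fin (Q.w i) × Fin (Q.v i))))

/-- The coordinates of `N`. -/
def co : Q.N ℂ ≃ₗ[ℂ] (Q.Co → ℂ) where
  toFun s l := match l with
    | .inl a => s.1 a.1 a.2.1 a.2.2
    | .inr a => s.2 a.1 a.2.1 a.2.2
  invFun c := (fun e => Matrix.of fun p r => c (.inl ⟨e, p, r⟩),
    fun i => Matrix.of fun p r => c (.inr ⟨i, p, r⟩))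
  map_add' s s' := funext fun l => by cases l <;> rfl
  map_smul' a s := funext fun l => by cases l <;> rfl
  left_inv _ := rfl
  right_inv c := funext fun l => by cases l <;> rfl

variable {Q} [Fintype I] [Fintype E]

/-- The standard Hermitian form on `N`. -/
noncomputable def hN (s s' : Q.N ℂ) : ℂ :=
  ∑ e, (s.1 e * (s'.1 e)ᴴ).trace + ∑ i, (s.2 i * (s'.2 i)ᴴ).trace

theorem hN_eq (s s' : Q.N ℂ) : hN s s' = star (Q.co s') ⬝ᵥ Q.co s := by
  refine Eq.trans ?_ (Fintype.sum_sum_type (fun l => star (Q.co s') l * Q.co s l)).symm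
  simp only [hN, Fintype.sum_sigma, Fintype.sum_prod_type,
    Matrix.trace, diag_apply, mul_apply, conjTranspose_apply]
  congr 1 <;>
  exact Finset.sum_congr rfl fun _ _ => Finset.sum_congr rfl fun _ _ =>
    Finset.sum_congr rfl fun _ _ => mul_comm _ _

theorem hN_add_left (a b s : Q.N ℂ) : hN (a + b) s = hN a s + hN b s := by
  rw [hN_eq, hN_eq, hN_eq, map_add, dotProduct_add]

theorem hN_smul_left (c : ℂ) (a s : Q.N ℂ) : hN (c • a) s = c * hN a s := by
  rw [hN_eq, hN_eq, map_smul, dotProduct_smul, smul_eq_mul]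

theorem star_hN (a b : Q.N ℂ) : star (hN a b) = hN b a := by
  rw [hN_eq, hN_eq, star_dotProduct, star_star]

theorem hN_ext {a b : Q.N ℂ} (h : ∀ s, hN s a = hN s b) : a = b := by
  apply Q.co.injective
  funext l
  have := h (Q.co.symm (Pi.single l 1))
  rw [hN_eq, hN_eq, LinearEquiv.apply_symm_apply, dotProduct_single_one,
    dotProduct_single_one] at this
  exact star_injective this

theorem hN_gauge (g : Q.En ℂ) (s s' : Q.N ℂ) :
    hN (Q.gauge g s) s' = hN s (Q.gauge (star g) s') := by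
  unfold hN
  congr 1
  · refine Finset.sum_congr rfl fun e _ => ?_
    change (g (Q.t e) * s.1 e * (g (Q.s e))⁻¹ * (s'.1 e)ᴴ).trace =
      (s.1 e * ((g (Q.t e))ᴴ * s'.1 e * ((g (Q.s e))ᴴ)⁻¹)ᴴ).trace
    rw [← conjTranspose_nonsing_inv, conjTranspose_mul, conjTranspose_mul,
      conjTranspose_conjTranspose, conjTranspose_conjTranspose, Matrix.mul_assoc (g _),
      Matrix.mul_assoc (g _), trace_mul_comm]
    simp only [Matrix.mul_assoc]
  · refine Finset.sum_congr rfl fun i _ => ?_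
    change (s.2 i * (g i)⁻¹ * (s'.2 i)ᴴ).trace = (s.2 i * (s'.2 i * ((g i)ᴴ)⁻¹)ᴴ).trace
    rw [← conjTranspose_nonsing_inv, conjTranspose_mul, conjTranspose_conjTranspose,
      Matrix.mul_assoc]

/-- The matrix of an endomorphism of `N`. -/
noncomputable def mat : Module.End ℂ (Q.N ℂ) ≃ₐ[ℂ] Matrix Q.Co Q.Co ℂ :=
  LinearMap.toMatrixAlgEquiv (Basis.ofEquivFun Q.co)

theorem co_apply (T : Module.End ℂ (Q.N ℂ)) (s : Q.N ℂ) :
    Q.co (T s) = (mat T).mulVec (Q.co s) := by
  exact (LinearMap.toMatrix_mulVec_repr (Basis.ofEquivFun Q.co) (Basis.ofEquivFun Q.co) T s).symm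

/-- The adjoint. -/
noncomputable def adj (T : Module.End ℂ (Q.N ℂ)) : Module.End ℂ (Q.N ℂ) := mat.symm (mat T)ᴴ

theorem mat_adj (T : Module.End ℂ (Q.N ℂ)) : mat (adj T) = (mat T)ᴴ := mat.apply_symm_apply _

theorem hN_adj (T : Module.End ℂ (Q.N ℂ)) (s s' : Q.N ℂ) : hN (T s) s' = hN s (adj T s') := by
  rw [hN_eq, hN_eq, co_apply, co_apply, mat_adj, star_mulVec, conjTranspose_conjTranspose,
    dotProduct_mulVec]

theorem adj_gauge (g : Q.En ℂ) : adj (Q.gauge g) = Q.gauge (star g) :=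
  LinearMap.ext fun s' => hN_ext fun s => by rw [← hN_adj, hN_gauge]

end Quiv

namespace Flav

open Quiv

variable {I E Φ : Type} {Q : Quiv I E} [Fintype Φ] (A : Flav Q Φ)

/-- The character `χ` of the flavour torus. -/
noncomputable def chr (χ : Φ → ℤ) (f : Φ → ℂˣ) : ℂ := ((∏ a, f a ^ χ a : ℂˣ) : ℂ)

theorem chr_inj {χ χ' : Φ → ℤ} (h : ∀ f, chr χ f = chr χ' f) : χ = χ' := by
  classical
  funext a
  have h1 := h (Function.update 1 a (Units.mk0 2 two_ne_zero))
  have key : ∀ χ : Φ → ℤ, chr χ (Function.update 1 a (Units.mk0 2 two_ne_zero)) = 2 ^ χ a := by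
    intro χ
    unfold chr
    rw [Finset.prod_eq_single a (fun b _ hb => by rw [Function.update_of_ne hb]; simp)
      (fun h => absurd (Finset.mem_univ _) h)]
    simp
  rw [key, key] at h1
  have h2 : (2 : ℝ) ^ χ a = 2 ^ χ' a := by
    simpa using congrArg norm h1
  exact zpow_right_injective₀ two_pos (by norm_num) h2

theorem continuous_chr (χ : Φ → ℤ) : Continuous (chr χ) :=
  Units.continuous_val.comp (continuous_finsetProd _ fun a _ => (continuous_apply a).zpow _)

theorem norm_chr (χ : Φ → ℤ) {f : Φ → ℂˣ} (hf : ∀ a, ‖(f a : ℂ)‖ = 1) : ‖chr χ f‖ = 1 := by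
  simp [chr, hf]

variable [Fintype I] [Fintype E]

/-- The projections onto the weight spaces of the flavour torus. -/
theorem exists_wtProj : ∃ (X : Finset (Φ → ℤ)) (π : (Φ → ℤ) → Module.End ℂ (Q.N ℂ)),
    ∑ χ ∈ X, π χ = 1 ∧ (∀ χ f, A.ρ f * π χ = chr χ f • π χ) ∧
      (∀ χ f, π χ * A.ρ f = chr χ f • π χ) ∧
      ∀ χ T, (∀ f, T * A.ρ f = A.ρ f * T) → T * π χ = π χ * T := by
  classical
  let S : Set (Q.N ℂ) := {w | ∃ χ, ∀ f, A.ρ f w = chr χ f • w}
  have hS : ⊤ ≤ Submodule.span ℂ S := by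
    rw [← A.alg]
    refine iSup_le fun χ w hw => Submodule.subset_span ⟨χ, fun f => ?_⟩
    exact Module.End.mem_eigenspace_iff.1 ((Submodule.mem_iInf _).1 hw f)
  let b := Basis.ofSpan hS
  have : Finite _ := Module.Finite.finite_basis b
  have : Fintype _ := Fintype.ofFinite ((linearIndepOn_empty ℂ id).extend (Set.empty_subset S))
  choose wt hwt using fun l => Basis.ofSpan_subset hS (Set.mem_range_self l)
  let π : (Φ → ℤ) → Module.End ℂ (Q.N ℂ) := fun χ =>
    b.constr ℂ fun l => if wt l = χ then b l else 0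
  have hπ : ∀ χ l, π χ (b l) = if wt l = χ then b l else 0 := fun χ l => b.constr_basis ℂ _ l
  have h1 : ∑ χ ∈ Finset.univ.image wt, π χ = 1 := b.ext fun l => by
    rw [LinearMap.sum_apply, Finset.sum_eq_single (wt l) (fun χ _ h => by rw [hπ, if_neg h.symm])
      (fun h => absurd (Finset.mem_image_of_mem wt (Finset.mem_univ l)) h), hπ, if_pos rfl]
    rfl
  have h3 : ∀ χ f, π χ * A.ρ f = chr χ f • π χ := fun χ f => b.ext fun l => by
    rw [Module.End.mul_apply, hwt, map_smul, LinearMap.smul_apply, hπ]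
    split_ifs with h
    · rw [h]
    · rw [smul_zero, smul_zero]
  have h4 : ∀ χ χ' w, (∀ f, A.ρ f w = chr χ' f • w) → χ ≠ χ' → π χ w = 0 := by
    intro χ χ' w hw hne
    by_contra h0
    refine hne (chr_inj fun f => smul_left_injective ℂ h0 ?_)
    have := congrArg (π χ) (hw f)
    rw [← Module.End.mul_apply, h3, map_smul] at this
    exact this
  have h5 : ∀ χ w, (∀ f, A.ρ f w = chr χ f • w) → π χ w = w := by
    intro χ w hw
    have h6 : ∑ χ' ∈ Finset.univ.image wt, π χ' w = w := by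
      rw [← LinearMap.sum_apply, h1]; rfl
    by_cases hX : χ ∈ Finset.univ.image wt
    · rw [Finset.sum_eq_single χ (fun χ' _ h => h4 χ' χ w hw h) (fun h => absurd hX h)] at h6
      exact h6
    · rw [Finset.sum_eq_zero fun χ' h => h4 χ' χ w hw (by rintro rfl; exact hX h)] at h6
      rw [← h6, map_zero]
  refine ⟨_, π, h1, fun χ f => b.ext fun l => ?_, h3, fun χ T hT => b.ext fun l => ?_⟩
  · rw [Module.End.mul_apply, LinearMap.smul_apply, hπ]
    split_ifs with h
    · rw [hwt, h]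
    · rw [map_zero, smul_zero]
  · have h6 : ∀ f, A.ρ f (T (b l)) = chr (wt l) f • T (b l) := fun f => by
      rw [← Module.End.mul_apply, ← hT, Module.End.mul_apply, hwt, map_smul]
    rw [Module.End.mul_apply, Module.End.mul_apply, hπ]
    split_ifs with h
    · rw [← h, h5 _ _ h6]
    · rw [map_zero, h4 _ _ _ h6 (Ne.symm h)]

theorem continuous_rho : Continuous fun p : (Φ → ℂˣ) × Q.N ℂ => A.ρ p.1 p.2 := by
  obtain ⟨X, π, h1, h2, -, -⟩ := A.exists_wtProj
  have e : ∀ p : (Φ → ℂˣ) × Q.N ℂ, A.ρ p.1 p.2 = ∑ χ ∈ X, chr χ p.1 • π χ p.2 := fun p => by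
    conv_lhs => rw [← mul_one (A.ρ p.1), ← h1, Finset.mul_sum, LinearMap.sum_apply]
    exact Finset.sum_congr rfl fun χ _ => by rw [h2]; rfl
  simp only [e]
  exact continuous_finsetSum _ fun χ _ => ((continuous_chr χ).comp continuous_fst).smul
    ((π χ).continuous_of_finiteDimensional.comp continuous_snd)

/-- An automorphism of `N` that commutes with `G` and makes the compact flavour torus unitary. -/
theorem exists_unit : ∃ φ : Q.N ℂ ≃ₗ[ℂ] Q.N ℂ,
    (∀ (g : GG Q.v) s, φ (Q.gauge (fun i => g i) s) = Q.gauge (fun i => g i) (φ s)) ∧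
      ∀ f, (∀ a, ‖(f a : ℂ)‖ = 1) → ∀ s s', hN (φ (A.ρ f s)) (φ (A.ρ f s')) = hN (φ s) (φ s') := by
  classical
  obtain ⟨X, π, h1, -, h3, h4⟩ := A.exists_wtProj
  have hc : ∀ χ (g : GG Q.v), mat (Q.gauge fun i => g i) * mat (π χ) =
      mat (π χ) * mat (Q.gauge fun i => g i) := fun χ g => by
    rw [← map_mul, ← map_mul, h4 χ _ fun f => (A.comm f g).symm]
  have hc' : ∀ χ (g : GG Q.v), mat (Q.gauge fun i => g i) * (mat (π χ))ᴴ =
      (mat (π χ))ᴴ * mat (Q.gauge fun i => g i) := fun χ g => by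
    have := congrArg conjTranspose (hc χ (star g))
    rw [conjTranspose_mul, conjTranspose_mul, ← mat_adj (Q.gauge _), adj_gauge] at this
    have e : (star fun i => ((star g) i).1 : Q.En ℂ) = fun i => (g i).1 :=
      funext fun i => star_star (g i).1
    rw [e] at this
    exact this.symm
  obtain ⟨φ, φ', e1, e2, e3⟩ := KN.exists_sqrt (P := ∑ χ ∈ X, (mat (π χ))ᴴ * mat (π χ))
    (by simp only [conjTranspose_sum, conjTranspose_mul, conjTranspose_conjTranspose]) (by
      intro x hx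
      have h5 : ∀ χ, star x ⬝ᵥ ((mat (π χ))ᴴ * mat (π χ)).mulVec x =
          ((∑ l, ‖(mat (π χ)).mulVec x l‖ ^ 2 : ℝ) : ℂ) := fun χ => by
        rw [← mulVec_mulVec, dotProduct_mulVec, ← star_mulVec, dotProduct, Complex.ofReal_sum]
        exact Finset.sum_congr rfl fun l _ => by rw [mul_comm]; exact KN.mul_conj_eq _
      rw [sum_mulVec, dotProduct_sum, Complex.re_sum]
      simp only [h5, Complex.ofReal_re]
      refine lt_of_le_of_ne (Finset.sum_nonneg fun χ _ => Finset.sum_nonneg fun l _ =>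
        sq_nonneg _) fun h0 => hx ?_
      have h6 := (Finset.sum_eq_zero_iff_of_nonneg fun χ _ => Finset.sum_nonneg fun l _ =>
        sq_nonneg _).1 h0.symm
      rw [← one_mulVec x, ← map_one (mat (Q := Q)), ← h1, map_sum, sum_mulVec]
      refine Finset.sum_eq_zero fun χ hχ => funext fun l => ?_
      have h7 := (Finset.sum_eq_zero_iff_of_nonneg fun l _ => sq_nonneg _).1 (h6 χ hχ) l
        (Finset.mem_univ _)
      simpa using h7)
  have e1' := mul_eq_one_comm.1 e1
  let ψ : Q.N ℂ ≃ₗ[ℂ] Q.N ℂ := LinearEquiv.ofLinearMap (mat.symm φ) (mat.symm φ')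
    (by rw [← Module.End.mul_eq_comp, ← map_mul, e1, map_one]; rfl)
    (by rw [← Module.End.mul_eq_comp, ← map_mul, e1', map_one]; rfl)
  have hψ : ∀ s, Q.co (ψ s) = φ.mulVec (Q.co s) := fun s => by
    have := co_apply (mat.symm φ) s
    rwa [AlgEquiv.apply_symm_apply] at this
  refine ⟨ψ, fun g s => Q.co.injective ?_, fun f hf s s' => ?_⟩
  · rw [hψ, co_apply, co_apply, hψ, mulVec_mulVec, mulVec_mulVec, e3]
    rw [Finset.mul_sum, Finset.sum_mul]
    refine Finset.sum_congr rfl fun χ _ => ?_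
    rw [← Matrix.mul_assoc, hc', Matrix.mul_assoc, hc, Matrix.mul_assoc]
  · have h8 : (φ * mat (A.ρ f))ᴴ * (φ * mat (A.ρ f)) = φᴴ * φ := by
      rw [conjTranspose_mul, Matrix.mul_assoc, ← Matrix.mul_assoc φᴴ, e2, Finset.sum_mul,
        Finset.mul_sum]
      refine Finset.sum_congr rfl fun χ _ => ?_
      rw [Matrix.mul_assoc, ← Matrix.mul_assoc _ (mat (π χ))ᴴ, ← conjTranspose_mul, ← map_mul, h3,
        map_smul, conjTranspose_smul, Matrix.smul_mul, Matrix.mul_smul, smul_smul, mul_comm,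
        KN.mul_conj_eq, norm_chr χ hf]
      simp
    rw [hN_eq, hN_eq, hψ, hψ, hψ, hψ, co_apply, co_apply, mulVec_mulVec, mulVec_mulVec,
      star_mulVec, star_mulVec, ← dotProduct_mulVec, ← dotProduct_mulVec, mulVec_mulVec,
      mulVec_mulVec, h8]

end Flav

end Vale.Agent.P291Z
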