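import Vale.Agent.P291Z.GL0

/-!
# Compatible families of cohomology classes do not depend on the classifying map
-/

set_option linter.unusedSectionVars false

namespace Vale.Agent.P291Z.Kir

open Set Function Topology Matrix unitInterval

/-- The matrix of an inclusion of columns. -/
noncomputable def Pm {L K : ℕ} (ι : Fin L → Fin K) : Matrix (Fin L) (Fin K) ℂ :=
  (1 : Matrix (Fin K) (Fin K) ℂ).submatrix ι id

theorem Pm_mul_Pm {L K N : ℕ} (ι : Fin L → Fin K) (κ : Fin K → Fin N) :
    Pm ι * Pm κ = Pm (κ ∘ ι) := by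
  ext a b
  simp only [Pm, mul_apply, submatrix_apply, one_apply, id, ite_mul, one_mul, zero_mul,
    Finset.sum_ite_eq, Finset.mem_univ, if_true, Function.comp_apply]

theorem Pm_id (L : ℕ) : Pm (id : Fin L → Fin L) = 1 := rfl

theorem Pm_mul_transpose {L L' K : ℕ} (ι : Fin L → Fin K) (κ : Fin L' → Fin K) :
    Pm ι * (Pm κ)ᵀ = (1 : Matrix (Fin K) (Fin K) ℂ).submatrix ι κ := by
  ext a b
  simp [Pm, mul_apply, one_apply, eq_comm]

theorem Pm_self {L K : ℕ} {ι : Fin L → Fin K} (h : Injective ι) : Pm ι * (Pm ι)ᵀ = 1 := by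
  rw [Pm_mul_transpose, submatrix_one _ h]

theorem Pm_disj {L L' K : ℕ} {ι : Fin L → Fin K} {κ : Fin L' → Fin K} (h : ∀ a b, ι a ≠ κ b) :
    Pm ι * (Pm κ)ᵀ = 0 := by
  rw [Pm_mul_transpose]
  ext a b
  simp [one_apply, h]

theorem surj_of_mul {m L K : ℕ} {x : Matrix (Fin m) (Fin K) ℂ} {y : Matrix (Fin m) (Fin L) ℂ}
    (hy : Surjective y.mulVec) (S : Matrix (Fin K) (Fin L) ℂ) {c : ℂ} (hc : c ≠ 0)
    (h : x * S = c • y) : Surjective x.mulVec := fun w => by
  obtain ⟨u, hu⟩ := hy w
  refine ⟨S *ᵥ (c⁻¹ • u), ?_⟩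
  rw [mulVec_mulVec, h, smul_mulVec, mulVec_smul, hu, smul_smul, mul_inv_cancel₀ hc, one_smul]

variable {J : Type} [Fintype J] {n : J → ℕ}

/-- Placing the columns. -/
noncomputable def plc {L K : ℕ} {ι : Fin L → Fin K} (h : Injective ι) (u : EE n L) : EE n K :=
  ⟨fun j => u.1 j * Pm ι, fun j => surj_of_mul (u.2 j) (Pm ι)ᵀ one_ne_zero (by
    rw [Matrix.mul_assoc, Pm_self h, Matrix.mul_one, one_smul])⟩

theorem plc_smul {L K : ℕ} {ι : Fin L → Fin K} (h : Injective ι) (g : GG n) (u : EE n L) :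
    plc h (g • u) = g • plc h u := Subtype.ext (funext fun _ => Matrix.mul_assoc _ _ _)

theorem continuous_row {L : ℕ} (j : J) : Continuous fun u : EE n L => u.1 j :=
  (continuous_apply j).comp continuous_subtype_val

theorem continuous_plc {L K : ℕ} {ι : Fin L → Fin K} (h : Injective ι) :
    Continuous (plc (n := n) h) :=
  Continuous.subtype_mk (continuous_pi fun j => (continuous_row j).matrix_mul continuous_const) _

theorem plc_plc {L K N : ℕ} {ι : Fin L → Fin K} (h : Injective ι) {κ : Fin K → Fin N}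
    (h' : Injective κ) (u : EE n L) : plc h' (plc h u) = plc (h'.comp h) u :=
  Subtype.ext (funext fun _ => (Matrix.mul_assoc _ _ _).trans (congrArg _ (Pm_mul_Pm ι κ)))

theorem addCol_eq {L : ℕ} (u : EE n L) : addCol L u = plc (Fin.castSucc_injective L) u :=
  Subtype.ext (funext fun j => Matrix.ext fun a b => by
    change (Fin.snoc (u.1 j a) 0 : Fin (L + 1) → ℂ) b =
      (u.1 j * Pm (Fin.castSucc : Fin L → Fin (L + 1)) : Matrix _ _ ℂ) a b
    refine Fin.lastCases ?_ (fun b => ?_) b
    · simp [Pm, mul_apply, one_apply, Fin.castSucc_ne_last]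
    · simp [Pm, mul_apply, one_apply])

/-- Adding zero columns. -/
noncomputable def pad {L K : ℕ} (h : L ≤ K) (u : EE n L) : EE n K :=
  plc (Fin.castLE_injective h) u

theorem continuous_pad {L K : ℕ} (h : L ≤ K) : Continuous (pad (n := n) h) :=
  continuous_plc (Fin.castLE_injective h)

theorem pad_smul {L K : ℕ} (h : L ≤ K) (g : GG n) (u : EE n L) : pad h (g • u) = g • pad h u :=
  plc_smul (Fin.castLE_injective h) g u

theorem pad_self {L : ℕ} (u : EE n L) : pad le_rfl u = u :=
  Subtype.ext (funext fun j => Matrix.mul_one (u.1 j))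

theorem pad_pad {L K N : ℕ} (h : L ≤ K) (h' : K ≤ N) (u : EE n L) :
    pad h' (pad h u) = pad (h.trans h') u := plc_plc _ _ u

theorem addCol_eq_pad {L : ℕ} (u : EE n L) : addCol L u = pad (Nat.le_succ L) u := addCol_eq u

variable (Z : Type) [TopologicalSpace Z] [MulAction (GG n) Z]

/-- The map over `Z` given by an equivariant map to another approximation. -/
noncomputable def ov {M L : ℕ} (a : C(Z × EE n M, EE n L))
    (ha : ∀ (g : GG n) x, a (g • x) = g • a x) : C(Bo n Z M, Bo n Z L) :=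
  Bor.mapC (MonoidHom.id _) ⟨fun x => (x.1, a x), continuous_fst.prodMk a.2⟩
    fun g x => Prod.ext rfl (ha g x)

variable (n) in
/-- The inclusion of approximations. -/
noncomputable def incTo {L K : ℕ} (h : L ≤ K) : C(Bo n Z L, Bo n Z K) :=
  ov Z ⟨fun x => pad h x.2, (continuous_plc _).comp continuous_snd⟩
    fun g x => plc_smul (Fin.castLE_injective h) g x.2

variable {Z}

theorem cext {Y : Type} [TopologicalSpace Y] {M : ℕ} {f g : C(Bo n Z M, Y)}
    (h : ∀ x, f (Bor.mk _ x) = g (Bor.mk _ x)) : f = g :=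
  ContinuousMap.ext fun x => Quotient.inductionOn' x h

theorem incTo_mk {L K : ℕ} (h : L ≤ K) (x : Z × EE n L) :
    incTo n Z h (Bor.mk _ x) = Bor.mk _ (x.1, pad h x.2) := rfl

/-- Compatible families. -/
def Cp (c : ∀ M, H (Bo n Z M)) : Prop := ∀ M, H.map (inc n Z M) (c (M + 1)) = c M

theorem cp_of_mem {c : ∀ M, H (Bo n Z M)} (h : c ∈ HG n Z) : Cp c := by
  induction h using Subring.closure_induction with
  | mem c h => obtain ⟨k, h⟩ := mem_iUnion.1 h; exact fun M => (h M).1
  | zero => exact fun M => map_zero _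
  | one => exact fun M => map_one _
  | add a b _ _ ha hb => exact fun M => (map_add _ _ _).trans (congrArg₂ (· + ·) (ha M) (hb M))
  | neg a _ ha => exact fun M => (map_neg _ _).trans (congrArg (-·) (ha M))
  | mul a b _ _ ha hb => exact fun M => (map_mul _ _ _).trans (congrArg₂ (· * ·) (ha M) (hb M))

theorem incTo_comp_inc {L K : ℕ} (h : L + 1 ≤ K) :
    (incTo n Z h).comp (inc n Z L) = incTo n Z ((Nat.le_succ L).trans h) :=
  cext fun x => congrArg (Bor.mk _) (Prod.ext rfl (by
    change pad h (addCol L x.2) = pad _ x.2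
    rw [addCol_eq_pad, pad_pad]))

theorem Cp.incTo {c : ∀ M, H (Bo n Z M)} (hc : Cp c) {L K : ℕ} (h : L ≤ K) :
    H.map (incTo n Z h) (c K) = c L := by
  induction K, h using Nat.le_induction with
  | base => exact H.map_id (fun x => Quotient.inductionOn' x fun x =>
      congrArg (Bor.mk _) (Prod.ext rfl (pad_self x.2))) _
  | succ K h ih =>
    rw [← ih, ← hc K, H.map_map]
    refine congrArg (H.map · _) (cext fun x => congrArg (Bor.mk _) (Prod.ext rfl ?_))
    change pad _ x.2 = addCol K (pad h x.2)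
    rw [addCol_eq_pad, pad_pad]

variable [Nice Z] [ContinuousSMul (GG n) Z]

theorem homotopic_plc {M L L' K : ℕ} (a : C(Z × EE n M, EE n L))
    (ha : ∀ (g : GG n) x, a (g • x) = g • a x) (b : C(Z × EE n M, EE n L'))
    (hb : ∀ (g : GG n) x, b (g • x) = g • b x) {ι : Fin L → Fin K} (hι : Injective ι)
    {κ : Fin L' → Fin K} (hκ : Injective κ) (h : ∀ p q, ι p ≠ κ q) :
    (ov Z ⟨fun x => plc hι (a x), (continuous_plc _).comp a.2⟩
      fun g x => by rw [ContinuousMap.coe_mk, ha, plc_smul]).Homotopic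
    (ov Z ⟨fun x => plc hκ (b x), (continuous_plc _).comp b.2⟩
      fun g x => by rw [ContinuousMap.coe_mk, hb, plc_smul]) := by
  let m : I → Z × EE n M → EE n K := fun t x =>
    ⟨fun j => (1 - ((t : ℝ) : ℂ)) • ((a x).1 j * Pm ι) + ((t : ℝ) : ℂ) • ((b x).1 j * Pm κ),
      fun j => by
        dsimp only
        by_cases ht : ((t : ℝ) : ℂ) = 0
        · refine surj_of_mul ((a x).2 j) (Pm ι)ᵀ one_ne_zero ?_
          rw [ht, zero_smul, add_zero, sub_zero, one_smul, Matrix.mul_assoc, Pm_self hι,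
            Matrix.mul_one, one_smul]
        · refine surj_of_mul ((b x).2 j) (Pm κ)ᵀ ht ?_
          rw [Matrix.add_mul, Matrix.smul_mul, Matrix.smul_mul, Matrix.mul_assoc, Pm_disj h,
            Matrix.mul_assoc, Pm_self hκ, Matrix.mul_zero, smul_zero, zero_add, Matrix.mul_one]⟩
  have hm₀ : ∀ {k : ℕ} (g : Matrix (Fin k) (Fin k) ℂ) (x : Matrix (Fin k) (Fin L) ℂ)
      (y : Matrix (Fin k) (Fin L') ℂ) (s t : ℂ),
      s • (g * x * Pm ι) + t • (g * y * Pm κ) = g * (s • (x * Pm ι) + t • (y * Pm κ)) :=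
    fun g x y s t => by
      rw [Matrix.mul_add, Matrix.mul_smul, Matrix.mul_smul, Matrix.mul_assoc, Matrix.mul_assoc]
  have hm : ∀ t (g : GG n) x, m t (g • x) = g • m t x := fun t g x =>
    Subtype.ext (funext fun j => by
      have h1 : (a (g • x)).1 j = (g j).1 * (a x).1 j := by rw [ha]; rfl
      have h2 : (b (g • x)).1 j = (g j).1 * (b x).1 j := by rw [hb]; rfl
      change _ • ((a (g • x)).1 j * Pm ι) + _ • ((b (g • x)).1 j * Pm κ) =
        (g j).1 * (_ • ((a x).1 j * Pm ι) + _ • ((b x).1 j * Pm κ))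
      rw [h1, h2]
      exact hm₀ _ _ _ _ _)
  have hc : Continuous fun p : I × (Z × EE n M) => m p.1 p.2 := by
    refine Continuous.subtype_mk (continuous_pi fun j => ?_) _
    have h1 : Continuous fun p : I × (Z × EE n M) => ((p.1 : ℝ) : ℂ) := by fun_prop
    exact ((continuous_const.sub h1).smul (((continuous_row j).comp
      (a.2.comp continuous_snd)).matrix_mul continuous_const)).add (h1.smul
        (((continuous_row j).comp (b.2.comp continuous_snd)).matrix_mul continuous_const))
  let F : I × Bo n Z M → Bo n Z K := fun p =>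
    Bor.map (MonoidHom.id _) (fun x => (x.1, m p.1 x)) (fun g x => Prod.ext rfl (hm p.1 g x)) p.2
  have hF : Continuous F := by
    rw [← (IsOpenQuotientMap.id.prodMap (Bor.isOpenQuotientMap_mk (G := GG n) (Z := Z)
      (P := EE n M))).continuous_comp_iff]
    exact (Bor.isOpenQuotientMap_mk (G := GG n) (Z := Z) (P := EE n K)).continuous.comp
      (continuous_snd.fst.prodMk hc)
  refine ⟨⟨⟨F, hF⟩, fun x => Quotient.inductionOn' x fun x => ?_,
    fun x => Quotient.inductionOn' x fun x => ?_⟩⟩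
  · refine congrArg (Bor.mk _) (Prod.ext rfl (Subtype.ext (funext fun j => ?_)))
    change (1 - (((0 : I) : ℝ) : ℂ)) • ((a x).1 j * Pm ι) + _ • ((b x).1 j * Pm κ) = _ * _
    simp
  · refine congrArg (Bor.mk _) (Prod.ext rfl (Subtype.ext (funext fun j => ?_)))
    change (1 - (((1 : I) : ℝ) : ℂ)) • ((a x).1 j * Pm ι) + _ • ((b x).1 j * Pm κ) = _ * _
    simp

/-- The pull-back of a compatible family along any map over `Z`. -/
theorem Cp.ov {c : ∀ M, H (Bo n Z M)} (hc : Cp c) {M L : ℕ} (a : C(Z × EE n M, EE n L))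
    (ha : ∀ (g : GG n) x, a (g • x) = g • a x) : H.map (ov Z a ha) (c L) = c M := by
  have h1 : L ≤ M + L + L := by omega
  have h2 : M ≤ M + L + L := by omega
  have h3 := homotopic_plc a ha a ha (Fin.castLE_injective h1) (Fin.natAdd_injective L (M + L))
    fun p q e => by have := congrArg Fin.val e; simp at this; omega
  have h4 := homotopic_plc ⟨Prod.snd, continuous_snd⟩ (fun _ _ => rfl) a ha
    (Fin.castLE_injective h2) (Fin.natAdd_injective L (M + L))
    fun p q e => by have := congrArg Fin.val e; simp at this; omega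
  rw [← hc.incTo h1, ← hc.incTo h2, H.map_map]
  have h5 := H.map_eq_of_homotopic (h3.trans h4.symm)
  refine Eq.trans ?_ (congrArg (· (c (M + L + L))) h5)
  exact congrArg (H.map · _) (cext fun x => rfl)

end Vale.Agent.P291Z.Kir
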