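import Vale.Agent.P291Z.Fl6
import Vale.Agent.P291Z.Nice0

/-!
# The compact torus, its system of unitary frames, the Weyl group
-/

set_option linter.all false

namespace Vale.Agent.P291Z

open Set Function Topology Matrix

variable {J : Type} [Fintype J] (n : J → ℕ)

/-- the index set of the Chern roots -/
abbrev Bx : Type := Σ j, Fin (n j)

/-- the compact maximal torus -/
def Tc : Type := Bx n → Circle

noncomputable instance : CommGroup (Tc n) := Pi.commGroup

noncomputable instance : TopologicalSpace (Tc n) := Pi.topologicalSpace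

instance : IsTopologicalGroup (Tc n) := Pi.topologicalGroup

instance : CompactSpace (Tc n) := Pi.compactSpace

/-- diagonal matrices -/
noncomputable def toG : Tc n →* GG n where
  toFun t j := ⟨diagonal fun a => (t ⟨j, a⟩ : ℂ), diagonal fun a => ((t ⟨j, a⟩)⁻¹ : Circle),
    by simp [diagonal_mul_diagonal], by simp [diagonal_mul_diagonal]⟩
  map_one' := (Fl.dg n).map_one
  map_mul' := (Fl.dg n).map_mul

theorem continuous_toG : Continuous (toG n) := Fl.continuous_dg

noncomputable instance : MulAction (Tc n) (GG n) := MulAction.compHom (GG n) (toG n)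

noncomputable instance (m : J → ℕ) : DistribMulAction (Tc n) (Mat n m) :=
  DistribMulAction.compHom _ (toG n)

instance (m : J → ℕ) : IsScalarTower (Tc n) (GG n) (Mat n m) :=
  ⟨fun t g x => mul_smul (toG n t) g x⟩

namespace TS

open Fl (row ip prj ON)

variable {n} {M : ℕ}

/-- the element of the subgroup of diagonal matrices -/
noncomputable def sub (t : Tc n) : Fl.Tc n := ⟨toG n t, t, rfl⟩

theorem wt_sub (t : Tc n) (c : Bx n) : Fl.wt c (sub t) = t c := Fl.wt_dg t c

theorem sub_surj (t : Fl.Tc n) : ∃ s, sub s = t := by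
  obtain ⟨_, s, rfl⟩ := t
  exact ⟨s, rfl⟩

theorem row_smul (t : Tc n) (u : Mat n fun _ => M) (c : Bx n) :
    row (t • u) c = (t c : ℂ) • row u c := by
  rw [← wt_sub]
  exact Fl.row_Tc (sub t) u c

theorem continuous_coord (c : Bx n) : Continuous fun t : Tc n => (t c : ℂ) :=
  continuous_subtype_val.comp (continuous_apply c)

end TS

/-- unitary frames -/
def St (M : ℕ) : Type := {u : Mat n fun _ => M // ∀ j, u j * (u j)ᴴ = 1}

noncomputable instance (M : ℕ) : TopologicalSpace (St n M) := instTopologicalSpaceSubtype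

noncomputable instance (M : ℕ) : MulAction (Tc n) (St n M) where
  smul t u := ⟨t • u.1, (TS.sub t • (⟨⟨u.1, fun j => Fl.surj_of_mul (u.2 j)⟩, u.2⟩ : Fl.St n M)).2⟩
  one_smul _ := Subtype.ext (one_smul _ _)
  mul_smul _ _ _ := Subtype.ext (mul_smul _ _ _)

/-- a unitary frame is a surjection -/
noncomputable def St.toE {M : ℕ} (u : St n M) : EE n M := ⟨u.1, fun j => Fl.surj_of_mul (u.2 j)⟩

/-- the complex dimension of the flag variety -/
def dimFl : ℤ := ∑ j, ((n j).choose 2 : ℤ)

namespace TS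

open Fl (row ip prj ON)

variable {n} {M : ℕ}

theorem dimFl_eq : dimFl n = Fl.dfl n := by
  rw [dimFl, Fl.dfl, Nat.cast_sum]
  exact Finset.sum_congr rfl fun j _ => by rw [Nat.choose_two_right]

/-- the two descriptions of unitary frames -/
noncomputable def stE : St n M ≃ₜ Fl.St n M where
  toFun u := ⟨St.toE n u, u.2⟩
  invFun u := ⟨u.1.1, u.2⟩
  left_inv _ := rfl
  right_inv _ := rfl
  continuous_toFun := (continuous_subtype_val.subtype_mk _).subtype_mk _
  continuous_invFun := Fl.continuous_St.subtype_mk _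

theorem stE_smul (t : Tc n) (u : St n M) : stE (t • u) = sub t • stE u := rfl

theorem continuous_val : Continuous fun u : St n M => u.1 := continuous_subtype_val

theorem continuous_toE : Continuous (St.toE n : St n M → _) := continuous_subtype_val.subtype_mk _

theorem toE_injective : Injective (St.toE n : St n M → _) := fun _ _ h =>
  Subtype.ext (congrArg (fun u : EE n M => u.1) h)

theorem continuous_row (c : Bx n) : Continuous fun u : St n M => row u.1 c :=
  (Fl.continuous_row c).comp continuous_val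

theorem ort (u : St n M) (j : J) : ON fun a => row u.1 ⟨j, a⟩ := Fl.on_iff.1 (u.2 j)

theorem unit (u : St n M) (c : Bx n) : ip (row u.1 c) (row u.1 c) = 1 := (ort u c.1).1 c.2

theorem row_ne (u : St n M) (c : Bx n) : row u.1 c ≠ 0 := Fl.ne_zero_of_unit (unit u c)

theorem exists_smul {u v : St n M} (h : ∀ c, prj (row u.1 c) = prj (row v.1 c)) :
    ∃ t : Tc n, v = t • u := by
  obtain ⟨t, ht⟩ := Fl.St.exists_smul (u := stE u) (v := stE v) h
  obtain ⟨t, rfl⟩ := sub_surj t
  exact ⟨t, stE.injective ht⟩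

end TS

instance (m : J → ℕ) : ContinuousSMul (Tc n) (Mat n m) :=
  ⟨((continuous_toG n).comp continuous_fst).smul continuous_snd⟩

instance (m : J → ℕ) : SMulCommClass (Tc n) ℂ (Mat n m) := ⟨fun t => smul_comm (toG n t)⟩

instance (M : ℕ) : ContinuousSMul (Tc n) (St n M) :=
  ⟨(continuous_fst.smul (TS.continuous_val.comp continuous_snd)).subtype_mk _⟩

instance (M : ℕ) : CompactSpace (St n M) := TS.stE.symm.compactSpace

instance (M : ℕ) : Nice (St n M) := Nice.of_homeomorph TS.stE

instance (M : ℕ) : Prin (Tc n) (St n M) where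
  grp := inferInstance
  cont := inferInstance
  loc p := by
    obtain ⟨U, h1, h2, h3, τ, h4, h5⟩ := Prin.loc (G := Fl.Tc n) (TS.stE p)
    let ρ : Fl.Tc n → Tc n := fun t c => ⟨Fl.wt c t, mem_sphere_zero_iff_norm.2 (Fl.norm_wt c t)⟩
    have hρ : Continuous ρ := continuous_pi fun c => (Fl.continuous_wt c).subtype_mk _
    refine ⟨TS.stE ⁻¹' U, h1.preimage TS.stE.continuous, h2, fun t u hu => h3 (TS.sub t) _ hu,
      fun u => ρ (τ (TS.stE u)), hρ.comp_continuousOn (h4.comp TS.stE.continuous.continuousOn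
        fun _ h => h), fun t u hu => funext fun c => Circle.ext ?_⟩
    show Fl.wt c (τ (TS.sub t • TS.stE u)) = (t c : ℂ) * Fl.wt c (τ (TS.stE u))
    rw [h5 _ _ hu, map_mul, TS.wt_sub]
  t2 := by
    haveI := Fl.t2_St (n := n) (M := M)
    refine T2Space.of_injective_continuous (Y := MulAction.orbitRel.Quotient (Fl.Tc n) (Fl.St n M))
      (f := Quotient.map' TS.stE (by rintro _ y ⟨t, rfl⟩; exact ⟨TS.sub t, rfl⟩))
      (fun x y => Quotient.inductionOn₂' x y fun u v h => ?_) (TS.stE.continuous.quotient_map' _)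
    obtain ⟨t, ht⟩ := Quotient.exact' h
    obtain ⟨t, rfl⟩ := TS.sub_surj t
    exact Quotient.sound' ⟨t, TS.stE.injective ht⟩

noncomputable instance tSys : Sys (Tc n) where
  P M := St n M
  prin _ := inferInstance
  nice _ := inferInstance
  cpt _ := Quotient.compactSpace
  inc M u := ⟨(addCol M (St.toE n u)).1, (Fl.incS M (TS.stE u)).2⟩
  inc_smul M t u := Subtype.ext
    (congrArg (fun u : EE n (M + 1) => u.1) (addCol_smul M (toG n t) (St.toE n u)))
  inc_closed M := Continuous.isClosedEmbedding ((continuous_subtype_val.comp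
    ((continuous_addCol M).comp TS.continuous_toE)).subtype_mk _) fun _ _ h =>
      TS.toE_injective (Fl.addCol_injective
        (Subtype.ext (congrArg (fun u : St n (M + 1) => u.1) h)))
  W := Mat n fun _ => 1
  rk := ∑ j, n j
  wlin := ⟨ContinuousLinearEquiv.ofFinrankEq (by simp [Fl.finrank_mat])⟩
  wcomm := inferInstance
  wcont := inferInstance
  col M u := lastCol M (St.toE n u)
  col_smul _ _ _ := rfl
  col_cont M := Fl.continuous_lastCol.comp TS.continuous_toE
  col_zero M u := ⟨fun h => by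
    obtain ⟨v, hv⟩ := Fl.exists_incS (u := TS.stE u) h
    exact ⟨TS.stE.symm v, Subtype.ext (congrArg (fun w : Fl.St n (M + 1) => w.1.1) hv)⟩, by
    rintro ⟨v, rfl⟩
    exact Fl.lastCol_addCol (St.toE n v)⟩
  dim M := dimB n M + dimFl n
  dim_succ M := by
    simp only [dimB]
    push_cast
    rw [add_right_comm, ← Finset.sum_add_distrib]
    congr 1
    exact Finset.sum_congr rfl fun j _ => by ring

/-- the polynomial ring `S = H_T(pt)` -/
abbrev SP : Type := MvPolynomial (Bx n) ℂ

/-- the linear form of a character -/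
noncomputable def linf (χ : Bx n → ℤ) : SP n := ∑ c, (χ c : ℂ) • MvPolynomial.X c

/-- the value of a character -/
noncomputable def chr (χ : Bx n → ℤ) (t : Tc n) : ℂ := ∏ c, (t c : ℂ) ^ χ c

/-- the Weyl group -/
abbrev Wy : Type := ∀ j, Equiv.Perm (Fin (n j))

noncomputable instance : Fintype (Wy n) := Fintype.ofFinite _

variable {n}

/-- the permutation of the Chern roots -/
def Wy.perm (w : Wy n) : Equiv.Perm (Bx n) := Equiv.sigmaCongrRight w

/-- the sign -/
noncomputable def Wy.sgn (w : Wy n) : ℂ := ∏ j, ((Equiv.Perm.sign (w j) : ℤˣ) : ℤ)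

/-- the permutation matrix `e_a ↦ e_{w a}` -/
noncomputable def wG : Wy n →* GG n where
  toFun w j := ⟨(w j)⁻¹.permMatrix ℂ, (w j).permMatrix ℂ,
    by rw [← permMatrix_mul, mul_inv_cancel, permMatrix_one],
    by rw [← permMatrix_mul, inv_mul_cancel, permMatrix_one]⟩
  map_one' := funext fun j => Units.ext permMatrix_one
  map_mul' v w := funext fun j => Units.ext (by
    show (v j * w j)⁻¹.permMatrix ℂ = (v j)⁻¹.permMatrix ℂ * (w j)⁻¹.permMatrix ℂ
    rw [← permMatrix_mul, _root_.mul_inv_rev])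

/-- conjugation by `wG w` on the torus -/
noncomputable def wT (w : Wy n) : Tc n →* Tc n where
  toFun t c := t ((Wy.perm w).symm c)
  map_one' := rfl
  map_mul' _ _ := rfl

theorem TS.wG_eq (w : Wy n) : wG w = Fl.pm w⁻¹ := funext fun j => Units.ext rfl

theorem TS.row_wG {M : ℕ} (w : Wy n) (u : Mat n fun _ => M) (c : Bx n) :
    Fl.row (wG w • u) c = Fl.row u ((Wy.perm w).symm c) := by
  rw [TS.wG_eq, Fl.row_pm]
  rfl

theorem toG_wT (w : Wy n) (t : Tc n) : toG n (wT w t) = wG w * toG n t * (wG w)⁻¹ := by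
  obtain ⟨t', h1, h2⟩ := Fl.exists_pm_conj w⁻¹ (TS.sub t)
  obtain ⟨t', rfl⟩ := TS.sub_surj t'
  obtain rfl : t' = wT w t := funext fun c => Circle.ext (by
    rw [← TS.wt_sub, h1, TS.wt_sub]
    rfl)
  rw [TS.wG_eq, eq_mul_inv_iff_mul_eq]
  exact h2.symm

theorem TS.wT_surjective (w : Wy n) : Surjective (wT w) := fun t =>
  ⟨fun c => t (Wy.perm w c), funext fun c => congrArg t ((Wy.perm w).apply_symm_apply c)⟩

variable (n) in
/-- the product of the positive roots -/
noncomputable def Del : SP n :=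
  ∏ j, ∏ a : Fin (n j), ∏ b ∈ Finset.Ioi a, (MvPolynomial.X ⟨j, a⟩ - MvPolynomial.X ⟨j, b⟩)

/-- the action of a permutation matrix on unitary frames -/
noncomputable def TS.wS {M : ℕ} (w : Wy n) (u : St n M) : St n M :=
  ⟨wG w • u.1, (Fl.pmS w⁻¹ (TS.stE u)).2⟩

theorem TS.continuous_wS {M : ℕ} (w : Wy n) : Continuous (TS.wS (M := M) w) :=
  (TS.continuous_val.const_smul (wG w)).subtype_mk _

theorem TS.wS_wS {M : ℕ} (v w : Wy n) (u : St n M) : TS.wS v (TS.wS w u) = TS.wS (v * w) u :=
  Subtype.ext (by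
    show wG v • wG w • u.1 = wG (v * w) • u.1
    rw [map_mul, mul_smul])

theorem TS.wS_one {M : ℕ} (u : St n M) : TS.wS 1 u = u :=
  Subtype.ext (by
    show wG 1 • u.1 = u.1
    rw [map_one, one_smul])

theorem TS.wS_smul {M : ℕ} (w : Wy n) (t : Tc n) (u : St n M) :
    TS.wS w (t • u) = wT w t • TS.wS w u :=
  Subtype.ext (by
    show wG w • toG n t • u.1 = toG n (wT w t) • wG w • u.1
    rw [toG_wT, smul_smul, smul_smul, inv_mul_cancel_right])

theorem TS.isHomeomorph_wS {M : ℕ} (w : Wy n) : IsHomeomorph (TS.wS (M := M) w) :=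
  isHomeomorph_iff_exists_inverse.2 ⟨TS.continuous_wS w, TS.wS w⁻¹,
    fun x => by rw [TS.wS_wS, inv_mul_cancel, TS.wS_one],
    fun x => by rw [TS.wS_wS, mul_inv_cancel, TS.wS_one], TS.continuous_wS w⁻¹⟩

section T

variable {Z Z' : Type} [TopologicalSpace Z] [MulAction (Tc n) Z] [TopologicalSpace Z']
  [MulAction (Tc n) Z']

/-- the map of approximations induced by a map that is equivariant along `wT w` -/
noncomputable def wmap (w : Wy n) (f : Z → Z') (hf : ∀ (t : Tc n) z, f (t • z) = wT w t • f z)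
    (M : ℕ) : Bq (Tc n) Z M → Bq (Tc n) Z' M :=
  Bor.map (wT w) (fun x => (f x.1, (⟨wG w • x.2.1, (TS.wS w x.2).2⟩ : St n M)))
    fun t x => Prod.ext (hf t x.1) (TS.wS_smul w t x.2)

theorem isPr_wmap [Nice Z] [ContinuousSMul (Tc n) Z] [Nice Z'] [ContinuousSMul (Tc n) Z']
    (w : Wy n) {f : Z → Z'} (hf : ∀ (t : Tc n) z, f (t • z) = wT w t • f z)
    (hc : IsPr f) (M : ℕ) : IsPr (wmap w f hf M) :=
  Bor.isPr_map' _ (TS.wT_surjective w)
    (hc.prodMap (IsPr.of_isHomeomorph (TS.isHomeomorph_wS (M := M) w)))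

end T

section G

variable (Z : Type) [TopologicalSpace Z] [MulAction (GG n) Z] [MulAction (Tc n) Z]
  [IsScalarTower (Tc n) (GG n) Z]

theorem smulT_eq (t : Tc n) (z : Z) : t • z = toG n t • z := by
  rw [← mul_one (toG n t)]
  exact (smul_one_smul (GG n) t z).symm

/-- the action of the Weyl group -/
noncomputable def wact (w : Wy n) : ∀ M, Bq (Tc n) Z M → Bq (Tc n) Z M :=
  wmap w (fun z => wG w • z) fun t z => by
    rw [smulT_eq, smulT_eq, toG_wT, smul_smul, smul_smul, inv_mul_cancel_right]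

variable {Z} {Z' : Type} [TopologicalSpace Z'] [MulAction (GG n) Z'] [MulAction (Tc n) Z']
  [IsScalarTower (Tc n) (GG n) Z']

/-- an equivariant map is equivariant for the torus -/
def toT (f : Z →[GG n] Z') : Z →[Tc n] Z' where
  toFun := f
  map_smul' t z := by rw [smulT_eq, id, smulT_eq, map_smul]

instance [ContinuousSMul (GG n) Z] : ContinuousSMul (Tc n) Z :=
  ⟨(((continuous_toG n).comp continuous_fst).smul continuous_snd).congr fun x =>
    (smulT_eq Z x.1 x.2).symm⟩

theorem IsRep.toT {W : Type} [AddCommGroup W] [Module ℂ W] [TopologicalSpace W]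
    [DistribMulAction (GG n) W] [DistribMulAction (Tc n) W] [IsScalarTower (Tc n) (GG n) W] {r : ℕ}
    (hW : IsRep (GG n) W r) : IsRep (Tc n) W r :=
  haveI := hW.cont
  haveI := hW.comm
  ⟨hW.lin, ⟨fun t c w => by rw [smulT_eq, smulT_eq, smul_comm]⟩, inferInstance⟩

end G

section prod

variable {J₁ J₂ : Type} [Fintype J₁] [Fintype J₂] (n₁ : J₁ → ℕ) (n₂ : J₂ → ℕ)

/-- first projection of tori -/
def fstT : Tc (Sum.elim n₁ n₂) →* Tc n₁ where
  toFun t c := t ⟨Sum.inl c.1, c.2⟩
  map_one' := rfl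
  map_mul' _ _ := rfl

/-- second projection of tori -/
def sndT : Tc (Sum.elim n₁ n₂) →* Tc n₂ where
  toFun t c := t ⟨Sum.inr c.1, c.2⟩
  map_one' := rfl
  map_mul' _ _ := rfl

end prod

end Vale.Agent.P291Z
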