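import Vale.Agent.P291Z.Sys1
import Vale.Agent.P291Z.OpsC

/-!
# Calculus of the total operations on Borel-Moore homology of nice spaces
-/

set_option linter.unusedSectionVars false

namespace Vale.Agent.P291Z

open Set Function Topology

variable {X Y Z U X' Y' U' : Type} [TopologicalSpace X] [TopologicalSpace Y] [TopologicalSpace Z]
  [TopologicalSpace U] [TopologicalSpace X'] [TopologicalSpace Y'] [TopologicalSpace U']
  [Nice X] [Nice Y] [Nice Z] [Nice U] [Nice X'] [Nice Y'] [Nice U']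

/-- `t` is a cocycle of degree `2 d` with support in `A` -/
structure IsCo (A : Set X) (d : ℕ) (t : Coch X) : Prop where
  cocycle : supp (δ t) = ∅
  deg : IsDeg (2 * d) t
  supp : supp t ⊆ A

theorem Push_iff {f : X → Y} (h : IsPr f) {β : BM X} {β' : BM Y} : Push f β β' ↔ push f β = β' := by
  rw [push_iff h, push, cpull_eq h, eq_comm]

theorem Res_iff {j : X → Y} (h : IsOpenEmbedding j) {β : BM Y} {β' : BM X} :
    Res j β β' ↔ res j β = β' := by
  rw [res_iff h, res, cext_eq h, eq_comm]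

theorem Gys_iff {i : X → Y} (h : IsClosedEmbedding i) {t : Coch Y} (ht : supp (δ t) = ∅)
    (hs : supp t ⊆ range i) {β : BM Y} {β' : BM X} : Gys i t β β' ↔ gys i t β = β' := by
  rw [gys_iff h ht hs, gys, cgys_eq h ht hs, eq_comm]

theorem Cross_iff {p₁ : Z → X} {p₂ : Z → Y} (h : IsHomeomorph fun z => (p₁ z, p₂ z)) {β₁ : BM X}
    {β₂ : BM Y} {β : BM Z} : Cross p₁ p₂ β₁ β₂ β ↔ cross p₁ p₂ β₁ β₂ = β := by
  exact ⟨fun H => ((existsUnique_cross h β₁ β₂).unique (cross_spec h β₁ β₂) H),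
    fun H => H ▸ cross_spec h β₁ β₂⟩

theorem gys_id_eq_cap {t : Coch X} (ht : supp (δ t) = ∅) : gys id t = cap (hcls t) := by
  have hs : supp t ⊆ range (id : X → X) := by rw [range_id]; exact subset_univ _
  refine LinearMap.ext fun β => LinearMap.ext fun c => ?_
  rw [gys_apply, cap_apply, cgys_eq IsClosedEmbedding.id ht hs, Hc.act_hcls ht,
    ← Hc.gys_pull IsClosedEmbedding.id ht hs c, Hc.pull_id _ (fun _ => rfl)]

theorem push_push {f : X → Y} {g : Y → Z} (hf : IsPr f) (hg : IsPr g) (β : BM X) :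
    push g (push f β) = push (g ∘ f) β := by
  refine LinearMap.ext fun c => ?_
  rw [push_apply, push_apply, push_apply, cpull_eq hf, cpull_eq hg, cpull_eq (hg.comp hf),
    Hc.pull_pull]

theorem push_id' (β : BM X) : push id β = β := by
  refine LinearMap.ext fun c => ?_
  rw [push_apply, cpull_eq IsPr.id, Hc.pull_id _ (fun _ => rfl)]

theorem res_res {j : X → Y} {j' : Y → Z} (hj : IsOpenEmbedding j) (hj' : IsOpenEmbedding j')
    (β : BM Z) : res j (res j' β) = res (j' ∘ j) β := by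
  refine LinearMap.ext fun c => ?_
  rw [res_apply, res_apply, res_apply, cext_eq hj, cext_eq hj', cext_eq (hj'.comp hj),
    Hc.push_push]

theorem res_push_homeo {e : X → Y} (he : IsHomeomorph e) (β : BM X) : res e (push e β) = β := by
  refine LinearMap.ext fun c => ?_
  rw [res_apply, push_apply, cpull_cext_homeo he]

theorem push_res_homeo {e : X → Y} (he : IsHomeomorph e) (β : BM Y) : push e (res e β) = β := by
  refine LinearMap.ext fun c => ?_
  rw [push_apply, res_apply, cext_cpull_homeo he]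

theorem res_push {j : U → X} (hj : IsOpenEmbedding j) {j' : U' → X'} (hj' : IsOpenEmbedding j')
    {f : X' → X} (hf : IsPr f) {g : U' → U} (hg : IsPr g) (hsq : ∀ u, f (j' u) = j (g u))
    (hr : f ⁻¹' range j ⊆ range j') (β : BM X') : res j (push f β) = push g (res j' β) := by
  refine LinearMap.ext fun c => ?_
  rw [res_apply, push_apply, push_apply, res_apply, cext_eq hj, cext_eq hj', cpull_eq hf,
    cpull_eq hg, Hc.pull_push hj hj' hf hg hsq hr]

theorem gys_push {i : Y → X} (hi : IsClosedEmbedding i) {i' : Y' → X'} (hi' : IsClosedEmbedding i')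
    {f : X' → X} (hf : IsPr f) {g : Y' → Y} (hg : IsPr g) (hsq : ∀ y, f (i' y) = i (g y))
    (hr : f ⁻¹' range i ⊆ range i') {t : Coch X} (ht : supp (δ t) = ∅) (hs : supp t ⊆ range i)
    (β : BM X') : gys i t (push f β) = push g (gys i' (pull f t) β) := by
  have hs' : supp (pull f t) ⊆ range i' := (supp_pull hf.cont t).trans ((preimage_mono hs).trans hr)
  refine LinearMap.ext fun c => ?_
  rw [gys_apply, push_apply, push_apply, gys_apply, cgys_eq hi ht hs,
    cgys_eq hi' (cocycle_pull hf.cont ht) hs', cpull_eq hf, cpull_eq hg,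
    Hc.pull_gys_sq hi hi' hf hg hsq ht hs]

theorem res_gys {i : Y → X} (hi : IsClosedEmbedding i) {i' : Y' → X'} (hi' : IsClosedEmbedding i')
    {f : X' → X} (hf : IsOpenEmbedding f) {g : Y' → Y} (hg : IsOpenEmbedding g)
    (hsq : ∀ y, f (i' y) = i (g y)) (hr : f ⁻¹' range i ⊆ range i') {t : Coch X}
    (ht : supp (δ t) = ∅) (hs : supp t ⊆ range i) (β : BM X) :
    res g (gys i t β) = gys i' (pull f t) (res f β) := by
  have hs' : supp (pull f t) ⊆ range i' :=
    (supp_pull hf.continuous t).trans ((preimage_mono hs).trans hr)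
  refine LinearMap.ext fun c => ?_
  rw [res_apply, gys_apply, gys_apply, res_apply, cgys_eq hi ht hs,
    cgys_eq hi' (cocycle_pull hf.continuous ht) hs', cext_eq hf, cext_eq hg,
    Hc.push_gys_sq hi hi' hf hg hsq ht hs]

theorem gys_congr {i : Y → X} (hi : IsClosedEmbedding i) {t t' : Coch X} (ht : supp (δ t) = ∅)
    (hs : supp t ⊆ range i) (ht' : supp (δ t') = ∅) (hs' : supp t' ⊆ range i)
    (h : Cohom (range i) t t') : gys i t = gys i t' := by
  rw [gys, gys, cgys_congr hi ht hs ht' hs' h]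

theorem gys_gys {i : Z → Y} (hi : IsClosedEmbedding i) {j : Y → X} (hj : IsClosedEmbedding j)
    {s t : Coch X} (hs : supp (δ s) = ∅) (hs' : j ⁻¹' supp s ⊆ range i) (ht : supp (δ t) = ∅)
    (ht' : supp t ⊆ range j) (β : BM X) :
    gys i (pull j s) (gys j t β) = gys (j ∘ i) (s * t) β := by
  refine LinearMap.ext fun c => ?_
  rw [gys_apply, gys_apply, gys_apply, cgys_cgys hi hj hs hs' ht ht']

/-- Gysin maps of a cartesian square of closed embeddings commute -/
theorem gys_comm {i : Y → X} (hi : IsClosedEmbedding i) {j : Y' → X} (hj : IsClosedEmbedding j)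
    {i' : Z → Y'} (hi' : IsClosedEmbedding i') {j' : Z → Y} (hj' : IsClosedEmbedding j')
    (hsq : ∀ z, i (j' z) = j (i' z)) (hr : i ⁻¹' range j ⊆ range j') {d e : ℕ} {s t : Coch X}
    (ht : IsCo (range i) d t) (hs : IsCo (range j) e s) (β : BM X) :
    gys j' (pull i s) (gys i t β) = gys i' (pull j t) (gys j s β) := by
  refine LinearMap.ext fun c => ?_
  rw [gys_apply, gys_apply, gys_apply, gys_apply,
    cgys_comm hi hj hi' hj' hsq hr ht.cocycle ht.supp hs.cocycle hs.supp ht.deg]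

theorem push_gys {k : Z → Y} (hk : IsClosedEmbedding k) {j : Y → X} (hj : IsClosedEmbedding j)
    {t : Coch X} (ht : supp (δ t) = ∅) (hs : supp t ⊆ range (j ∘ k)) (β : BM X) :
    push k (gys (j ∘ k) t β) = gys j t β := by
  refine LinearMap.ext fun c => ?_
  rw [push_apply, gys_apply, gys_apply, cgys_cpull hk hj ht hs]

theorem cap_one (β : BM X) : cap 1 β = β := by
  refine LinearMap.ext fun a => ?_
  rw [cap_apply, Hc.act_one]

theorem cap_mul (c c' : H X) (β : BM X) : cap (c * c') β = cap c (cap c' β) := by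
  refine LinearMap.ext fun a => ?_
  rw [cap_apply, cap_apply, cap_apply, Hc.act_mul]

theorem push_cap {f : C(X, Y)} (hf : IsPr f) (c : H Y) (β : BM X) :
    push f (cap (H.map f c) β) = cap c (push f β) := by
  refine LinearMap.ext fun a => ?_
  rw [push_apply, cap_apply, cap_apply, push_apply, cpull_eq hf, Hc.pull_act]

theorem res_cap {j : C(X, Y)} (hj : IsOpenEmbedding j) (c : H Y) (β : BM Y) :
    res j (cap c β) = cap (H.map j c) (res j β) := by
  refine LinearMap.ext fun a => ?_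
  rw [res_apply, cap_apply, cap_apply, res_apply, cext_eq hj, Hc.push_act]

theorem gys_cap {i : C(X, Y)} (hi : IsClosedEmbedding i) {d : ℕ} {t : Coch Y}
    (ht : IsCo (range i) d t) (c : H Y) (β : BM Y) :
    gys i t (cap c β) = cap (H.map i c) (gys i t β) := by
  refine LinearMap.ext fun a => ?_
  rw [gys_apply, cap_apply, cap_apply, gys_apply, cgys_eq hi ht.cocycle ht.supp,
    Hc.gys_act hi ht.cocycle ht.supp ht.deg (even_two_mul _)]

theorem bdy_cap {i : C(Y, X)} (hi : IsClosedEmbedding i) {j : C(U, X)} (hj : IsOpenEmbedding j)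
    (hc : range j = (range i)ᶜ) (c : H X) (β : BM U) :
    bdy i j (cap (H.map j c) β) = cap (H.map i c) (bdy i j β) := by
  refine LinearMap.ext fun a => ?_
  rw [bdy_apply, cap_apply, cap_apply, bdy_apply, cconn_eq hi hj hc, Hc.conn_act]

/-- the boundary map commutes with Gysin maps: `k`, `kY`, `kU` are the closed embeddings -/
theorem bdy_gys {i : Y → X} (hi : IsClosedEmbedding i) {j : U → X} (hj : IsOpenEmbedding j)
    (hc : range j = (range i)ᶜ) {i' : Y' → X'} (hi' : IsClosedEmbedding i') {j' : U' → X'}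
    (hj' : IsOpenEmbedding j') (hc' : range j' = (range i')ᶜ) {k : X' → X}
    (hk : IsClosedEmbedding k) {kY : Y' → Y} (hkY : IsClosedEmbedding kY) {kU : U' → U}
    (hkU : IsClosedEmbedding kU) (hsq : ∀ y, k (i' y) = i (kY y)) (hsq' : ∀ u, k (j' u) = j (kU u))
    {t : Coch X} (ht : supp (δ t) = ∅) (hs : supp t ⊆ range k) (β : BM U) :
    gys kY (pull i t) (bdy i j β) = bdy i' j' (gys kU (pull j t) β) := by
  refine LinearMap.ext fun c => ?_
  rw [gys_apply, bdy_apply, bdy_apply, gys_apply,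
    cconn_cgys hi hj hc hi' hj' hc' hk hkY hkU hsq hsq' ht hs]

theorem BM.IsDeg.push {k : ℤ} {β : BM X} (h : BM.IsDeg k β) (f : X → Y) :
    BM.IsDeg k (push f β) := by
  refine BM.isDeg_iff.2 fun j hj c hc => ?_
  rw [push_apply]
  exact BM.isDeg_iff.1 h j hj _ (cpull_deg f hc)

theorem BM.IsDeg.res {k : ℤ} {β : BM Y} (h : BM.IsDeg k β) (j : X → Y) :
    BM.IsDeg k (res j β) := by
  refine BM.isDeg_iff.2 fun l hl c hc => ?_
  rw [res_apply]
  exact BM.isDeg_iff.1 h l hl _ (cext_deg j hc)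

theorem BM.IsDeg.gys {k d : ℤ} {β : BM Y} (h : BM.IsDeg k β) (i : X → Y) {t : Coch Y}
    (ht : P291Z.IsDeg d t) : BM.IsDeg (k - d) (gys i t β) := by
  refine BM.isDeg_iff.2 fun l hl c hc => ?_
  rw [gys_apply]
  exact BM.isDeg_iff.1 h (l + d) (by omega) _ (cgys_deg i ht hc)

theorem BM.IsDeg.bdy {k : ℤ} {β : BM U} (h : BM.IsDeg k β) (i : Y → X) (j : U → X) :
    BM.IsDeg (k - 1) (bdy i j β) := by
  refine BM.isDeg_iff.2 fun l hl c hc => ?_
  rw [bdy_apply]
  exact BM.isDeg_iff.1 h (l + 1) (by omega) _ (cconn_deg i j hc)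

theorem BM.IsDeg.cap {k d : ℤ} {β : BM X} (h : BM.IsDeg k β) {c : H X} (hc : H.IsDeg d c) :
    BM.IsDeg (k - d) (cap c β) := by
  refine BM.isDeg_iff.2 fun l hl a ha => ?_
  rw [cap_apply]
  exact BM.isDeg_iff.1 h (l + d) (by omega) _ (Hc.act_deg hc ha)

section cross

variable {X₁ X₂ X₁' X₂' : Type} [TopologicalSpace X₁] [TopologicalSpace X₂] [TopologicalSpace X₁']
  [TopologicalSpace X₂'] [Nice X₁] [Nice X₂] [Nice X₁'] [Nice X₂']
  {p₁ : X → X₁} {p₂ : X → X₂} (hp : IsHomeomorph fun x => (p₁ x, p₂ x))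
  {q₁ : X' → X₁'} {q₂ : X' → X₂'} (hq : IsHomeomorph fun x => (q₁ x, q₂ x))
  {f : X' → X} {f₁ : X₁' → X₁} {f₂ : X₂' → X₂} (h₁ : ∀ x, p₁ (f x) = f₁ (q₁ x))
  (h₂ : ∀ x, p₂ (f x) = f₂ (q₂ x))

include hp in
theorem BM.IsDeg.cross {k l : ℤ} {β₁ : BM X₁} {β₂ : BM X₂} (e₁ : BM.IsDeg k β₁)
    (e₂ : BM.IsDeg l β₂) : BM.IsDeg (k + l) (cross p₁ p₂ β₁ β₂) := by
  refine BM.isDeg_iff.2 fun j hj c hc => ?_
  rw [← Hc.comp_of_mem hc]
  refine Hc.cross_induction hp (P := fun c => P291Z.cross p₁ p₂ β₁ β₂ (Hc.comp j c) = 0)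
    (by rw [map_zero, map_zero]) (fun a b ha hb => by rw [map_add, map_add, ha, hb, add_zero])
    (fun a b => ?_) c
  refine a.induction_deg (P := fun a => P291Z.cross p₁ p₂ β₁ β₂
      (Hc.comp j (Hc.cross (IsPr.of_isHomeomorph hp) a b)) = 0)
    (by rw [map_zero, LinearMap.zero_apply, map_zero, map_zero])
    (fun a a' ha ha' => by rw [map_add, LinearMap.add_apply, map_add, map_add, ha, ha', add_zero])
    fun m => ?_
  refine b.induction_deg (P := fun b => P291Z.cross p₁ p₂ β₁ β₂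
      (Hc.comp j (Hc.cross (IsPr.of_isHomeomorph hp) (Hc.comp m a) b)) = 0)
    (by rw [map_zero, map_zero, map_zero])
    (fun a a' ha ha' => by rw [map_add, map_add, map_add, ha, ha', add_zero]) fun n => ?_
  have h1 := Hc.cross_deg (IsPr.of_isHomeomorph hp) (Hc.comp_mem m a) (Hc.comp_mem n b)
  by_cases hj' : j = m + n
  · rw [hj', Hc.comp_of_mem h1, cross_apply hp]
    by_cases hm : m = k
    · rw [BM.isDeg_iff.1 e₂ n (by omega) _ (Hc.comp_mem n b), mul_zero]
    · rw [BM.isDeg_iff.1 e₁ m hm _ (Hc.comp_mem m a), zero_mul]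
  · rw [Hc.comp_of_ne h1 hj', map_zero]

include hp hq h₁ h₂

theorem push_cross (e₁ : IsPr f₁) (e₂ : IsPr f₂) (β₁ : BM X₁') (β₂ : BM X₂') :
    push f (cross q₁ q₂ β₁ β₂) = cross p₁ p₂ (push f₁ β₁) (push f₂ β₂) := by
  refine cross_ext hp fun c c' => ?_
  rw [push_apply, cpull_cross hp hq h₁ h₂ e₁ e₂, cross_apply hq, push_apply, push_apply]

theorem res_cross (e₁ : IsOpenEmbedding f₁) (e₂ : IsOpenEmbedding f₂) (β₁ : BM X₁) (β₂ : BM X₂) :
    res f (cross p₁ p₂ β₁ β₂) = cross q₁ q₂ (res f₁ β₁) (res f₂ β₂) := by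
  refine cross_ext hq fun c c' => ?_
  rw [res_apply, cext_cross hp hq h₁ h₂ e₁ e₂, cross_apply hp, res_apply, res_apply]

theorem gys_cross (e₁ : IsClosedEmbedding f₁) (e₂ : IsClosedEmbedding f₂) {d e : ℕ} {t₁ : Coch X₁}
    {t₂ : Coch X₂} (ht₁ : IsCo (range f₁) d t₁) (ht₂ : IsCo (range f₂) e t₂) (β₁ : BM X₁)
    (β₂ : BM X₂) : gys f (pull p₁ t₁ * pull p₂ t₂) (cross p₁ p₂ β₁ β₂) =
      cross q₁ q₂ (gys f₁ t₁ β₁) (gys f₂ t₂ β₂) := by
  refine cross_ext hq fun c c' => ?_
  rw [gys_apply, cgys_cross hp hq h₁ h₂ e₁ e₂ ht₁.cocycle ht₁.supp ht₂.cocycle ht₂.supp ht₁.deg,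
    cross_apply hp, gys_apply, gys_apply]

end cross

theorem cap_cross {X₁ X₂ : Type} [TopologicalSpace X₁] [TopologicalSpace X₂] [Nice X₁] [Nice X₂]
    {p₁ : C(X, X₁)} {p₂ : C(X, X₂)} (hp : IsHomeomorph fun x => (p₁ x, p₂ x)) {d : ℤ} {c₁ : H X₁}
    (h : H.IsDeg (2 * d) c₁) (c₂ : H X₂) (β₁ : BM X₁) (β₂ : BM X₂) :
    cap (H.map p₁ c₁ * H.map p₂ c₂) (cross p₁ p₂ β₁ β₂) = cross p₁ p₂ (cap c₁ β₁) (cap c₂ β₂) := by
  refine cross_ext hp fun c c' => ?_
  rw [cap_apply, Hc.act_mul, act_cross_left hp h, act_cross_right hp, cross_apply hp, cap_apply,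
    cap_apply]

end Vale.Agent.P291Z
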