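import Vale.Agent.P291Z.Eqv

/-!
# Quiver data, the representation `N`, flavour tori, moment map and stability
-/

namespace Vale.Agent.P291Z

open Set Function Matrix

section sums

variable {J J' : Type} (n : J → ℕ) (n' : J' → ℕ)

/-- First projection of a product of groups. -/
def fstG : GG (Sum.elim n n') →* GG n where
  toFun g j := g (Sum.inl j)
  map_one' := rfl
  map_mul' _ _ := rfl

/-- Second projection of a product of groups. -/
def sndG : GG (Sum.elim n n') →* GG n' where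
  toFun g j := g (Sum.inr j)
  map_one' := rfl
  map_mul' _ _ := rfl

/-- Inclusion of the second factor. -/
def inrG : GG n' →* GG (Sum.elim n n') where
  toFun g j := match j with
    | Sum.inl _ => 1
    | Sum.inr j => g j
  map_one' := funext fun j => by cases j <;> rfl
  map_mul' _ _ := funext fun j => by cases j; exacts [(mul_one _).symm, rfl]

variable {n n'}

/-- First projection of the approximations of the universal bundle. -/
def fstE {M : ℕ} (u : EE (Sum.elim n n') M) : EE n M :=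
  ⟨fun j => u.1 (Sum.inl j), fun j => u.2 (Sum.inl j)⟩

/-- Second projection of the approximations of the universal bundle. -/
def sndE {M : ℕ} (u : EE (Sum.elim n n') M) : EE n' M :=
  ⟨fun j => u.1 (Sum.inr j), fun j => u.2 (Sum.inr j)⟩

theorem continuous_fstE {M : ℕ} : Continuous (fstE (n := n) (n' := n') (M := M)) := by
  refine Continuous.subtype_mk (continuous_pi fun j => ?_) _
  exact (continuous_apply (Sum.inl j)).comp continuous_subtype_val

theorem continuous_sndE {M : ℕ} : Continuous (sndE (n := n) (n' := n') (M := M)) := by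
  refine Continuous.subtype_mk (continuous_pi fun j => ?_) _
  exact (continuous_apply (Sum.inr j)).comp continuous_subtype_val

end sums

/-- A quiver with arrows `e : s e → t e`, gauge dimensions `v` and framing dimensions `w`. -/
structure Quiv (I E : Type) where
  /-- source -/
  s : E → I
  /-- target -/
  t : E → I
  /-- gauge dimensions -/
  v : I → ℕ
  /-- framing dimensions -/
  w : I → ℕ

namespace Quiv

variable {I E : Type} (Q : Quiv I E)

/-- `N = ⨁ Hom(V_{s e}, V_{t e}) ⊕ ⨁ Hom(V_i, W_i)` over a ring `k`. -/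
abbrev N (k : Type) : Type :=
  (∀ e, Matrix (Fin (Q.v (Q.t e))) (Fin (Q.v (Q.s e))) k) ×
    ∀ i, Matrix (Fin (Q.w i)) (Fin (Q.v i)) k

/-- `⨁ End(V_i)` over a ring `k`. -/
abbrev En (k : Type) : Type := ∀ i, Matrix (Fin (Q.v i)) (Fin (Q.v i)) k

variable {k : Type} [CommRing k]

/-- The action of `G(k)` on `N(k)`. -/
noncomputable def gauge (g : Q.En k) : Q.N k →ₗ[k] Q.N k where
  toFun x := (fun e => g (Q.t e) * x.1 e * (g (Q.s e))⁻¹, fun i => x.2 i * (g i)⁻¹)
  map_add' x y := by ext <;> simp [Matrix.mul_add, Matrix.add_mul]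
  map_smul' c x := by ext <;> simp

/-- The action of the Lie algebra of `G` on `N`. -/
def lie (ξ : Q.En k) : Q.N k →ₗ[k] Q.N k where
  toFun x := (fun e => ξ (Q.t e) * x.1 e - x.1 e * ξ (Q.s e), fun i => -(x.2 i * ξ i))
  map_add' x y := by ext <;> simp [Matrix.mul_add, Matrix.add_mul] <;> ring
  map_smul' c x := by ext <;> simp [mul_sub]

theorem gauge_one : Q.gauge (1 : Q.En k) = LinearMap.id := by
  ext <;> simp [gauge]

theorem gauge_mul (g h : Q.En k) : Q.gauge (g * h) = Q.gauge g ∘ₗ Q.gauge h := by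
  refine LinearMap.ext fun x => Prod.ext (funext fun e => ?_) (funext fun i => ?_) <;>
    simp [gauge, Matrix.mul_inv_rev, Matrix.mul_assoc]

/-- The dimensions of the group `G × F = ∏ GL(v i) × GL(1)^Φ`. -/
abbrev nn (Φ : Type) : I ⊕ Φ → ℕ := Sum.elim Q.v fun _ => 1

end Quiv

/-- An algebraic linear action on `N` of the torus `F = (ℂ^*)^Φ`, commuting with `G`. -/
structure Flav {I E : Type} (Q : Quiv I E) (Φ : Type) [Fintype Φ] where
  /-- the action -/
  ρ : (Φ → ℂˣ) →* Module.End ℂ (Q.N ℂ)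
  /-- `N` is the sum of the weight spaces -/
  alg : ⨆ χ : Φ → ℤ, ⨅ f : Φ → ℂˣ, (ρ f).eigenspace ((∏ a, f a ^ χ a : ℂˣ) : ℂ) = ⊤
  /-- `F` commutes with `G` -/
  comm : ∀ f (g : GG Q.v), ρ f ∘ₗ Q.gauge (fun i => g i) = Q.gauge (fun i => g i) ∘ₗ ρ f

namespace Flav

variable {I E Φ : Type} {Q : Quiv I E} [Fintype Φ] (A : Flav Q Φ)

/-- The flavour component of an element of `G × F`. -/
noncomputable def fl (Q : Quiv I E) (Φ : Type) : GG (Q.nn Φ) →* (Φ → ℂˣ) where
  toFun g a := GeneralLinearGroup.det (g (Sum.inr a))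
  map_one' := funext fun _ => map_one _
  map_mul' _ _ := funext fun _ => map_mul _ _ _

/-- The gauge component of an element of `G × F`. -/
noncomputable def ga (Q : Quiv I E) (Φ : Type) : GG (Q.nn Φ) →* Q.En ℂ where
  toFun g i := fstG _ _ g i
  map_one' := rfl
  map_mul' _ _ := rfl

/-- The action of `G × F` on `N`. -/
noncomputable def rep : GG (Q.nn Φ) →* Module.End ℂ (Q.N ℂ) where
  toFun g := Q.gauge (ga Q Φ g) ∘ₗ A.ρ (fl Q Φ g)
  map_one' := by
    rw [map_one, map_one, map_one, Q.gauge_one]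
    rfl
  map_mul' g h := by
    rw [map_mul, Q.gauge_mul, map_mul, map_mul, Module.End.mul_eq_comp, Module.End.mul_eq_comp]
    simp only [LinearMap.comp_assoc]
    exact congrArg (Q.gauge (ga Q Φ g) ∘ₗ ·) (by
      rw [← LinearMap.comp_assoc, ← LinearMap.comp_assoc]
      exact congrArg (· ∘ₗ _) (A.comm _ (fstG _ _ h)).symm)

/-- `N` as a representation of `G × F`. -/
def NN (_ : Flav Q Φ) : Type := Q.N ℂ

noncomputable instance : AddCommGroup A.NN := inferInstanceAs (AddCommGroup (Q.N ℂ))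

noncomputable instance : Module ℂ A.NN := inferInstanceAs (Module ℂ (Q.N ℂ))

noncomputable instance : TopologicalSpace A.NN := inferInstanceAs (TopologicalSpace (Q.N ℂ))

noncomputable instance : DistribMulAction (GG (Q.nn Φ)) A.NN :=
  DistribMulAction.compHom (Q.N ℂ) A.rep

variable [Fintype I] [Fintype E]

/-- The dual representation `N^*`. -/
def ND (_ : Flav Q Φ) : Type := Q.N ℂ →L[ℂ] ℂ

noncomputable instance : AddCommGroup A.ND := inferInstanceAs (AddCommGroup (Q.N ℂ →L[ℂ] ℂ))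

noncomputable instance : Module ℂ A.ND := inferInstanceAs (Module ℂ (Q.N ℂ →L[ℂ] ℂ))

noncomputable instance : TopologicalSpace A.ND :=
  inferInstanceAs (TopologicalSpace (Q.N ℂ →L[ℂ] ℂ))

noncomputable instance : DistribMulAction (GG (Q.nn Φ)) A.ND where
  smul g p := ContinuousLinearMap.comp p (LinearMap.toContinuousLinearMap (A.rep g⁻¹))
  one_smul p := ContinuousLinearMap.ext fun x => by
    change ContinuousLinearMap.toLinearMap p (A.rep 1⁻¹ x) = _
    rw [inv_one, map_one]; rfl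
  mul_smul g h p := ContinuousLinearMap.ext fun x => by
    change ContinuousLinearMap.toLinearMap p (A.rep (g * h)⁻¹ x) = _
    rw [_root_.mul_inv_rev, map_mul]; rfl
  smul_zero _ := ContinuousLinearMap.zero_comp _
  smul_add _ _ _ := ContinuousLinearMap.add_comp _ _ _

variable {A}

/-- The moment map, `⟨μ(s, p), ξ⟩ = ⟨p, ξ s⟩`. -/
noncomputable def mu (z : A.NN × A.ND) (ξ : Q.En ℂ) : ℂ :=
  ContinuousLinearMap.toLinearMap z.2 (Q.lie ξ z.1)

open Classical in
/-- The component `V_{t e} → V_{s e}` of a point of `N^*` (trace pairing). -/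
noncomputable def yy (p : A.ND) (e : E) : Matrix (Fin (Q.v (Q.s e))) (Fin (Q.v (Q.t e))) ℂ :=
  Matrix.of fun a b => ContinuousLinearMap.toLinearMap p (Pi.single e (Matrix.single b a 1), 0)

open Classical in
/-- The component `W_i → V_i` of a point of `N^*` (trace pairing). -/
noncomputable def ii (p : A.ND) (i : I) : Matrix (Fin (Q.v i)) (Fin (Q.w i)) ℂ :=
  Matrix.of fun a l => ContinuousLinearMap.toLinearMap p (0, Pi.single i (Matrix.single l a 1))

/-- Subspaces `U_i ⊆ V_i` preserved by all arrows of the doubled quiver. -/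
def IsSub (z : A.NN × A.ND) (U : ∀ i, Submodule ℂ (Fin (Q.v i) → ℂ)) : Prop :=
  ∀ e, (∀ u ∈ U (Q.s e), z.1.1 e *ᵥ u ∈ U (Q.t e)) ∧ ∀ u ∈ U (Q.t e), yy z.2 e *ᵥ u ∈ U (Q.s e)

/-- `∑ ν_i dim U_i` -/
noncomputable def pair (ν : I → ℤ) (U : ∀ i, Submodule ℂ (Fin (Q.v i) → ℂ)) : ℤ :=
  ∑ i, ν i * (Module.finrank ℂ (U i) : ℤ)

/-- `ν`-semistability. -/
def SemiSt (ν : I → ℤ) (z : A.NN × A.ND) : Prop :=
  ∀ U, IsSub z U → ((∀ i, ∀ u ∈ U i, z.1.2 i *ᵥ u = 0) → 0 ≤ pair ν U) ∧
    ((∀ i a, ii z.2 i *ᵥ a ∈ U i) → ∑ i, ν i * (Q.v i : ℤ) ≤ pair ν U)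

/-- `ν`-stability. -/
def St (ν : I → ℤ) (z : A.NN × A.ND) : Prop :=
  ∀ U, IsSub z U → ((∀ i, ∀ u ∈ U i, z.1.2 i *ᵥ u = 0) → (∃ i, U i ≠ ⊥) → 0 < pair ν U) ∧
    ((∀ i a, ii z.2 i *ᵥ a ∈ U i) → (∃ i, U i ≠ ⊤) → ∑ i, ν i * (Q.v i : ℤ) < pair ν U)

variable (A)

/-- `ν` is regular: on `μ⁻¹(0)` the semistable locus is the stable locus, and `G` acts freely. -/
def Regular (ν : I → ℤ) : Prop :=
  ∀ z : A.NN × A.ND, (∀ ξ, mu z ξ = 0) → (SemiSt ν z ↔ St ν z) ∧
    (St ν z → ∀ g ∈ (sndG Q.v fun _ : Φ => 1).ker, g • z = z → g = 1)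

end Flav

end Vale.Agent.P291Z
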