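import Mathlib

set_option linter.all false

/-!
# Soft complexes over a base space and the Lawson-Spanier comparison lemma

A soft complex is a module `K` with a differential, a grading by submodules, for every point `x` of
the base the submodule `Van x` of the elements whose germ at `x` is zero, and operators `cut S`
(multiplication by the indicator function of `S`).  If the stalks are exact, then so is the complex
along every compact set, with compact supports, and with closed supports.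
-/

namespace Vale.Agent.P291Z

open Set Filter Topology

/-- a complex with germs over the base `B` and cut-off operators -/
structure Soft (R : Type*) [CommRing R] (B : Type*) [TopologicalSpace B] (K : Type*)
    [AddCommGroup K] [Module R K] where
  /-- the differential -/
  δ : K →ₗ[R] K
  /-- the grading -/
  deg : ℤ → Submodule R K
  /-- elements with zero germ at a point -/
  Van : B → Submodule R K
  /-- multiplication by the indicator function of a set -/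
  cut : Set B → K →ₗ[R] K
  δ_deg : ∀ n, ∀ a ∈ deg n, δ a ∈ deg (n + 1)
  δδ : ∀ a x, δ (δ a) ∈ Van x
  δ_van : ∀ x, ∀ a ∈ Van x, δ a ∈ Van x
  van_open : ∀ a, IsOpen {x | a ∈ Van x}
  cut_deg : ∀ S n, ∀ a ∈ deg n, cut S a ∈ deg n
  cut_van : ∀ S x, ∀ a ∈ Van x, cut S a ∈ Van x
  cut_in : ∀ S x a, S ∈ 𝓝 x → a - cut S a ∈ Van x
  cut_out : ∀ S x a, Sᶜ ∈ 𝓝 x → cut S a ∈ Van x

namespace Soft

variable {R : Type*} [CommRing R] {B : Type*} [TopologicalSpace B] {K : Type*} [AddCommGroup K]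
  [Module R K] (S : Soft R B K)

/-- zero germs at all points of `A` -/
def VanOn (A : Set B) : Submodule R K where
  carrier := {a | ∀ x ∈ A, a ∈ S.Van x}
  zero_mem' := fun x _ => (S.Van x).zero_mem
  add_mem' := fun ha hb x hx => (S.Van x).add_mem (ha x hx) (hb x hx)
  smul_mem' := fun c _ ha x hx => (S.Van x).smul_mem c (ha x hx)

theorem mem_VanOn {A : Set B} {a : K} : a ∈ S.VanOn A ↔ ∀ x ∈ A, a ∈ S.Van x := Iff.rfl

variable {S} in
theorem VanOn.mono {A A' : Set B} {a : K} (h : a ∈ S.VanOn A') (hA : A ⊆ A') : a ∈ S.VanOn A :=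
  fun x hx => h x (hA hx)

theorem δ_vanOn {A : Set B} {a : K} (h : a ∈ S.VanOn A) : S.δ a ∈ S.VanOn A :=
  fun x hx => S.δ_van x a (h x hx)

theorem δδ_vanOn (A : Set B) (a : K) : S.δ (S.δ a) ∈ S.VanOn A := fun x _ => S.δδ a x

/-- the support -/
def supp (a : K) : Set B := {x | a ∉ S.Van x}

theorem isClosed_supp (a : K) : IsClosed (S.supp a) := (S.van_open a).isClosed_compl

theorem supp_subset_iff {a : K} {A : Set B} : S.supp a ⊆ A ↔ a ∈ S.VanOn Aᶜ :=
  ⟨fun h x hx => by_contra fun h' => hx (h h'), fun h x hx => by_contra fun h' => hx (h x h')⟩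

theorem supp_add (a b : K) : S.supp (a + b) ⊆ S.supp a ∪ S.supp b := fun x hx => by
  by_contra h
  simp only [supp, mem_union, mem_setOf_eq, not_or, not_not] at h
  exact hx ((S.Van x).add_mem h.1 h.2)

theorem supp_neg (a : K) : S.supp (-a) = S.supp a := by
  ext x
  simp [supp]

theorem supp_sub (a b : K) : S.supp (a - b) ⊆ S.supp a ∪ S.supp b := by
  rw [sub_eq_add_neg, ← S.supp_neg b]
  exact S.supp_add _ _

theorem supp_smul (c : R) (a : K) : S.supp (c • a) ⊆ S.supp a :=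
  fun x hx h => hx ((S.Van x).smul_mem c h)

theorem supp_δ (a : K) : S.supp (S.δ a) ⊆ S.supp a := fun x hx h => hx (S.δ_van x a h)

theorem supp_cut (T : Set B) (a : K) : S.supp (S.cut T a) ⊆ closure T ∩ S.supp a := fun x hx =>
  ⟨by
    by_contra h
    exact hx (S.cut_out T x a (mem_of_superset (isClosed_closure.isOpen_compl.mem_nhds h)
      (compl_subset_compl.2 subset_closure))), fun h => hx (S.cut_van T x a h)⟩

/-- the stalk at `x` is exact in degree `n` -/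
def StalkExact (x : B) (n : ℤ) : Prop :=
  ∀ a ∈ S.deg n, S.δ a ∈ S.Van x → ∃ b ∈ S.deg (n - 1), a - S.δ b ∈ S.Van x

/-- the germs along `A` are exact in degree `n` -/
def ExactOn (A : Set B) (n : ℤ) : Prop :=
  ∀ a ∈ S.deg n, S.δ a ∈ S.VanOn A → ∃ b ∈ S.deg (n - 1), a - S.δ b ∈ S.VanOn A

theorem exactOn_empty (n : ℤ) : S.ExactOn ∅ n :=
  fun _ _ _ => ⟨0, Submodule.zero_mem _, fun _ h => h.elim⟩

theorem exactOn_singleton {x : B} {n : ℤ} : S.ExactOn {x} n ↔ S.StalkExact x n :=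
  ⟨fun h a ha hd => by
    obtain ⟨b, hb, h'⟩ := h a ha fun y hy => hy ▸ hd
    exact ⟨b, hb, h' x rfl⟩, fun h a ha hd => by
    obtain ⟨b, hb, h'⟩ := h a ha (hd x rfl)
    exact ⟨b, hb, fun y hy => hy ▸ h'⟩⟩

/-- two elements which agree along `A₁ ∩ A₂` are glued to one element -/
theorem patch {A₁ A₂ : Set B} {n : ℤ} {b₁ b₂ : K} (h₁ : b₁ ∈ S.deg n) (h₂ : b₂ ∈ S.deg n)
    (h : b₁ - b₂ ∈ S.VanOn (A₁ ∩ A₂))
    (hsep : ∀ W, IsOpen W → A₁ ∩ A₂ ⊆ W → SeparatedNhds (A₁ \ W) (A₂ \ W)) :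
    ∃ b ∈ S.deg n, b - b₁ ∈ S.VanOn A₁ ∧ b - b₂ ∈ S.VanOn A₂ ∧
      ∀ x, b₁ ∈ S.Van x → b₂ ∈ S.Van x → b ∈ S.Van x := by
  obtain ⟨U₁, U₂, o₁, o₂, s₁, s₂, hd⟩ := hsep _ (S.van_open (b₁ - b₂)) h
  refine ⟨S.cut U₁ b₁ + (b₂ - S.cut U₁ b₂), (S.deg n).add_mem (S.cut_deg _ _ _ h₁)
    ((S.deg n).sub_mem h₂ (S.cut_deg _ _ _ h₂)), fun x hx => ?_, fun x hx => ?_, fun x hx hx' => ?_⟩
  · by_cases hw : b₁ - b₂ ∈ S.Van x
    · have := (S.Van x).sub_mem (S.cut_van U₁ x _ hw) hw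
      rw [map_sub] at this
      convert this using 1
      abel
    · have hU := o₁.mem_nhds (s₁ ⟨hx, hw⟩)
      have := (S.Van x).sub_mem (S.cut_in U₁ x b₂ hU) (S.cut_in U₁ x b₁ hU)
      convert this using 1
      abel
  · by_cases hw : b₁ - b₂ ∈ S.Van x
    · have := S.cut_van U₁ x _ hw
      rw [map_sub] at this
      convert this using 1
      abel
    · have hU : U₁ᶜ ∈ 𝓝 x := mem_of_superset (o₂.mem_nhds (s₂ ⟨hx, hw⟩))
        (subset_compl_iff_disjoint_left.2 hd)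
      have := (S.Van x).sub_mem (S.cut_out U₁ x b₁ hU) (S.cut_out U₁ x b₂ hU)
      convert this using 1
      abel
  · exact (S.Van x).add_mem (S.cut_van _ _ _ hx) ((S.Van x).sub_mem hx' (S.cut_van _ _ _ hx'))

theorem sep_compact [T2Space B] {A₁ A₂ : Set B} (c₁ : IsCompact A₁) (c₂ : IsCompact A₂) :
    ∀ W, IsOpen W → A₁ ∩ A₂ ⊆ W → SeparatedNhds (A₁ \ W) (A₂ \ W) := fun W hW h =>
  SeparatedNhds.of_isCompact_isCompact (c₁.diff hW) (c₂.diff hW)
    (disjoint_left.2 fun x hx hx' => hx.2 (h ⟨hx.1, hx'.1⟩))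

theorem sep_closed [NormalSpace B] {A₁ A₂ : Set B} (c₁ : IsClosed A₁) (c₂ : IsClosed A₂) :
    ∀ W, IsOpen W → A₁ ∩ A₂ ⊆ W → SeparatedNhds (A₁ \ W) (A₂ \ W) := fun W hW h =>
  normal_separation (c₁.sdiff hW) (c₂.sdiff hW)
    (disjoint_left.2 fun x hx hx' => hx.2 (h ⟨hx.1, hx'.1⟩))

/-- primitives along `A₁` and along `A₂` give a primitive along `A₁ ∪ A₂` -/
theorem union_prim {A₁ A₂ : Set B} {n : ℤ} {a b₁ b₂ : K} (h₁ : b₁ ∈ S.deg (n - 1))
    (h₂ : b₂ ∈ S.deg (n - 1)) (e₁ : a - S.δ b₁ ∈ S.VanOn A₁) (e₂ : a - S.δ b₂ ∈ S.VanOn A₂)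
    (hI : S.ExactOn (A₁ ∩ A₂) (n - 1))
    (hsep : ∀ W, IsOpen W → A₁ ∩ A₂ ⊆ W → SeparatedNhds (A₁ \ W) (A₂ \ W)) :
    ∃ b ∈ S.deg (n - 1), a - S.δ b ∈ S.VanOn (A₁ ∪ A₂) := by
  obtain ⟨c, hc, ec⟩ := hI (b₁ - b₂) ((S.deg _).sub_mem h₁ h₂) (by
    have := (S.VanOn (A₁ ∩ A₂)).sub_mem (VanOn.mono e₂ inter_subset_right)
      (VanOn.mono e₁ inter_subset_left)
    rw [map_sub]
    convert this using 1
    abel)
  have hc' : S.δ c ∈ S.deg (n - 1) := by
    have := S.δ_deg _ _ hc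
    rwa [sub_add_cancel] at this
  obtain ⟨b, hb, f₁, f₂, -⟩ := S.patch (A₁ := A₁) (A₂ := A₂) h₁ ((S.deg _).add_mem h₂ hc') (by
    convert ec using 1
    abel) hsep
  refine ⟨b, hb, ?_⟩
  rintro x (hx | hx)
  · have := (S.Van x).sub_mem (e₁ x hx) (S.δ_van x _ (f₁ x hx))
    rw [map_sub] at this
    convert this using 1
    abel
  · have := (S.Van x).sub_mem ((S.Van x).sub_mem (e₂ x hx) (S.δ_van x _ (f₂ x hx))) (S.δδ c x)
    rw [map_sub, map_add] at this
    convert this using 1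
    abel

theorem exactOn_union {A₁ A₂ : Set B} {n : ℤ} (e₁ : S.ExactOn A₁ n) (e₂ : S.ExactOn A₂ n)
    (hI : S.ExactOn (A₁ ∩ A₂) (n - 1))
    (hsep : ∀ W, IsOpen W → A₁ ∩ A₂ ⊆ W → SeparatedNhds (A₁ \ W) (A₂ \ W)) :
    S.ExactOn (A₁ ∪ A₂) n := by
  intro a ha hd
  obtain ⟨b₁, h₁, f₁⟩ := e₁ a ha (VanOn.mono hd subset_union_left)
  obtain ⟨b₂, h₂, f₂⟩ := e₂ a ha (VanOn.mono hd subset_union_right)
  exact S.union_prim h₁ h₂ f₁ f₂ hI hsep

/-- **One step of the Lawson-Spanier induction.** -/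
theorem exactOn_step [T3Space B] {A : Set B} (hA : IsCompact A) {n : ℤ}
    (hs : ∀ x ∈ A, S.StalkExact x n)
    (hl : ∀ A' ⊆ A, IsCompact A' → S.ExactOn A' (n - 1)) : S.ExactOn A n := by
  intro a ha hd
  have key : ∃ A', IsCompact A' ∧ A ⊆ A' ∧ A' ⊆ A ∧
      ∃ b ∈ S.deg (n - 1), a - S.δ b ∈ S.VanOn A' := by
    refine hA.induction_on (p := fun s => ∃ A', IsCompact A' ∧ s ⊆ A' ∧ A' ⊆ A ∧
      ∃ b ∈ S.deg (n - 1), a - S.δ b ∈ S.VanOn A') ?_ ?_ ?_ ?_
    · exact ⟨∅, isCompact_empty, subset_rfl, empty_subset _, 0, Submodule.zero_mem _,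
        fun _ h => h.elim⟩
    · rintro s t hst ⟨A', h1, h2, h3⟩
      exact ⟨A', h1, hst.trans h2, h3⟩
    · rintro s t ⟨A₁, c₁, s₁, t₁, b₁, h₁, e₁⟩ ⟨A₂, c₂, s₂, t₂, b₂, h₂, e₂⟩
      exact ⟨A₁ ∪ A₂, c₁.union c₂, union_subset_union s₁ s₂, union_subset t₁ t₂,
        S.union_prim h₁ h₂ e₁ e₂ (hl _ (inter_subset_left.trans t₁) (c₁.inter c₂))
          (sep_compact c₁ c₂)⟩
    · intro x hx
      obtain ⟨b, hb, e⟩ := hs x hx a ha (hd x hx)
      obtain ⟨C, hC, hCc, hCs⟩ := exists_mem_nhds_isClosed_subset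
        ((S.van_open (a - S.δ b)).mem_nhds e)
      exact ⟨A ∩ C, inter_mem self_mem_nhdsWithin (mem_nhdsWithin_of_mem_nhds hC), A ∩ C,
        hA.inter_right hCc, subset_rfl, inter_subset_left, b, hb, fun y hy => hCs hy.2⟩
  obtain ⟨A', -, h1, -, b, hb, e⟩ := key
  exact ⟨b, hb, VanOn.mono e h1⟩

/-- **Lawson-Spanier lemma**, for complexes which are bounded below: if the stalks at the points of
`U` are exact in all degrees `≤ k`, then the complex is exact in these degrees along all compact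
subsets of `U`. -/
theorem exactOn_of_stalk [T3Space B] {U : Set B} {n₀ k : ℤ}
    (hb : ∀ n < n₀, ∀ a ∈ S.deg n, a ∈ S.VanOn U)
    (hs : ∀ x ∈ U, ∀ n, n₀ ≤ n → n ≤ k → S.StalkExact x n) :
    ∀ n ≤ k, ∀ A ⊆ U, IsCompact A → S.ExactOn A n := by
  have low : ∀ n < n₀, ∀ A ⊆ U, S.ExactOn A n := fun n hn A hA a ha _ =>
    ⟨0, Submodule.zero_mem _, by
      rw [map_zero, sub_zero]
      exact VanOn.mono (hb n hn a ha) hA⟩
  have key : ∀ m : ℕ, n₀ - 1 + m ≤ k → ∀ A ⊆ U, IsCompact A → S.ExactOn A (n₀ - 1 + m) := by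
    intro m
    induction m with
    | zero => exact fun _ A hA _ => low _ (by omega) A hA
    | succ m ih =>
      intro hk A hA hc
      refine S.exactOn_step hc (fun x hx => hs x (hA hx) _ (by omega) hk) fun A' h1 h2 => ?_
      have := ih (by omega) A' (h1.trans hA) h2
      convert this using 1
      omega
  intro n hn A hA hc
  by_cases h : n < n₀
  · exact low n h A hA
  · have := key (n - n₀ + 1).toNat (by omega) A hA hc
    convert this using 1
    omega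

/-! ### finite dimensional bases, complexes which are not bounded below -/

/-- exactness along the fibres of a real function gives exactness along the whole set -/
theorem exactOn_slices [T2Space B] {A : Set B} (hA : IsCompact A) {f : B → ℝ}
    (hf : ContinuousOn f A) {n : ℤ} (h1 : ∀ t, S.ExactOn (A ∩ f ⁻¹' {t}) n)
    (h0 : ∀ t, S.ExactOn (A ∩ f ⁻¹' {t}) (n - 1)) : S.ExactOn A n := by
  intro a ha hd
  have hcl : ∀ T : Set ℝ, IsClosed T → IsCompact (A ∩ f ⁻¹' T) := fun T hT =>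
    hA.of_isClosed_subset (hf.preimage_isClosed_of_isClosed hA.isClosed hT) inter_subset_left
  have slab : ∀ t : ℝ, ∃ ε > 0, ∃ b ∈ S.deg (n - 1),
      a - S.δ b ∈ S.VanOn (A ∩ f ⁻¹' Icc (t - ε) (t + ε)) := by
    intro t
    obtain ⟨b, hb, e⟩ := h1 t a ha (VanOn.mono hd inter_subset_left)
    have hZ : IsCompact (f '' (A \ {x | a - S.δ b ∈ S.Van x})) :=
      (hA.diff (S.van_open _)).image_of_continuousOn (hf.mono diff_subset)
    have ht : t ∈ (f '' (A \ {x | a - S.δ b ∈ S.Van x}))ᶜ := by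
      rintro ⟨x, hx, rfl⟩
      exact hx.2 (e x ⟨hx.1, rfl⟩)
    obtain ⟨ε, hε, hb'⟩ := Metric.isOpen_iff.1 hZ.isClosed.isOpen_compl t ht
    refine ⟨ε / 2, by positivity, b, hb, fun x hx => ?_⟩
    by_contra hne
    refine hb' ?_ ⟨x, ⟨hx.1, hne⟩, rfl⟩
    rw [Metric.mem_ball, Real.dist_eq, abs_lt]
    obtain ⟨h2, h3⟩ := hx.2
    constructor <;> linarith
  obtain ⟨M, hM⟩ := (hA.image_of_continuousOn hf).isBounded.subset_closedBall (0 : ℝ)
  have hM' : ∀ x ∈ A, -M ≤ f x ∧ f x ≤ M := fun x hx => by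
    have := hM ⟨x, hx, rfl⟩
    rw [Metric.mem_closedBall, Real.dist_eq, sub_zero, abs_le] at this
    exact this
  set P : Set ℝ := {t | ∃ b ∈ S.deg (n - 1), a - S.δ b ∈ S.VanOn (A ∩ f ⁻¹' Iic t)} with hP
  have mono : ∀ s t, s ≤ t → t ∈ P → s ∈ P := fun s t hst ⟨b, hb, e⟩ =>
    ⟨b, hb, VanOn.mono e fun x hx => ⟨hx.1, le_trans hx.2 hst⟩⟩
  have grow : ∀ t ε, 0 < ε → t - ε ∈ P → (∃ b ∈ S.deg (n - 1),
      a - S.δ b ∈ S.VanOn (A ∩ f ⁻¹' Icc (t - ε) (t + ε))) → t + ε ∈ P := by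
    rintro t ε hε ⟨b₁, h₁, e₁⟩ ⟨b₂, h₂, e₂⟩
    obtain ⟨b, hb, e⟩ := S.union_prim h₁ h₂ e₁ e₂ (by
      have : A ∩ f ⁻¹' Iic (t - ε) ∩ (A ∩ f ⁻¹' Icc (t - ε) (t + ε)) = A ∩ f ⁻¹' {t - ε} := by
        ext x
        constructor
        · rintro ⟨⟨h1, h2⟩, -, h3, -⟩
          exact ⟨h1, le_antisymm h2 h3⟩
        · rintro ⟨h1, h2⟩
          have h2' : f x = t - ε := h2
          exact ⟨⟨h1, h2'.le⟩, h1, h2'.ge, by rw [h2']; linarith⟩
      rw [this]
      exact h0 _) (sep_compact (hcl _ isClosed_Iic) (hcl _ isClosed_Icc))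
    refine ⟨b, hb, VanOn.mono e fun x hx => ?_⟩
    by_cases h : f x ≤ t - ε
    · exact Or.inl ⟨hx.1, h⟩
    · exact Or.inr ⟨hx.1, le_of_lt (not_le.1 h), hx.2⟩
  have base : -M - 1 ∈ P := ⟨0, Submodule.zero_mem _, fun x hx => by
    have h1 := (hM' x hx.1).1
    have h2 : f x ≤ -M - 1 := hx.2
    linarith⟩
  have hMP : M ∈ P := by
    by_contra hM0
    have hbd : BddAbove P := ⟨M, fun t ht => by
      by_contra h
      exact hM0 (mono _ _ (le_of_lt (not_le.1 h)) ht)⟩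
    obtain ⟨ε, hε, hs⟩ := slab (sSup P)
    obtain ⟨s, hs1, hs2⟩ := exists_lt_of_lt_csSup ⟨_, base⟩ (show sSup P - ε < sSup P by linarith)
    have := le_csSup hbd (grow _ ε hε (mono _ _ hs2.le hs1) hs)
    linarith
  obtain ⟨b, hb, e⟩ := hMP
  exact ⟨b, hb, VanOn.mono e fun x hx => ⟨hx, (hM' x hx).2⟩⟩

/-- compact sets which inject continuously into `ℝ ^ d` -/
theorem exactOn_of_inj [T2Space B] : ∀ (d : ℕ) (A : Set B), IsCompact A →
    ∀ f : B → Fin d → ℝ, ContinuousOn f A → InjOn f A → ∀ n : ℤ,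
    (∀ x ∈ A, ∀ m, n - d ≤ m → m ≤ n → S.StalkExact x m) → S.ExactOn A n := by
  intro d
  induction d with
  | zero =>
    intro A _ f _ hi n hs
    rcases A.eq_empty_or_nonempty with rfl | ⟨x, hx⟩
    · exact S.exactOn_empty n
    · have : A = {x} := eq_singleton_iff_unique_mem.2 ⟨hx, fun y hy =>
        hi hy hx (Subsingleton.elim _ _)⟩
      rw [this]
      exact S.exactOn_singleton.2 (hs x hx n (by simp) le_rfl)
  | succ d ih =>
    intro A hA f hf hi n hs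
    have h0 : ContinuousOn (fun x => f x 0) A := (continuous_apply 0).comp_continuousOn hf
    have key : ∀ (t : ℝ) (m : ℤ), n - 1 ≤ m → m ≤ n →
        S.ExactOn (A ∩ (fun x => f x 0) ⁻¹' {t}) m := by
      intro t m hm hm'
      refine ih _ (hA.of_isClosed_subset (h0.preimage_isClosed_of_isClosed hA.isClosed
        isClosed_singleton) inter_subset_left) (fun x i => f x i.succ)
        (continuousOn_pi.2 fun i => ((continuous_apply i.succ).comp_continuousOn hf).mono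
          inter_subset_left) (fun x hx y hy hxy => hi hx.1 hy.1 ?_) m
        fun x hx j h1 h2 => hs x hx.1 j (by push_cast; omega) (by omega)
      funext i
      refine Fin.cases ?_ (fun i => congrFun hxy i) i
      exact hx.2.trans hy.2.symm
    exact S.exactOn_slices hA h0 (fun t => key t n (by omega) le_rfl)
      fun t => key t (n - 1) le_rfl (by omega)

/-- every point of `U` has a neighbourhood which injects continuously into some `ℝ ^ d` -/
def LocFin (U : Set B) : Prop :=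
  ∀ x ∈ U, ∃ N ∈ 𝓝 x, ∃ (d : ℕ) (f : B → Fin d → ℝ), ContinuousOn f N ∧ InjOn f N

/-- **Lawson-Spanier lemma**, for locally finite dimensional bases and any complex with exact
stalks. -/
theorem exactOn_of_locFin [T3Space B] {U : Set B} (hU : LocFin U)
    (hs : ∀ x ∈ U, ∀ n, S.StalkExact x n) :
    ∀ A ⊆ U, IsCompact A → ∀ n, S.ExactOn A n := by
  intro A hAU hA
  have key : ∃ A', IsCompact A' ∧ A ⊆ A' ∧ ∀ C ⊆ A', IsCompact C → ∀ n, S.ExactOn C n := by
    refine hA.induction_on (p := fun s => ∃ A', IsCompact A' ∧ s ⊆ A' ∧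
      ∀ C ⊆ A', IsCompact C → ∀ n, S.ExactOn C n) ?_ ?_ ?_ ?_
    · refine ⟨∅, isCompact_empty, subset_rfl, fun C hC _ n => ?_⟩
      rw [subset_empty_iff.1 hC]
      exact S.exactOn_empty n
    · rintro s t hst ⟨A', h1, h2, h3⟩
      exact ⟨A', h1, hst.trans h2, h3⟩
    · rintro s t ⟨A₁, c₁, s₁, e₁⟩ ⟨A₂, c₂, s₂, e₂⟩
      refine ⟨A₁ ∪ A₂, c₁.union c₂, union_subset_union s₁ s₂, fun C hC hc n => ?_⟩
      have e : C = C ∩ A₁ ∪ C ∩ A₂ := by rw [← inter_union_distrib_left, inter_eq_left.2 hC]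
      rw [e]
      exact S.exactOn_union (e₁ _ inter_subset_right (hc.inter c₁) n)
        (e₂ _ inter_subset_right (hc.inter c₂) n)
        (e₁ _ (inter_subset_left.trans inter_subset_right) ((hc.inter c₁).inter (hc.inter c₂)) _)
        (sep_compact (hc.inter c₁) (hc.inter c₂))
    · intro x hx
      obtain ⟨N, hN, d, f, hf, hi⟩ := hU x (hAU hx)
      obtain ⟨C, hC, hCc, hCs⟩ := exists_mem_nhds_isClosed_subset hN
      refine ⟨A ∩ C, inter_mem self_mem_nhdsWithin (mem_nhdsWithin_of_mem_nhds hC), A ∩ C,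
        hA.inter_right hCc, subset_rfl, fun D hD hc n => ?_⟩
      have hDN : D ⊆ N := fun y hy => hCs (hD hy).2
      exact S.exactOn_of_inj d D hc f (hf.mono hDN) (hi.mono hDN) n
        fun y hy m _ _ => hs y (hAU (hD hy).1) m
  obtain ⟨A', -, h1, h2⟩ := key
  exact h2 A h1 hA

/-! ### supports -/

/-- **compact supports** in an open set `U` -/
theorem exact_compact [T2Space B] [LocallyCompactSpace B] {U : Set B} (hU : IsOpen U) {n : ℤ}
    (h1 : ∀ A ⊆ U, IsCompact A → S.ExactOn A n)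
    (h0 : ∀ A ⊆ U, IsCompact A → S.ExactOn A (n - 1)) {a : K} (ha : a ∈ S.deg n)
    {C : Set B} (hC : IsCompact C) (hCU : C ⊆ U) (hs : S.supp a ⊆ C)
    (hd : S.δ a ∈ S.VanOn U) :
    ∃ b ∈ S.deg (n - 1), IsCompact (S.supp b) ∧ S.supp b ⊆ U ∧ a - S.δ b ∈ S.VanOn univ := by
  obtain ⟨A, cA, hA1, hA2⟩ := exists_compact_between hC hU hCU
  obtain ⟨A', cA', hA1', hA2'⟩ := exists_compact_between cA hU hA2
  obtain ⟨b, hb, e⟩ := h1 A' hA2' cA' a ha (VanOn.mono hd hA2')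
  have aout : ∀ x, x ∉ interior A → a ∈ S.Van x := fun x hx => by
    by_contra h
    exact hx (hA1 (hs h))
  obtain ⟨c, hc, ec⟩ := h0 (A' \ interior A) (diff_subset.trans hA2') (cA'.diff isOpen_interior)
    b hb fun x hx => by
      have := (S.Van x).sub_mem (aout x hx.2) (e x hx.1)
      convert this using 1
      abel
  have hc' : S.δ c ∈ S.deg (n - 1) := by
    have := S.δ_deg _ _ hc
    rwa [sub_add_cancel] at this
  have hsupp : S.supp (S.cut A (b - S.δ c)) ⊆ A := fun x hx => by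
    have := (S.supp_cut A _ hx).1
    rwa [cA.isClosed.closure_eq] at this
  refine ⟨S.cut A (b - S.δ c), S.cut_deg _ _ _ ((S.deg _).sub_mem hb hc'),
    cA.of_isClosed_subset (S.isClosed_supp _) hsupp, hsupp.trans hA2, fun x _ => ?_⟩
  by_cases hx : x ∈ interior A
  · have hxA' : x ∈ A' := interior_subset (hA1' (interior_subset hx))
    have := (S.Van x).add_mem ((S.Van x).add_mem (e x hxA') (S.δδ c x))
      (S.δ_van x _ (S.cut_in A x (b - S.δ c) (mem_interior_iff_mem_nhds.1 hx)))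
    rw [map_sub, map_sub] at this
    convert this using 1
    abel
  · refine (S.Van x).sub_mem (aout x hx) (S.δ_van x _ ?_)
    by_cases hx' : x ∈ A'
    · exact S.cut_van A x _ (ec x ⟨hx', hx⟩)
    · by_contra h
      exact hx' (interior_subset (hA1' (hsupp h)))

/-- elements which stabilise along an exhaustion by closed sets have a limit -/
def Glue : Prop :=
  ∀ (n : ℤ) (A : ℕ → Set B) (a : ℕ → K), (∀ k, IsClosed (A k)) → Monotone A →
    (∀ x, ∃ k, A k ∈ 𝓝 x) → (∀ k, a k ∈ S.deg n) → (∀ k, a (k + 1) - a k ∈ S.VanOn (A k)) →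
    ∃ b ∈ S.deg n, ∀ k, b - a k ∈ S.VanOn (A k)

/-- **closed supports**, along an exhaustion by closed sets -/
theorem exact_univ_of_exhaustion (hG : S.Glue) {n : ℤ} (A : ℕ → Set B)
    (hc : ∀ k, IsClosed (A k)) (hm : Monotone A) (hn : ∀ x, ∃ k, A k ∈ 𝓝 x)
    (h1 : ∀ k, S.ExactOn (A k) n) (h0 : ∀ k, S.ExactOn (A k) (n - 1)) : S.ExactOn univ n := by
  intro a ha hd
  have step : ∀ k, ∀ b : {b // b ∈ S.deg (n - 1) ∧ a - S.δ b ∈ S.VanOn (A k)},
      ∃ b' : {b // b ∈ S.deg (n - 1) ∧ a - S.δ b ∈ S.VanOn (A (k + 1))},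
        b'.1 - b.1 ∈ S.VanOn (A k) := by
    rintro k ⟨b, hb, e⟩
    obtain ⟨b', hb', e'⟩ := h1 (k + 1) a ha (VanOn.mono hd (subset_univ _))
    obtain ⟨c, hc, ec⟩ := h0 k (b' - b) ((S.deg _).sub_mem hb' hb) (by
      have := (S.VanOn (A k)).sub_mem e (VanOn.mono e' (hm (Nat.le_succ k)))
      rw [map_sub]
      convert this using 1
      abel)
    have hc' : S.δ c ∈ S.deg (n - 1) := by
      have := S.δ_deg _ _ hc
      rwa [sub_add_cancel] at this
    refine ⟨⟨b' - S.δ c, (S.deg _).sub_mem hb' hc', ?_⟩, ?_⟩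
    · have := (S.VanOn (A (k + 1))).add_mem e' (S.δδ_vanOn _ c)
      rw [map_sub]
      convert this using 1
      abel
    · convert ec using 1
      show b' - S.δ c - b = _
      abel
  choose nx hnx using step
  obtain ⟨b₀, hb₀, e₀⟩ := h1 0 a ha (VanOn.mono hd (subset_univ _))
  let seq : ∀ k, {b // b ∈ S.deg (n - 1) ∧ a - S.δ b ∈ S.VanOn (A k)} := fun k =>
    Nat.rec ⟨b₀, hb₀, e₀⟩ (fun k b => nx k b) k
  obtain ⟨b, hb, e⟩ := hG (n - 1) A (fun k => (seq k).1) hc hm hn (fun k => (seq k).2.1)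
    fun k => hnx k (seq k)
  refine ⟨b, hb, fun x _ => ?_⟩
  obtain ⟨k, hk⟩ := hn x
  have hx := mem_of_mem_nhds hk
  have := (S.Van x).sub_mem ((seq k).2.2 x hx) (S.δ_van x _ (e k x hx))
  rw [map_sub] at this
  convert this using 1
  abel

/-- **closed supports**, for a locally compact, sigma-compact base -/
theorem exact_univ [T2Space B] [WeaklyLocallyCompactSpace B] [SigmaCompactSpace B] (hG : S.Glue)
    {n : ℤ} (h1 : ∀ A, IsCompact A → S.ExactOn A n)
    (h0 : ∀ A, IsCompact A → S.ExactOn A (n - 1)) : S.ExactOn univ n := by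
  let E := CompactExhaustion.choice B
  exact S.exact_univ_of_exhaustion hG E (fun k => (E.isCompact k).isClosed)
    (fun i j h => E.subset h) E.exists_mem_nhds (fun k => h1 _ (E.isCompact k))
    fun k => h0 _ (E.isCompact k)

/-! ### maps and cones -/

section cone

variable {L : Type*} [AddCommGroup L] [Module R L] (T : Soft R B L)

/-- a map of soft complexes which raises degrees by `r`, a chain map up to zero germs -/
structure IsMap (r : ℤ) (φ : K →ₗ[R] L) : Prop where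
  deg : ∀ n, ∀ a ∈ S.deg n, φ a ∈ T.deg (n + r)
  van : ∀ x, ∀ a ∈ S.Van x, φ a ∈ T.Van x
  comm : ∀ a x, T.δ (φ a) - φ (S.δ a) ∈ T.Van x

variable {S T}

/-- the mapping cone; degree `n` is `K ^ (n + 1 - r) × L ^ n` -/
def cone {r : ℤ} {φ : K →ₗ[R] L} (h : S.IsMap T r φ) : Soft R B (K × L) where
  δ := LinearMap.prod (-S.δ ∘ₗ LinearMap.fst R K L)
    (φ ∘ₗ LinearMap.fst R K L + T.δ ∘ₗ LinearMap.snd R K L)
  deg n := (S.deg (n + 1 - r)).prod (T.deg n)
  Van x := (S.Van x).prod (T.Van x)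
  cut A := (S.cut A).prodMap (T.cut A)
  δ_deg n a ha := ⟨by
      have := (S.deg _).neg_mem (S.δ_deg _ _ ha.1)
      rw [show n + 1 - r + 1 = n + 1 + 1 - r by ring] at this
      exact this, by
      have := h.deg _ _ ha.1
      rw [sub_add_cancel] at this
      exact (T.deg _).add_mem this (T.δ_deg _ _ ha.2)⟩
  δδ a x := ⟨by
      show -S.δ (-S.δ a.1) ∈ S.Van x
      rw [map_neg, neg_neg]
      exact S.δδ _ _, by
      show φ (-S.δ a.1) + T.δ (φ a.1 + T.δ a.2) ∈ T.Van x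
      have := (T.Van x).add_mem (h.comm a.1 x) (T.δδ a.2 x)
      rw [map_neg, map_add]
      convert this using 1
      abel⟩
  δ_van x a ha := ⟨(S.Van x).neg_mem (S.δ_van x _ ha.1),
    (T.Van x).add_mem (h.van x _ ha.1) (T.δ_van x _ ha.2)⟩
  van_open a := (S.van_open a.1).inter (T.van_open a.2)
  cut_deg A n a ha := ⟨S.cut_deg A _ _ ha.1, T.cut_deg A _ _ ha.2⟩
  cut_van A x a ha := ⟨S.cut_van A x _ ha.1, T.cut_van A x _ ha.2⟩
  cut_in A x a hA := ⟨S.cut_in A x a.1 hA, T.cut_in A x a.2 hA⟩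
  cut_out A x a hA := ⟨S.cut_out A x a.1 hA, T.cut_out A x a.2 hA⟩

variable {r : ℤ} {φ : K →ₗ[R] L} (h : S.IsMap T r φ)

theorem cone_δ (a : K × L) : (cone h).δ a = (-S.δ a.1, φ a.1 + T.δ a.2) := rfl

theorem cone_deg {n : ℤ} {a : K × L} :
    a ∈ (cone h).deg n ↔ a.1 ∈ S.deg (n + 1 - r) ∧ a.2 ∈ T.deg n := Iff.rfl

theorem cone_van {x : B} {a : K × L} :
    a ∈ (cone h).Van x ↔ a.1 ∈ S.Van x ∧ a.2 ∈ T.Van x := Iff.rfl

theorem cone_vanOn {A : Set B} {a : K × L} :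
    a ∈ (cone h).VanOn A ↔ a.1 ∈ S.VanOn A ∧ a.2 ∈ T.VanOn A :=
  ⟨fun h => ⟨fun x hx => (h x hx).1, fun x hx => (h x hx).2⟩,
    fun h x hx => ⟨h.1 x hx, h.2 x hx⟩⟩

theorem cone_supp (a : K × L) : (cone h).supp a = S.supp a.1 ∪ T.supp a.2 := by
  ext x
  simp only [supp, mem_setOf_eq, cone_van, mem_union, not_and_or]

theorem cone_glue (hS : S.Glue) (hT : T.Glue) : (cone h).Glue := by
  intro n A a hc hm hn ha hs
  obtain ⟨b, hb, e⟩ := hS _ A (fun k => (a k).1) hc hm hn (fun k => (ha k).1)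
    fun k => ((cone_vanOn h).1 (hs k)).1
  obtain ⟨b', hb', e'⟩ := hT _ A (fun k => (a k).2) hc hm hn (fun k => (ha k).2)
    fun k => ((cone_vanOn h).1 (hs k)).2
  exact ⟨(b, b'), ⟨hb, hb'⟩, fun k => (cone_vanOn h).2 ⟨e k, e' k⟩⟩

variable (S T φ r) in
/-- `φ` is onto in the cohomology of the germs along `A`, in degree `n` of the target -/
def SurjOn (A : Set B) (n : ℤ) : Prop :=
  ∀ b ∈ T.deg n, T.δ b ∈ T.VanOn A → ∃ a ∈ S.deg (n - r), S.δ a ∈ S.VanOn A ∧
    ∃ c ∈ T.deg (n - 1), b - φ a - T.δ c ∈ T.VanOn A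

variable (S T φ r) in
/-- `φ` is injective in the cohomology of the germs along `A`, in degree `n` of the target -/
def InjOn' (A : Set B) (n : ℤ) : Prop :=
  ∀ a ∈ S.deg (n - r), S.δ a ∈ S.VanOn A → ∀ c ∈ T.deg (n - 1), φ a - T.δ c ∈ T.VanOn A →
    ∃ a' ∈ S.deg (n - r - 1), a - S.δ a' ∈ S.VanOn A

/-- the cone is exact in degree `n` if `φ` is onto in degree `n` and injective in degree `n + 1` -/
theorem cone_exactOn {A : Set B} {n : ℤ} (hs : SurjOn S T r φ A n)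
    (hi : InjOn' S T r φ A (n + 1)) : (cone h).ExactOn A n := by
  rintro ⟨a, b⟩ ⟨ha, hb⟩ hd
  obtain ⟨hd1, hd2⟩ := (cone_vanOn h).1 hd
  have hd1' : S.δ a ∈ S.VanOn A := (S.VanOn A).neg_mem_iff.1 hd1
  have hd2' : φ a + T.δ b ∈ T.VanOn A := hd2
  obtain ⟨a', ha', e'⟩ := hi a ha hd1' (-b) (by
    rw [add_sub_cancel_right]
    exact (T.deg n).neg_mem hb) (by rwa [map_neg, sub_neg_eq_add])
  have ha'' : a' ∈ S.deg (n - r) := by
    convert ha' using 2
    ring
  have hφ : φ a' ∈ T.deg n := by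
    have := h.deg _ _ ha''
    rwa [sub_add_cancel] at this
  obtain ⟨a₁, ha₁, d₁, c, hc, ec⟩ := hs (b + φ a') ((T.deg n).add_mem hb hφ) (by
    intro x hx
    have := (T.Van x).sub_mem ((T.Van x).add_mem (hd2' x hx) (h.comm a' x))
      (h.van x _ (e' x hx))
    rw [map_sub] at this
    rw [map_add]
    convert this using 1
    abel)
  refine ⟨(a₁ - a', c), ⟨?_, hc⟩, (cone_vanOn h).2 ⟨?_, ?_⟩⟩
  · show a₁ - a' ∈ S.deg (n - 1 + 1 - r)
    rw [sub_add_cancel]
    exact (S.deg _).sub_mem ha₁ ha''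
  · show a - -S.δ (a₁ - a') ∈ S.VanOn A
    have := (S.VanOn A).add_mem e' d₁
    rw [map_sub]
    convert this using 1
    abel
  · show b - (φ (a₁ - a') + T.δ c) ∈ T.VanOn A
    rw [map_sub]
    convert ec using 1
    abel

theorem surjOn_of_cone {A : Set B} {n : ℤ} (he : (cone h).ExactOn A n) :
    SurjOn S T r φ A n := by
  intro b hb hd
  obtain ⟨⟨a, c⟩, ⟨ha, hc⟩, e⟩ := he (0, b) ⟨Submodule.zero_mem _, hb⟩ ((cone_vanOn h).2 ⟨by
    show -S.δ 0 ∈ _
    simp, by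
    show φ 0 + T.δ b ∈ _
    rwa [map_zero, zero_add]⟩)
  obtain ⟨e1, e2⟩ := (cone_vanOn h).1 e
  refine ⟨a, by simpa using ha, ?_, c, hc, ?_⟩
  · have : (0 : K) - -S.δ a ∈ S.VanOn A := e1
    simpa using this
  · have : b - (φ a + T.δ c) ∈ T.VanOn A := e2
    convert this using 1
    abel

theorem injOn_of_cone {A : Set B} {n : ℤ} (he : (cone h).ExactOn A (n - 1)) :
    InjOn' S T r φ A n := by
  intro a ha hd c hc e
  obtain ⟨⟨a', c'⟩, ⟨ha', -⟩, e'⟩ := he (a, -c) ⟨by simpa using ha, (T.deg _).neg_mem hc⟩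
    ((cone_vanOn h).2 ⟨(S.VanOn A).neg_mem hd, by
      show φ a + T.δ (-c) ∈ _
      rwa [map_neg, ← sub_eq_add_neg]⟩)
  refine ⟨-a', (S.deg _).neg_mem (by
    have : a' ∈ S.deg (n - 1 - 1 + 1 - r) := ha'
    convert this using 2
    ring), ?_⟩
  have : a - -S.δ a' ∈ S.VanOn A := ((cone_vanOn h).1 e').1
  rwa [map_neg]

/-- **Comparison with compact supports, surjectivity.** -/
theorem surj_compact [T2Space B] [LocallyCompactSpace B] {U : Set B} (hU : IsOpen U) {n : ℤ}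
    (h1 : ∀ A ⊆ U, IsCompact A → (cone h).ExactOn A n)
    (h0 : ∀ A ⊆ U, IsCompact A → (cone h).ExactOn A (n - 1)) {b : L} (hb : b ∈ T.deg n)
    (hC : IsCompact (T.supp b)) (hCU : T.supp b ⊆ U) (hd : T.δ b ∈ T.VanOn U) :
    ∃ a ∈ S.deg (n - r), IsCompact (S.supp a) ∧ S.supp a ⊆ U ∧ S.δ a ∈ S.VanOn univ ∧
      ∃ c ∈ T.deg (n - 1), IsCompact (T.supp c) ∧ T.supp c ⊆ U ∧
        b - φ a - T.δ c ∈ T.VanOn univ := by
  obtain ⟨⟨a, c⟩, ⟨ha, hc⟩, k, kU, e⟩ := (cone h).exact_compact hU h1 h0 (a := (0, b))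
    ⟨Submodule.zero_mem _, hb⟩ hC hCU (by
      rw [cone_supp]
      exact union_subset (fun x hx => absurd (S.Van x).zero_mem hx) subset_rfl)
    ((cone_vanOn h).2 ⟨by
      show -S.δ 0 ∈ _
      simp, by
      show φ 0 + T.δ b ∈ _
      rwa [map_zero, zero_add]⟩)
  rw [cone_supp] at k kU
  obtain ⟨e1, e2⟩ := (cone_vanOn h).1 e
  refine ⟨a, by simpa using ha, k.of_isClosed_subset (S.isClosed_supp _) subset_union_left,
    subset_union_left.trans kU, ?_, c, hc,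
    k.of_isClosed_subset (T.isClosed_supp _) subset_union_right, subset_union_right.trans kU, ?_⟩
  · have : (0 : K) - -S.δ a ∈ S.VanOn univ := e1
    simpa using this
  · have : b - (φ a + T.δ c) ∈ T.VanOn univ := e2
    convert this using 1
    abel

/-- **Comparison with compact supports, injectivity.** -/
theorem inj_compact [T2Space B] [LocallyCompactSpace B] {U : Set B} (hU : IsOpen U) {n : ℤ}
    (h1 : ∀ A ⊆ U, IsCompact A → (cone h).ExactOn A (n - 1))
    (h0 : ∀ A ⊆ U, IsCompact A → (cone h).ExactOn A (n - 1 - 1)) {a : K}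
    (ha : a ∈ S.deg (n - r)) (hC : IsCompact (S.supp a)) (hCU : S.supp a ⊆ U)
    (hd : S.δ a ∈ S.VanOn U) {c : L} (hc : c ∈ T.deg (n - 1)) (hC' : IsCompact (T.supp c))
    (hCU' : T.supp c ⊆ U) (e : φ a - T.δ c ∈ T.VanOn U) :
    ∃ a' ∈ S.deg (n - r - 1), IsCompact (S.supp a') ∧ S.supp a' ⊆ U ∧
      a - S.δ a' ∈ S.VanOn univ := by
  obtain ⟨⟨a', c'⟩, ⟨ha', -⟩, k, kU, e'⟩ := (cone h).exact_compact hU h1 h0 (a := (a, -c))
    ⟨by simpa using ha, (T.deg _).neg_mem hc⟩ (hC.union hC') (union_subset hCU hCU') (by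
      rw [cone_supp, T.supp_neg]) ((cone_vanOn h).2 ⟨(S.VanOn U).neg_mem hd, by
      show φ a + T.δ (-c) ∈ _
      rwa [map_neg, ← sub_eq_add_neg]⟩)
  rw [cone_supp] at k kU
  refine ⟨-a', (S.deg _).neg_mem (by
    have : a' ∈ S.deg (n - 1 - 1 + 1 - r) := ha'
    convert this using 2
    ring), ?_, ?_, ?_⟩
  · rw [S.supp_neg]
    exact k.of_isClosed_subset (S.isClosed_supp _) subset_union_left
  · rw [S.supp_neg]
    exact subset_union_left.trans kU
  · have : a - -S.δ a' ∈ S.VanOn univ := ((cone_vanOn h).1 e').1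
    rwa [map_neg]

/-- the cone of a map which is an isomorphism on the cohomology of all stalks in degrees `≤ k`
(injective in degree `k + 1`) is exact along compact sets; bounded below complexes -/
theorem cone_exactOn_of_stalk [T3Space B] {U : Set B} {n₀ k : ℤ}
    (hbS : ∀ n < n₀, ∀ a ∈ S.deg (n + 1 - r), a ∈ S.VanOn U)
    (hbT : ∀ n < n₀, ∀ b ∈ T.deg n, b ∈ T.VanOn U)
    (hs : ∀ x ∈ U, ∀ n, n₀ ≤ n → n ≤ k → SurjOn S T r φ {x} n)
    (hi : ∀ x ∈ U, ∀ n, n₀ ≤ n → n ≤ k → InjOn' S T r φ {x} (n + 1)) :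
    ∀ n ≤ k, ∀ A ⊆ U, IsCompact A → (cone h).ExactOn A n :=
  (cone h).exactOn_of_stalk (n₀ := n₀)
    (fun n hn a ha => (cone_vanOn h).2 ⟨hbS n hn _ ha.1, hbT n hn _ ha.2⟩)
    fun x hx n h1 h2 => (cone h).exactOn_singleton.1
      (cone_exactOn h (hs x hx n h1 h2) (hi x hx n h1 h2))

/-- the same for locally finite dimensional bases, without a bound on the degrees -/
theorem cone_exactOn_of_locFin [T3Space B] {U : Set B} (hU : LocFin U)
    (hs : ∀ x ∈ U, ∀ n, SurjOn S T r φ {x} n) (hi : ∀ x ∈ U, ∀ n, InjOn' S T r φ {x} n) :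
    ∀ A ⊆ U, IsCompact A → ∀ n, (cone h).ExactOn A n :=
  (cone h).exactOn_of_locFin hU fun x hx n => (cone h).exactOn_singleton.1
    (cone_exactOn h (hs x hx n) (hi x hx (n + 1)))

end cone

end Soft

end Vale.Agent.P291Z
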