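import Mathlib

/-!
# Spectral projectors of families of matrices: algebra
-/

set_option linter.unusedSectionVars false

namespace Vale.Agent.P291Z.Sp

open Matrix Polynomial

section one

variable {n m : Type} [Fintype n] [DecidableEq n] [Fintype m] [DecidableEq m]

theorem charpoly_eq_iff (a : Matrix n n ℂ) (r : n → ℂ) :
    a.charpoly = ∏ p, (X - C (r p)) ↔ ∀ t, (scalar n t - a).det = ∏ p, (t - r p) := by
  constructor
  · intro h t
    rw [← eval_charpoly, h, eval_prod]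
    simp
  · intro h
    refine Polynomial.funext fun t => ?_
    rw [eval_charpoly, h, eval_prod]
    simp

theorem exists_roots (a : Matrix n n ℂ) : ∃ r : n → ℂ, a.charpoly = ∏ p, (X - C (r p)) := by
  have hs : a.charpoly.Splits := IsAlgClosed.splits _
  have hc : a.charpoly.roots.card = Fintype.card n := by
    rw [← hs.natDegree_eq_card_roots, charpoly_natDegree_eq_dim]
  have e : n ≃ a.charpoly.roots.ToType := Fintype.equivOfCardEq (by
    rw [Multiset.card_coe, hc])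
  refine ⟨fun p => (e p : ℂ), ?_⟩
  rw [Equiv.prod_comp e (fun x : a.charpoly.roots.ToType => X - C (x : ℂ))]
  conv_lhs => rw [hs.eq_prod_roots_of_monic (charpoly_monic a)]
  rw [← Multiset.map_univ]
  rfl

theorem prod_congr_roots {r r' : n → ℂ} (h : ∏ p, (X - C (r p)) = ∏ p, (X - C (r' p)))
    {M : Type*} [CommMonoid M] (φ : ℂ → M) : ∏ p, φ (r p) = ∏ p, φ (r' p) := by
  have key : ∀ r : n → ℂ, (∏ p, (X - C (r p))).roots = Finset.univ.val.map r := by
    intro r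
    rw [← roots_multiset_prod_X_sub_C (Finset.univ.val.map r), Multiset.map_map]
    rfl
  have h1 : Finset.univ.val.map r = Finset.univ.val.map r' := by rw [← key, ← key, h]
  have h2 := congrArg (fun s => (s.map φ).prod) h1
  simp only [Multiset.map_map] at h2
  exact h2

theorem det_aeval {a : Matrix n n ℂ} {r : n → ℂ} (h : a.charpoly = ∏ p, (X - C (r p)))
    (g : ℂ[X]) : (aeval a g).det = ∏ p, g.eval (r p) := by
  have key : ∀ s : Multiset ℂ, (aeval a (s.map fun t => C t - X).prod).det =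
      ∏ p, ((s.map fun t => C t - X).prod).eval (r p) := by
    intro s
    induction s using Multiset.induction_on with
    | empty => simp
    | cons t s ih =>
      rw [Multiset.map_cons, Multiset.prod_cons, map_mul, det_mul, ih]
      simp only [eval_mul, Finset.prod_mul_distrib]
      congr 1
      rw [map_sub, aeval_C, aeval_X]
      have := (charpoly_eq_iff a r).1 h t
      simp only [eval_sub, eval_C, eval_X]
      exact this
  have hs : g.Splits := IsAlgClosed.splits _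
  have e : g = C (g.leadingCoeff * (-1) ^ g.roots.card) * (g.roots.map fun t => C t - X).prod := by
    conv_lhs => rw [hs.eq_prod_roots]
    have : (g.roots.map fun t => X - C t) = (g.roots.map fun t => C t - X).map Neg.neg := by
      rw [Multiset.map_map]
      exact Multiset.map_congr rfl fun t _ => by simp
    rw [this, Multiset.prod_map_neg, Multiset.card_map]
    simp [mul_assoc]
  rw [e, map_mul, det_mul, key, aeval_C]
  generalize g.leadingCoeff * (-1) ^ g.roots.card = c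
  simp only [eval_mul, eval_C, Finset.prod_mul_distrib]
  congr 1
  rw [Algebra.algebraMap_eq_smul_one, det_smul, det_one, mul_one, Finset.prod_const,
    Finset.card_univ]

theorem charpoly_aeval {a : Matrix n n ℂ} {r : n → ℂ} (h : a.charpoly = ∏ p, (X - C (r p)))
    (g : ℂ[X]) : (aeval a g).charpoly = ∏ p, (X - C (g.eval (r p))) := by
  refine (charpoly_eq_iff _ _).2 fun t => ?_
  have := det_aeval h (C t - g)
  rw [map_sub, aeval_C] at this
  simp only [eval_sub, eval_C] at this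
  exact this

theorem trace_of_roots {a : Matrix n n ℂ} {r : n → ℂ} (h : a.charpoly = ∏ p, (X - C (r p))) :
    a.trace = ∑ p, r p := by
  rw [trace_eq_sum_roots_charpoly, h]
  have : (∏ p, (X - C (r p))).roots = Finset.univ.val.map r := by
    rw [← roots_multiset_prod_X_sub_C (Finset.univ.val.map r), Multiset.map_map]
    rfl
  rw [this]
  rfl

theorem aeval_intertwine {a : Matrix m m ℂ} {b : Matrix n n ℂ} {x : Matrix m n ℂ}
    (h : a * x = x * b) (g : ℂ[X]) : aeval a g * x = x * aeval b g := by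
  induction g using Polynomial.induction_on with
  | C c => simp [Algebra.algebraMap_eq_smul_one]
  | add p q hp hq => rw [map_add, map_add, Matrix.add_mul, Matrix.mul_add, hp, hq]
  | monomial k c ih =>
    rw [pow_succ, ← mul_assoc, map_mul, map_mul (aeval b), aeval_X, aeval_X, Matrix.mul_assoc, h,
      ← Matrix.mul_assoc, ih, Matrix.mul_assoc]

theorem norm_root_le {a : Matrix n n ℂ} {t : ℂ} (h : (scalar n t - a).det = 0) :
    ‖t‖ ≤ ∑ p, ∑ q, ‖a p q‖ := by
  obtain ⟨v, hv, h1⟩ := Matrix.exists_mulVec_eq_zero_iff.2 h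
  obtain ⟨p0, hp0⟩ := Function.ne_iff.1 hv
  obtain ⟨p, -, hp⟩ := Finset.exists_max_image Finset.univ (fun p => ‖v p‖)
    ⟨p0, Finset.mem_univ _⟩
  have hpos : 0 < ‖v p‖ := lt_of_lt_of_le (norm_pos_iff.2 hp0) (hp p0 (Finset.mem_univ _))
  have h2 : t * v p = ∑ q, a p q * v q := by
    have := congrFun h1 p
    rw [sub_mulVec, Pi.sub_apply, Pi.zero_apply, sub_eq_zero, scalar_apply, mulVec_diagonal] at this
    exact this
  have h3 : ‖t‖ * ‖v p‖ ≤ (∑ q, ‖a p q‖) * ‖v p‖ := by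
    rw [← norm_mul, h2, Finset.sum_mul]
    refine (norm_sum_le _ _).trans (Finset.sum_le_sum fun q _ => ?_)
    rw [norm_mul]
    exact mul_le_mul_of_nonneg_left (hp q (Finset.mem_univ _)) (norm_nonneg _)
  refine (le_of_mul_le_mul_right h3 hpos).trans ?_
  exact Finset.single_le_sum (f := fun p => ∑ q, ‖a p q‖)
    (fun p _ => Finset.sum_nonneg fun q _ => norm_nonneg _) (Finset.mem_univ p)

theorem eq_zero_of_coprime {a : Matrix n n ℂ} {x : Matrix n m ℂ} {f g : ℂ[X]}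
    (h : IsCoprime f g) (hf : aeval a f * x = 0) (hg : aeval a g * x = 0) : x = 0 := by
  obtain ⟨u, w, e⟩ := h
  have := congrArg (fun q => aeval a q * x) e
  simp only [map_add, map_mul, Matrix.add_mul, Matrix.mul_assoc, hf, hg, Matrix.mul_zero, add_zero,
    map_one, Matrix.one_mul] at this
  exact this.symm

end one

variable {I : Type} {v : I → ℕ}

/-- Families of square matrices. -/
abbrev En (v : I → ℕ) : Type := ∀ i, Matrix (Fin (v i)) (Fin (v i)) ℂ

/-- Indices of the eigenvalues. -/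
abbrev Cl (v : I → ℕ) : Type := Σ i, Fin (v i)

/-- `r` enumerates the eigenvalues of `ξ`. -/
def IsRt (ξ : En v) (r : Cl v → ℂ) : Prop := ∀ i, (ξ i).charpoly = ∏ p, (X - C (r ⟨i, p⟩))

theorem exists_isRt (ξ : En v) : ∃ r, IsRt ξ r := by
  choose r hr using fun i => exists_roots (ξ i)
  exact ⟨fun c => r c.1 c.2, hr⟩

/-- A choice of enumeration of the eigenvalues. -/
noncomputable def rt (ξ : En v) : Cl v → ℂ := (exists_isRt ξ).choose

theorem isRt_rt (ξ : En v) : IsRt ξ (rt ξ) := (exists_isRt ξ).choose_spec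

theorem IsRt.prod_at {ξ : En v} {r r' : Cl v → ℂ} (h : IsRt ξ r) (h' : IsRt ξ r') (i : I)
    {M : Type*} [CommMonoid M] (φ : ℂ → M) : ∏ p, φ (r ⟨i, p⟩) = ∏ p, φ (r' ⟨i, p⟩) :=
  prod_congr_roots ((h i).symm.trans (h' i)) φ

theorem IsRt.sum_at {ξ : En v} {r r' : Cl v → ℂ} (h : IsRt ξ r) (h' : IsRt ξ r') (i : I)
    {M : Type*} [AddCommMonoid M] (φ : ℂ → M) : ∑ p, φ (r ⟨i, p⟩) = ∑ p, φ (r' ⟨i, p⟩) :=
  h.prod_at h' i (M := Multiplicative M) φ

theorem IsRt.exists_eq {ξ : En v} {r r' : Cl v → ℂ} (h : IsRt ξ r) (h' : IsRt ξ r') (c : Cl v) :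
    ∃ p, r' ⟨c.1, p⟩ = r c := by
  have := h.prod_at h' c.1 (fun t => t - r c)
  rw [Finset.prod_eq_zero (Finset.mem_univ c.2) (sub_self _)] at this
  obtain ⟨p, -, hp⟩ := Finset.prod_eq_zero_iff.1 this.symm
  exact ⟨p, sub_eq_zero.1 hp⟩

theorem IsRt.range_eq {ξ : En v} {r r' : Cl v → ℂ} (h : IsRt ξ r) (h' : IsRt ξ r') :
    Set.range r = Set.range r' := by
  apply Set.Subset.antisymm
  · rintro _ ⟨c, rfl⟩
    obtain ⟨p, hp⟩ := h.exists_eq h' c
    exact ⟨_, hp⟩
  · rintro _ ⟨c, rfl⟩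
    obtain ⟨p, hp⟩ := h'.exists_eq h c
    exact ⟨_, hp⟩

theorem IsRt.conj {ξ : En v} {r : Cl v → ℂ} (hr : IsRt ξ r) {g h : En v} (hg : g * h = 1) :
    IsRt (g * ξ * h) r := fun i => by
  have : h i * g i = 1 := mul_eq_one_comm.1 (congrFun hg i)
  rw [Pi.mul_apply, Pi.mul_apply, charpoly_mul_comm, ← Matrix.mul_assoc, this, Matrix.one_mul,
    hr i]

theorem IsRt.aeval {ξ : En v} {r : Cl v → ℂ} (hr : IsRt ξ r) (g : ℂ[X]) :
    IsRt (fun i => aeval (ξ i) g) fun c => g.eval (r c) := fun i => charpoly_aeval (hr i) g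

theorem IsRt.smul {ξ : En v} {r : Cl v → ℂ} (hr : IsRt ξ r) (a : ℂ) :
    IsRt (a • ξ) fun c => a * r c := by
  have := hr.aeval (C a * X)
  simp only [map_mul, aeval_C, aeval_X, eval_mul, eval_C, eval_X, ← Algebra.smul_def] at this
  exact this

theorem IsRt.add_scalar {ξ : En v} {r : Cl v → ℂ} (hr : IsRt ξ r) (a : ℂ) :
    IsRt (ξ + a • 1) fun c => r c + a := by
  have := hr.aeval (X + C a)
  simp only [map_add, aeval_C, aeval_X, eval_add, eval_C, eval_X,
    Algebra.algebraMap_eq_smul_one] at this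
  exact this

theorem IsRt.trace {ξ : En v} {r : Cl v → ℂ} (hr : IsRt ξ r) (i : I) :
    (ξ i).trace = ∑ p, r ⟨i, p⟩ := trace_of_roots (hr i)

/-- The spectrum. -/
def spec (ξ : En v) : Set ℂ := Set.range (rt ξ)

theorem IsRt.spec_eq {ξ : En v} {r : Cl v → ℂ} (hr : IsRt ξ r) : spec ξ = Set.range r :=
  (isRt_rt ξ).range_eq hr

theorem mem_spec {ξ : En v} {t : ℂ} : t ∈ spec ξ ↔ ∃ i, (scalar _ t - ξ i).det = 0 := by
  constructor
  · rintro ⟨c, rfl⟩
    refine ⟨c.1, ?_⟩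
    rw [(charpoly_eq_iff _ _).1 (isRt_rt ξ c.1)]
    exact Finset.prod_eq_zero (Finset.mem_univ c.2) (sub_self _)
  · rintro ⟨i, hi⟩
    rw [(charpoly_eq_iff _ _).1 (isRt_rt ξ i)] at hi
    obtain ⟨p, -, hp⟩ := Finset.prod_eq_zero_iff.1 hi
    exact ⟨_, (sub_eq_zero.1 hp).symm⟩

theorem spec_conj (ξ : En v) {g h : En v} (hg : g * h = 1) : spec (g * ξ * h) = spec ξ :=
  ((isRt_rt ξ).conj hg).spec_eq

open Classical in
/-- The dimension vector of the part with eigenvalues in `A`. -/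
noncomputable def dimA (A : Set ℂ) (ξ : En v) (i : I) : ℕ :=
  ∑ p, if rt ξ ⟨i, p⟩ ∈ A then 1 else 0

open Classical in
theorem IsRt.dimA_eq {ξ : En v} {r : Cl v → ℂ} (hr : IsRt ξ r) (A : Set ℂ) (i : I) :
    dimA A ξ i = ∑ p, if r ⟨i, p⟩ ∈ A then 1 else 0 :=
  (isRt_rt ξ).sum_at hr i fun t => if t ∈ A then 1 else 0

theorem dimA_conj (A : Set ℂ) (ξ : En v) {g h : En v} (hg : g * h = 1) :
    dimA A (g * ξ * h) = dimA A ξ :=
  funext fun i => ((isRt_rt ξ).conj hg).dimA_eq A i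

theorem dimA_le (A : Set ℂ) (ξ : En v) (i : I) : dimA A ξ i ≤ v i := by
  classical
  unfold dimA
  refine (Finset.sum_le_sum (g := fun _ => 1) fun p _ => ?_).trans (by simp)
  split_ifs <;> simp

theorem dimA_eq_zero {A : Set ℂ} {ξ : En v} : dimA A ξ = 0 ↔ Disjoint (spec ξ) A := by
  classical
  rw [Set.disjoint_left]
  constructor
  · rintro h _ ⟨c, rfl⟩ hc
    have := Finset.sum_eq_zero_iff.1 (congrFun h c.1) c.2 (Finset.mem_univ _)
    rw [if_pos hc] at this
    exact one_ne_zero this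
  · intro h
    funext i
    exact Finset.sum_eq_zero fun p _ => if_neg (h ⟨_, rfl⟩)

theorem dimA_add_compl (A : Set ℂ) (ξ : En v) (i : I) : dimA A ξ i + dimA Aᶜ ξ i = v i := by
  classical
  unfold dimA
  rw [← Finset.sum_add_distrib]
  refine (Finset.sum_congr rfl (g := fun _ => 1) fun p _ => ?_).trans (by simp)
  by_cases h : rt ξ ⟨i, p⟩ ∈ A <;> simp [h]

theorem dimA_congr {A B : Set ℂ} {ξ : En v} (h : ∀ t ∈ spec ξ, t ∈ A ↔ t ∈ B) :
    dimA A ξ = dimA B ξ := by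
  funext i
  unfold dimA
  refine Finset.sum_congr rfl fun p _ => ?_
  rw [propext (h (rt ξ ⟨i, p⟩) ⟨⟨i, p⟩, rfl⟩)]

variable [Fintype I]

theorem IsRt.prod_eq {ξ : En v} {r r' : Cl v → ℂ} (h : IsRt ξ r) (h' : IsRt ξ r')
    {M : Type*} [CommMonoid M] (φ : ℂ → M) : ∏ c, φ (r c) = ∏ c, φ (r' c) := by
  rw [Fintype.prod_sigma, Fintype.prod_sigma]
  exact Finset.prod_congr rfl fun i _ => h.prod_at h' i φ

open Classical in
/-- The product of the `X - t` over the eigenvalues `t` in `A`. -/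
noncomputable def FA (A : Set ℂ) (ξ : En v) : ℂ[X] :=
  ∏ c, if rt ξ c ∈ A then X - C (rt ξ c) else 1

open Classical in
theorem IsRt.FA_eq {ξ : En v} {r : Cl v → ℂ} (hr : IsRt ξ r) (A : Set ℂ) :
    FA A ξ = ∏ c ∈ Finset.univ.filter (fun c => r c ∈ A), (X - C (r c)) := by
  rw [Finset.prod_filter]
  exact (isRt_rt ξ).prod_eq hr fun t => if t ∈ A then X - C t else 1

theorem FA_eval_eq_zero {A : Set ℂ} {ξ : En v} {t : ℂ} :
    (FA A ξ).eval t = 0 ↔ t ∈ spec ξ ∧ t ∈ A := by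
  classical
  rw [(isRt_rt ξ).FA_eq, eval_prod, Finset.prod_eq_zero_iff]
  constructor
  · rintro ⟨c, hc, h⟩
    have h1 : t = rt ξ c := by simpa [sub_eq_zero] using h
    exact h1 ▸ ⟨⟨c, rfl⟩, (Finset.mem_filter.1 hc).2⟩
  · rintro ⟨⟨c, rfl⟩, h⟩
    exact ⟨c, Finset.mem_filter.2 ⟨Finset.mem_univ _, h⟩, by simp⟩

theorem coprime_of_roots {f g : ℂ[X]} (h : ∀ t, f.eval t = 0 → g.eval t ≠ 0) : IsCoprime f g := by
  refine (isCoprime_iff_aeval_ne_zero_of_isAlgClosed ℂ ℂ f g).2 fun t => ?_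
  rw [coe_aeval_eq_eval]
  by_cases h1 : f.eval t = 0
  · exact Or.inr (h t h1)
  · exact Or.inl h1

theorem FA_coprime (A : Set ℂ) (ξ : En v) : IsCoprime (FA A ξ) (FA Aᶜ ξ) :=
  coprime_of_roots fun _ h h' => (FA_eval_eq_zero.1 h').2 (FA_eval_eq_zero.1 h).2

theorem aeval_FA_mul (A : Set ℂ) (ξ : En v) (i : I) :
    aeval (ξ i) (FA A ξ * FA Aᶜ ξ) = 0 := by
  classical
  have : FA A ξ * FA Aᶜ ξ = ∏ c, (X - C (rt ξ c)) := by
    unfold FA
    rw [← Finset.prod_mul_distrib]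
    refine Finset.prod_congr rfl fun c _ => ?_
    by_cases h : rt ξ c ∈ A <;> simp [h]
  rw [this, Fintype.prod_sigma, ← Finset.mul_prod_erase _ _ (Finset.mem_univ i), map_mul,
    ← isRt_rt ξ i, aeval_self_charpoly, zero_mul]

theorem FA_conj (A : Set ℂ) (ξ : En v) {g h : En v} (hg : g * h = 1) :
    FA A (g * ξ * h) = FA A ξ := by
  rw [((isRt_rt ξ).conj hg).FA_eq, (isRt_rt ξ).FA_eq]

/-- The spectral projector onto the part with eigenvalues in `A`. -/
noncomputable def prj (A : Set ℂ) (ξ : En v) : En v := fun i =>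
  aeval (ξ i) (FA Aᶜ ξ) * (aeval (ξ i) (FA A ξ + FA Aᶜ ξ))⁻¹

theorem det_FA_add (A : Set ℂ) (ξ : En v) (i : I) :
    (aeval (ξ i) (FA A ξ + FA Aᶜ ξ)).det ≠ 0 := by
  rw [det_aeval (isRt_rt ξ i), Finset.prod_ne_zero_iff]
  intro p _ h
  rw [eval_add] at h
  have hs : rt ξ ⟨i, p⟩ ∈ spec ξ := ⟨_, rfl⟩
  by_cases hA : rt ξ ⟨i, p⟩ ∈ A
  · rw [FA_eval_eq_zero.2 ⟨hs, hA⟩, zero_add] at h
    exact (FA_eval_eq_zero.1 h).2 hA
  · rw [(FA_eval_eq_zero (A := Aᶜ)).2 ⟨hs, hA⟩, add_zero] at h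
    exact hA (FA_eval_eq_zero.1 h).2

open Classical in
/-- The projector is a polynomial in `ξ`, the same for all vertices. -/
theorem exists_poly (A : Set ℂ) (ξ : En v) : ∃ a b : ℂ[X], a * FA A ξ + b * FA Aᶜ ξ = 1 ∧
    (∀ i, prj A ξ i = aeval (ξ i) (b * FA Aᶜ ξ)) ∧
    ∀ t ∈ spec ξ, (b * FA Aᶜ ξ).eval t = if t ∈ A then 1 else 0 := by
  obtain ⟨a, b, h⟩ := FA_coprime A ξ
  refine ⟨a, b, h, fun i => ?_, fun t ht => ?_⟩
  · have hu : IsUnit (aeval (ξ i) (FA A ξ + FA Aᶜ ξ)).det := (det_FA_add A ξ i).isUnit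
    have h1 : aeval (ξ i) (FA Aᶜ ξ) =
        aeval (ξ i) (b * FA Aᶜ ξ) * aeval (ξ i) (FA A ξ + FA Aᶜ ξ) := by
      rw [← map_mul]
      have : b * FA Aᶜ ξ * (FA A ξ + FA Aᶜ ξ) =
          FA Aᶜ ξ + (b - a) * (FA A ξ * FA Aᶜ ξ) := by
        linear_combination (FA Aᶜ ξ) * h
      rw [this, map_add, map_mul, aeval_FA_mul, mul_zero, add_zero]
    unfold prj
    rw [h1, Matrix.mul_nonsing_inv_cancel_right _ _ hu]
  · have h1 := congrArg (eval t) h
    rw [eval_add, eval_one] at h1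
    split_ifs with hA
    · rw [eval_mul, FA_eval_eq_zero.2 ⟨ht, hA⟩, mul_zero, zero_add] at h1
      exact h1
    · rw [eval_mul, (FA_eval_eq_zero (A := Aᶜ)).2 ⟨ht, hA⟩, mul_zero]

theorem FA_mul_prj (A : Set ℂ) (ξ : En v) (i : I) : aeval (ξ i) (FA A ξ) * prj A ξ i = 0 := by
  obtain ⟨a, b, -, h, -⟩ := exists_poly A ξ
  rw [h, ← map_mul, mul_left_comm, map_mul, aeval_FA_mul, mul_zero]

theorem FA_mul_one_sub_prj (A : Set ℂ) (ξ : En v) (i : I) :
    aeval (ξ i) (FA Aᶜ ξ) * (1 - prj A ξ i) = 0 := by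
  obtain ⟨a, b, e, h, -⟩ := exists_poly A ξ
  have : 1 - prj A ξ i = aeval (ξ i) (a * FA A ξ) := by
    rw [h, ← map_one (aeval (ξ i) : ℂ[X] →ₐ[ℂ] _), ← map_sub, ← e, add_sub_cancel_right]
  rw [this, ← map_mul, mul_left_comm, mul_comm (FA Aᶜ ξ), map_mul, aeval_FA_mul, mul_zero]

theorem prj_intertwine (A : Set ℂ) (ξ : En v) {i j : I} {x : Matrix (Fin (v i)) (Fin (v j)) ℂ}
    (h : ξ i * x = x * ξ j) : prj A ξ i * x = x * prj A ξ j := by
  obtain ⟨a, b, -, h1, -⟩ := exists_poly A ξ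
  rw [h1, h1]
  exact aeval_intertwine h _

theorem prj_comm (A : Set ℂ) (ξ : En v) : prj A ξ * ξ = ξ * prj A ξ :=
  funext fun _ => prj_intertwine A ξ rfl

theorem prj_idem (A : Set ℂ) (ξ : En v) : prj A ξ * prj A ξ = prj A ξ := by
  funext i
  obtain ⟨a, b, -, h1, -⟩ := exists_poly A ξ
  have := FA_mul_one_sub_prj A ξ i
  have h2 : prj A ξ i * (1 - prj A ξ i) = 0 := by
    nth_rw 1 [h1]
    rw [map_mul, Matrix.mul_assoc, this, Matrix.mul_zero]
  rw [Matrix.mul_sub, Matrix.mul_one, sub_eq_zero] at h2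
  exact h2.symm

/-- A map that kills the image of `ξ` kills the part of nonzero eigenvalues. -/
theorem mul_prj_eq_zero {A : Set ℂ} (hA : (0 : ℂ) ∉ A) (ξ : En v) {i : I} {m : Type} [Fintype m]
    [DecidableEq m] {x : Matrix m (Fin (v i)) ℂ} (h : x * ξ i = 0) : x * prj A ξ i = 0 := by
  have h1 := aeval_intertwine (a := (0 : Matrix m m ℂ)) (x := x * prj A ξ i) (b := ξ i) (by
    rw [Matrix.zero_mul, Matrix.mul_assoc, show prj A ξ i * ξ i = ξ i * prj A ξ i from
      congrFun (prj_comm A ξ) i, ← Matrix.mul_assoc, h, Matrix.zero_mul]) (FA A ξ)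
  have h2 : prj A ξ i * aeval (ξ i) (FA A ξ) = 0 := by
    rw [← FA_mul_prj A ξ i]
    exact (aeval_intertwine (congrFun (prj_comm A ξ) i).symm _).symm
  rw [Matrix.mul_assoc, h2, Matrix.mul_zero, ← coeff_zero_eq_aeval_zero', coeff_zero_eq_eval_zero,
    Algebra.algebraMap_eq_smul_one, Matrix.smul_mul, Matrix.one_mul] at h1
  exact (smul_eq_zero.1 h1).resolve_left fun h0 => hA (FA_eval_eq_zero.1 h0).2

/-- Characterization of the spectral projector. -/
theorem prj_unique {A : Set ℂ} {ξ P : En v} (hc : P * ξ = ξ * P) {f g : ℂ[X]}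
    (hf : ∀ t, f.eval t = 0 → t ∈ A) (hg : ∀ t, g.eval t = 0 → t ∉ A)
    (h1 : ∀ i, aeval (ξ i) f * P i = 0) (h2 : ∀ i, aeval (ξ i) g * (1 - P i) = 0) :
    prj A ξ = P := by
  funext i
  have c1 : ξ i * P i = P i * ξ i := (congrFun hc i).symm
  have c2 : ξ i * prj A ξ i = prj A ξ i * ξ i := (congrFun (prj_comm A ξ) i).symm
  have c3 : ξ i * (1 - prj A ξ i) = (1 - prj A ξ i) * ξ i := by
    rw [Matrix.mul_sub, Matrix.sub_mul, c2, Matrix.mul_one, Matrix.one_mul]
  have e1 : (1 - prj A ξ i) * P i = 0 := by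
    refine eq_zero_of_coprime (a := ξ i) (f := f) (g := FA Aᶜ ξ)
      (coprime_of_roots fun t h h' => (FA_eval_eq_zero.1 h').2 (hf t h)) ?_ ?_
    · rw [← Matrix.mul_assoc, aeval_intertwine c3, Matrix.mul_assoc, h1, Matrix.mul_zero]
    · rw [← Matrix.mul_assoc, FA_mul_one_sub_prj, Matrix.zero_mul]
  have e2 : prj A ξ i * (1 - P i) = 0 := by
    refine eq_zero_of_coprime (a := ξ i) (f := g) (g := FA A ξ)
      (coprime_of_roots fun t h h' => hg t h (FA_eval_eq_zero.1 h').2) ?_ ?_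
    · rw [← Matrix.mul_assoc, aeval_intertwine c2, Matrix.mul_assoc, h2, Matrix.mul_zero]
    · rw [← Matrix.mul_assoc, FA_mul_prj, Matrix.zero_mul]
  rw [Matrix.sub_mul, Matrix.one_mul, sub_eq_zero] at e1
  rw [Matrix.mul_sub, Matrix.mul_one, sub_eq_zero] at e2
  rw [e2, ← e1]

theorem prj_conj (A : Set ℂ) (ξ : En v) {g h : En v} (hg : g * h = 1) :
    prj A (g * ξ * h) = g * prj A ξ * h := by
  funext i
  have h0 : g i * h i = 1 := congrFun hg i
  have h1 : h i * g i = 1 := mul_eq_one_comm.1 h0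
  have key : ∀ q : ℂ[X], aeval ((g * ξ * h) i) q = g i * aeval (ξ i) q * h i := fun q => by
    have := aeval_intertwine (a := (g * ξ * h) i) (b := ξ i) (x := g i) (by
      rw [Pi.mul_apply, Pi.mul_apply, Matrix.mul_assoc, h1, Matrix.mul_one]) q
    rw [← this, Matrix.mul_assoc, h0, Matrix.mul_one]
  unfold prj
  rw [FA_conj A ξ hg, FA_conj Aᶜ ξ hg, key, key, Pi.mul_apply, Pi.mul_apply, Matrix.mul_inv_rev,
    Matrix.mul_inv_rev, Matrix.inv_eq_left_inv h0, Matrix.inv_eq_left_inv h1]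
  simp only [Matrix.mul_assoc]
  rw [← Matrix.mul_assoc (h i) (g i), h1, Matrix.one_mul]

theorem prj_congr {A B : Set ℂ} {ξ : En v} (h : ∀ t ∈ spec ξ, t ∈ A ↔ t ∈ B) :
    prj A ξ = prj B ξ := by
  have key : ∀ {A B : Set ℂ}, (∀ t ∈ spec ξ, t ∈ A ↔ t ∈ B) → FA A ξ = FA B ξ := by
    intro A B h
    unfold FA
    refine Finset.prod_congr rfl fun c _ => ?_
    rw [propext (h (rt ξ c) ⟨c, rfl⟩)]
  unfold prj
  rw [key h, key (A := Aᶜ) (B := Bᶜ) fun t ht => not_congr (h t ht)]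

theorem prj_compl (A : Set ℂ) (ξ : En v) : prj Aᶜ ξ = 1 - prj A ξ := by
  refine prj_unique (f := FA Aᶜ ξ) (g := FA A ξ) ?_ (fun t h => (FA_eval_eq_zero.1 h).2)
    (fun t h h' => h' (FA_eval_eq_zero.1 h).2) (fun i => FA_mul_one_sub_prj A ξ i) fun i => ?_
  · rw [sub_mul, mul_sub, prj_comm, one_mul, mul_one]
  · rw [Pi.sub_apply, Pi.one_apply, sub_sub_cancel, FA_mul_prj]

open Classical in
theorem IsRt.prj {ξ : En v} {r : Cl v → ℂ} (hr : IsRt ξ r) (A : Set ℂ) :
    IsRt (prj A ξ) fun c => if r c ∈ A then 1 else 0 := by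
  obtain ⟨a, b, -, h1, h2⟩ := exists_poly A ξ
  have := hr.aeval (b * FA Aᶜ ξ)
  have e : (fun c => (b * FA Aᶜ ξ).eval (r c)) = fun c => if r c ∈ A then 1 else 0 :=
    funext fun c => h2 _ (hr.spec_eq ▸ ⟨c, rfl⟩)
  rwa [← funext h1, e] at this

theorem trace_prj (A : Set ℂ) (ξ : En v) (i : I) : (prj A ξ i).trace = dimA A ξ i := by
  rw [((isRt_rt ξ).prj A).trace, dimA]
  simp

open Classical in
/-- The eigenvalues after translating the part in `A`. -/
theorem IsRt.translate {ξ : En v} {r : Cl v → ℂ} (hr : IsRt ξ r) (A : Set ℂ) (t : ℂ) :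
    IsRt (ξ + t • Sp.prj A ξ) fun c => r c + if r c ∈ A then t else 0 := by
  obtain ⟨a, b, -, h1, h2⟩ := exists_poly A ξ
  have := hr.aeval (X + C t * (b * FA Aᶜ ξ))
  have e1 : (fun i => Polynomial.aeval (ξ i) (X + C t * (b * FA Aᶜ ξ))) = ξ + t • Sp.prj A ξ := by
    funext i
    rw [map_add, aeval_X, map_mul, aeval_C, ← h1, ← Algebra.smul_def]
    rfl
  have e2 : (fun c => (X + C t * (b * FA Aᶜ ξ)).eval (r c)) =
      fun c => r c + if r c ∈ A then t else 0 := by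
    funext c
    rw [eval_add, eval_X, eval_mul, eval_C, h2 _ (hr.spec_eq ▸ ⟨c, rfl⟩)]
    simp
  rwa [e1, e2] at this

/-- The projector does not change when the part in `A` is translated inside `A`. -/
theorem prj_translate {A : Set ℂ} {ξ : En v} {t : ℂ} (h : ∀ s ∈ spec ξ, s ∈ A → s + t ∈ A) :
    prj A (ξ + t • prj A ξ) = prj A ξ := by
  have hc := prj_comm A ξ
  have hi := prj_idem A ξ
  refine prj_unique (f := (FA A ξ).comp (X - C t)) (g := FA Aᶜ ξ) ?_ (fun s hs => ?_)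
    (fun s hs => (FA_eval_eq_zero.1 hs).2) (fun i => ?_) fun i => ?_
  · rw [mul_add, add_mul, hc, mul_smul_comm, smul_mul_assoc]
  · rw [eval_comp, eval_sub, eval_X, eval_C] at hs
    obtain ⟨h1, h2⟩ := FA_eval_eq_zero.1 hs
    simpa using h _ h1 h2
  · have hc' : prj A ξ i * ξ i = ξ i * prj A ξ i := congrFun hc i
    have hi' : prj A ξ i * prj A ξ i = prj A ξ i := congrFun hi i
    rw [aeval_comp, aeval_intertwine (b := ξ i), ← aeval_intertwine hc'.symm, FA_mul_prj]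
    rw [map_sub, aeval_X, aeval_C, Pi.add_apply, Pi.smul_apply, Algebra.algebraMap_eq_smul_one,
      Matrix.sub_mul, Matrix.add_mul, Matrix.smul_mul, Matrix.smul_mul, hi', Matrix.one_mul, hc',
      add_sub_cancel_right]
  · have hc' : prj A ξ i * ξ i = ξ i * prj A ξ i := congrFun hc i
    have hi' : prj A ξ i * prj A ξ i = prj A ξ i := congrFun hi i
    have c3 : ξ i * (1 - prj A ξ i) = (1 - prj A ξ i) * ξ i := by
      rw [Matrix.mul_sub, Matrix.sub_mul, hc', Matrix.mul_one, Matrix.one_mul]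
    rw [aeval_intertwine (b := ξ i), ← aeval_intertwine c3, FA_mul_one_sub_prj]
    rw [Pi.add_apply, Pi.smul_apply, Matrix.add_mul, c3, Matrix.smul_mul, Matrix.mul_sub,
      Matrix.mul_one, hi', sub_self, smul_zero, add_zero]

end Vale.Agent.P291Z.Sp
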