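import Vale.Agent.P291Z.Sp0

/-!
# Spectral projectors of families of matrices: continuity
-/

set_option linter.unusedSectionVars false

namespace Vale.Agent.P291Z.Sp

open Matrix Polynomial Filter Topology

variable {I : Type} {v : I → ℕ} [Fintype I]

theorem firstCountable_En (v : I → ℕ) : FirstCountableTopology (En v) :=
  inferInstanceAs (FirstCountableTopology (∀ i, Fin (v i) → Fin (v i) → ℂ))

theorem isClosed_isRt : IsClosed {p : En v × (Cl v → ℂ) | IsRt p.1 p.2} := by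
  have e : {p : En v × (Cl v → ℂ) | IsRt p.1 p.2} = ⋂ i, ⋂ t : ℂ,
      {p : En v × (Cl v → ℂ) | (scalar _ t - p.1 i).det = ∏ q, (t - p.2 ⟨i, q⟩)} := by
    ext p
    simp only [IsRt, charpoly_eq_iff, Set.mem_ofPred_eq, Set.mem_iInter]
  rw [e]
  refine isClosed_iInter fun i => isClosed_iInter fun t => isClosed_eq ?_ (by fun_prop)
  exact (continuous_const.sub ((continuous_apply i).comp continuous_fst)).matrix_det

theorem norm_rt_le (ξ : En v) : ‖rt ξ‖ ≤ ∑ i, ∑ p, ∑ q, ‖ξ i p q‖ := by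
  have h0 : ∀ i, 0 ≤ ∑ p, ∑ q, ‖ξ i p q‖ := fun i =>
    Finset.sum_nonneg fun p _ => Finset.sum_nonneg fun q _ => norm_nonneg _
  refine (pi_norm_le_iff_of_nonneg (Finset.sum_nonneg fun i _ => h0 i)).2 fun c => ?_
  refine (norm_root_le (a := ξ c.1) ?_).trans
    (Finset.single_le_sum (fun i _ => h0 i) (Finset.mem_univ c.1))
  rw [(charpoly_eq_iff _ _).1 (isRt_rt ξ c.1)]
  exact Finset.prod_eq_zero (Finset.mem_univ c.2) (sub_self _)

/-- Upper semicontinuity of the enumerations of the eigenvalues. -/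
theorem eventually_rt (ξ₀ : En v) (P : En v × (Cl v → ℂ) → Prop)
    (h : ∀ r₀, IsRt ξ₀ r₀ → ∀ᶠ p in 𝓝 (ξ₀, r₀), P p) : ∀ᶠ ξ in 𝓝 ξ₀, P (ξ, rt ξ) := by
  have := firstCountable_En v
  by_contra hc
  rw [Filter.not_eventually] at hc
  obtain ⟨x, hx, hP⟩ := exists_seq_forall_of_frequently hc
  have hc : Continuous fun ξ : En v => ∑ i, ∑ p, ∑ q, ‖ξ i p q‖ := by
    refine continuous_finsetSum _ fun i _ => continuous_finsetSum _ fun p _ =>
      continuous_finsetSum _ fun q _ => ?_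
    exact ((continuous_apply i).matrix_elem p q).norm
  have hb : ∃ M : ℝ, ∀ n, ∑ i, ∑ p, ∑ q, ‖x n i p q‖ ≤ M := by
    obtain ⟨M, hM⟩ := ((hc.tendsto ξ₀).comp hx).bddAbove_range
    exact ⟨M, fun n => hM (Set.mem_range_self n)⟩
  obtain ⟨M, hM⟩ := hb
  have hb : ∀ n, rt (x n) ∈ Metric.closedBall (0 : Cl v → ℂ) M := fun n =>
    mem_closedBall_zero_iff.2 ((norm_rt_le (x n)).trans (hM n))
  obtain ⟨r₀, -, φ, hφ, hlim⟩ := (isCompact_closedBall (0 : Cl v → ℂ) M).tendsto_subseq hb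
  have h1 : Tendsto (fun n => (x (φ n), rt (x (φ n)))) atTop (𝓝 (ξ₀, r₀)) :=
    Tendsto.prodMk_nhds (f := atTop) (mx := fun n => x (φ n)) (my := fun n => rt (x (φ n)))
      (hx.comp hφ.tendsto_atTop) hlim
  have h2 : (ξ₀, r₀) ∈ {p : En v × (Cl v → ℂ) | IsRt p.1 p.2} :=
    isClosed_isRt.mem_of_tendsto h1 (Eventually.of_forall fun n => isRt_rt (x (φ n)))
  obtain ⟨n, hn⟩ := (h1.eventually (h r₀ h2)).exists
  exact hP (φ n) hn

theorem eventually_mem {O : Set ℂ} (hO : IsOpen O) (ξ₀ : En v) (r₀ : Cl v → ℂ) :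
    ∀ᶠ p : En v × (Cl v → ℂ) in 𝓝 (ξ₀, r₀), ∀ c, r₀ c ∈ O → p.2 c ∈ O := by
  refine eventually_all.2 fun c => ?_
  by_cases h : r₀ c ∈ O
  · have : Continuous fun p : En v × (Cl v → ℂ) => p.2 c := by fun_prop
    exact (this.continuousAt.eventually (hO.mem_nhds h)).mono fun p hp _ => hp
  · exact Eventually.of_forall fun p hp => absurd hp h

/-- Lower semicontinuity of the dimension of the part in an open set. -/
theorem eventually_le_dimA {O : Set ℂ} (hO : IsOpen O) (ξ₀ : En v) :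
    ∀ᶠ ξ in 𝓝 ξ₀, dimA O ξ₀ ≤ dimA O ξ := by
  classical
  refine eventually_rt ξ₀ (fun p => ∀ i, dimA O ξ₀ i ≤ ∑ q, if p.2 ⟨i, q⟩ ∈ O then 1 else 0)
    fun r₀ h₀ => (eventually_mem hO ξ₀ r₀).mono fun p hp i => ?_
  rw [h₀.dimA_eq]
  refine Finset.sum_le_sum fun q _ => ?_
  split_ifs with h1 h2
  · exact le_rfl
  · exact absurd (hp _ h1) h2
  · exact Nat.zero_le _
  · exact le_rfl

theorem isOpen_le_dimA {O : Set ℂ} (hO : IsOpen O) (d : I → ℕ) :
    IsOpen {ξ : En v | d ≤ dimA O ξ} :=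
  isOpen_iff_mem_nhds.2 fun ξ₀ h => (eventually_le_dimA hO ξ₀).mono fun _ h' => le_trans h h'

/-- The total dimension of the part with eigenvalues in `A`. -/
noncomputable def tot (A : Set ℂ) (ξ : En v) : ℕ := ∑ i, dimA A ξ i

open Classical in
theorem IsRt.tot_eq {ξ : En v} {r : Cl v → ℂ} (hr : IsRt ξ r) (A : Set ℂ) :
    tot A ξ = (Finset.univ.filter fun c => r c ∈ A).card := by
  rw [Finset.card_filter, Fintype.sum_sigma]
  exact Finset.sum_congr rfl fun i _ => hr.dimA_eq A i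

theorem tot_le (A : Set ℂ) (ξ : En v) : tot A ξ ≤ ∑ i, v i :=
  Finset.sum_le_sum fun i _ => dimA_le A ξ i

theorem tot_eq_zero {A : Set ℂ} {ξ : En v} : tot A ξ = 0 ↔ Disjoint (spec ξ) A := by
  rw [← dimA_eq_zero, tot, Finset.sum_eq_zero_iff]
  exact ⟨fun h => funext fun i => h i (Finset.mem_univ _), fun h i _ => congrFun h i⟩

theorem tot_conj (A : Set ℂ) (ξ : En v) {g h : En v} (hg : g * h = 1) :
    tot A (g * ξ * h) = tot A ξ := by
  rw [tot, tot, dimA_conj A ξ hg]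

theorem isOpen_le_tot {O : Set ℂ} (hO : IsOpen O) (n : ℕ) : IsOpen {ξ : En v | n ≤ tot O ξ} :=
  isOpen_iff_mem_nhds.2 fun ξ₀ h => (eventually_le_dimA hO ξ₀).mono fun _ h' =>
    le_trans h (Finset.sum_le_sum fun i _ => h' i)

theorem isClosed_tot_le {O : Set ℂ} (hO : IsOpen O) (n : ℕ) :
    IsClosed {ξ : En v | tot O ξ ≤ n} := by
  rw [← isOpen_compl_iff]
  have e : {ξ : En v | tot O ξ ≤ n}ᶜ = {ξ : En v | n + 1 ≤ tot O ξ} := by
    ext ξ
    simp only [Set.mem_compl_iff, Set.mem_ofPred_eq]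
    omega
  rw [e]
  exact isOpen_le_tot hO _

theorem isClosed_spec_subset {K : Set ℂ} (hK : IsClosed K) :
    IsClosed {ξ : En v | spec ξ ⊆ K} := by
  have e : {ξ : En v | spec ξ ⊆ K} = {ξ : En v | tot Kᶜ ξ ≤ 0} := by
    ext ξ
    simp only [Set.mem_ofPred_eq, Nat.le_zero, tot_eq_zero, Set.disjoint_compl_right_iff_subset]
  rw [e]
  exact isClosed_tot_le hK.isOpen_compl 0

theorem isOpen_spec_subset {O : Set ℂ} (hO : IsOpen O) : IsOpen {ξ : En v | spec ξ ⊆ O} := by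
  refine isOpen_iff_mem_nhds.2 fun ξ₀ h => ?_
  refine (eventually_rt ξ₀ (fun p => ∀ c, p.2 c ∈ O) fun r₀ h₀ =>
    (eventually_mem hO ξ₀ r₀).mono fun p hp c => hp c (h ?_)).mono ?_
  · rw [h₀.spec_eq]; exact ⟨c, rfl⟩
  · rintro ξ hξ _ ⟨c, rfl⟩
    exact hξ c

open Classical in
/-- Continuity on the strata where the dimension of the part in the open set `O` is constant. -/
theorem continuousOn_stratum {O : Set ℂ} (hO : IsOpen O) (n : ℕ) {Y : Type*} [TopologicalSpace Y]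
    (φ : En v → Y) (Φ : Finset (Cl v) → En v × (Cl v → ℂ) → Y)
    (h1 : ∀ ξ r, IsRt ξ r → φ ξ = Φ (Finset.univ.filter fun c => r c ∈ O) (ξ, r))
    (h2 : ∀ ξ r, IsRt ξ r → ContinuousAt (Φ (Finset.univ.filter fun c => r c ∈ O)) (ξ, r)) :
    ContinuousOn φ {ξ | tot O ξ = n} := by
  intro ξ₀ h₀ V hV
  rw [mem_map, mem_nhdsWithin_iff_eventually]
  refine (eventually_rt ξ₀ (fun p => (Finset.univ.filter fun c => p.2 c ∈ O).card = n →
    Φ (Finset.univ.filter fun c => p.2 c ∈ O) p ∈ V) fun r₀ hr₀ => ?_).mono fun ξ hξ hn => ?_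
  · rw [h1 _ _ hr₀] at hV
    refine ((eventually_mem hO ξ₀ r₀).and ((h2 _ _ hr₀).eventually hV)).mono fun p hp hn => ?_
    have e : (Finset.univ.filter fun c => r₀ c ∈ O) = Finset.univ.filter fun c => p.2 c ∈ O := by
      refine Finset.eq_of_subset_of_card_le (fun c hc => ?_) ?_
      · exact Finset.mem_filter.2 ⟨Finset.mem_univ _, hp.1 c (Finset.mem_filter.1 hc).2⟩
      · rw [hn, ← hr₀.tot_eq, h₀]
    rw [← e]
    exact hp.2
  · rw [Set.mem_preimage, h1 _ _ (isRt_rt ξ)]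
    exact hξ (((isRt_rt ξ).tot_eq O).symm.trans hn)

theorem continuous_aeval_prod (S : Finset (Cl v)) (i : I) :
    Continuous fun p : En v × (Cl v → ℂ) => aeval (p.1 i) (∏ c ∈ S, (X - C (p.2 c))) := by
  classical
  induction S using Finset.induction_on with
  | empty => simpa using continuous_const
  | insert c S hc ih =>
    simp only [Finset.prod_insert hc, map_mul, map_sub, aeval_X, aeval_C,
      Algebra.algebraMap_eq_smul_one]
    refine Continuous.matrix_mul (Continuous.sub ?_ ?_) ih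
    · exact (continuous_apply i).comp continuous_fst
    · exact ((continuous_apply c).comp continuous_snd).smul continuous_const

theorem continuousOn_prj {O : Set ℂ} (hO : IsOpen O) (n : ℕ) :
    ContinuousOn (prj O) {ξ : En v | tot O ξ = n} := by
  classical
  have key : ∀ (ξ : En v) r, IsRt ξ r → FA Oᶜ ξ =
      ∏ c ∈ (Finset.univ.filter fun c => r c ∈ O)ᶜ, (X - C (r c)) := fun ξ r hr => by
    rw [hr.FA_eq, Finset.compl_filter]
    refine Finset.prod_congr ?_ fun _ _ => rfl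
    ext c
    simp
  refine continuousOn_stratum hO n _ (fun S p i => aeval (p.1 i) (∏ c ∈ Sᶜ, (X - C (p.2 c))) *
    (aeval (p.1 i) (∏ c ∈ S, (X - C (p.2 c))) + aeval (p.1 i) (∏ c ∈ Sᶜ, (X - C (p.2 c))))⁻¹)
    (fun ξ r hr => ?_) fun ξ r hr => ?_
  · funext i
    unfold prj
    rw [map_add, hr.FA_eq O, key ξ r hr]
  · refine continuousAt_pi.2 fun i => ?_
    have hc := (continuous_aeval_prod (Finset.univ.filter fun c => r c ∈ O) i).add
      (continuous_aeval_prod (Finset.univ.filter fun c => r c ∈ O)ᶜ i)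
    have hinv : ContinuousAt (fun p : En v × (Cl v → ℂ) =>
        (aeval (p.1 i) (∏ c ∈ (Finset.univ.filter fun c => r c ∈ O), (X - C (p.2 c))) +
          aeval (p.1 i) (∏ c ∈ (Finset.univ.filter fun c => r c ∈ O)ᶜ, (X - C (p.2 c))))⁻¹)
        (ξ, r) := by
      refine ContinuousAt.comp (g := Inv.inv) (continuousAt_matrix_inv _ ?_) hc.continuousAt
      have h0 := det_FA_add O ξ i
      rw [map_add, hr.FA_eq O, key ξ r hr] at h0
      rw [Ring.inverse_eq_inv']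
      exact continuousAt_inv₀ h0
    exact (continuous_aeval_prod (Finset.univ.filter fun c => r c ∈ O)ᶜ i).continuousAt.mul hinv

theorem continuousOn_dimA {O : Set ℂ} (hO : IsOpen O) (n : ℕ) :
    ContinuousOn (dimA O) {ξ : En v | tot O ξ = n} := by
  classical
  refine continuousOn_stratum hO n _ (fun S _ i => ∑ p, if (⟨i, p⟩ : Cl v) ∈ S then 1 else 0)
    (fun ξ r hr => ?_) fun ξ r _ => continuousAt_const
  funext i
  rw [hr.dimA_eq]
  simp

/-- The maximum of `φ` on the eigenvalues in `A`. -/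
noncomputable def mx (A : Set ℂ) (φ : ℂ → ℝ) (ξ : En v) : ℝ := sSup (φ '' (spec ξ ∩ A))

theorem continuousOn_mx {O : Set ℂ} (hO : IsOpen O) (n : ℕ) {φ : ℂ → ℝ} (hφ : Continuous φ) :
    ContinuousOn (mx O φ) {ξ : En v | tot O ξ = n} := by
  classical
  refine continuousOn_stratum hO n _
    (fun S p => if h : S.Nonempty then S.sup' h (fun c => φ (p.2 c)) else 0)
    (fun ξ r hr => ?_) fun ξ r _ => ?_
  · have e : φ '' (spec ξ ∩ O) =
        (fun c => φ (r c)) '' (Finset.univ.filter fun c => r c ∈ O : Finset (Cl v)) := by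
      rw [hr.spec_eq]
      ext y
      constructor
      · rintro ⟨_, ⟨⟨c, rfl⟩, hc⟩, rfl⟩
        exact ⟨c, by simpa using hc, rfl⟩
      · rintro ⟨c, hc, rfl⟩
        exact ⟨r c, ⟨⟨c, rfl⟩, by simpa using hc⟩, rfl⟩
    unfold mx
    rw [e]
    split_ifs with h
    · exact (Finset.sup'_eq_csSup_image _ h _).symm
    · rw [Finset.not_nonempty_iff_eq_empty.1 h]
      simp
  · split_ifs with h
    · exact (Continuous.finset_sup'_apply h fun c _ =>
        hφ.comp ((continuous_apply c).comp continuous_snd)).continuousAt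
    · exact continuousAt_const

theorem finite_spec (ξ : En v) : (spec ξ).Finite := Set.finite_range _

theorem le_mx {A : Set ℂ} (φ : ℂ → ℝ) {ξ : En v} {t : ℂ} (h : t ∈ spec ξ) (hA : t ∈ A) :
    φ t ≤ mx A φ ξ :=
  le_csSup (((finite_spec ξ).inter_of_left A).image φ).bddAbove ⟨t, ⟨h, hA⟩, rfl⟩

theorem exists_mx {A : Set ℂ} (φ : ℂ → ℝ) {ξ : En v} (h : tot A ξ ≠ 0) :
    ∃ t ∈ spec ξ, t ∈ A ∧ φ t = mx A φ ξ := by
  rw [Ne, tot_eq_zero, Set.not_disjoint_iff_nonempty_inter] at h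
  obtain ⟨t, ht, e⟩ := (h.image φ).csSup_mem (((finite_spec ξ).inter_of_left A).image φ)
  exact ⟨t, ht.1, ht.2, e⟩

theorem mx_eq {A : Set ℂ} {φ : ℂ → ℝ} {ξ : En v} {a : ℝ} (h1 : ∃ t ∈ spec ξ, t ∈ A ∧ φ t = a)
    (h2 : ∀ t ∈ spec ξ, t ∈ A → φ t ≤ a) : mx A φ ξ = a := by
  obtain ⟨t, ht, hA, e⟩ := h1
  refine IsGreatest.csSup_eq ⟨⟨t, ⟨ht, hA⟩, e⟩, ?_⟩
  rintro _ ⟨s, hs, rfl⟩
  exact h2 s hs.1 hs.2

theorem mx_conj (A : Set ℂ) (φ : ℂ → ℝ) (ξ : En v) {g h : En v} (hg : g * h = 1) :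
    mx A φ (g * ξ * h) = mx A φ ξ := by
  rw [mx, mx, spec_conj ξ hg]

variable {T : Type*} [TopologicalSpace T]

theorem continuous_prj {O : Set ℂ} (hO : IsOpen O) {n : ℕ} {ξ : T → En v} (hξ : Continuous ξ)
    (h : ∀ τ, tot O (ξ τ) = n) : Continuous fun τ => prj O (ξ τ) :=
  (continuousOn_prj hO n).comp_continuous hξ h

theorem continuous_dimA {O : Set ℂ} (hO : IsOpen O) {n : ℕ} {ξ : T → En v} (hξ : Continuous ξ)
    (h : ∀ τ, tot O (ξ τ) = n) : Continuous fun τ => dimA O (ξ τ) :=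
  (continuousOn_dimA hO n).comp_continuous hξ h

theorem continuous_mx {O : Set ℂ} (hO : IsOpen O) {n : ℕ} {φ : ℂ → ℝ} (hφ : Continuous φ)
    {ξ : T → En v} (hξ : Continuous ξ) (h : ∀ τ, tot O (ξ τ) = n) :
    Continuous fun τ => mx O φ (ξ τ) :=
  (continuousOn_mx hO n hφ).comp_continuous hξ h

theorem tot_univ (ξ : En v) : tot Set.univ ξ = ∑ i, v i := by
  refine Finset.sum_congr rfl fun i _ => ?_
  simp [dimA]

theorem continuous_mx_univ {φ : ℂ → ℝ} (hφ : Continuous φ) :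
    Continuous (mx Set.univ φ : En v → ℝ) :=
  continuous_mx isOpen_univ hφ continuous_id tot_univ

/-! ### Translation of a part -/

theorem spec_translate (A : Set ℂ) (ξ : En v) (t s : ℂ) :
    s ∈ spec (ξ + t • prj A ξ) ↔ (s - t ∈ spec ξ ∧ s - t ∈ A) ∨ (s ∈ spec ξ ∧ s ∉ A) := by
  classical
  rw [((isRt_rt ξ).translate A t).spec_eq]
  constructor
  · rintro ⟨c, rfl⟩
    by_cases h : rt ξ c ∈ A
    · left
      simp only [h, if_true, add_sub_cancel_right, and_true]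
      exact ⟨c, rfl⟩
    · right
      simp only [h, if_false, add_zero, not_false_eq_true, and_true]
      exact ⟨c, rfl⟩
  · rintro (⟨⟨c, hc⟩, h⟩ | ⟨⟨c, hc⟩, h⟩)
    · exact ⟨c, by simp only [hc, h, if_true, sub_add_cancel]⟩
    · exact ⟨c, by simp only [hc, h, if_false, add_zero]⟩

theorem dimA_translate {A B : Set ℂ} {ξ : En v} {t : ℂ}
    (h : ∀ s ∈ spec ξ, s ∈ A → (s + t ∈ B ↔ s ∈ B)) : dimA B (ξ + t • prj A ξ) = dimA B ξ := by
  classical
  funext i
  rw [((isRt_rt ξ).translate A t).dimA_eq, dimA]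
  refine Finset.sum_congr rfl fun p _ => ?_
  by_cases hA : rt ξ ⟨i, p⟩ ∈ A
  · simp only [hA, if_true, h _ ⟨_, rfl⟩ hA]
  · simp only [hA, if_false, add_zero]

theorem trace_translate (A : Set ℂ) (ξ : En v) (t : ℂ) (i : I) :
    ((ξ + t • prj A ξ) i).trace = (ξ i).trace + t * dimA A ξ i := by
  rw [Pi.add_apply, Pi.smul_apply, trace_add, trace_smul, trace_prj, smul_eq_mul]

theorem translate_translate {A : Set ℂ} {ξ : En v} {t : ℂ} (h : ∀ s ∈ spec ξ, s ∈ A → s + t ∈ A)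
    (t' : ℂ) : (ξ + t • prj A ξ) + t' • prj A (ξ + t • prj A ξ) = ξ + (t + t') • prj A ξ := by
  rw [prj_translate h, add_smul, add_assoc]

theorem mx_translate {A : Set ℂ} {ξ : En v} {t : ℂ} (h : ∀ s ∈ spec ξ, s ∈ A → s + t ∈ A)
    (h0 : tot A ξ ≠ 0) {φ : ℂ → ℝ} {a : ℝ} (hφ : ∀ s, φ (s + t) = φ s + a) :
    mx A φ (ξ + t • prj A ξ) = mx A φ ξ + a := by
  obtain ⟨s, hs, hA, e⟩ := exists_mx φ h0
  refine mx_eq ⟨s + t, (spec_translate A ξ t _).2 (Or.inl ?_), h s hs hA, by rw [hφ, e]⟩ ?_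
  · rw [add_sub_cancel_right]; exact ⟨hs, hA⟩
  · intro u hu huA
    rcases (spec_translate A ξ t u).1 hu with ⟨h1, h2⟩ | ⟨-, h2⟩
    · have := le_mx φ h1 h2
      have h3 := hφ (u - t)
      rw [sub_add_cancel] at h3
      linarith
    · exact absurd huA h2

theorem spec_smul (ξ : En v) (a : ℂ) : spec (a • ξ) = (fun s => a * s) '' spec ξ := by
  rw [((isRt_rt ξ).smul a).spec_eq, spec, ← Set.range_comp]
  rfl

theorem spec_subset_zero_iff {ξ : En v} : spec ξ ⊆ {0} ↔ ∀ i, ξ i ^ v i = 0 := by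
  constructor
  · intro h i
    have h1 := aeval_self_charpoly (ξ i)
    rw [isRt_rt ξ i, Finset.prod_congr rfl (g := fun _ => X) fun p _ => by
      rw [show rt ξ ⟨i, p⟩ = 0 from h ⟨_, rfl⟩, C_0, sub_zero]] at h1
    simpa using h1
  · rintro h _ ⟨c, rfl⟩
    have h1 := det_aeval (isRt_rt ξ c.1) (X ^ v c.1 - C (rt ξ c ^ v c.1))
    rw [map_sub, map_pow, aeval_X, h, aeval_C, zero_sub,
      Finset.prod_eq_zero (Finset.mem_univ c.2) (by simp), Algebra.algebraMap_eq_smul_one,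
      ← neg_smul, det_smul, det_one, mul_one] at h1
    exact pow_eq_zero_iff'.1 (neg_eq_zero.1 (pow_eq_zero_iff'.1 h1).1) |>.1

end Vale.Agent.P291Z.Sp
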