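import Vale.Agent.P291Z.AS2
import Vale.Agent.P291Z.Chain

set_option linter.all false

/-!
# Degrees, homogeneous components, cut-off operators, the prism operator, graded commutativity
-/

namespace Vale.Agent.P291Z

open Topology Set Filter

variable {X Y Z : Type}

/-! ### degrees -/

/-- the cochains of degree `k` -/
def degS (X : Type) (k : ℤ) : Submodule ℂ (Coch X) where
  carrier := {a | IsDeg k a}
  zero_mem' := fun _ _ => rfl
  add_mem' := fun {a b} ha hb l hl => by
    rw [Coch.add_val, Pi.add_apply, ha l hl, hb l hl, add_zero]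
  smul_mem' := fun c a ha l hl => by rw [Coch.smul_val, Pi.smul_apply, ha l hl, smul_zero]

theorem mem_degS {k : ℤ} {a : Coch X} : a ∈ degS X k ↔ IsDeg k a := Iff.rfl

theorem isDeg_zero (k : ℤ) : IsDeg k (0 : Coch X) := (degS X k).zero_mem

theorem IsDeg.add {k : ℤ} {a b : Coch X} (ha : IsDeg k a) (hb : IsDeg k b) : IsDeg k (a + b) :=
  (degS X k).add_mem ha hb

theorem IsDeg.sub {k : ℤ} {a b : Coch X} (ha : IsDeg k a) (hb : IsDeg k b) : IsDeg k (a - b) :=
  (degS X k).sub_mem ha hb

theorem IsDeg.neg {k : ℤ} {a : Coch X} (ha : IsDeg k a) : IsDeg k (-a) := (degS X k).neg_mem ha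

theorem IsDeg.smul {k : ℤ} {a : Coch X} (c : ℂ) (ha : IsDeg k a) : IsDeg k (c • a) :=
  (degS X k).smul_mem c ha

theorem IsDeg.sum {ι : Type*} {k : ℤ} {s : Finset ι} {a : ι → Coch X}
    (ha : ∀ i ∈ s, IsDeg k (a i)) : IsDeg k (∑ i ∈ s, a i) := (degS X k).sum_mem ha

theorem IsDeg.cast {k k' : ℤ} {a : Coch X} (ha : IsDeg k a) (h : k = k') : IsDeg k' a := h ▸ ha

theorem IsDeg.eq_zero {k : ℤ} {a : Coch X} (ha : IsDeg k a) (hk : k < 0) : a = 0 :=
  Coch.ext fun l => by
    cases l with
    | nil => exact a.2.1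
    | cons x l => exact ha _ (by simp only [List.length_cons]; omega)

theorem IsDeg.δ {k : ℤ} {a : Coch X} (ha : IsDeg k a) : IsDeg (k + 1) (δ a) := fun l hl => by
  rw [δ_val]
  unfold cob
  refine Finset.sum_eq_zero fun i hi => ?_
  have h2 := Finset.mem_range.1 hi
  rw [ha, mul_zero]
  rw [List.length_eraseIdx_of_lt h2]
  omega

theorem IsDeg.mul {p q : ℤ} {a b : Coch X} (ha : IsDeg p a) (hb : IsDeg q b) :
    IsDeg (p + q) (a * b) := fun l hl => by
  rw [Coch.mul_val]
  unfold cup
  refine Finset.sum_eq_zero fun i hi => ?_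
  have h2 := Finset.mem_range.1 hi
  by_cases h : (i : ℤ) = p
  · rw [hb (l.drop i), mul_zero]
    rw [List.length_drop]
    omega
  · rw [ha, zero_mul]
    rw [List.length_take]
    omega

theorem isDeg_one : IsDeg 0 (1 : Coch X) := fun l hl => by
  rw [Coch.one_val]
  unfold unit
  rw [if_neg (by omega)]

theorem IsDeg.pull {k : ℤ} {a : Coch Y} (ha : IsDeg k a) (f : X → Y) : IsDeg k (pull f a) :=
  fun l hl => ha _ (by simpa using hl)

theorem IsDeg.par {k : ℤ} {a : Coch X} (ha : IsDeg k a) : IsDeg k (par a) := fun l hl => by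
  rw [par_val, ha l hl, mul_zero]

theorem IsDeg.par_eq {k : ℤ} {a : Coch X} (ha : IsDeg k a) : P291Z.par a = ((-1 : ℂ) ^ k) • a :=
  Coch.ext fun l => by
    rw [par_val, Coch.smul_val, Pi.smul_apply, smul_eq_mul]
    by_cases h : (l.length : ℤ) = k + 1
    · congr 1
      rw [← zpow_natCast, Nat.cast_add, h, Nat.cast_one, add_assoc, zpow_add₀ (by norm_num)]
      norm_num
    · rw [ha l h, mul_zero, mul_zero]

theorem IsDeg.prod {k : ℤ} : ∀ {L : List (Coch X)}, (∀ a ∈ L, IsDeg k a) →
    IsDeg (L.length * k) L.prod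
  | [], _ => by simpa using isDeg_one
  | a :: L, h => by
    rw [List.prod_cons]
    exact ((h a (by simp)).mul (IsDeg.prod fun b hb => h b (by simp [hb]))).cast (by
      simp only [List.length_cons]; push_cast; ring)

/-- the value of a product of homogeneous cochains -/
theorem mul_val_of_isDeg {p : ℕ} {a : Coch X} (ha : IsDeg p a) (b : Coch X) (l : List X)
    (hl : p < l.length) : (a * b).1 l = a.1 (l.take (p + 1)) * b.1 (l.drop p) := by
  rw [Coch.mul_val]
  unfold cup
  refine Finset.sum_eq_single_of_mem p (Finset.mem_range.2 hl) fun i hi h => ?_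
  have h2 := Finset.mem_range.1 hi
  rw [ha, zero_mul]
  rw [List.length_take]
  omega

/-- the component of degree `k` -/
noncomputable def comp (k : ℤ) : Coch X →ₗ[ℂ] Coch X where
  toFun a := ⟨fun l => if (l.length : ℤ) = k + 1 then a.1 l else 0, by
    obtain ⟨h0, N, hN⟩ := a.2
    exact ⟨by simp [h0], N, fun l hl => by simp [hN l hl]⟩⟩
  map_add' a b := Coch.ext fun l => by
    change (if _ then (a.1 l + b.1 l) else 0) = (if _ then _ else _) + if _ then _ else _
    split_ifs <;> simp
  map_smul' c a := Coch.ext fun l => by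
    change (if _ then c * a.1 l else 0) = c * if _ then _ else _
    split_ifs <;> simp

theorem comp_val (k : ℤ) (a : Coch X) (l : List X) :
    (comp k a).1 l = if (l.length : ℤ) = k + 1 then a.1 l else 0 := rfl

theorem isDeg_comp (k : ℤ) (a : Coch X) : IsDeg k (comp k a) := fun l hl => by
  rw [comp_val, if_neg hl]

theorem IsDeg.comp_eq {k : ℤ} {a : Coch X} (ha : IsDeg k a) : comp k a = a := Coch.ext fun l => by
  rw [comp_val]
  split_ifs with h
  · rfl
  · exact (ha l h).symm

theorem IsDeg.comp_ne {k j : ℤ} {a : Coch X} (ha : IsDeg k a) (h : j ≠ k) : comp j a = 0 :=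
  Coch.ext fun l => by
    rw [comp_val]
    split_ifs with h'
    · exact ha l (by omega)
    · rfl

theorem comp_pull (k : ℤ) (f : X → Y) (a : Coch Y) : comp k (pull f a) = pull f (comp k a) :=
  Coch.ext fun l => by simp [comp_val, pull_val]

theorem Coch.sum_val {ι : Type*} (s : Finset ι) (a : ι → Coch X) (l : List X) :
    (∑ i ∈ s, a i).1 l = ∑ i ∈ s, (a i).1 l := by
  classical
  induction s using Finset.induction_on with
  | empty => rfl
  | insert i s hi ih => rw [Finset.sum_insert hi, Finset.sum_insert hi, ← ih]; rfl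

/-- a cochain is the sum of its components -/
theorem exists_sum_comp (a : Coch X) :
    ∃ N : ℕ, ∀ M, N ≤ M → ∑ k ∈ Finset.range M, comp (k : ℤ) a = a := by
  obtain ⟨h0, N, hN⟩ := a.2
  refine ⟨N, fun M hM => Coch.ext fun l => ?_⟩
  rw [Coch.sum_val]
  simp only [comp_val]
  by_cases h : a.1 l = 0
  · simp [h]
  · have h1 : l.length ≤ N := by
      by_contra h'
      exact h (hN l (by omega))
    have h2 : l.length ≠ 0 := fun h' => h (by rw [List.length_eq_zero_iff.1 h']; exact h0)
    rw [Finset.sum_eq_single_of_mem (l.length - 1) (Finset.mem_range.2 (by omega))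
      fun b _ hb => if_neg (by omega), if_pos (by omega)]

theorem comp_δ (k : ℤ) (a : Coch X) : comp (k + 1) (δ a) = δ (comp k a) := by
  obtain ⟨N, hN⟩ := exists_sum_comp a
  conv_lhs => rw [← hN (N + k.toNat + 1) (by omega), map_sum, map_sum]
  by_cases hk : k < 0
  · rw [(isDeg_comp k a).eq_zero hk, map_zero]
    exact Finset.sum_eq_zero fun j _ => (isDeg_comp j a).δ.comp_ne (by omega)
  · rw [Finset.sum_eq_single_of_mem k.toNat (Finset.mem_range.2 (by omega))
      fun j _ hj => (isDeg_comp j a).δ.comp_ne (by omega), Int.toNat_of_nonneg (by omega),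
      (isDeg_comp k a).δ.comp_eq]

theorem comp_δ' (k : ℤ) (a : Coch X) : comp k (δ a) = δ (comp (k - 1) a) := by
  rw [← comp_δ, sub_add_cancel]

theorem comp_mul_right {q : ℤ} {t : Coch X} (ht : IsDeg q t) (k : ℤ) (a : Coch X) :
    comp (k + q) (a * t) = comp k a * t := by
  obtain ⟨N, hN⟩ := exists_sum_comp a
  conv_lhs => rw [← hN (N + k.toNat + 1) (by omega), Finset.sum_mul, map_sum]
  by_cases hk : k < 0
  · rw [(isDeg_comp k a).eq_zero hk, zero_mul]
    exact Finset.sum_eq_zero fun j _ => ((isDeg_comp j a).mul ht).comp_ne (by omega)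
  · rw [Finset.sum_eq_single_of_mem k.toNat (Finset.mem_range.2 (by omega))
      fun j _ hj => ((isDeg_comp j a).mul ht).comp_ne (by omega), Int.toNat_of_nonneg (by omega),
      ((isDeg_comp k a).mul ht).comp_eq]

theorem comp_mul_left {q : ℤ} {t : Coch X} (ht : IsDeg q t) (k : ℤ) (a : Coch X) :
    comp (q + k) (t * a) = t * comp k a := by
  obtain ⟨N, hN⟩ := exists_sum_comp a
  conv_lhs => rw [← hN (N + k.toNat + 1) (by omega), Finset.mul_sum, map_sum]
  by_cases hk : k < 0
  · rw [(isDeg_comp k a).eq_zero hk, mul_zero]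
    exact Finset.sum_eq_zero fun j _ => (ht.mul (isDeg_comp j a)).comp_ne (by omega)
  · rw [Finset.sum_eq_single_of_mem k.toNat (Finset.mem_range.2 (by omega))
      fun j _ hj => (ht.mul (isDeg_comp j a)).comp_ne (by omega), Int.toNat_of_nonneg (by omega),
      (ht.mul (isDeg_comp k a)).comp_eq]

/-- induction over the components -/
theorem Coch.induction_comp {P : Coch X → Prop} (a : Coch X) (h0 : P 0)
    (hadd : ∀ b c, P b → P c → P (b + c)) (h : ∀ k : ℤ, P (comp k a)) : P a := by
  obtain ⟨N, hN⟩ := exists_sum_comp a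
  rw [← hN N le_rfl]
  exact Finset.sum_induction _ P hadd h0 fun k _ => h k

/-! ### cut-off -/

open Classical in
/-- multiplication by the indicator function of `S` (of the first point) -/
noncomputable def cut (S : Set X) : Coch X →ₗ[ℂ] Coch X where
  toFun a := ⟨fun l => if ∃ x ∈ l.head?, x ∈ S then a.1 l else 0, by
    obtain ⟨h0, N, hN⟩ := a.2
    exact ⟨by simp, N, fun l hl => by simp [hN l hl]⟩⟩
  map_add' a b := Coch.ext fun l => by
    change (if _ then (a.1 l + b.1 l) else 0) = (if _ then _ else _) + if _ then _ else _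
    split_ifs <;> simp
  map_smul' c a := Coch.ext fun l => by
    change (if _ then c * a.1 l else 0) = c * if _ then _ else _
    split_ifs <;> simp

open Classical in
theorem cut_val (S : Set X) (a : Coch X) (l : List X) :
    (cut S a).1 l = if ∃ x ∈ l.head?, x ∈ S then a.1 l else 0 := rfl

theorem cut_cons_mem {S : Set X} (a : Coch X) {x : X} (hx : x ∈ S) (l : List X) :
    (cut S a).1 (x :: l) = a.1 (x :: l) := by
  rw [cut_val, if_pos ⟨x, rfl, hx⟩]

theorem cut_cons_notMem {S : Set X} (a : Coch X) {x : X} (hx : x ∉ S) (l : List X) :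
    (cut S a).1 (x :: l) = 0 := by
  rw [cut_val, if_neg]
  rintro ⟨y, hy, h⟩
  cases hy
  exact hx h

theorem IsDeg.cut {k : ℤ} {a : Coch X} (ha : IsDeg k a) (S : Set X) : IsDeg k (cut S a) :=
  fun l hl => by
    rw [cut_val, ha l hl, ite_self]

theorem pull_cut (f : X → Y) (S : Set Y) (a : Coch Y) :
    pull f (cut S a) = cut (f ⁻¹' S) (pull f a) := Coch.ext fun l => by
  cases l with
  | nil => exact ((pull f (cut S a)).2.1).trans (cut (f ⁻¹' S) (pull f a)).2.1.symm
  | cons x l =>
    by_cases hx : f x ∈ S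
    · rw [cut_cons_mem _ (show x ∈ f ⁻¹' S from hx), pull_val, pull_val, List.map_cons,
        cut_cons_mem _ hx]
    · rw [cut_cons_notMem _ (show x ∉ f ⁻¹' S from hx), pull_val, List.map_cons,
        cut_cons_notMem _ hx]

/-! ### operators induced by chain homotopies -/

open Chn

theorem cob_eq_lin (a : List X → ℂ) (l : List X) : cob a l = lin a (bd0 l) := by
  induction l generalizing a with
  | nil => simp [cob_nil, bd0]
  | cons x l ih => rw [cob_cons, bd0, map_sub, lin_one, lin_cone, ih]

theorem lin_cob (a : List X → ℂ) (c : Ch X) : lin (cob a) c = lin a (bd c) := by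
  rw [bd, map_lin]
  congr 2
  funext l
  exact cob_eq_lin a l

/-- the operator on cochains dual to a map of chains which raises the length by one -/
noncomputable def hop (h : List X → Ch Y) (h0 : h [] = 0)
    (hl : ∀ l, h l ∈ On fun m => m.length = l.length + 1) : Coch Y →ₗ[ℂ] Coch X where
  toFun a := ⟨fun l => lin a.1 (h l), by
    obtain ⟨-, N, hN⟩ := a.2
    exact ⟨by simp [h0], N, fun l hl' => lin_eq_zero (hl l) fun m hm => hN m (by omega)⟩⟩
  map_add' a b := Coch.ext fun l => lin_add a.1 b.1 (h l)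
  map_smul' c a := Coch.ext fun l => lin_smul c a.1 (h l)

section hop

variable {h : List X → Ch Y} {h0 : h [] = 0} {hl : ∀ l, h l ∈ On fun m => m.length = l.length + 1}

theorem hop_val (a : Coch Y) (l : List X) : (hop h h0 hl a).1 l = lin a.1 (h l) := rfl

theorem hop_deg {k : ℤ} {a : Coch Y} (ha : IsDeg k a) : IsDeg (k - 1) (hop h h0 hl a) :=
  fun l hl' => lin_eq_zero (hl l) fun m hm => ha m (by omega)

theorem hop_δ (a : Coch Y) (l : List X) :
    (δ (hop h h0 hl a) + hop h h0 hl (δ a)).1 l = lin a.1 (bd (h l) + lin h (bd0 l)) := by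
  rw [Coch.add_val, Pi.add_apply, hop_val, δ_val, δ_val, lin_cob, cob_eq_lin, map_add, add_comm,
    map_lin (lin a.1) h]
  rfl

end hop

/-- the chain homotopy between two maps -/
noncomputable def prismCh (f g : X → Y) : List X → Ch Y := (prism f g).choose

theorem prismCh_spec (f g : X → Y) : prismCh f g [] = 0 ∧
    (∀ l, bd (prismCh f g l) + lin (prismCh f g) (bd0 l) =
      Finsupp.single (l.map g) 1 - Finsupp.single (l.map f) 1) ∧
    ∀ l, prismCh f g l ∈ On fun m => m.length = l.length + 1 ∧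
      ∀ y ∈ m, ∃ x ∈ l, y = f x ∨ y = g x := (prism f g).choose_spec

/-- **The prism operator** of two arbitrary maps. -/
noncomputable def prismOp (f g : X → Y) : Coch Y →ₗ[ℂ] Coch X :=
  hop (prismCh f g) (prismCh_spec f g).1 fun l => On.mono ((prismCh_spec f g).2.2 l) fun _ h => h.1

theorem prismOp_deg (f g : X → Y) {k : ℤ} {a : Coch Y} (ha : IsDeg k a) :
    IsDeg (k - 1) (prismOp f g a) := hop_deg ha

theorem prismOp_δ (f g : X → Y) (a : Coch Y) :
    δ (prismOp f g a) + prismOp f g (δ a) = pull g a - pull f a := Coch.ext fun l => by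
  rw [prismOp, hop_δ, (prismCh_spec f g).2.1, map_sub, lin_one, lin_one]
  rfl

theorem prismOp_val_eq_zero (f g : X → Y) {a : Coch Y} {V : Set Y}
    (hV : ∀ m : List Y, (∀ y ∈ m, y ∈ V) → a.1 m = 0) {l : List X}
    (hl : ∀ x ∈ l, f x ∈ V ∧ g x ∈ V) : (prismOp f g a).1 l = 0 :=
  lin_eq_zero ((prismCh_spec f g).2.2 l) fun m hm => hV m fun y hy => by
    obtain ⟨x, hx, rfl | rfl⟩ := hm.2 y hy
    · exact (hl x hx).1
    · exact (hl x hx).2

/-- the chain homotopy between the reversal and the identity -/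
noncomputable def revCh (X : Type) : List X → Ch X := (reversal (X := X)).choose

theorem revCh_spec (X : Type) : revCh X [] = 0 ∧
    (∀ l, bd (revCh X l) + lin (revCh X) (bd0 l) =
      eps l.length • Finsupp.single l.reverse 1 - Finsupp.single l 1) ∧
    ∀ l, revCh X l ∈ On fun m => m.length = l.length + 1 ∧ ∀ y ∈ m, y ∈ l :=
  (reversal (X := X)).choose_spec

/-- the homotopy between the reversal and the identity -/
noncomputable def revOp : Coch X →ₗ[ℂ] Coch X :=
  hop (revCh X) (revCh_spec X).1 fun l => On.mono ((revCh_spec X).2.2 l) fun _ h => h.1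

/-- the reversal -/
noncomputable def rev : Coch X →ₗ[ℂ] Coch X := LinearMap.id + δ ∘ₗ revOp + revOp ∘ₗ δ

theorem rev_eq (a : Coch X) : rev a = a + (δ (revOp a) + revOp (δ a)) := add_assoc _ _ _

theorem rev_val (a : Coch X) (l : List X) : (rev a).1 l = eps l.length * a.1 l.reverse := by
  rw [rev_eq, Coch.add_val, Pi.add_apply, revOp, hop_δ, (revCh_spec X).2.1, map_sub, map_smul,
    lin_one, lin_one, zsmul_eq_mul]
  ring

theorem revOp_deg {k : ℤ} {a : Coch X} (ha : IsDeg k a) : IsDeg (k - 1) (revOp a) := hop_deg ha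

theorem rev_deg {k : ℤ} {a : Coch X} (ha : IsDeg k a) : IsDeg k (rev a) := fun l hl => by
  rw [rev_val, ha _ (by simpa using hl), mul_zero]

theorem δ_rev (a : Coch X) : δ (rev a) = rev (δ a) := by
  rw [rev_eq, rev_eq, map_add, map_add, δ_δ, δ_δ, map_zero, zero_add, add_zero]

theorem rev_mul {p q : ℤ} {a b : Coch X} (ha : IsDeg p a) (hb : IsDeg q b) :
    rev (a * b) = ((-1 : ℂ) ^ (p * q)) • (rev b * rev a) := by
  by_cases hp : p < 0
  · rw [ha.eq_zero hp]; simp
  by_cases hq : q < 0
  · rw [hb.eq_zero hq]; simp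
  lift p to ℕ using by omega
  lift q to ℕ using by omega
  refine Coch.ext fun l => ?_
  by_cases hl : l.length = p + q + 1
  · rw [rev_val, mul_val_of_isDeg ha b _ (by rw [List.length_reverse]; omega), Coch.smul_val,
      Pi.smul_apply, mul_val_of_isDeg (rev_deg hb) _ _ (by omega), rev_val, rev_val,
      List.length_take, List.length_drop, hl, eps_add, List.take_reverse, List.drop_reverse,
      hl, show p + q + 1 - (p + 1) = q by omega, show p + q + 1 - p = q + 1 by omega,
      show min (q + 1) (p + q + 1) = q + 1 by omega, show p + q + 1 - q = p + 1 by omega,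
      ← Nat.cast_mul, zpow_natCast, smul_eq_mul]
    push_cast
    ring
  · rw [rev_deg (ha.mul hb) l (by omega),
      (((rev_deg hb).mul (rev_deg ha)).smul _) l (by omega)]

/-! ### supports -/

section top

variable [TopologicalSpace X] [TopologicalSpace Y]

/-- the cochains which vanish near `x` -/
def Van (x : X) : Submodule ℂ (Coch X) where
  carrier := {a | x ∉ supp a}
  zero_mem' := by
    show x ∉ supp 0
    rw [supp_zero]
    exact notMem_empty x
  add_mem' := fun ha hb h => (supp_add _ _ h).elim ha hb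
  smul_mem' := fun c _ ha h => ha (supp_smul c _ h)

theorem mem_Van {x : X} {a : Coch X} : a ∈ Van x ↔ x ∉ supp a := Iff.rfl

theorem Van.δ {x : X} {a : Coch X} (h : a ∈ Van x) : δ a ∈ Van x := fun h' => h (supp_δ a h')

theorem Van.par {x : X} {a : Coch X} (h : a ∈ Van x) : par a ∈ Van x := fun h' => h (supp_par a h')

theorem Van.mul_right {x : X} {a : Coch X} (h : a ∈ Van x) (b : Coch X) : a * b ∈ Van x :=
  fun h' => h (supp_mul a b h').1

theorem Van.mul_left {x : X} {b : Coch X} (h : b ∈ Van x) (a : Coch X) : a * b ∈ Van x :=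
  fun h' => h (supp_mul a b h').2

theorem Van.pull {f : X → Y} {x : X} (hf : ContinuousAt f x) {a : Coch Y} (h : a ∈ Van (f x)) :
    pull f a ∈ Van x := supp_pull_at hf h

theorem supp_eq_empty {a : Coch X} : supp a = ∅ ↔ ∀ x, a ∈ Van x := eq_empty_iff_forall_notMem

theorem eventually_van {x : X} {a : Coch X} (h : a ∈ Van x) : ∀ᶠ y in 𝓝 x, a ∈ Van y :=
  (isClosed_supp a).isOpen_compl.mem_nhds h

/-- a cochain which vanishes wherever `a` vanishes -/
theorem Van.of_imp {x : X} {a b : Coch X} (h : a ∈ Van x) (hab : ∀ l, a.1 l = 0 → b.1 l = 0) :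
    b ∈ Van x := by
  obtain ⟨U, hU, h1⟩ := notMem_supp.1 h
  exact notMem_supp.2 ⟨U, hU, fun l hl => hab l (h1 l hl)⟩

theorem Van.comp {x : X} {a : Coch X} (h : a ∈ Van x) (k : ℤ) : comp k a ∈ Van x :=
  Van.of_imp h fun l hl => by rw [comp_val, hl, ite_self]

theorem supp_comp (k : ℤ) (a : Coch X) : supp (comp k a) ⊆ supp a :=
  fun _ hx => by_contra fun h => Van.comp h k hx

theorem Van.of_comp {x : X} {a : Coch X} (h : ∀ k, P291Z.comp k a ∈ Van x) : a ∈ Van x :=
  a.induction_comp (P := fun b => b ∈ Van x) (Van x).zero_mem (fun _ _ => (Van x).add_mem) h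

theorem supp_sum {ι : Type*} (s : Finset ι) (a : ι → Coch X) :
    supp (∑ i ∈ s, a i) ⊆ ⋃ i ∈ s, supp (a i) := fun x hx => by
  by_contra h
  simp only [mem_iUnion, not_exists] at h
  exact (Van x).sum_mem (fun i hi => h i hi) hx

theorem Van.cut {x : X} {a : Coch X} (h : a ∈ Van x) (S : Set X) : cut S a ∈ Van x :=
  Van.of_imp h fun l hl => by rw [cut_val, hl, ite_self]

theorem cut_in {S : Set X} {x : X} (hS : S ∈ 𝓝 x) (a : Coch X) : a - cut S a ∈ Van x :=
  notMem_supp.2 ⟨S, hS, fun l hl => by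
    cases l with
    | nil => exact (a - cut S a).2.1
    | cons y l => rw [Coch.sub_val, Pi.sub_apply, cut_cons_mem _ (hl y (by simp)), sub_self]⟩

theorem cut_out {S : Set X} {x : X} (hS : Sᶜ ∈ 𝓝 x) (a : Coch X) : cut S a ∈ Van x :=
  notMem_supp.2 ⟨Sᶜ, hS, fun l hl => by
    cases l with
    | nil => exact (cut S a).2.1
    | cons y l => exact cut_cons_notMem _ (hl y (by simp)) _⟩

theorem supp_cut (S : Set X) (a : Coch X) : supp (cut S a) ⊆ closure S ∩ supp a := fun x hx =>
  ⟨by_contra fun h => cut_out (mem_of_superset (isClosed_closure.isOpen_compl.mem_nhds h)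
    (compl_subset_compl.2 subset_closure)) a hx, by_contra fun h => Van.cut h S hx⟩

/-- the prism operator at a point where the two maps agree and are continuous -/
theorem Van.prismOp {f g : X → Y} {x : X} (hf : ContinuousAt f x) (hg : ContinuousAt g x)
    (hfg : f x = g x) {a : Coch Y} (h : a ∈ Van (f x)) : prismOp f g a ∈ Van x := by
  obtain ⟨V, hV, h1⟩ := notMem_supp.1 h
  exact notMem_supp.2 ⟨f ⁻¹' V ∩ g ⁻¹' V, inter_mem (hf hV) (hg (hfg ▸ hV)), fun l hl =>
    prismOp_val_eq_zero f g h1 hl⟩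

theorem Van.revOp {x : X} {a : Coch X} (h : a ∈ Van x) : revOp a ∈ Van x := by
  obtain ⟨V, hV, h1⟩ := notMem_supp.1 h
  exact notMem_supp.2 ⟨V, hV, fun l hl => lin_eq_zero ((revCh_spec X).2.2 l) fun m hm =>
    h1 m fun y hy => hl y (hm.2 y hy)⟩

theorem Van.rev {x : X} {a : Coch X} (h : a ∈ Van x) : rev a ∈ Van x := by
  rw [rev_eq]
  exact (Van x).add_mem h ((Van x).add_mem (Van.δ (Van.revOp h)) (Van.revOp (Van.δ h)))

/-- **Graded commutativity with supports.** -/
theorem exists_comm {p q : ℤ} {a b : Coch X} (ha : IsDeg p a) (hb : IsDeg q b) :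
    ∃ c, IsDeg (p + q - 1) c ∧ supp c ⊆ supp a ∩ supp b ∧
      supp (a * b - ((-1 : ℂ) ^ (p * q)) • (b * a) - δ c) ⊆
        (supp (δ a) ∩ supp b) ∪ (supp a ∩ supp (δ b)) := by
  set s : ℂ := (-1) ^ (p * q) with hs
  refine ⟨s • (revOp b * rev a + par b * revOp a) - revOp (a * b), ?_, ?_, ?_⟩
  · exact (((((revOp_deg hb).mul (rev_deg ha)).cast (by ring)).add
      ((hb.par.mul (revOp_deg ha)).cast (by ring))).smul s).sub (revOp_deg (ha.mul hb))
  · intro x hx
    constructor
    · by_contra h
      exact (Van x).sub_mem ((Van x).smul_mem s ((Van x).add_mem (Van.mul_left (Van.rev h) _)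
        (Van.mul_left (Van.revOp h) _))) (Van.revOp (Van.mul_right h _)) hx
    · by_contra h
      exact (Van x).sub_mem ((Van x).smul_mem s ((Van x).add_mem (Van.mul_right (Van.revOp h) _)
        (Van.mul_right (Van.par h) _))) (Van.revOp (Van.mul_left h _)) hx
  · have e : a * b - s • (b * a) - δ (s • (revOp b * rev a + par b * revOp a) - revOp (a * b)) =
        s • (revOp (δ b) * rev a + b * revOp (δ a) - par (revOp b) * rev (δ a) +
          par (δ b) * revOp a) - revOp (δ a * b + par a * δ b) := by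
      have e1 : a * b = s • (rev b * rev a) - δ (revOp (a * b)) -
          revOp (δ a * b + par a * δ b) := by
        rw [← rev_mul ha hb, rev_eq, δ_mul]
        abel
      have e2 : rev b * rev a = b * a + (δ (revOp b) + revOp (δ b)) * rev a +
          b * (δ (revOp a) + revOp (δ a)) := by
        conv_lhs => rw [rev_eq b, add_mul]
        conv_lhs => enter [1]; rw [rev_eq a, mul_add]
        abel
      rw [map_sub, map_smul, map_add, δ_mul, δ_mul, δ_rev, par_par, δ_par]
      conv_lhs => enter [1, 1]; rw [e1, e2]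
      simp only [add_mul, mul_add, smul_add, smul_sub, neg_mul, smul_neg]
      abel
    rw [e]
    intro x hx
    by_contra h
    rw [mem_union, not_or, mem_inter_iff, mem_inter_iff, not_and_or, not_and_or] at h
    have key : ∀ u v : Coch X, (u ∈ Van x ∨ v ∈ Van x) → u * v ∈ Van x := fun u v h =>
      h.elim (fun h => Van.mul_right h v) fun h => Van.mul_left h u
    refine (Van x).sub_mem ((Van x).smul_mem s ((Van x).add_mem ((Van x).sub_mem
      ((Van x).add_mem (key _ _ ?_) (key _ _ ?_)) (key _ _ ?_)) (key _ _ ?_)))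
      (Van.revOp ((Van x).add_mem (key _ _ h.1) (key _ _ ?_))) hx
    · exact h.2.symm.imp Van.revOp Van.rev
    · exact h.1.symm.imp id Van.revOp
    · exact h.1.symm.imp (fun h => Van.par (Van.revOp h)) Van.rev
    · exact h.2.symm.imp Van.par Van.revOp
    · exact h.2.imp Van.par id

end top

end Vale.Agent.P291Z
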