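import Vale.Agent.P291Z.T9

set_option linter.all false

/-!
# Cohomology with compact supports of half spaces and of Euclidean spaces; the class `tau`
-/

namespace Vale.Agent.P291Z

open Topology Set Filter TopologicalSpace unitInterval

variable {X Y : Type}

/-! ### cochains of degree zero -/

/-- the cochain of degree zero given by a function -/
noncomputable def fn (f : X → ℂ) : Coch X :=
  ⟨fun l => match l with
    | [x] => f x
    | _ => 0, rfl, 1, fun l hl => by
      match l, hl with
      | _ :: _ :: _, _ => rfl⟩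

theorem fn_val (f : X → ℂ) (x : X) : (fn f).1 [x] = f x := rfl

theorem isDeg_fn (f : X → ℂ) : IsDeg 0 (fn f) := fun l hl => by
  match l, hl with
  | [], _ => rfl
  | [_], h => exact absurd rfl h
  | _ :: _ :: _, _ => rfl

theorem IsDeg.ext_zero {a b : Coch X} (ha : IsDeg 0 a) (hb : IsDeg 0 b)
    (h : ∀ x, a.1 [x] = b.1 [x]) : a = b := Coch.ext fun l => by
  match l with
  | [] => rw [a.2.1, b.2.1]
  | [x] => exact h x
  | _ :: _ :: _ => rw [ha _ (by simp; omega), hb _ (by simp; omega)]

theorem IsDeg.eq_fn {a : Coch X} (ha : IsDeg 0 a) : a = fn fun x => a.1 [x] :=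
  ha.ext_zero (isDeg_fn _) fun _ => rfl

theorem pull_fn (g : X → Y) (f : Y → ℂ) : pull g (fn f) = fn (f ∘ g) :=
  ((isDeg_fn f).pull g).ext_zero (isDeg_fn _) fun _ => rfl

theorem fn_sub (f g : X → ℂ) : fn (f - g) = fn f - fn g :=
  (isDeg_fn _).ext_zero ((isDeg_fn f).sub (isDeg_fn g)) fun _ => rfl

theorem fn_add (f g : X → ℂ) : fn (f + g) = fn f + fn g :=
  (isDeg_fn _).ext_zero ((isDeg_fn f).add (isDeg_fn g)) fun _ => rfl

theorem fn_one : fn (fun _ : X => 1) = 1 :=
  (isDeg_fn _).ext_zero isDeg_one fun _ => by simp [fn_val, Coch.one_val, unit]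

theorem fn_const (c : ℂ) : fn (fun _ : X => c) = c • 1 :=
  (isDeg_fn _).ext_zero (isDeg_one.smul c) fun _ => by
    simp [fn_val, Coch.smul_val, Coch.one_val, unit]

variable [TopologicalSpace X] [TopologicalSpace Y]

theorem IsDeg.van_one {a : Coch X} (ha : IsDeg 1 a) {x : X} {U : Set X} (hU : U ∈ 𝓝 x)
    (h : ∀ y ∈ U, ∀ z ∈ U, a.1 [y, z] = 0) : a ∈ Van x :=
  notMem_supp.2 ⟨U, hU, fun l hl => by
    match l, hl with
    | [], _ => exact a.2.1
    | [_], _ => exact ha _ (by simp)
    | [y, z], hl => exact h y (hl y (by simp)) z (hl z (by simp))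
    | _ :: _ :: _ :: _, _ => exact ha _ (by simp; omega)⟩

theorem fn_van {f : X → ℂ} {x : X} : fn f ∈ Van x ↔ ∀ᶠ y in 𝓝 x, f y = 0 := by
  constructor
  · intro h
    exact (eventually_van h).mono fun y hy => Van.val_single hy
  · intro h
    refine notMem_supp.2 ⟨_, h, fun l hl => ?_⟩
    match l, hl with
    | [], _ => rfl
    | [y], hl => exact hl y (by simp)
    | _ :: _ :: _, _ => rfl

theorem δ_fn_van {f : X → ℂ} {x : X} : δ (fn f) ∈ Van x ↔ ∀ᶠ y in 𝓝 x, f y = f x := by
  constructor
  · intro h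
    obtain ⟨U, hU, h1⟩ := notMem_supp.1 h
    filter_upwards [hU] with y hy
    have := h1 [x, y] (by simpa using ⟨mem_of_mem_nhds hU, hy⟩)
    rwa [δ_val_pair, fn_val, fn_val, sub_eq_zero] at this
  · intro h
    exact IsDeg.van_one (isDeg_fn f).δ h fun y hy z hz => by
      rw [δ_val_pair, fn_val, fn_val, hy, hz, sub_self]

/-! ### homotopies and compact supports -/

theorem cls_pull_eq_of_homotopy [MetrizableSpace X] [LocallyCompactSpace X] {h : I × X → Y}
    (hh : Continuous h) {a : Coch Y} (ha : supp (δ a) = ∅) (hc : IsCompact (h ⁻¹' supp a))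
    {f g : X → Y} (h0 : ∀ x, h (0, x) = f x) (h1 : ∀ x, h (1, x) = g x) :
    cls (pull f a) = cls (pull g a) := by
  have hb : pull h a ∈ Zc (I × X) :=
    ⟨isCompact_supp_of_subset hc (supp_pull hh a), cocycle_pull hh ha⟩
  have := Hc.pull_eq_of_homotopy (X := X) (Y := I × X) (h := id) IsPr.id (isPr_mk (0 : I)) (isPr_mk (1 : I))
    (fun _ => rfl) fun _ => rfl
  rw [show f = h ∘ Prod.mk 0 from funext fun x => (h0 x).symm,
    show g = h ∘ Prod.mk 1 from funext fun x => (h1 x).symm, ← pull_pull, ← pull_pull,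
    ← Hc.pull_cls (isPr_mk (0 : I)) hb, ← Hc.pull_cls (isPr_mk (1 : I)) hb, this]

/-- if every compact set can be pushed off itself to infinity, there is no cohomology with compact
supports -/
theorem Hc.subsingleton_of_flow [MetrizableSpace X] [LocallyCompactSpace X]
    (H : ∀ K : Set X, IsCompact K → ∃ h : I × X → X, Continuous h ∧ IsCompact (h ⁻¹' K) ∧
      (∀ x, h (0, x) = x) ∧ ∀ x, h (1, x) ∉ K) : Subsingleton (Hc X) := by
  refine subsingleton_of_forall_eq 0 fun c => ?_
  obtain ⟨a, ha, rfl⟩ := cls_surj c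
  obtain ⟨h, h1, h2, h3, h4⟩ := H _ ha.1
  have := cls_pull_eq_of_homotopy h1 ha.2 h2 (f := id) (g := fun x => h (1, x)) h3 fun _ => rfl
  rw [P291Z.pull_id] at this
  rw [this]
  exact cls_of_mem_Bc (mem_Bc_of_null fun x =>
    Van.pull (h1.comp (Continuous.prodMk_right 1)).continuousAt (h4 x))

/-- **Half spaces** and similar sets: a closed set which is stable under translations in the
direction `e` and on which a functional positive on `e` is bounded below. -/
theorem Hc.subsingleton_of_translate {V : Type} [NormedAddCommGroup V] [NormedSpace ℝ V]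
    [ProperSpace V] {A : Set V} (hA : IsClosed A) (e : V) (ℓ : V →L[ℝ] ℝ) (he : 0 < ℓ e)
    (hs : ∀ v ∈ A, ∀ t : ℝ, 0 ≤ t → v + t • e ∈ A) (m : ℝ) (hm : ∀ v ∈ A, m ≤ ℓ v) :
    Subsingleton (Hc A) := by
  haveI := hA.isLocallyClosed.locallyCompactSpace
  refine Hc.subsingleton_of_flow fun K hK => ?_
  have hK' := hK.image continuous_subtype_val
  obtain ⟨M, hM⟩ := (hK'.image ℓ.continuous).bddAbove
  obtain ⟨R, hR0, hR⟩ : ∃ R : ℝ, 0 ≤ R ∧ M < m + R * ℓ e :=
    ⟨(|M - m| + 1) / ℓ e, by positivity, by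
      rw [div_mul_cancel₀ _ he.ne']
      linarith [le_abs_self (M - m)]⟩
  have hc : Continuous fun z : I × A => (z.2 : V) + ((z.1 : ℝ) * R) • e := by fun_prop
  refine ⟨fun z => ⟨z.2 + ((z.1 : ℝ) * R) • e, hs _ z.2.2 _ (mul_nonneg z.1.2.1 hR0)⟩,
    hc.subtype_mk _, ?_, fun x => by simp, fun x hx => ?_⟩
  · have h1 : IsCompact ((fun z : I × V => z.2 - ((z.1 : ℝ) * R) • e) ''
        (univ ×ˢ (Subtype.val '' K))) := (isCompact_univ.prod hK').image (by fun_prop)
    refine (isCompact_univ.prod (hA.isClosedEmbedding_subtypeVal.isCompact_preimage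
      h1)).of_isClosed_subset (hK.isClosed.preimage (hc.subtype_mk _)) fun z hz => ⟨trivial, ?_⟩
    exact ⟨(z.1, z.2 + ((z.1 : ℝ) * R) • e), ⟨trivial, _, hz, rfl⟩, by simp⟩
  · have h1 := hM ⟨_, ⟨_, hx, rfl⟩, rfl⟩
    have h2 := hm x x.2
    simp only [Icc.coe_one, one_mul, map_add, map_smul, smul_eq_mul] at h1
    linarith

theorem Hc.subsingleton_Ici (a : ℝ) : Subsingleton (Hc (Ici a)) :=
  Hc.subsingleton_of_translate isClosed_Ici 1 (ContinuousLinearMap.id ℝ ℝ) one_pos
    (fun v hv t ht => by simp only [mem_Ici, smul_eq_mul, mul_one] at *; linarith) a fun _ h => h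

/-! ### the real line -/

/-- the step function -/
noncomputable def stp : Coch ℝ := fn fun x => if x ≤ 0 then 1 else 0

theorem isGen_real : IsGen 1 (δ stp) := by
  haveI : LocallyCompactSpace (Ici (0 : ℝ)) := isClosed_Ici.isLocallyClosed.locallyCompactSpace
  let i : Unit → Ici (0 : ℝ) := fun _ => ⟨0, self_mem_Ici⟩
  let j : ℝ → Ici (0 : ℝ) := fun x => ⟨Real.exp x, (Real.exp_pos x).le⟩
  have hi : IsClosedEmbedding i := ⟨⟨⟨Subsingleton.elim _ _⟩, fun _ _ _ => rfl⟩, by
    rw [range_const]; exact isClosed_singleton⟩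
  have hr : range j = (range i)ᶜ := by
    ext ⟨x, hx⟩
    simp only [range_const, mem_compl_iff, mem_singleton_iff, i, j, mem_range, Subtype.mk.injEq,
      exists_const]
    exact ⟨fun ⟨y, hy⟩ h => (Real.exp_pos y).ne' (congrArg Subtype.val hy |>.trans h), fun h =>
      ⟨Real.log x, Subtype.ext (Real.exp_log (lt_of_le_of_ne hx (Ne.symm h)))⟩⟩
  have hj : IsOpenEmbedding j := ⟨Real.isOpenEmbedding_exp.isEmbedding.codRestrict _ _, by
    rw [hr]; exact hi.isClosed_range.isOpen_compl⟩
  let a : Coch (Ici (0 : ℝ)) := fn fun x => if x.1 ≤ 1 then 1 else 0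
  have ha : a ∈ Near i := by
    refine ⟨isCompact_supp_of_subset (isClosed_Ici.isClosedEmbedding_subtypeVal.isCompact_preimage
      (isCompact_Icc (a := 0) (b := 1))) fun x hx => ⟨x.2, not_lt.1 fun h =>
        (fn_van.2 ?_ : a ∈ Van x) hx⟩, fun _ => δ_fn_van.2 ?_⟩
    · filter_upwards [continuous_subtype_val.continuousAt (Ioi_mem_nhds h)] with y hy
      exact if_neg (not_le.2 hy)
    · filter_upwards [continuous_subtype_val.continuousAt (Iio_mem_nhds (zero_lt_one' ℝ))] with y hy
      rw [if_pos (le_of_lt hy), if_pos zero_le_one]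
  have e1 : pull i a = 1 := by
    rw [pull_fn, ← fn_one]
    congr 1
    funext u
    exact if_pos zero_le_one
  have e2 : pull j (δ a) = δ stp := by
    rw [← δ_pull, pull_fn]
    congr 2
    funext x
    simp [j]
  refine (isGen_one acyc_of_subsingleton).of_bijective (Hc.conn_bijective_of_subsingleton hi hj hr
    (Hc.subsingleton_Ici 0)) ?_ (isDeg_fn _).δ ?_
  · rw [← e2]
    exact pull_open_Zc hj (Near.δ_Zc ha) (supp_subset_range hr ha.2)
  · rw [← e1, Hc.conn_cls hi hj hr ha, e2]

theorem supp_δ_stp : supp (δ stp) ⊆ {0} := fun x hx => by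
  by_contra h
  refine (δ_fn_van.2 ?_ : δ stp ∈ Van x) hx
  rcases lt_or_gt_of_ne h with h | h
  · filter_upwards [Iio_mem_nhds h] with y hy
    rw [if_pos (le_of_lt hy), if_pos h.le]
  · filter_upwards [Ioi_mem_nhds h] with y hy
    rw [if_neg (not_le.2 hy), if_neg (not_le.2 h)]

theorem isHomeomorph_cons {E : Type} [TopologicalSpace E] (n : ℕ) :
    IsHomeomorph fun z : Fin (n + 1) → E => (z 0, fun i : Fin n => z i.succ) :=
  isHomeomorph_iff_exists_inverse.2 ⟨by fun_prop, fun z => Fin.cons z.1 z.2,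
    fun z => Fin.cons_self_tail z, fun z => by simp, by fun_prop⟩

/-- the product of the pull-backs of a cochain along the coordinates -/
noncomputable def powC {E : Type} (t : Coch E) (n : ℕ) : Coch (Fin n → E) :=
  (List.ofFn fun i : Fin n => pull (fun z => z i) t).prod

theorem powC_zero {E : Type} (t : Coch E) : powC t 0 = 1 := by simp [powC]

theorem powC_succ {E : Type} (t : Coch E) (n : ℕ) : powC t (n + 1) =
    pull (fun z => z 0) t * pull (fun z (i : Fin n) => z i.succ) (powC t n) := by
  rw [powC, List.ofFn_succ, List.prod_cons, powC, map_list_prod, List.map_ofFn]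
  congr 3
  funext i
  rw [Function.comp_apply, pull_pull]
  rfl

theorem IsGen.powC {E : Type} [TopologicalSpace E] [MetrizableSpace E] [LocallyCompactSpace E]
    {d : ℤ} {t : Coch E} (h : IsGen d t) (n : ℕ) : IsGen (n * d) (powC t n) := by
  induction n with
  | zero =>
    rw [powC_zero, Nat.cast_zero, zero_mul]
    exact isGen_one acyc_of_subsingleton
  | succ n ih =>
    rw [powC_succ, Nat.cast_succ, add_mul, one_mul, add_comm (n * d)]
    exact IsGen.cross (isHomeomorph_cons n) h ih

theorem supp_powC {E : Type} [TopologicalSpace E] (t : Coch E) (n : ℕ) :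
    supp (powC t n) ⊆ {z | ∀ i, z i ∈ supp t} := by
  induction n with
  | zero => exact fun z _ i => i.elim0
  | succ n ih =>
    rw [powC_succ]
    intro z hz i
    refine Fin.cases ?_ (fun i => ?_) i
    · exact supp_pull (f := fun z : Fin (n + 1) → E => z 0) (continuous_apply 0) t
        (supp_mul _ _ hz).1
    · exact ih (supp_pull (f := fun (z : Fin (n + 1) → E) (i : Fin n) => z i.succ) (by fun_prop) _
        (supp_mul _ _ hz).2) i

/-- a finite dimensional real vector space has one dimensional cohomology with compact supports,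
generated by a cocycle with support at the origin -/
theorem exists_isGen (V : Type) [NormedAddCommGroup V] [NormedSpace ℝ V] [FiniteDimensional ℝ V] :
    ∃ t : Coch V, IsGen (Module.finrank ℝ V) t ∧ supp t ⊆ {0} := by
  let e : V ≃L[ℝ] (Fin (Module.finrank ℝ V) → ℝ) :=
    ContinuousLinearEquiv.ofFinrankEq (by simp)
  refine ⟨pull e (powC (δ stp) _), ?_, fun v hv => ?_⟩
  · have := (isGen_real.powC (Module.finrank ℝ V)).pull e.toHomeomorph.isHomeomorph
    rwa [mul_one] at this
  · have : e v = 0 := funext fun i => supp_δ_stp (supp_powC _ _ (supp_pull e.continuous _ hv) i)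
    exact e.map_eq_zero_iff.1 this

/-! ### the complex line -/

theorem isDeg_wind : IsDeg 1 wind := fun l hl => by
  match l, hl with
  | [], _ => rfl
  | [_], _ => rfl
  | [_, _], h => exact absurd rfl h
  | _ :: _ :: _ :: _, _ => rfl

theorem wind_val (z w : ℂ) : wind.1 [z, w] = Complex.log (w / z) / (2 * Real.pi * Complex.I) := rfl

theorem wind_local {z : ℂ} (hz : z ≠ 0) :
    wind - δ (fn fun w => Complex.log (w / z) / (2 * Real.pi * Complex.I)) ∈ Van z := by
  have hU : {w : ℂ | 0 < (w / z).re} ∈ 𝓝 z :=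
    (isOpen_lt continuous_const (by fun_prop)).mem_nhds (by simp [div_self hz])
  refine IsDeg.van_one (isDeg_wind.sub (isDeg_fn _).δ) hU fun u hu v hv => ?_
  have hu0 : u / z ≠ 0 := fun h => by simp [h] at hu
  have hv0 : v / z ≠ 0 := fun h => by simp [h] at hv
  have h1 := abs_lt.1 (Complex.abs_arg_lt_pi_div_two_iff.2 (Or.inl hu))
  have h2 := abs_lt.1 (Complex.abs_arg_lt_pi_div_two_iff.2 (Or.inl hv))
  have e : Complex.log (v / u) = Complex.log (v / z) - Complex.log (u / z) := by
    rw [← Complex.log_exp (x := Complex.log (v / z) - Complex.log (u / z)), Complex.exp_sub,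
      Complex.exp_log hu0, Complex.exp_log hv0, div_div_div_cancel_right₀ hz]
    · rw [Complex.sub_im, Complex.log_im, Complex.log_im]; linarith
    · rw [Complex.sub_im, Complex.log_im, Complex.log_im]; linarith
  rw [Coch.sub_val, Pi.sub_apply, δ_val_pair, fn_val, fn_val, wind_val, e]
  ring

theorem supp_δ_wind : supp (δ wind) ⊆ {0} := fun z hz => by
  by_contra h
  have := Van.δ (wind_local h)
  rw [map_sub, δ_δ, sub_zero] at this
  exact this hz

theorem Acyc.eq_zero (h : Acyc X) {k : ℤ} (hk : k ≠ 0) {c : H X} (hc : H.IsDeg k c) : c = 0 := by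
  obtain ⟨z, rfl⟩ := h c
  rw [← hc.comp_eq, map_smul, H.isDeg_one.comp_ne hk, smul_zero]

theorem exists_prim_of_hcls {k : ℤ} {a : Coch X} (ha : supp (δ a) = ∅) (hk : IsDeg k a)
    (h : hcls a = 0) : ∃ c, IsDeg (k - 1) c ∧ ∀ x, a - δ c ∈ Van x := by
  obtain ⟨c, hc⟩ := (hcls_eq_zero ha).1 h
  refine ⟨comp (k - 1) c, isDeg_comp _ c, fun x => ?_⟩
  have := Van.comp (supp_eq_empty.1 hc x) k
  rwa [map_sub, hk.comp_eq, comp_δ'] at this

theorem cls_δ_wind_ne_zero : cls (δ wind) ≠ 0 := by
  intro h
  have hZ : δ wind ∈ Zc ℂ := ⟨isCompact_supp_of_subset isCompact_singleton supp_δ_wind,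
    cocycle_δ _⟩
  obtain ⟨c, h1, h2, h3⟩ := Bc.exists_deg ((cls_eq_zero hZ).1 h) isDeg_wind.δ
  have hu : supp (δ (wind - c)) = ∅ := supp_eq_empty.2 fun x => by rw [map_sub]; exact h3 x
  have hd : IsDeg 1 (wind - c) := isDeg_wind.sub (h1.cast (by norm_num))
  obtain ⟨f, h4, h5⟩ := exists_prim_of_hcls hu hd
    (acyc_of_contractible.eq_zero one_ne_zero (hcls_isDeg hd))
  obtain ⟨g, rfl⟩ : ∃ g, f = fn g := ⟨_, IsDeg.eq_fn (h4.cast (by norm_num))⟩
  obtain ⟨R, hR0, hR⟩ := h2.isBounded.subset_ball_lt 0 0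
  let γ : ℝ → ℂ := fun θ => R * Complex.exp (θ * Complex.I)
  have hγ : Continuous γ := by fun_prop
  have hn : ∀ θ, ‖γ θ‖ = R := fun θ => by simp [γ, abs_of_pos hR0]
  have h0 : ∀ θ, γ θ ≠ 0 := fun θ h => hR0.ne' (by rw [← hn θ, h, norm_zero])
  have key : IsLocallyConstant fun θ : ℝ => g (γ θ) - θ / (2 * Real.pi) := by
    refine (IsLocallyConstant.iff_eventually_eq _).2 fun θ => ?_
    have hc : c ∈ Van (γ θ) := fun h => by
      have := hR h
      rw [mem_ball_zero_iff, hn] at this
      exact lt_irrefl _ this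
    have h6 : δ (fn (g - fun w => Complex.log (w / γ θ) / (2 * Real.pi * Complex.I))) ∈
        Van (γ θ) := by
      have := (Van _).sub_mem ((Van _).sub_mem (wind_local (h0 θ)) (h5 _)) hc
      rw [fn_sub, map_sub]
      rwa [show ∀ p q r s : Coch ℂ, p - q - (p - r - s) - r = s - q from fun _ _ _ _ => by abel]
        at this
    filter_upwards [hγ.continuousAt.eventually (δ_fn_van.1 h6),
      Ioo_mem_nhds (show θ - Real.pi < θ by linarith [Real.pi_pos])
        (show θ < θ + Real.pi by linarith [Real.pi_pos])] with s hs hs'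
    have e : γ s / γ θ = Complex.exp (((s - θ : ℝ) : ℂ) * Complex.I) := by
      simp only [γ]
      rw [mul_div_mul_left _ _ (by exact_mod_cast hR0.ne'), ← Complex.exp_sub]
      congr 1
      push_cast
      ring
    simp only [Pi.sub_apply] at hs
    rw [e, Complex.log_exp (by simp; linarith [hs'.1]) (by simp; linarith [hs'.2]),
      div_self (h0 θ), Complex.log_one, zero_div, sub_zero] at hs
    rw [← hs]
    have := Real.pi_pos.ne'
    field_simp
    push_cast
    ring
  have := key.apply_eq_of_preconnectedSpace 0 (2 * Real.pi)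
  have e : γ (2 * Real.pi) = γ 0 := by
    simp only [γ]
    push_cast
    rw [Complex.exp_two_pi_mul_I, zero_mul, Complex.exp_zero]
  simp only [e, sub_right_inj] at this
  push_cast at this
  rw [zero_div, div_self (mul_ne_zero two_ne_zero (Complex.ofReal_ne_zero.2 Real.pi_pos.ne'))] at this
  exact zero_ne_one this

theorem isGen_wind : IsGen 2 (δ wind) := by
  obtain ⟨t, ht, -⟩ := exists_isGen ℂ
  exact ht.of_ne ⟨isCompact_supp_of_subset isCompact_singleton supp_δ_wind, cocycle_δ _⟩
    isDeg_wind.δ cls_δ_wind_ne_zero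

theorem tau_eq (r : ℕ) : tau r = powC (δ wind) r := rfl

/-- `tau r` generates the cohomology with compact supports of `ℂ ^ r` -/
theorem isGen_tau (r : ℕ) : IsGen (2 * r) (tau r) := by
  rw [mul_comm]
  exact isGen_wind.powC r

theorem supp_tau (r : ℕ) : supp (tau r) ⊆ {0} := fun _ hz =>
  funext fun i => supp_δ_wind (supp_powC _ _ hz i)

theorem tau_cocycle (r : ℕ) : supp (δ (tau r)) = ∅ := (isGen_tau r).mem.2

theorem tau_deg (r : ℕ) : IsDeg (2 * r) (tau r) := (isGen_tau r).deg

theorem tau_zero : tau 0 = 1 := powC_zero _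

theorem powC_add {E : Type} (t : Coch E) (m n : ℕ) : powC t (m + n) =
    pull (fun z (i : Fin m) => z (Fin.castAdd n i)) (powC t m) *
      pull (fun z (i : Fin n) => z (Fin.natAdd m i)) (powC t n) := by
  rw [powC, List.ofFn_add, List.prod_append, powC, powC, map_list_prod, map_list_prod,
    List.map_ofFn, List.map_ofFn]
  congr 3
  · funext i
    rw [Function.comp_apply, pull_pull]
    rfl
  · funext i
    rw [Function.comp_apply, pull_pull]
    rfl

theorem tau_add (m n : ℕ) : tau (m + n) =
    pull (fun z (i : Fin m) => z (Fin.castAdd n i)) (tau m) *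
      pull (fun z (i : Fin n) => z (Fin.natAdd m i)) (tau n) := powC_add _ m n

/-! ### invariance under complex linear automorphisms -/

theorem cls_pull_matrix_path {n : Type} [Fintype n] [DecidableEq n] {a : Coch (n → ℂ)}
    (ha : supp (δ a) = ∅) (hs : supp a ⊆ {0}) (M : I → Matrix n n ℂ) (hM : Continuous M)
    (hd : ∀ s, (M s).det ≠ 0) : cls (pull (M 0).mulVec a) = cls (pull (M 1).mulVec a) := by
  have hc : Continuous fun z : I × (n → ℂ) => (M z.1).mulVec z.2 :=
    (hM.comp continuous_fst).matrix_mulVec continuous_snd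
  refine cls_pull_eq_of_homotopy hc ha ((isCompact_univ.prod
    (isCompact_singleton (x := 0))).of_isClosed_subset ((isClosed_supp a).preimage hc)
      fun z hz => ⟨trivial, ?_⟩) (fun _ => rfl) fun _ => rfl
  exact Matrix.eq_zero_of_mulVec_eq_zero (hd z.1) (hs hz)

theorem cls_pull_matrix {n : Type} [Fintype n] [DecidableEq n] (M : Matrix n n ℂ)
    (hM : M.det ≠ 0) : ∀ a : Coch (n → ℂ), supp (δ a) = ∅ → supp a ⊆ {0} →
      cls (pull M.mulVec a) = cls a := by
  have one : ∀ a : Coch (n → ℂ), pull (1 : Matrix n n ℂ).mulVec a = a := fun a => by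
    rw [show (1 : Matrix n n ℂ).mulVec = id from funext Matrix.one_mulVec, pull_id]
  refine Matrix.diagonal_transvection_induction_of_det_ne_zero (fun M => ∀ a : Coch (n → ℂ),
    supp (δ a) = ∅ → supp a ⊆ {0} → cls (pull M.mulVec a) = cls a) M hM ?_ ?_ ?_
  · intro D hD a ha hs
    rw [Matrix.det_diagonal, Finset.prod_ne_zero_iff] at hD
    have := cls_pull_matrix_path ha hs
      (fun s => Matrix.diagonal fun i => Complex.exp (((s : ℝ) : ℂ) * Complex.log (D i)))
      (Continuous.matrix_diagonal (by fun_prop)) fun s => by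
        rw [Matrix.det_diagonal]
        exact Finset.prod_ne_zero_iff.2 fun i _ => Complex.exp_ne_zero _
    simp only [Icc.coe_zero, Icc.coe_one, Complex.ofReal_zero, Complex.ofReal_one, zero_mul,
      one_mul, Complex.exp_zero, Matrix.diagonal_one, one] at this
    rw [this, show (fun i => Complex.exp (Complex.log (D i))) = D from
      funext fun i => Complex.exp_log (hD i (Finset.mem_univ i))]
  · intro t a ha hs
    have := cls_pull_matrix_path ha hs
      (fun s => Matrix.transvection t.i t.j (((s : ℝ) : ℂ) * t.c))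
      (by
        refine continuous_const.add (continuous_matrix fun i j => ?_)
        simp only [Matrix.single_apply]
        split_ifs <;> fun_prop) fun s => by
        rw [Matrix.det_transvection_of_ne _ _ t.hij]
        exact one_ne_zero
    simp only [Icc.coe_zero, Icc.coe_one, Complex.ofReal_zero, Complex.ofReal_one, zero_mul,
      one_mul, Matrix.transvection_zero, one] at this
    exact this.symm
  · intro A B hA hB h1 h2 a ha hs
    have hc : Continuous A.mulVec := continuous_const.matrix_mulVec continuous_id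
    rw [show (A * B).mulVec = A.mulVec ∘ B.mulVec from funext fun v =>
      (Matrix.mulVec_mulVec v A B).symm, ← pull_pull, h2 _ (cocycle_pull hc ha)
        fun v hv => Matrix.eq_zero_of_mulVec_eq_zero hA (hs (supp_pull hc a hv)), h1 a ha hs]

/-- complex linear automorphisms preserve the classes of cocycles with support at the origin -/
theorem cls_pull_linearEquiv {n : Type} [Fintype n] [DecidableEq n] (g : (n → ℂ) ≃ₗ[ℂ] (n → ℂ))
    {a : Coch (n → ℂ)} (ha : supp (δ a) = ∅) (hs : supp a ⊆ {0}) : cls (pull g a) = cls a := by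
  have := cls_pull_matrix (LinearMap.toMatrix' (g : (n → ℂ) →ₗ[ℂ] (n → ℂ))) (by
    rw [LinearMap.det_toMatrix']
    exact g.isUnit_det'.ne_zero) a ha hs
  rwa [show (LinearMap.toMatrix' (g : (n → ℂ) →ₗ[ℂ] (n → ℂ))).mulVec = g from
    funext fun v => by rw [← Matrix.toLin'_apply, Matrix.toLin'_toMatrix']; rfl] at this

end Vale.Agent.P291Z
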