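import Vale.Agent.P291Z.T10

set_option linter.all false

/-!
# Gluing of local classes; supports in the zero section of a bundle of vector spaces
-/

namespace Vale.Agent.P291Z

open Topology Set Filter TopologicalSpace unitInterval

namespace Soft

variable {R : Type*} [CommRing R] {B : Type*} [TopologicalSpace B] {K : Type*} [AddCommGroup K]
  [Module R K] (S : Soft R B K)

/-- an element with primitives near all points of a compact set has a primitive along the set -/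
theorem prim_of_stalk [T3Space B] {A : Set B} (hA : IsCompact A) {n : ℤ} {a : K}
    (hs : ∀ x ∈ A, ∃ b ∈ S.deg (n - 1), a - S.δ b ∈ S.Van x)
    (hl : ∀ A', IsCompact A' → S.ExactOn A' (n - 1)) :
    ∃ b ∈ S.deg (n - 1), a - S.δ b ∈ S.VanOn A := by
  have key : ∃ A', IsCompact A' ∧ A ⊆ A' ∧ ∃ b ∈ S.deg (n - 1), a - S.δ b ∈ S.VanOn A' := by
    refine hA.induction_on (p := fun s => ∃ A', IsCompact A' ∧ s ⊆ A' ∧
      ∃ b ∈ S.deg (n - 1), a - S.δ b ∈ S.VanOn A') ?_ ?_ ?_ ?_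
    · exact ⟨∅, isCompact_empty, subset_rfl, 0, Submodule.zero_mem _, fun _ h => h.elim⟩
    · rintro s t hst ⟨A', h1, h2, h3⟩
      exact ⟨A', h1, hst.trans h2, h3⟩
    · rintro s t ⟨A₁, c₁, s₁, b₁, h₁, e₁⟩ ⟨A₂, c₂, s₂, b₂, h₂, e₂⟩
      exact ⟨A₁ ∪ A₂, c₁.union c₂, union_subset_union s₁ s₂,
        S.union_prim h₁ h₂ e₁ e₂ (hl _ (c₁.inter c₂)) (sep_compact c₁ c₂)⟩
    · intro x hx
      obtain ⟨b, hb, e⟩ := hs x hx
      obtain ⟨C, hC, hCc, hCs⟩ := exists_mem_nhds_isClosed_subset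
        ((S.van_open (a - S.δ b)).mem_nhds e)
      exact ⟨A ∩ C, inter_mem self_mem_nhdsWithin (mem_nhdsWithin_of_mem_nhds hC), A ∩ C,
        hA.inter_right hCc, subset_rfl, b, hb, fun y hy => hCs hy.2⟩
  obtain ⟨A', -, h1, b, hb, e⟩ := key
  exact ⟨b, hb, VanOn.mono e h1⟩

/-- **Gluing of local classes.** -/
theorem exists_section [T3Space B] [WeaklyLocallyCompactSpace B] [SigmaCompactSpace B]
    (hG : S.Glue) {n : ℤ} (P : B → K → Prop)
    (ex : ∀ x, ∃ a ∈ S.deg n, ∀ᶠ y in 𝓝 x, P y a)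
    (uniq : ∀ y, ∀ a ∈ S.deg n, ∀ a' ∈ S.deg n, P y a → P y a' →
      ∃ c ∈ S.deg (n - 1), a - a' - S.δ c ∈ S.Van y)
    (stab : ∀ y, ∀ a ∈ S.deg n, ∀ a' ∈ S.deg n, ∀ c ∈ S.deg (n - 1), P y a →
      a' - a - S.δ c ∈ S.Van y → P y a')
    (hl : ∀ A, IsCompact A → S.ExactOn A (n - 1)) : ∃ a ∈ S.deg n, ∀ y, P y a := by
  have dd : ∀ c ∈ S.deg (n - 1), S.δ c ∈ S.deg n := fun c hc => by
    have := S.δ_deg _ _ hc
    rwa [sub_add_cancel] at this
  have adj : ∀ A, IsCompact A → ∀ a ∈ S.deg n, ∀ a' ∈ S.deg n, (∀ y ∈ A, P y a) →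
      (∀ y ∈ A, P y a') → ∃ a'' ∈ S.deg n, a'' - a ∈ S.VanOn A ∧ ∀ y, P y a' → P y a'' := by
    intro A hA a ha a' ha' h h'
    obtain ⟨c, hc, e⟩ := S.prim_of_stalk hA (a := a - a')
      (fun y hy => uniq y a ha a' ha' (h y hy) (h' y hy)) hl
    have hd := (S.deg n).add_mem ha' (dd c hc)
    refine ⟨a' + S.δ c, hd, ?_, fun y hy => stab y a' ha' _ hd c hc hy ?_⟩
    · rw [show a' + S.δ c - a = -(a - a' - S.δ c) by abel]
      exact Submodule.neg_mem _ e
    · rw [show a' + S.δ c - a' - S.δ c = 0 by abel]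
      exact Submodule.zero_mem _
  have stab0 : ∀ y, ∀ a ∈ S.deg n, ∀ a' ∈ S.deg n, P y a → a' - a ∈ S.Van y → P y a' :=
    fun y a ha a' ha' h e => stab y a ha a' ha' 0 (Submodule.zero_mem _) h (by
      rwa [map_zero, sub_zero])
  have cpt : ∀ A, IsCompact A → ∃ a ∈ S.deg n, ∀ y ∈ A, P y a := by
    intro A hA
    have key : ∃ A', IsCompact A' ∧ A ⊆ A' ∧ ∃ a ∈ S.deg n, ∀ y ∈ A', P y a := by
      refine hA.induction_on (p := fun s => ∃ A', IsCompact A' ∧ s ⊆ A' ∧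
        ∃ a ∈ S.deg n, ∀ y ∈ A', P y a) ?_ ?_ ?_ ?_
      · exact ⟨∅, isCompact_empty, subset_rfl, 0, Submodule.zero_mem _, fun _ h => h.elim⟩
      · rintro s t hst ⟨A', h1, h2, h3⟩
        exact ⟨A', h1, hst.trans h2, h3⟩
      · rintro s t ⟨A₁, c₁, s₁, a₁, h₁, e₁⟩ ⟨A₂, c₂, s₂, a₂, h₂, e₂⟩
        obtain ⟨a₃, h₃, e₃, e₄⟩ := adj _ (c₁.inter c₂) a₁ h₁ a₂ h₂ (fun y hy => e₁ y hy.1)
          fun y hy => e₂ y hy.2
        obtain ⟨b, hb, f₁, f₂, -⟩ := S.patch (A₁ := A₂) (A₂ := A₁) h₃ h₁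
          (by rwa [inter_comm]) (sep_compact c₂ c₁)
        refine ⟨A₁ ∪ A₂, c₁.union c₂, union_subset_union s₁ s₂, b, hb, ?_⟩
        rintro y (hy | hy)
        · exact stab0 y a₁ h₁ b hb (e₁ y hy) (f₂ y hy)
        · exact stab0 y a₃ h₃ b hb (e₄ y (e₂ y hy)) (f₁ y hy)
      · intro x hx
        obtain ⟨a, ha, e⟩ := ex x
        obtain ⟨C, hC, hCc, hCs⟩ := exists_mem_nhds_isClosed_subset e
        exact ⟨A ∩ C, inter_mem self_mem_nhdsWithin (mem_nhdsWithin_of_mem_nhds hC), A ∩ C,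
          hA.inter_right hCc, subset_rfl, a, ha, fun y hy => hCs hy.2⟩
    obtain ⟨A', -, h1, a, ha, e⟩ := key
    exact ⟨a, ha, fun y hy => e y (h1 hy)⟩
  let E := CompactExhaustion.choice B
  have step : ∀ k, ∀ a : {a // a ∈ S.deg n ∧ ∀ y ∈ E k, P y a},
      ∃ a' : {a // a ∈ S.deg n ∧ ∀ y ∈ E (k + 1), P y a}, a'.1 - a.1 ∈ S.VanOn (E k) := by
    rintro k ⟨a, ha, e⟩
    obtain ⟨a', ha', e'⟩ := cpt _ (E.isCompact (k + 1))
    obtain ⟨a'', h1, h2, h3⟩ := adj _ (E.isCompact k) a ha a' ha' e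
      fun y hy => e' y (E.subset_succ k hy)
    exact ⟨⟨a'', h1, fun y hy => h3 y (e' y hy)⟩, h2⟩
  choose nx hnx using step
  obtain ⟨a₀, ha₀, e₀⟩ := cpt _ (E.isCompact 0)
  let seq : ∀ k, {a // a ∈ S.deg n ∧ ∀ y ∈ E k, P y a} := fun k =>
    Nat.rec ⟨a₀, ha₀, e₀⟩ (fun k b => nx k b) k
  obtain ⟨b, hb, e⟩ := hG n E (fun k => (seq k).1) (fun k => (E.isCompact k).isClosed)
    (fun i j h => E.subset h) E.exists_mem_nhds (fun k => (seq k).2.1) fun k => hnx k (seq k)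
  refine ⟨b, hb, fun y => ?_⟩
  obtain ⟨k, hk⟩ := E.exists_mem y
  exact stab0 y _ (seq k).2.1 b hb ((seq k).2.2 y hk) (e k y hk)

end Soft

variable {X Y A : Type} [TopologicalSpace X] [TopologicalSpace Y] [TopologicalSpace A]

/-- if restriction to `A` is bijective in cohomology, a cocycle which vanishes near `A` has a
primitive which vanishes near `A` -/
theorem rel_prim {i : C(A, X)} (hi : Taut i) (hb : Function.Bijective (H.map i)) {n : ℤ}
    {a : Coch X} (ha : supp (δ a) = ∅) (hn : IsDeg n a) (hv : ∀ z, a ∈ Van (i z)) :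
    ∃ c, IsDeg (n - 1) c ∧ (∀ z, c ∈ Van (i z)) ∧ ∀ x, a - δ c ∈ Van x := by
  have h0 : hcls a = 0 := hb.1 (by
    rw [H.map_hcls i ha, map_zero, ← hcls_zero]
    exact hcls_eq_of_null cocycle_zero fun z => by
      rw [sub_zero]; exact Van.pull i.continuous.continuousAt (hv z))
  obtain ⟨c, h1, h2⟩ := exists_prim_of_hcls ha hn h0
  have h3 : ∀ z, δ c ∈ Van (i z) := fun z => by
    have := (Van _).sub_mem (hv z) (h2 _)
    rwa [sub_sub_cancel] at this
  have h4 : supp (δ (pull i c)) = ∅ := supp_eq_empty.2 fun z => by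
    rw [δ_pull]; exact Van.pull i.continuous.continuousAt (h3 z)
  obtain ⟨w, hw⟩ := hb.2 (hcls (pull i c))
  obtain ⟨c₁, h5, h6, h7⟩ := H.isDeg_iff.1 (H.isDeg_comp (n - 1) w)
  have h8 : hcls (pull i (c - c₁)) = 0 := by
    rw [map_sub, hcls_sub h4 (cocycle_pull i.continuous h5), ← H.map_hcls i h5, h7, ← H.comp_map,
      hw, (hcls_isDeg (h1.pull i)).comp_eq, sub_self]
  obtain ⟨u, h9, h10⟩ := exists_prim_of_hcls (by
    rw [map_sub]; exact cocycle_sub h4 (cocycle_pull i.continuous h5)) ((h1.sub h6).pull i) h8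
  obtain ⟨u', h11, -, h12⟩ := hi.inj (h1.sub h6) h9
  refine ⟨c - c₁ - δ u', (h1.sub h6).sub (h11.δ.cast (sub_add_cancel _ _)), fun z => h12 z (by
    rw [map_sub]; exact (Van _).sub_mem (h3 z) (supp_eq_empty.1 h5 _)) (h10 z), fun x => ?_⟩
  rw [map_sub, map_sub, δ_δ, sub_zero, show a - (δ c - δ c₁) = a - δ c + δ c₁ by abel]
  exact (Van x).add_mem (h2 x) (supp_eq_empty.1 h5 x)

theorem H.map_bijective_of_retract [MetrizableSpace X] [LocallyCompactSpace X]
    [SigmaCompactSpace X] (i : C(A, X)) (r : C(X, A)) (hri : ∀ z, r (i z) = z)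
    (h : (i.comp r).Homotopic (ContinuousMap.id X)) : Function.Bijective (H.map i) :=
  Function.bijective_iff_has_inverse.2 ⟨H.map r,
    fun c => by rw [H.map_map, H.map_eq_of_homotopic h]; exact H.map_id (fun _ => rfl) c,
    fun c => by rw [H.map_map]; exact H.map_id hri c⟩

variable {V : Type} [NormedAddCommGroup V] [NormedSpace ℝ V]

/-- the inclusion of the outside of a ball in the complement of the origin -/
def shell (K V : Type) [TopologicalSpace K] [NormedAddCommGroup V] {ρ : ℝ} (hρ : 0 < ρ) :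
    C(K × {v : V | ρ ≤ ‖v‖}, K × {v : V | v ≠ 0}) :=
  ⟨fun z => (z.1, ⟨z.2, norm_pos_iff.1 (hρ.trans_le z.2.2)⟩), by fun_prop⟩

theorem shell_closed (K V : Type) [TopologicalSpace K] [NormedAddCommGroup V] {ρ : ℝ}
    (hρ : 0 < ρ) : IsClosedEmbedding (shell K V hρ) :=
  IsClosedEmbedding.id.prodMap (IsClosedEmbedding.inclusion
    (fun v (hv : ρ ≤ ‖v‖) => norm_pos_iff.1 (hρ.trans_le hv))
    ((isClosed_le continuous_const continuous_norm).preimage continuous_subtype_val))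

theorem shell_bijective [ProperSpace V] (K : Type) [TopologicalSpace K] [MetrizableSpace K]
    [CompactSpace K] {ρ : ℝ} (hρ : 0 < ρ) : Function.Bijective (H.map (shell K V hρ)) := by
  haveI : LocallyCompactSpace {v : V | v ≠ 0} := isOpen_ne.locallyCompactSpace
  let m : {v : V | v ≠ 0} → ℝ := fun v => max 1 (ρ / ‖v.1‖)
  have hm : Continuous m := continuous_const.max (continuous_const.div (by fun_prop)
    fun v => norm_ne_zero_iff.2 v.2)
  have hm1 : ∀ v, 1 ≤ m v := fun v => le_max_left _ _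
  have hr : ∀ v : {v : V | v ≠ 0}, ρ ≤ ‖m v • v.1‖ := fun v => by
    rw [norm_smul, Real.norm_of_nonneg (zero_le_one.trans (hm1 v)),
      ← div_le_iff₀ (norm_pos_iff.2 v.2)]
    exact le_max_right _ _
  have hpos : ∀ (s : I) v, 0 < (1 - (s : ℝ)) * m v + s := fun s v => by
    have := s.2.1
    have := s.2.2
    have := hm1 v
    nlinarith
  refine H.map_bijective_of_retract _ ⟨fun z => (z.1, ⟨m z.2 • z.2.1, hr z.2⟩), by fun_prop⟩
    (fun z => Prod.ext rfl (Subtype.ext ?_)) ⟨⟨⟨fun z => (z.2.1,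
      ⟨((1 - (z.1 : ℝ)) * m z.2.2 + z.1) • z.2.2.1, smul_ne_zero (hpos _ _).ne' z.2.2.2⟩),
      by fun_prop⟩, fun z => Prod.ext rfl (Subtype.ext ?_), fun z => Prod.ext rfl (Subtype.ext ?_)⟩⟩
  · show max 1 (ρ / ‖z.2.1‖) • z.2.1 = z.2.1
    rw [max_eq_left ((div_le_one (hρ.trans_le z.2.2)).2 z.2.2), one_smul]
  · show ((1 - ((0 : I) : ℝ)) * m z.2 + ((0 : I) : ℝ)) • z.2.1 = m z.2 • z.2.1
    simp
  · show ((1 - ((1 : I) : ℝ)) * m z.2 + ((1 : I) : ℝ)) • z.2.1 = z.2.1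
    simp

variable {E B : Type} [TopologicalSpace E] [TopologicalSpace B]

/-- a trivialization of `p` over `N` with fibre `V` which identifies `Z` with the zero section -/
structure IsTriv (p : E → B) (Z : Set E) (N : Set B) (Φ : N × V → E) : Prop where
  isOpen : IsOpen N
  emb : IsOpenEmbedding Φ
  range_eq : range Φ = p ⁻¹' N
  proj : ∀ w, p (Φ w) = w.1
  zero : ∀ w, Φ w ∈ Z ↔ w.2 = 0

namespace IsTriv

variable {p : E → B} {Z : Set E} {N : Set B} {Φ : N × V → E} (h : IsTriv p Z N Φ)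
include h

omit [NormedSpace ℝ V] in
theorem exists_eq {e : E} (he : p e ∈ N) : ∃ v, Φ (⟨p e, he⟩, v) = e := by
  obtain ⟨⟨y, v⟩, rfl⟩ : e ∈ range Φ := h.range_eq ▸ he
  exact ⟨v, congrArg Φ (Prod.ext (Subtype.ext (h.proj _)) rfl)⟩

omit [NormedSpace ℝ V] in
theorem isFib [T1Space B] (hp : Continuous p) (y : N) : IsFib p y fun v => Φ (y, v) := by
  have hr : range (fun v => Φ (y, v)) = p ⁻¹' {y.1} := by
    ext e
    constructor
    · rintro ⟨v, rfl⟩
      exact h.proj _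
    · intro he
      obtain ⟨y, hy⟩ := y
      obtain rfl : p e = y := he
      exact h.exists_eq hy
  exact ⟨⟨h.emb.isEmbedding.comp (isEmbedding_prodMkRight y), by
    rw [hr]; exact isClosed_singleton.preimage hp⟩, hr⟩

omit [NormedSpace ℝ V] in
theorem isCompact_image {K : Set B} (hK : IsCompact K) (hKN : K ⊆ N) {C : Set V}
    (hC : IsCompact C) : IsCompact (Φ '' ((Subtype.val ⁻¹' K) ×ˢ C)) :=
  ((IsInducing.subtypeVal.isCompact_preimage' hK (by rwa [Subtype.range_val])).prod hC).image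
    h.emb.continuous

/-- a cochain with proper support which is a cocycle outside the zero section is a coboundary
outside the zero section, locally over the base -/
theorem retr [ProperSpace V] [MetrizableSpace B] [LocallyCompactSpace B] (hp : Continuous p)
    {x : B} (hx : x ∈ N) {n : ℤ} {b : Coch E} (hn : IsDeg n b) (hb : (Fam.prop p).mem (supp b))
    (hd : ∀ᶠ y in 𝓝 x, ∀ e, p e = y → e ∉ Z → δ b ∈ Van e) :
    ∃ c, IsDeg (n - 1) c ∧ IsCompact (supp c) ∧
      ∀ᶠ y in 𝓝 x, ∀ e, p e = y → e ∉ Z → b - δ c ∈ Van e := by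
  obtain ⟨K, hKx, hKs, hK⟩ := local_compact_nhds (inter_mem (h.isOpen.mem_nhds hx) hd)
  have hKN : K ⊆ N := hKs.trans inter_subset_left
  haveI : CompactSpace K := isCompact_iff_compactSpace.1 hK
  obtain ⟨ρ, hρ, hρ'⟩ := ((h.emb.isInducing.isCompact_preimage' (hb K hK) (by
    rw [h.range_eq]
    exact inter_subset_right.trans (preimage_mono hKN))).image
      continuous_snd).isBounded.subset_ball_lt 0 0
  let k₀ : K × {v : V | v ≠ 0} → N × V := Prod.map (inclusion hKN) Subtype.val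
  have hk : Taut (Φ ∘ k₀) := (Taut.of_isOpenEmbedding h.emb).comp (Taut.of_isLocallyClosed
    ((IsEmbedding.inclusion hKN).prodMap IsEmbedding.subtypeVal) (by
      rw [range_prodMap, range_inclusion, Subtype.range_val]
      exact ((hK.isClosed.preimage continuous_subtype_val).isLocallyClosed.preimage
        continuous_fst).inter (isOpen_ne.isLocallyClosed.preimage continuous_snd)))
  have h1 : ∀ w, δ b ∈ Van ((Φ ∘ k₀) w) := fun w =>
    (hKs w.1.2).2 _ (h.proj _) fun h' => w.2.2 ((h.zero _).1 h')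
  have h2 : ∀ w : K × {v : V | v ≠ 0}, ρ ≤ ‖w.2.1‖ → b ∈ Van ((Φ ∘ k₀) w) := fun w hw h' => by
    have := hρ' ⟨k₀ w, ⟨h', by rw [mem_preimage, h.proj]; exact w.1.2⟩, rfl⟩
    rw [mem_ball_zero_iff] at this
    exact not_lt.2 hw this
  obtain ⟨c, h3, h4, h5⟩ := rel_prim (Taut.of_isClosedEmbedding (shell_closed K V hρ))
    (shell_bijective K hρ) (a := pull (Φ ∘ k₀) b) (supp_eq_empty.2 fun w => by
      rw [δ_pull]; exact Van.pull hk.cont.continuousAt (h1 w)) (hn.pull _)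
    fun z => Van.pull hk.cont.continuousAt (h2 _ z.2.2)
  obtain ⟨c', h6, h7, h8⟩ := hk.inj hn h3
  refine ⟨cut (p ⁻¹' K) c', h6.cut _, isCompact_supp_of_subset
    (h.isCompact_image hK hKN (isCompact_closedBall (0 : V) ρ)) fun e he => ?_, ?_⟩
  · obtain ⟨he1, he2⟩ := supp_cut _ _ he
    rw [(hK.isClosed.preimage hp).closure_eq] at he1
    obtain ⟨v, hv⟩ := h.exists_eq (hKN he1)
    refine ⟨(⟨p e, hKN he1⟩, v), ⟨he1, ?_⟩, hv⟩
    by_contra h9
    rw [mem_closedBall_zero_iff, not_le] at h9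
    refine h7 (shell K V hρ (⟨p e, he1⟩, ⟨v, h9.le⟩)) (h2 _ h9.le) (h4 _) ?_
    show Φ (⟨p e, hKN he1⟩, v) ∈ supp c'
    rwa [hv]
  · filter_upwards [eventually_mem_nhds_iff.2 hKx] with y hy e he hZ
    subst he
    have he1 : p e ∈ K := mem_of_mem_nhds hy
    obtain ⟨v, hv⟩ := h.exists_eq (hKN he1)
    have hv0 : v ≠ 0 := fun h0 => hZ (hv ▸ (h.zero _).2 h0)
    have h9 : b - δ c' ∈ Van e := by
      have := h8 (⟨p e, he1⟩, ⟨v, hv0⟩) (h1 _) (h5 _)
      exact hv ▸ this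
    have := (Van e).add_mem h9 (Van.δ (cut_in (hp.continuousAt hy) c'))
    rwa [map_sub, sub_add_sub_cancel] at this

end IsTriv

/-- `p` is locally trivial with fibre `V`, and `Z` is the zero section -/
structure LocTriv (V : Type) [NormedAddCommGroup V] (p : E → B) (Z : Set E) : Prop where
  cont : Continuous p
  triv : ∀ x, ∃ (N : Set B) (Φ : N × V → E), x ∈ N ∧ IsTriv p Z N Φ

namespace LocTriv

variable {p : E → B} {Z : Set E} (h : LocTriv V p Z)
include h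

omit [NormedSpace ℝ V] in
theorem isClosed : IsClosed Z := by
  rw [← isOpen_compl_iff, isOpen_iff_mem_nhds]
  intro e he
  obtain ⟨N, Φ, hN, hΦ⟩ := h.triv (p e)
  obtain ⟨v, hv⟩ := hΦ.exists_eq hN
  have h1 : IsOpen (Φ '' {w | w.2 ≠ 0}) :=
    hΦ.emb.isOpenMap _ (isOpen_ne.preimage continuous_snd)
  refine mem_of_superset (h1.mem_nhds ⟨_, fun h0 => he (hv ▸ (hΦ.zero _).2 h0), hv⟩) ?_
  rintro _ ⟨w, hw, rfl⟩ hZ
  exact hw ((hΦ.zero w).1 hZ)

omit [NormedSpace ℝ V] in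
theorem prop [T2Space B] [LocallyCompactSpace B] : (Fam.prop p).mem Z := by
  refine Fam.local_prop h.cont Z h.isClosed fun x => ?_
  obtain ⟨N, Φ, hN, hΦ⟩ := h.triv x
  obtain ⟨K, hKx, hKN, hK⟩ := local_compact_nhds (hΦ.isOpen.mem_nhds hN)
  refine ⟨K, hKx, _, Fam.prop_of_isCompact h.cont (hΦ.isCompact_image hK hKN
    (isCompact_singleton (x := 0))), fun e he => ?_⟩
  obtain ⟨v, hv⟩ := hΦ.exists_eq (hKN he.2)
  exact ⟨(⟨p e, hKN he.2⟩, v), ⟨he.2, (hΦ.zero _).1 (by rw [hv]; exact he.1)⟩, hv⟩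

omit [NormedSpace ℝ V] in
theorem prop_of_subset [T2Space B] [LocallyCompactSpace B] {a : Coch E} (ha : supp a ⊆ Z) :
    (Fam.prop p).mem (supp a) := (Fam.prop p).mono h.prop (isClosed_supp a) ha

omit [NormedSpace ℝ V] in
theorem isMap [T2Space B] [LocallyCompactSpace B] :
    (asSoft h.cont (Fam.sub Z)).IsMap (asSoft h.cont (Fam.prop p)) 0 LinearMap.id where
  deg n a ha := ⟨IsDeg.cast ha.1 (add_zero n).symm, h.prop_of_subset ha.2⟩
  van _ _ ha := ha
  comm a x := by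
    show δ a - δ a ∈ _
    rw [sub_self]
    exact Submodule.zero_mem _

omit [NormedSpace ℝ V] in
theorem exists_cut [RegularSpace B] {x : B} {b : Coch E}
    (hb : ∀ᶠ y in 𝓝 x, ∀ e, p e = y → e ∉ Z → b ∈ Van e) :
    ∃ S, supp (cut S b) ⊆ Z ∧ b - cut S b ∈ VanB p x := by
  obtain ⟨C, hC, hCc, hCs⟩ := exists_mem_nhds_isClosed_subset hb
  refine ⟨p ⁻¹' C, fun e he => by_contra fun hZ => ?_,
    (asSoft h.cont (Fam.all E)).cut_in C x b hC⟩
  obtain ⟨h1, h2⟩ := supp_cut _ _ he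
  rw [(hCc.preimage h.cont).closure_eq] at h1
  exact hCs h1 e rfl hZ h2

variable [ProperSpace V] [MetrizableSpace B] [LocallyCompactSpace B]

theorem cone_exact (n : ℤ) (C : Set B) (hC : IsCompact C) : (Soft.cone h.isMap).ExactOn C n := by
  refine Soft.cone_exactOn_of_stalk h.isMap (U := univ) (n₀ := -1) (k := n)
    (fun n hn a ha => asSoft_low _ _ (by omega) ha _)
    (fun n hn b hb => asSoft_low _ _ (by omega) hb _) (fun x _ n _ _ b hb hd => ?_)
    (fun x _ n _ _ a ha hd c hc e => ?_) n le_rfl C (subset_univ _) hC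
  · obtain ⟨N, Φ, hN, hΦ⟩ := h.triv x
    obtain ⟨c, h1, h2, h3⟩ := hΦ.retr h.cont hN hb.1 hb.2
      (Eventually.mono (hd x rfl) fun y hy e he _ => hy e he)
    obtain ⟨S, h4, h5⟩ := h.exists_cut h3
    refine ⟨cut S (b - δ c), ⟨((IsDeg.sub hb.1 (h1.δ.cast (sub_add_cancel _ _))).cut S).cast
      (sub_zero n).symm, h4⟩, ?_, c, ⟨h1, Fam.prop_of_isCompact h.cont h2⟩, ?_⟩
    · rintro _ rfl
      have := (VanB p _).sub_mem (hd _ rfl) (VanB.of_imp h5 fun _ => Van.δ)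
      rwa [map_sub, map_sub, δ_δ, sub_zero, asSoft_δ, sub_sub_cancel] at this
    · rintro _ rfl
      show b - cut S (b - δ c) - δ c ∈ _
      rwa [sub_right_comm]
  · obtain ⟨N, Φ, hN, hΦ⟩ := h.triv x
    obtain ⟨u, h1, -, h3⟩ := hΦ.retr h.cont hN hc.1 hc.2
      (Eventually.mono (e x rfl) fun y hy w hw hZ => by
        have := (Van w).sub_mem (show a ∈ Van w from fun h' => hZ (ha.2 h')) (hy w hw)
        rwa [LinearMap.id_apply, asSoft_δ, sub_sub_cancel] at this)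
    obtain ⟨S, h4, h5⟩ := h.exists_cut h3
    refine ⟨cut S (c - δ u), ⟨((IsDeg.sub hc.1 (h1.δ.cast (sub_add_cancel _ _))).cut S).cast
      (by ring), h4⟩, ?_⟩
    rintro _ rfl
    have := (VanB p _).add_mem (e _ rfl) (VanB.of_imp h5 fun _ => Van.δ)
    rwa [map_sub, map_sub, δ_δ, sub_zero, LinearMap.id_apply, asSoft_δ, sub_add_sub_cancel] at this

variable [SigmaCompactSpace B]

theorem cone_exact_univ (n : ℤ) : (Soft.cone h.isMap).ExactOn univ n :=
  Soft.exact_univ _ (Soft.cone_glue h.isMap (asSoft_glue _ _ (Fam.local_sub _ _))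
    (asSoft_glue _ _ (Fam.local_prop h.cont))) (h.cone_exact n) (h.cone_exact _)

/-- a cocycle with proper support is cohomologous to a cocycle with support in the zero section -/
theorem surj {n : ℤ} {b : Coch E} (hn : IsDeg n b) (hb : (Fam.prop p).mem (supp b))
    (hd : supp (δ b) = ∅) : ∃ a, IsDeg n a ∧ supp a ⊆ Z ∧ supp (δ a) = ∅ ∧
      ∃ c, IsDeg (n - 1) c ∧ (Fam.prop p).mem (supp c) ∧ ∀ e, b - a - δ c ∈ Van e := by
  obtain ⟨a, h1, h2, c, h3, h4⟩ := Soft.surjOn_of_cone h.isMap (h.cone_exact_univ n) b ⟨hn, hb⟩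
    ((asSoft_vanOn_univ _ _).2 (supp_eq_empty.1 hd))
  exact ⟨a, IsDeg.cast h1.1 (sub_zero n), h1.2, supp_eq_empty.2 ((asSoft_vanOn_univ _ _).1 h2), c,
    h3.1, h3.2, (asSoft_vanOn_univ _ _).1 h4⟩

/-- a cocycle with support in the zero section which has a primitive with proper support has a
primitive with support in the zero section -/
theorem inj {a c : Coch E} (ha : supp a ⊆ Z) (hc : (Fam.prop p).mem (supp c))
    (e : ∀ x, a - δ c ∈ Van x) : ∃ c', supp c' ⊆ Z ∧ ∀ x, a - δ c' ∈ Van x := by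
  refine a.induction_comp (P := fun b => ∃ c', supp c' ⊆ Z ∧ ∀ x, b - δ c' ∈ Van x)
    ⟨0, by rw [supp_zero]; exact empty_subset _, fun u => by simp⟩ ?_ fun n => ?_
  · rintro b b' ⟨c, h1, h3⟩ ⟨c', h1', h3'⟩
    refine ⟨c + c', (supp_add _ _).trans (union_subset h1 h1'), fun u => ?_⟩
    rw [map_add, add_sub_add_comm]
    exact (Van _).add_mem (h3 u) (h3' u)
  · have e' : ∀ x, comp n a - δ (comp (n - 1) c) ∈ Van x := fun x => by
      have := Van.comp (e x) n
      rwa [map_sub, comp_δ'] at this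
    obtain ⟨c', h1, h2⟩ := Soft.injOn_of_cone h.isMap (n := n) (h.cone_exact_univ _) (comp n a)
      ⟨(isDeg_comp n a).cast (sub_zero n).symm, (supp_comp n a).trans ha⟩
      ((asSoft_vanOn_univ _ _).2 fun x => by
        have := Van.δ (e' x)
        rwa [map_sub, δ_δ, sub_zero] at this)
      (comp (n - 1) c) ⟨isDeg_comp _ c, Fam.coch_mono hc (supp_comp _ c)⟩
      ((asSoft_vanOn_univ _ _).2 e')
    exact ⟨c', h1.2, (asSoft_vanOn_univ _ _).1 h2⟩

end LocTriv

omit [NormedSpace ℝ V] in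
theorem locTriv_unit : LocTriv V (fun _ : V => ()) {0} :=
  letI : Unique (univ : Set Unit) := ⟨⟨⟨(), trivial⟩⟩, fun _ => rfl⟩
  ⟨continuous_const, fun _ => ⟨univ, Prod.snd, trivial, isOpen_univ,
    (Homeomorph.uniqueProd (univ : Set Unit) V).isOpenEmbedding, Prod.range_snd,
    fun _ => rfl, fun _ => Iff.rfl⟩⟩

/-- cocycles with support at the origin with the same class with compact supports are
cohomologous with support at the origin -/
theorem cohom_zero_of_cls [ProperSpace V] {a b : Coch V} (ha : supp (δ a) = ∅)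
    (hb : supp (δ b) = ∅) (ha' : supp a ⊆ {0}) (hb' : supp b ⊆ {0}) (h : cls a = cls b) :
    Cohom {0} a b := by
  obtain ⟨c, h1, h2⟩ := (cls_eq_iff ⟨isCompact_supp_of_subset isCompact_singleton ha', ha⟩
    ⟨isCompact_supp_of_subset isCompact_singleton hb', hb⟩).1 h
  obtain ⟨c', h3, h4⟩ := locTriv_unit.inj ((supp_sub a b).trans (union_subset ha' hb'))
    (Fam.prop_of_isCompact continuous_const h1) (supp_eq_empty.1 h2)
  exact ⟨c', h3, supp_eq_empty.2 h4⟩

theorem cls_eq_of_cohom {K : Set X} (hK : IsCompact K) {a b : Coch X} (h : Cohom K a b) :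
    cls a = cls b := by
  obtain ⟨c, h1, h2⟩ := h
  exact cls_eq_of_Bc ⟨c, isCompact_supp_of_subset hK h1, h2⟩

end Vale.Agent.P291Z
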