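import Vale.Agent.P291Z.T1

set_option linter.all false

/-!
# Tautness of locally closed embeddings, the local structure of the cochain complex
-/

namespace Vale.Agent.P291Z

open Topology Set Filter

variable {X Y Z : Type}

instance [IsEmpty X] : Subsingleton (Coch X) :=
  ⟨fun a b => Coch.ext fun l => by
    cases l with
    | nil => rw [a.2.1, b.2.1]
    | cons x l => exact isEmptyElim x⟩

/-! ### the cone over a point -/

open Classical in
/-- the cone operator -/
noncomputable def coneOp (x : X) : Coch X →ₗ[ℂ] Coch X where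
  toFun a := ⟨fun l => if l = [] then 0 else a.1 (x :: l), by
    obtain ⟨h0, N, hN⟩ := a.2
    exact ⟨by simp, N, fun l hl => by simp [hN (x :: l) (by simp; omega)]⟩⟩
  map_add' a b := Coch.ext fun l => by
    change (if _ then 0 else (a.1 _ + b.1 _)) = (if _ then _ else _) + if _ then _ else _
    split_ifs <;> simp
  map_smul' c a := Coch.ext fun l => by
    change (if _ then 0 else c * a.1 _) = c * if _ then _ else _
    split_ifs <;> simp

open Classical in
theorem coneOp_val (x : X) (a : Coch X) (l : List X) :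
    (coneOp x a).1 l = if l = [] then 0 else a.1 (x :: l) := rfl

theorem coneOp_deg (x : X) {k : ℤ} {a : Coch X} (ha : IsDeg k a) : IsDeg (k - 1) (coneOp x a) :=
  fun l hl => by
    rw [coneOp_val, ha (x :: l) (by simp only [List.length_cons]; omega), ite_self]

open Classical in
theorem cob_ind (l : List X) : cob (fun m : List X => if m = [] then (1 : ℂ) else 0) l =
    unit X l := by
  unfold cob unit
  split_ifs with h
  · obtain ⟨x, rfl⟩ := List.length_eq_one_iff.1 h
    simp
  · refine Finset.sum_eq_zero fun i hi => ?_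
    have h2 := Finset.mem_range.1 hi
    show _ * (if _ then _ else _) = _
    rw [if_neg, mul_zero]
    intro h3
    have := congrArg List.length h3
    rw [List.length_eraseIdx_of_lt h2, List.length_nil] at this
    omega

theorem coneOp_δ (x : X) (a : Coch X) :
    a = coneOp x (δ a) + δ (coneOp x a) + a.1 [x] • (1 : Coch X) := Coch.ext fun l => by
  classical
  by_cases hl : l = []
  · subst hl
    rw [a.2.1, (coneOp x (δ a) + δ (coneOp x a) + a.1 [x] • (1 : Coch X)).2.1]
  · have e : (fun m => a.1 (x :: m)) =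
        (coneOp x a).1 + a.1 [x] • fun m : List X => if m = [] then (1 : ℂ) else 0 := by
      funext m
      rw [Pi.add_apply, coneOp_val, Pi.smul_apply]
      split_ifs with h
      · simp [h]
      · simp
    rw [Coch.add_val, Coch.add_val, Pi.add_apply, Pi.add_apply, coneOp_val, if_neg hl, δ_val,
      cob_cons, e, cob_add, cob_smul, Pi.add_apply, Pi.smul_apply, cob_ind, δ_val, Coch.smul_val,
      Coch.one_val, Pi.smul_apply]
    ring

section top

variable [TopologicalSpace X] [TopologicalSpace Y] [TopologicalSpace Z]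

theorem Van.coneOp {x : X} {a : Coch X} (h : a ∈ Van x) : coneOp x a ∈ Van x := by
  obtain ⟨U, hU, h1⟩ := notMem_supp.1 h
  refine notMem_supp.2 ⟨U, hU, fun l hl => ?_⟩
  rw [coneOp_val, h1 (x :: l), ite_self]
  intro y hy
  rcases List.mem_cons.1 hy with rfl | hy
  · exact mem_of_mem_nhds hU
  · exact hl y hy

/-- **The local structure of the complex**: near `x` a cocycle is a constant plus a coboundary. -/
theorem local_cocycle {x : X} {a : Coch X} (h : δ a ∈ Van x) :
    a - a.1 [x] • (1 : Coch X) - δ (coneOp x a) ∈ Van x := by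
  have := Van.coneOp h
  convert this using 1
  conv_lhs => enter [1, 1]; rw [coneOp_δ x a]
  abel

theorem IsDeg.val_single {k : ℤ} {a : Coch X} (ha : IsDeg k a) (hk : k ≠ 0) (x : X) :
    a.1 [x] = 0 := ha _ (by simp; omega)

theorem smul_one_van {x : X} {c : ℂ} (h : c • (1 : Coch X) ∈ Van x) : c = 0 := by
  obtain ⟨U, hU, h1⟩ := notMem_supp.1 h
  have := h1 [x] (by simpa using mem_of_mem_nhds hU)
  simpa [Coch.smul_val, Coch.one_val, unit] using this

theorem Van.val_single {x : X} {a : Coch X} (h : a ∈ Van x) : a.1 [x] = 0 := by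
  obtain ⟨U, hU, h1⟩ := notMem_supp.1 h
  exact h1 [x] (by simpa using mem_of_mem_nhds hU)

omit [TopologicalSpace X] in
theorem δ_val_single (a : Coch X) (x : X) : (δ a).1 [x] = 0 := by
  rw [δ_val, cob_cons, cob_nil, a.2.1, sub_zero]

omit [TopologicalSpace X] in
theorem δ_val_pair (a : Coch X) (x y : X) : (δ a).1 [x, y] = a.1 [y] - a.1 [x] := by
  rw [δ_val, cob_cons, cob_cons, cob_nil, sub_zero]

/-! ### tautness -/

/-- a retraction of sets which is continuous at the points of the image -/
structure IsRetr (i : X → Y) (r : Y → X) : Prop where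
  left : ∀ x, r (i x) = x
  cont : ∀ x, ContinuousAt r (i x)

/-- `i` is continuous and has a retraction which is continuous at the points of the image -/
structure Taut (i : X → Y) : Prop where
  cont : Continuous i
  retr : IsEmpty X ∨ ∃ r, IsRetr i r

theorem Taut.of_isOpenEmbedding {i : X → Y} (hi : IsOpenEmbedding i) : Taut i := by
  refine ⟨hi.continuous, (isEmpty_or_nonempty X).imp id fun (_ : Nonempty X) => ?_⟩
  refine ⟨Function.invFun i, Function.leftInverse_invFun hi.injective, fun x => ?_⟩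
  rw [← hi.continuousAt_iff]
  have : Function.invFun i ∘ i = id := funext (Function.leftInverse_invFun hi.injective)
  rw [this]
  exact continuousAt_id

theorem Taut.of_isLocallyClosed [TopologicalSpace.PseudoMetrizableSpace Y] {i : X → Y}
    (hi : IsEmbedding i) (hc : IsLocallyClosed (range i)) : Taut i := by
  classical
  refine ⟨hi.continuous, (isEmpty_or_nonempty X).imp id fun (hX : Nonempty X) => ?_⟩
  letI := TopologicalSpace.pseudoMetrizableSpacePseudoMetric Y
  have hne : (range i).Nonempty := range_nonempty i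
  have ex : ∀ y : Y, ∃ x : X, (∀ x', y = i x' → x = x') ∧
      (y ∉ closure (range i) → dist y (i x) < 2 * Metric.infDist y (range i)) := by
    intro y
    by_cases hy : y ∈ range i
    · obtain ⟨x, rfl⟩ := hy
      exact ⟨x, fun x' h => hi.injective h, fun h => absurd (subset_closure (mem_range_self x)) h⟩
    · by_cases hy' : y ∈ closure (range i)
      · exact ⟨hX.some, fun x' h => absurd ⟨x', h.symm⟩ hy, fun h => absurd hy' h⟩
      · have hp : 0 < Metric.infDist y (range i) := (Metric.infDist_pos_iff_notMem_closure hne).1 hy'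
        obtain ⟨_, ⟨x, rfl⟩, hx⟩ := (Metric.infDist_lt_iff hne).1
          (show Metric.infDist y (range i) < 2 * Metric.infDist y (range i) by linarith)
        exact ⟨x, fun x' h => absurd ⟨x', h.symm⟩ hy, fun _ => hx⟩
  choose r hr1 hr2 using ex
  refine ⟨r, fun x => hr1 _ x rfl, fun x => ?_⟩
  rw [hi.isInducing.continuousAt_iff, ContinuousAt, Function.comp_apply, hr1 _ x rfl]
  have hc' : ∀ y ∈ range i, ∃ U, y ∈ U ∧ IsOpen U ∧ U ∩ closure (range i) ⊆ range i :=
    ((isLocallyClosed_tfae (range i)).out 0 3).1 hc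
  obtain ⟨U, hxU', hU, hUe⟩ := hc' _ (mem_range_self x)
  have hxU : U ∈ 𝓝 (i x) := hU.mem_nhds hxU'
  rw [Metric.tendsto_nhds]
  intro ε hε
  filter_upwards [hxU, Metric.ball_mem_nhds (i x) (show 0 < ε / 3 by linarith)] with y hy hd
  rw [Metric.mem_ball] at hd
  by_cases hy' : y ∈ closure (range i)
  · obtain ⟨x', rfl⟩ : y ∈ range i := hUe ⟨hy, hy'⟩
    rw [Function.comp_apply, hr1 _ x' rfl]
    linarith
  · have h1 := hr2 y hy'
    have h2 : Metric.infDist y (range i) ≤ dist y (i x) :=
      Metric.infDist_le_dist_of_mem (mem_range_self x)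
    have h3 := dist_triangle_left (i (r y)) (i x) y
    rw [Function.comp_apply]
    linarith

theorem Taut.of_isClosedEmbedding [TopologicalSpace.PseudoMetrizableSpace Y] {i : X → Y}
    (hi : IsClosedEmbedding i) : Taut i :=
  Taut.of_isLocallyClosed hi.isEmbedding hi.isClosed_range.isLocallyClosed

theorem Taut.comp {i : X → Y} {j : Y → Z} (hj : Taut j) (hi : Taut i) : Taut (j ∘ i) := by
  refine ⟨hj.cont.comp hi.cont, hi.retr.elim Or.inl ?_⟩
  rintro ⟨r, hr⟩
  rcases hj.retr with h | ⟨s, hs⟩
  · exact Or.inl ⟨fun x => h.elim (i x)⟩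
  · refine Or.inr ⟨r ∘ s, fun x => by simp [hs.left, hr.left], fun x => ?_⟩
    exact ContinuousAt.comp (by rw [Function.comp_apply, hs.left]; exact hr.cont x) (hs.cont _)

/-- the extension operator and the homotopy of a taut map -/
structure TautData (i : X → Y) where
  /-- extension -/
  e : Coch X →ₗ[ℂ] Coch Y
  /-- homotopy -/
  P : Coch Y →ₗ[ℂ] Coch Y
  pull_e : ∀ a, pull i (e a) = a
  e_δ : ∀ a, δ (e a) = e (δ a)
  e_mul : ∀ a b, e (a * b) = e a * e b
  e_deg : ∀ k a, IsDeg k a → IsDeg k (e a)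
  e_van : ∀ x a, a ∈ Van x → e a ∈ Van (i x)
  P_deg : ∀ k b, IsDeg k b → IsDeg (k - 1) (P b)
  P_van : ∀ x b, b ∈ Van (i x) → P b ∈ Van (i x)
  P_δ : ∀ x b, b - e (pull i b) - δ (P b) - P (δ b) ∈ Van (i x)

theorem Taut.data {i : X → Y} (h : Taut i) : Nonempty (TautData i) := by
  rcases h.retr with hX | ⟨r, hr⟩
  · exact ⟨⟨0, 0, fun _ => Subsingleton.elim _ _, fun _ => by simp, fun _ _ => by simp,
      fun k _ _ => isDeg_zero k, fun x => hX.elim x, fun k _ _ => isDeg_zero _,
      fun x => hX.elim x, fun x => hX.elim x⟩⟩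
  · have hc : ∀ x, ContinuousAt (i ∘ r) (i x) := fun x =>
      ContinuousAt.comp (by rw [hr.left]; exact h.cont.continuousAt) (hr.cont x)
    refine ⟨⟨(pull r).toLinearMap, prismOp (i ∘ r) id, fun a => ?_, fun a => δ_pull r a,
      fun a b => map_mul (pull r) a b,
      fun k a ha => ha.pull r, fun x a ha => Van.pull (hr.cont x) (by rwa [hr.left]),
      fun k b hb => prismOp_deg _ _ hb, fun x b hb => Van.prismOp (hc x) continuousAt_id
        (by simp [hr.left]) (by simpa [hr.left] using hb), fun x b => ?_⟩⟩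
    · show pull i (pull r a) = a
      rw [pull_pull, show r ∘ i = id from funext hr.left, pull_id]
    · have := prismOp_δ (i ∘ r) id b
      rw [pull_id, ← pull_pull] at this
      show b - pull r (pull i b) - _ - _ ∈ _
      rw [← this]
      simp

/-- **Tautness, extension of cochains.** -/
theorem Taut.surj {i : X → Y} (h : Taut i) {k : ℤ} {a : Coch X} (ha : IsDeg k a) :
    ∃ b, IsDeg k b ∧ pull i b = a ∧ (∀ x, a ∈ Van x → b ∈ Van (i x)) ∧
      ∀ x, δ a ∈ Van x → δ b ∈ Van (i x) := by
  obtain ⟨D⟩ := h.data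
  exact ⟨D.e a, D.e_deg k a ha, D.pull_e a, fun x => D.e_van x a, fun x hx => by
    rw [D.e_δ]
    exact D.e_van x _ hx⟩

/-- **Tautness, extension of primitives.** -/
theorem Taut.inj {i : X → Y} (h : Taut i) {k : ℤ} {b : Coch Y} (hb : IsDeg k b) {c : Coch X}
    (hc : IsDeg (k - 1) c) :
    ∃ c', IsDeg (k - 1) c' ∧ (∀ x, b ∈ Van (i x) → c ∈ Van x → c' ∈ Van (i x)) ∧
      ∀ x, δ b ∈ Van (i x) → pull i b - δ c ∈ Van x → b - δ c' ∈ Van (i x) := by
  obtain ⟨D⟩ := h.data
  refine ⟨D.P b + D.e c, (D.P_deg k b hb).add (D.e_deg _ c hc), fun x h1 h2 =>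
    (Van _).add_mem (D.P_van x b h1) (D.e_van x c h2), fun x h1 h2 => ?_⟩
  have := (Van _).add_mem ((Van _).add_mem (D.P_δ x b) (D.P_van x _ h1)) (D.e_van x _ h2)
  convert this using 1
  rw [map_add, map_sub, D.e_δ]
  abel

/-- cutting a cochain down to a compact neighbourhood of a compact set -/
theorem exists_cut_compact [T2Space Y] [LocallyCompactSpace Y] {K W : Set Y} (hK : IsCompact K)
    (hW : IsOpen W) (hKW : K ⊆ W) (b : Coch Y) :
    ∃ N, IsCompact (supp (cut N b)) ∧ supp (cut N b) ⊆ W ∩ supp b ∧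
      ∀ y, (y ∈ K ∨ b ∈ Van y) → b - cut N b ∈ Van y := by
  obtain ⟨N, cN, h1, h2⟩ := exists_compact_between hK hW hKW
  have hs : supp (cut N b) ⊆ N ∩ supp b := by
    have := supp_cut N b
    rwa [cN.isClosed.closure_eq] at this
  refine ⟨N, cN.of_isClosed_subset (isClosed_supp _) (hs.trans inter_subset_left),
    hs.trans (inter_subset_inter_left _ h2), fun y hy => ?_⟩
  rcases hy with hy | hy
  · exact cut_in (mem_interior_iff_mem_nhds.1 (h1 hy)) b
  · exact (Van y).sub_mem hy (Van.cut hy N)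

/-- **Tautness with compact supports, extension of cochains.** -/
theorem Taut.surj_c [T2Space Y] [LocallyCompactSpace Y] {i : X → Y} (h : Taut i) {k : ℤ}
    {a : Coch X} (ha : IsDeg k a) (hK : IsCompact (supp a)) {W : Set Y} (hW : IsOpen W)
    (hKW : i '' supp a ⊆ W) :
    ∃ b, IsDeg k b ∧ IsCompact (supp b) ∧ supp b ⊆ W ∧ (∀ x, pull i b - a ∈ Van x) ∧
      (∀ x, a ∈ Van x → b ∈ Van (i x)) ∧ ∀ x, δ a ∈ Van x → δ b ∈ Van (i x) := by
  obtain ⟨b, hb, e, h1, h2⟩ := h.surj ha
  obtain ⟨N, c1, c2, c3⟩ := exists_cut_compact (hK.image h.cont) hW hKW b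
  have c4 : ∀ x, b - cut N b ∈ Van (i x) := fun x => c3 _ (by
    by_cases hx : x ∈ supp a
    · exact Or.inl (mem_image_of_mem i hx)
    · exact Or.inr (h1 x hx))
  refine ⟨cut N b, hb.cut N, c1, c2.trans inter_subset_left, fun x => ?_,
    fun x hx => Van.cut (h1 x hx) N, fun x hx => ?_⟩
  · have := (Van x).neg_mem (Van.pull h.cont.continuousAt (c4 x))
    rwa [map_sub, e, neg_sub] at this
  · have := (Van _).sub_mem (h2 x hx) (Van.δ (c4 x))
    rwa [map_sub, sub_sub_cancel] at this

/-- **Tautness with compact supports, extension of primitives.** -/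
theorem Taut.inj_c [T2Space Y] [LocallyCompactSpace Y] {i : X → Y} (h : Taut i) {k : ℤ}
    {b : Coch Y} (hb : IsDeg k b) {c : Coch X} (hc : IsDeg (k - 1) c)
    {K : Set X} (hK : IsCompact K) (hbK : i ⁻¹' supp b ⊆ K) (hcK : supp c ⊆ K) {W : Set Y}
    (hW : IsOpen W) (hKW : i '' K ⊆ W) :
    ∃ c', IsDeg (k - 1) c' ∧ IsCompact (supp c') ∧ supp c' ⊆ W ∧
      (∀ x, b ∈ Van (i x) → c ∈ Van x → c' ∈ Van (i x)) ∧
      ∀ x, δ b ∈ Van (i x) → pull i b - δ c ∈ Van x → b - δ c' ∈ Van (i x) := by
  obtain ⟨c', hc', h1, h2⟩ := h.inj hb hc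
  obtain ⟨N, c1, c2, c3⟩ := exists_cut_compact (hK.image h.cont) hW hKW c'
  have c4 : ∀ x, c' - cut N c' ∈ Van (i x) := fun x => c3 _ (by
    by_cases hx : x ∈ K
    · exact Or.inl (mem_image_of_mem i hx)
    · exact Or.inr (h1 x (fun h => hx (hbK h)) fun h => hx (hcK h)))
  refine ⟨cut N c', hc'.cut N, c1, c2.trans inter_subset_left,
    fun x hx hx' => Van.cut (h1 x hx hx') N, fun x hx hx' => ?_⟩
  have := (Van _).add_mem (h2 x hx hx') (Van.δ (c4 x))
  rw [map_sub] at this
  convert this using 1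
  abel

end top

end Vale.Agent.P291Z
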