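import Vale.Agent.P291Z.T2
import Vale.Agent.P291Z.Soft

set_option linter.all false

/-!
# Cochains over a base as soft complexes, their stalks
-/

namespace Vale.Agent.P291Z

open Topology Set Filter TopologicalSpace

variable {X Y E B F : Type} [TopologicalSpace X] [TopologicalSpace Y] [TopologicalSpace E]
  [TopologicalSpace B] [TopologicalSpace F]

/-! ### compactly supported cocycles and coboundaries -/

theorem mem_Zc {a : Coch X} : a ∈ Zc X ↔ IsCompact (supp a) ∧ supp (δ a) = ∅ := Iff.rfl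

theorem mem_Bc {a : Coch X} : a ∈ Bc X ↔ ∃ c, IsCompact (supp c) ∧ supp (a - δ c) = ∅ := Iff.rfl

theorem isCompact_supp_of_subset {a : Coch X} {K : Set X} (hK : IsCompact K) (h : supp a ⊆ K) :
    IsCompact (supp a) := hK.of_isClosed_subset (isClosed_supp a) h

theorem mem_Bc_of_null {a : Coch X} (h : ∀ x, a ∈ Van x) : a ∈ Bc X :=
  ⟨0, by rw [supp_zero]; exact isCompact_empty, by rwa [map_zero, sub_zero, supp_eq_empty]⟩

theorem δ_mem_Bc {c : Coch X} (h : IsCompact (supp c)) : δ c ∈ Bc X :=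
  ⟨c, h, by rw [sub_self, supp_zero]⟩

theorem Bc_le_Zc : Bc X ≤ Zc X := by
  rintro a ⟨c, hc, h⟩
  rw [supp_eq_empty] at h
  refine ⟨isCompact_supp_of_subset hc fun x hx => by_contra fun hx' => ?_,
    supp_eq_empty.2 fun x => ?_⟩
  · have := (Van x).add_mem (h x) (Van.δ hx')
    rw [sub_add_cancel] at this
    exact this hx
  · have := Van.δ (h x)
    rwa [map_sub, δ_δ, sub_zero] at this

theorem Zc.comp {a : Coch X} (h : a ∈ Zc X) (k : ℤ) : comp k a ∈ Zc X :=
  ⟨isCompact_supp_of_subset h.1 (supp_comp k a), by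
    rw [← comp_δ]
    exact supp_eq_empty.2 fun x => Van.comp (supp_eq_empty.1 h.2 x) _⟩

theorem Bc.exists_deg {k : ℤ} {a : Coch X} (h : a ∈ Bc X) (ha : IsDeg k a) :
    ∃ c, IsDeg (k - 1) c ∧ IsCompact (supp c) ∧ ∀ x, a - δ c ∈ Van x := by
  obtain ⟨c, hc, h⟩ := h
  refine ⟨comp (k - 1) c, isDeg_comp _ c, isCompact_supp_of_subset hc (supp_comp _ c), fun x => ?_⟩
  have := Van.comp (supp_eq_empty.1 h x) k
  rwa [map_sub, ha.comp_eq, comp_δ'] at this

theorem Bc.comp {a : Coch X} (h : a ∈ Bc X) (k : ℤ) : comp k a ∈ Bc X := by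
  obtain ⟨c, hc, h⟩ := h
  refine ⟨P291Z.comp (k - 1) c, isCompact_supp_of_subset hc (supp_comp _ c),
    supp_eq_empty.2 fun x => ?_⟩
  have := Van.comp (supp_eq_empty.1 h x) k
  rwa [map_sub, comp_δ'] at this

theorem Bc.of_comp {a : Coch X} (h : ∀ k, P291Z.comp k a ∈ Bc X) : a ∈ Bc X :=
  a.induction_comp (P := fun b => b ∈ Bc X) (Bc X).zero_mem (fun _ _ => (Bc X).add_mem) h

/-! ### families of supports -/

/-- a family of supports -/
structure Fam (E : Type) [TopologicalSpace E] where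
  /-- the members -/
  mem : Set E → Prop
  empty : mem ∅
  union : ∀ {A A'}, mem A → mem A' → mem (A ∪ A')
  mono : ∀ {A A'}, mem A' → IsClosed A → A ⊆ A' → mem A

namespace Fam

/-- all sets -/
def all (E : Type) [TopologicalSpace E] : Fam E :=
  ⟨fun _ => True, trivial, fun _ _ => trivial, fun _ _ _ => trivial⟩

/-- the subsets of `Z` -/
def sub (Z : Set E) : Fam E :=
  ⟨fun A => A ⊆ Z, empty_subset Z, union_subset, fun h _ h' => h'.trans h⟩

/-- the compact sets -/
def cpt (E : Type) [TopologicalSpace E] : Fam E :=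
  ⟨IsCompact, isCompact_empty, IsCompact.union, fun h h1 h2 => h.of_isClosed_subset h1 h2⟩

/-- the sets which are proper over the base -/
def prop (p : E → B) : Fam E where
  mem A := ∀ K, IsCompact K → IsCompact (A ∩ p ⁻¹' K)
  empty K _ := by rw [empty_inter]; exact isCompact_empty
  union h h' K hK := by rw [union_inter_distrib_right]; exact (h K hK).union (h' K hK)
  mono {A A'} h h1 h2 K hK := by
    have := (h K hK).inter_left h1
    rwa [← inter_assoc, inter_eq_left.2 h2] at this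

/-- the intersection of two families -/
def inf (Φ Ψ : Fam E) : Fam E :=
  ⟨fun A => Φ.mem A ∧ Ψ.mem A, ⟨Φ.empty, Ψ.empty⟩,
    fun h h' => ⟨Φ.union h.1 h'.1, Ψ.union h.2 h'.2⟩,
    fun h h1 h2 => ⟨Φ.mono h.1 h1 h2, Ψ.mono h.2 h1 h2⟩⟩

/-- cochains with supports in the family -/
def coch (Φ : Fam E) : Submodule ℂ (Coch E) where
  carrier := {a | Φ.mem (supp a)}
  zero_mem' := by
    show Φ.mem (supp 0)
    rw [supp_zero]
    exact Φ.empty
  add_mem' ha hb := Φ.mono (Φ.union ha hb) (isClosed_supp _) (supp_add _ _)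
  smul_mem' c _ ha := Φ.mono ha (isClosed_supp _) (supp_smul c _)

theorem mem_coch {Φ : Fam E} {a : Coch E} : a ∈ Φ.coch ↔ Φ.mem (supp a) := Iff.rfl

theorem coch_mono {Φ : Fam E} {a b : Coch E} (ha : a ∈ Φ.coch) (h : supp b ⊆ supp a) :
    b ∈ Φ.coch := Φ.mono ha (isClosed_supp b) h

theorem coch_of_null (Φ : Fam E) {a : Coch E} (h : ∀ x, a ∈ Van x) : a ∈ Φ.coch := by
  rw [mem_coch, supp_eq_empty.2 h]
  exact Φ.empty

/-- membership in the family is local over the base -/
def Local (Φ : Fam E) (p : E → B) : Prop :=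
  ∀ A, IsClosed A → (∀ x, ∃ N ∈ 𝓝 x, ∃ A', Φ.mem A' ∧ A ∩ p ⁻¹' N ⊆ A') → Φ.mem A

theorem local_all (p : E → B) : (all E).Local p := fun _ _ _ => trivial

theorem local_sub (Z : Set E) (p : E → B) : (sub Z).Local p := fun A _ h e he => by
  obtain ⟨N, hN, A', h1, h2⟩ := h (p e)
  exact h1 (h2 ⟨he, (mem_of_mem_nhds hN : p e ∈ N)⟩)

theorem Local.inf {Φ Ψ : Fam E} {p : E → B} (h : Φ.Local p) (h' : Ψ.Local p) :
    (Φ.inf Ψ).Local p := fun A hA H =>
  ⟨h A hA fun x => by
    obtain ⟨N, hN, A', h1, h2⟩ := H x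
    exact ⟨N, hN, A', h1.1, h2⟩, h' A hA fun x => by
    obtain ⟨N, hN, A', h1, h2⟩ := H x
    exact ⟨N, hN, A', h1.2, h2⟩⟩

theorem local_prop [T2Space B] {p : E → B} (hp : Continuous p) : (prop p).Local p := by
  intro A hA h K hK
  have hc : IsClosed (A ∩ p ⁻¹' K) := hA.inter (hK.isClosed.preimage hp)
  have key : ∃ C, IsCompact C ∧ A ∩ p ⁻¹' K ⊆ C := by
    refine hK.induction_on (p := fun s => ∃ C, IsCompact C ∧ A ∩ p ⁻¹' s ⊆ C) ?_ ?_ ?_ ?_
    · exact ⟨∅, isCompact_empty, by simp⟩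
    · rintro s t hst ⟨C, h1, h2⟩
      exact ⟨C, h1, (inter_subset_inter_right _ (preimage_mono hst)).trans h2⟩
    · rintro s t ⟨C, h1, h2⟩ ⟨C', h1', h2'⟩
      refine ⟨C ∪ C', h1.union h1', ?_⟩
      rw [preimage_union, inter_union_distrib_left]
      exact union_subset_union h2 h2'
    · intro x _
      obtain ⟨N, hN, A', h1, h2⟩ := h x
      exact ⟨N ∩ K, inter_mem (mem_nhdsWithin_of_mem_nhds hN) self_mem_nhdsWithin, _, h1 K hK,
        fun e he => ⟨h2 ⟨he.1, he.2.1⟩, he.2.2⟩⟩
  obtain ⟨C, h1, h2⟩ := key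
  exact h1.of_isClosed_subset hc h2

theorem prop_of_isCompact [T2Space B] {p : E → B} (hp : Continuous p) {A : Set E}
    (hA : IsCompact A) : (prop p).mem A := fun K hK => hA.inter_right (hK.isClosed.preimage hp)

end Fam

/-! ### the soft complex of cochains over a base -/

/-- cochains which vanish near all points over a neighbourhood of `x` -/
def VanB (p : E → B) (x : B) : Submodule ℂ (Coch E) where
  carrier := {a | ∀ᶠ y in 𝓝 x, ∀ e, p e = y → a ∈ Van e}
  zero_mem' := Eventually.of_forall fun _ e _ => (Van e).zero_mem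
  add_mem' ha hb := (Eventually.and ha hb).mono fun _ h e he =>
    (Van e).add_mem (h.1 e he) (h.2 e he)
  smul_mem' c _ ha := Eventually.mono ha fun _ h e he => (Van e).smul_mem c (h e he)

theorem mem_VanB {p : E → B} {x : B} {a : Coch E} :
    a ∈ VanB p x ↔ ∀ᶠ y in 𝓝 x, ∀ e, p e = y → a ∈ Van e := Iff.rfl

theorem VanB.van {p : E → B} {e : E} {a : Coch E} (h : a ∈ VanB p (p e)) : a ∈ Van e :=
  Eventually.self_of_nhds h e rfl

theorem VanB.of_imp {p : E → B} {x : B} {a b : Coch E} (h : a ∈ VanB p x)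
    (hab : ∀ e, a ∈ Van e → b ∈ Van e) : b ∈ VanB p x :=
  Eventually.mono h fun _ h e he => hab e (h e he)

theorem VanB.of_null {p : E → B} {a : Coch E} (h : ∀ e, a ∈ Van e) (x : B) : a ∈ VanB p x :=
  Eventually.of_forall fun _ e _ => h e

theorem vanB_id {x : B} {a : Coch B} : a ∈ VanB id x ↔ a ∈ Van x :=
  ⟨fun h => VanB.van (p := id) h, fun h => (eventually_van h).mono fun _ h e he => by
    cases he
    exact h⟩

theorem VanB.pull {p : E → B} (hp : Continuous p) {x : B} {a : Coch B} (h : a ∈ Van x) :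
    pull p a ∈ VanB p x :=
  (eventually_van h).mono fun _ h _ he => Van.pull hp.continuousAt (he ▸ h)

theorem VanB.pull' {f : X → E} (hf : Continuous f) {p : E → B} {x : B} {a : Coch E}
    (h : a ∈ VanB p x) : P291Z.pull f a ∈ VanB (p ∘ f) x :=
  Eventually.mono h fun _ h e he => Van.pull hf.continuousAt (h (f e) he)

/-- **The soft complex of cochains on `E` with supports in `Φ`, over the base `B`.** -/
noncomputable def asSoft {p : E → B} (hp : Continuous p) (Φ : Fam E) : Soft ℂ B (Coch E) where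
  δ := δ
  deg n := degS E n ⊓ Φ.coch
  Van := VanB p
  cut S := cut (p ⁻¹' S)
  δ_deg _ a ha := ⟨IsDeg.δ ha.1, Fam.coch_mono ha.2 (supp_δ a)⟩
  δδ a x := by rw [δ_δ]; exact (VanB p x).zero_mem
  δ_van _ _ ha := VanB.of_imp ha fun _ => Van.δ
  van_open _ := isOpen_setOf_eventually_nhds
  cut_deg S _ a ha := ⟨IsDeg.cut ha.1 _,
    Fam.coch_mono ha.2 ((supp_cut _ a).trans inter_subset_right)⟩
  cut_van S _ _ ha := VanB.of_imp ha fun _ h => Van.cut h _
  cut_in S _ a hS := (eventually_mem_nhds_iff.2 hS).mono fun _ h _ he =>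
    cut_in (hp.continuousAt (he ▸ h)) a
  cut_out S _ a hS := (eventually_mem_nhds_iff.2 hS).mono fun _ h _ he =>
    cut_out (S := p ⁻¹' S) (hp.continuousAt (he ▸ h)) a

section asSoft

variable {p : E → B} (hp : Continuous p) (Φ : Fam E)

theorem asSoft_δ (a : Coch E) : (asSoft hp Φ).δ a = δ a := rfl

theorem asSoft_deg {n : ℤ} {a : Coch E} :
    a ∈ (asSoft hp Φ).deg n ↔ IsDeg n a ∧ Φ.mem (supp a) := Iff.rfl

theorem asSoft_van {x : B} {a : Coch E} : a ∈ (asSoft hp Φ).Van x ↔ a ∈ VanB p x := Iff.rfl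

theorem asSoft_vanOn_univ {a : Coch E} : a ∈ (asSoft hp Φ).VanOn univ ↔ ∀ e, a ∈ Van e :=
  ⟨fun h e => VanB.van (h (p e) (mem_univ _)), fun h x _ => VanB.of_null h x⟩

theorem asSoft_vanOn_open {U : Set B} (hU : IsOpen U) {a : Coch E} :
    a ∈ (asSoft hp Φ).VanOn U ↔ ∀ e, p e ∈ U → a ∈ Van e :=
  ⟨fun h e he => VanB.van (h (p e) he), fun h _ hx =>
    Eventually.mono (hU.mem_nhds hx) fun _ hy e he => h e (he ▸ hy)⟩

theorem asSoft_supp (a : Coch E) : (asSoft hp Φ).supp a = closure (p '' supp a) := by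
  ext x
  rw [mem_closure_iff_frequently, Soft.supp, mem_setOf_eq, asSoft_van, mem_VanB, not_eventually]
  refine frequently_congr (Eventually.of_forall fun y => ?_)
  simp only [mem_Van, not_forall, not_not, mem_image, exists_prop]
  exact exists_congr fun e => and_comm

theorem supp_subset_asSoft (a : Coch E) : supp a ⊆ p ⁻¹' (asSoft hp Φ).supp a := fun _ he h =>
  VanB.van h he

theorem asSoft_low {n : ℤ} (hn : n < 0) {a : Coch E} (ha : a ∈ (asSoft hp Φ).deg n) (U : Set B) :
    a ∈ (asSoft hp Φ).VanOn U := by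
  rw [IsDeg.eq_zero ha.1 hn]
  exact Submodule.zero_mem _

theorem asSoft_glue (hΦ : Φ.Local p) : (asSoft hp Φ).Glue := by
  classical
  intro n A a hc hm hn ha hs
  have ex : ∀ x, ∃ k, x ∈ A k := fun x => (hn x).imp fun _ h => mem_of_mem_nhds h
  have diff : ∀ j k, j ≤ k → ∀ x ∈ A j, a k - a j ∈ VanB p x := by
    intro j k hjk x hx
    induction k, hjk using Nat.le_induction with
    | base => rw [sub_self]; exact Submodule.zero_mem _
    | succ k hk ih =>
      have := (VanB p x).add_mem (hs k x (hm hk hx)) ih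
      rwa [sub_add_sub_cancel] at this
  let v : List E → ℂ := fun l => match l with
    | [] => 0
    | e :: l => (a (Nat.find (ex (p e)))).1 (e :: l)
  have vdeg : ∀ l : List E, (l.length : ℤ) ≠ n + 1 → v l = 0 := fun l hl => by
    cases l with
    | nil => rfl
    | cons e l => exact (ha _).1 _ hl
  let b : Coch E := ⟨v, rfl, (n + 1).toNat, fun l hl => vdeg l (by omega)⟩
  have key : ∀ k, ∀ x ∈ A k, b - a k ∈ VanB p x := by
    intro k x hx
    obtain ⟨k', hk'⟩ := hn x
    have h1 : ∀ᶠ y in 𝓝 x, ∀ j ∈ Finset.range (k' + 1), (x ∉ A j → y ∉ A j) ∧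
        (x ∈ A j → ∀ e, p e = y → a j - a k ∈ Van e) := by
      refine (eventually_all_finset _).2 fun j _ => Eventually.and ?_ ?_
      · by_cases h : x ∈ A j
        · exact Eventually.of_forall fun _ h' => absurd h h'
        · exact Eventually.mono ((hc j).isOpen_compl.mem_nhds h) fun _ h _ => h
      · by_cases h : x ∈ A j
        · have : a j - a k ∈ VanB p x := by
            rcases le_total j k with hjk | hjk
            · rw [← neg_sub]
              exact (VanB p x).neg_mem (diff j k hjk x h)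
            · exact diff k j hjk x hx
          exact Eventually.mono this fun _ h _ => h
        · exact Eventually.of_forall fun _ h' => absurd h' h
    filter_upwards [h1, (h1.and hk').eventually_nhds] with y hy hy' e he
    have h2 : ∀ᶠ e' in 𝓝 e, (∀ j ∈ Finset.range (k' + 1), x ∉ A j → p e' ∉ A j) ∧ p e' ∈ A k' :=
      (hp.continuousAt.tendsto.eventually (he ▸ hy')).mono fun _ h =>
        ⟨fun j hj => (h.1 j hj).1, h.2⟩
    have h3 : ∀ j, ∃ U ∈ 𝓝 e, j ∈ Finset.range (k' + 1) → x ∈ A j →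
        ∀ l : List E, (∀ z ∈ l, z ∈ U) → (a j - a k).1 l = 0 := by
      intro j
      by_cases hj : j ∈ Finset.range (k' + 1) ∧ x ∈ A j
      · obtain ⟨U, hU, h⟩ := notMem_supp.1 ((hy j hj.1).2 hj.2 e he)
        exact ⟨U, hU, fun _ _ => h⟩
      · exact ⟨univ, univ_mem, fun h h' => absurd ⟨h, h'⟩ hj⟩
    choose U hU hU' using h3
    refine notMem_supp.2 ⟨_, inter_mem h2 ((biInter_finset_mem (Finset.range (k' + 1))).2
      fun j _ => hU j), fun l hl => ?_⟩
    cases l with
    | nil => exact (b - a k).2.1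
    | cons z l =>
      have hz := (hl z (by simp)).1
      have hj : Nat.find (ex (p z)) ∈ Finset.range (k' + 1) :=
        Finset.mem_range.2 (Nat.lt_succ_of_le (Nat.find_min' _ hz.2))
      exact hU' _ hj (by_contra fun h => hz.1 _ hj h (Nat.find_spec (ex (p z)))) (z :: l)
        fun w hw => mem_iInter₂.1 (hl w hw).2 _ hj
  refine ⟨b, ⟨vdeg, hΦ _ (isClosed_supp b) fun x => ?_⟩, fun k x hx => key k x hx⟩
  obtain ⟨k, hk⟩ := hn x
  refine ⟨A k, hk, supp (a k), (ha k).2, fun e he => by_contra fun h => ?_⟩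
  have := (Van e).add_mem (VanB.van (key k (p e) he.2)) h
  rw [sub_add_cancel] at this
  exact this he.1

end asSoft

/-! ### proper supports and fibres -/

section fib

variable [T2Space B] [LocallyCompactSpace B] {p : E → B}

theorem vanB_of_prop (hp : Continuous p) {a : Coch E} (ha : (Fam.prop p).mem (supp a)) {x : B}
    (h : ∀ e, p e = x → a ∈ Van e) : a ∈ VanB p x := by
  obtain ⟨K, hK, hx⟩ := exists_compact_mem_nhds x
  have hc : IsClosed (p '' (supp a ∩ p ⁻¹' K)) := ((ha K hK).image hp).isClosed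
  filter_upwards [hx, hc.isOpen_compl.mem_nhds (show x ∉ p '' (supp a ∩ p ⁻¹' K) by
    rintro ⟨e, he, rfl⟩
    exact h e rfl he.1)] with y h1 h2 e he h3
  exact h2 ⟨e, ⟨h3, by rwa [mem_preimage, he]⟩, he⟩

theorem asSoft_supp_prop (hp : Continuous p) (Φ : Fam E) {a : Coch E}
    (ha : (Fam.prop p).mem (supp a)) : (asSoft hp Φ).supp a = p '' supp a := by
  ext x
  refine ⟨fun h => by_contra fun h' => h (vanB_of_prop hp ha fun e he h'' => h' ⟨e, h'', he⟩), ?_⟩
  rintro ⟨e, he, rfl⟩
  exact supp_subset_asSoft hp Φ a he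

omit [LocallyCompactSpace B] in
theorem isCompact_asSoft_supp (hp : Continuous p) (Φ : Fam E) {a : Coch E}
    (ha : IsCompact (supp a)) : IsCompact ((asSoft hp Φ).supp a) := by
  rw [asSoft_supp, (ha.image hp).isClosed.closure_eq]
  exact ha.image hp

omit [T2Space B] [LocallyCompactSpace B] in
theorem isCompact_supp_of_prop (hp : Continuous p) (Φ : Fam E) {a : Coch E}
    (ha : (Fam.prop p).mem (supp a)) (h : IsCompact ((asSoft hp Φ).supp a)) :
    IsCompact (supp a) :=
  isCompact_supp_of_subset (ha _ h) (subset_inter subset_rfl (supp_subset_asSoft hp Φ a))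

/-- `i` is a homeomorphism onto the fibre of `p` over `x` -/
structure IsFib (p : E → B) (x : B) (i : F → E) : Prop where
  emb : IsClosedEmbedding i
  range_eq : range i = p ⁻¹' {x}

omit [LocallyCompactSpace B] in
theorem isFib_val (hp : Continuous p) (x : B) : IsFib p x (Subtype.val : p ⁻¹' {x} → E) :=
  ⟨(isClosed_singleton.preimage hp).isClosedEmbedding_subtypeVal, Subtype.range_val⟩

namespace IsFib

variable {x : B} {i : F → E} (h : IsFib p x i)
include h

omit [T2Space B] [LocallyCompactSpace B] in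
theorem apply (f : F) : p (i f) = x := by
  have : i f ∈ p ⁻¹' {x} := h.range_eq ▸ mem_range_self f
  exact this

omit [T2Space B] [LocallyCompactSpace B] in
theorem exists_eq {e : E} (he : p e = x) : ∃ f, i f = e := by
  have : e ∈ range i := h.range_eq ▸ he
  exact this

omit [T2Space B] [LocallyCompactSpace B] in
theorem van {a : Coch E} (ha : a ∈ VanB p x) (f : F) : a ∈ Van (i f) :=
  VanB.van (p := p) (by rwa [h.apply])

omit [T2Space B] [LocallyCompactSpace B] in
theorem pull_van {a : Coch E} (ha : a ∈ VanB p x) (f : F) : pull i a ∈ Van f :=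
  Van.pull h.emb.continuous.continuousAt (h.van ha f)

theorem vanB (hp : Continuous p) {a : Coch E} (ha : (Fam.prop p).mem (supp a))
    (hv : ∀ f, a ∈ Van (i f)) : a ∈ VanB p x :=
  vanB_of_prop hp ha fun e he => by
    obtain ⟨f, rfl⟩ := h.exists_eq he
    exact hv f

omit [T2Space B] [LocallyCompactSpace B] in
theorem isCompact_preimage {A : Set E} (hA : (Fam.prop p).mem A) : IsCompact (i ⁻¹' A) := by
  have := h.emb.isCompact_preimage (hA {x} isCompact_singleton)
  rwa [preimage_inter, ← h.range_eq, preimage_range, inter_univ] at this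

omit [T2Space B] [LocallyCompactSpace B] in
theorem isCompact_pull {a : Coch E} (ha : (Fam.prop p).mem (supp a)) :
    IsCompact (supp (pull i a)) :=
  isCompact_supp_of_subset (h.isCompact_preimage ha) (supp_pull h.emb.continuous a)

omit [T2Space B] [LocallyCompactSpace B] in
theorem pull_mem_Zc {a : Coch E} (ha : (Fam.prop p).mem (supp a)) (hd : δ a ∈ VanB p x) :
    pull i a ∈ Zc F :=
  ⟨h.isCompact_pull ha, supp_eq_empty.2 fun f => by rw [δ_pull]; exact h.pull_van hd f⟩

omit [T2Space B] [LocallyCompactSpace B] in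
theorem pull_mem_Bc {a c : Coch E} (hc : (Fam.prop p).mem (supp c)) (hd : a - δ c ∈ VanB p x) :
    pull i a ∈ Bc F :=
  ⟨pull i c, h.isCompact_pull hc, supp_eq_empty.2 fun f => by
    rw [δ_pull, ← map_sub]; exact h.pull_van hd f⟩

variable [MetrizableSpace E] [LocallyCompactSpace E]

/-- **Proper base change**: classes on the fibre extend. -/
theorem surj (hp : Continuous p) {n : ℤ} {a : Coch F} (ha : a ∈ Zc F) (hn : IsDeg n a) :
    ∃ b, IsDeg n b ∧ IsCompact (supp b) ∧ δ b ∈ VanB p x ∧ ∀ f, pull i b - a ∈ Van f := by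
  obtain ⟨b, h1, h2, -, h3, -, h4⟩ := (Taut.of_isClosedEmbedding h.emb).surj_c hn ha.1 isOpen_univ
    (subset_univ _)
  exact ⟨b, h1, h2, h.vanB hp (Fam.prop_of_isCompact hp (isCompact_supp_of_subset h2 (supp_δ b)))
    fun f => h4 f (supp_eq_empty.1 ha.2 f), h3⟩

/-- **Proper base change**: primitives on the fibre extend. -/
theorem inj (hp : Continuous p) {n : ℤ} {b : Coch E} (hn : IsDeg n b)
    (hb : (Fam.prop p).mem (supp b)) (hd : δ b ∈ VanB p x) (h0 : pull i b ∈ Bc F) :
    ∃ c, IsDeg (n - 1) c ∧ IsCompact (supp c) ∧ b - δ c ∈ VanB p x := by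
  obtain ⟨c, h1, h2, h3⟩ := Bc.exists_deg h0 (hn.pull i)
  obtain ⟨c', h4, h5, -, -, h6⟩ := (Taut.of_isClosedEmbedding h.emb).inj_c hn h1
    ((h.isCompact_preimage hb).union h2) subset_union_left subset_union_right isOpen_univ
    (subset_univ _)
  refine ⟨c', h4, h5, h.vanB hp ?_ fun f => h6 f (h.van hd f) (h3 f)⟩
  exact (Fam.prop p).coch.sub_mem hb
    (Fam.prop_of_isCompact hp (isCompact_supp_of_subset h5 (supp_δ c')))

end IsFib

end fib

end Vale.Agent.P291Z
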