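import Vale.Agent.P291Z.T4

set_option linter.all false

/-!
# Closed embeddings: Gysin maps, the connecting map, the long exact sequence, base change
-/

namespace Vale.Agent.P291Z

open Topology Set Filter TopologicalSpace

variable {X Y Z U X' Z' U' : Type} [TopologicalSpace X] [TopologicalSpace Y] [TopologicalSpace Z]
  [TopologicalSpace U] [TopologicalSpace X'] [TopologicalSpace Z'] [TopologicalSpace U']

/-- compactly supported cochains which are cocycles near the image of `i` -/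
def Near (i : Z → X) : Submodule ℂ (Coch X) where
  carrier := {a | IsCompact (supp a) ∧ ∀ z, δ a ∈ Van (i z)}
  zero_mem' := ⟨by rw [supp_zero]; exact isCompact_empty, fun z => by
    rw [map_zero]; exact (Van _).zero_mem⟩
  add_mem' ha hb := ⟨isCompact_supp_add ha.1 hb.1, fun z => by
    rw [map_add]; exact (Van _).add_mem (ha.2 z) (hb.2 z)⟩
  smul_mem' c _ ha := ⟨isCompact_supp_smul c ha.1, fun z => by
    rw [map_smul]; exact (Van _).smul_mem c (ha.2 z)⟩

theorem mem_Near {i : Z → X} {a : Coch X} :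
    a ∈ Near i ↔ IsCompact (supp a) ∧ ∀ z, δ a ∈ Van (i z) := Iff.rfl

theorem mem_Near' {i : Z → X} {a : Coch X} :
    a ∈ Near i ↔ IsCompact (supp a) ∧ Disjoint (supp (δ a)) (range i) :=
  and_congr Iff.rfl ⟨fun h => disjoint_right.2 (by rintro _ ⟨z, rfl⟩; exact h z),
    fun h z => disjoint_right.1 h (mem_range_self z)⟩

theorem Near.of_Zc {i : Z → X} {a : Coch X} (h : a ∈ Zc X) : a ∈ Near i :=
  ⟨h.1, fun _ => supp_eq_empty.1 h.2 _⟩

theorem Near.comp {i : Z → X} {a : Coch X} (h : a ∈ Near i) (k : ℤ) : comp k a ∈ Near i :=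
  ⟨isCompact_supp_of_subset h.1 (supp_comp k a), fun z => by
    rw [← comp_δ]; exact Van.comp (h.2 z) _⟩

theorem Near.pull_Zc {i : Z → X} (hi : IsPr i) {a : Coch X} (h : a ∈ Near i) : pull i a ∈ Zc Z :=
  ⟨hi.isCompact_pull h.1, supp_eq_empty.2 fun z => by
    rw [δ_pull]; exact Van.pull hi.cont.continuousAt (h.2 z)⟩

theorem Near.mul_Zc {i : Z → X} {a t : Coch X} (h : a ∈ Near i) (ht : supp (δ t) = ∅)
    (hs : supp t ⊆ range i) : a * t ∈ Zc X :=
  ⟨isCompact_supp_of_subset h.1 ((supp_mul _ _).trans inter_subset_left),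
    supp_eq_empty.2 fun x => by
      rw [δ_mul]
      refine (Van x).add_mem ?_ (Van.mul_left (supp_eq_empty.1 ht x) _)
      by_cases hx : x ∈ range i
      · obtain ⟨z, rfl⟩ := hx
        exact Van.mul_right (h.2 z) _
      · exact Van.mul_left (fun h => hx (hs h)) _⟩

theorem Near.mul {i : Z → X} {a s : Coch X} (h : a ∈ Near i) (hs : ∀ z, δ s ∈ Van (i z)) :
    a * s ∈ Near i :=
  ⟨isCompact_supp_of_subset h.1 ((supp_mul _ _).trans inter_subset_left), fun z => by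
    rw [δ_mul]
    exact (Van _).add_mem (Van.mul_right (h.2 z) _) (Van.mul_left (hs z) _)⟩

theorem Near.mul' {i : Z → X} {a s : Coch X} (h : a ∈ Near i) (hs : ∀ z, δ s ∈ Van (i z)) :
    s * a ∈ Near i :=
  ⟨isCompact_supp_of_subset h.1 ((supp_mul _ _).trans inter_subset_right), fun z => by
    rw [δ_mul]
    exact (Van _).add_mem (Van.mul_right (hs z) _) (Van.mul_left (h.2 z) _)⟩

section closed

variable [MetrizableSpace X] [LocallyCompactSpace X] {i : Z → X} (hi : IsClosedEmbedding i)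
include hi

theorem exists_near {k : ℤ} {c : Coch Z} (hc : c ∈ Zc Z) (hk : IsDeg k c) {W : Set X}
    (hW : IsOpen W) (hKW : i '' supp c ⊆ W) :
    ∃ a ∈ Near i, IsDeg k a ∧ supp a ⊆ W ∧ ∀ z, pull i a - c ∈ Van z := by
  obtain ⟨b, h1, h2, h3, h4, -, h5⟩ := (Taut.of_isClosedEmbedding hi).surj_c hk hc.1 hW hKW
  exact ⟨b, ⟨h2, fun z => h5 z (supp_eq_empty.1 hc.2 z)⟩, h1, h3, h4⟩

theorem exists_near' {c : Coch Z} (hc : c ∈ Zc Z) {W : Set X} (hW : IsOpen W)
    (hKW : i '' supp c ⊆ W) : ∃ a ∈ Near i, supp a ⊆ W ∧ ∀ z, pull i a - c ∈ Van z := by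
  refine c.induction_comp (P := fun c => ∃ a ∈ Near i, supp a ⊆ W ∧ ∀ z, pull i a - c ∈ Van z)
    ⟨0, (Near i).zero_mem, by rw [supp_zero]; exact empty_subset _, fun u => by simp⟩ ?_ fun k => ?_
  · rintro c c' ⟨b, h1, h2, h3⟩ ⟨b', h1', h2', h3'⟩
    refine ⟨b + b', (Near i).add_mem h1 h1', (supp_add _ _).trans (union_subset h2 h2'),
      fun u => ?_⟩
    rw [map_add, add_sub_add_comm]
    exact (Van u).add_mem (h3 u) (h3' u)
  · obtain ⟨b, h1, -, h2, h3⟩ := exists_near hi (Zc.comp hc k) (isDeg_comp k c) hW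
      ((image_mono (supp_comp k c)).trans hKW)
    exact ⟨b, h1, h2, h3⟩

theorem cls_surj_near {k : ℤ} {c : Hc Z} (hc : c ∈ Hc.deg Z k) :
    ∃ a ∈ Near i, IsDeg k a ∧ cls (pull i a) = c := by
  obtain ⟨a, ha, hk, rfl⟩ := hc
  obtain ⟨b, h1, h2, -, h4⟩ := exists_near hi ha hk isOpen_univ (subset_univ _)
  exact ⟨b, h1, h2, cls_eq_of_null h4⟩

theorem cls_surj_near' (c : Hc Z) : ∃ a ∈ Near i, cls (pull i a) = c := by
  obtain ⟨a, ha, rfl⟩ := cls_surj c
  obtain ⟨b, h1, -, h4⟩ := exists_near' hi ha isOpen_univ (subset_univ _)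
  exact ⟨b, h1, cls_eq_of_null h4⟩

theorem exists_prim_near {a : Coch X} (ha : a ∈ Near i) (h : pull i a ∈ Bc Z) :
    ∃ c, IsCompact (supp c) ∧ ∀ z, a - δ c ∈ Van (i z) := by
  refine a.induction_comp (P := fun b => ∃ c, IsCompact (supp c) ∧ ∀ z, b - δ c ∈ Van (i z))
    ⟨0, by rw [supp_zero]; exact isCompact_empty, fun u => by simp⟩ ?_ fun k => ?_
  · rintro b b' ⟨c, h1, h3⟩ ⟨c', h1', h3'⟩
    refine ⟨c + c', isCompact_supp_add h1 h1', fun u => ?_⟩
    rw [map_add, add_sub_add_comm]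
    exact (Van _).add_mem (h3 u) (h3' u)
  · obtain ⟨c, h1, h2, h3⟩ := Bc.exists_deg (Bc.comp h k) (isDeg_comp k _)
    rw [comp_pull] at h3
    obtain ⟨c', -, h4, -, -, h6⟩ := (Taut.of_isClosedEmbedding hi).inj_c (isDeg_comp k a) h1
      ((hi.isCompact_preimage (Near.comp ha k).1).union h2) subset_union_left
      subset_union_right isOpen_univ (subset_univ _)
    exact ⟨c', h4, fun z => h6 z ((Near.comp ha k).2 z) (h3 z)⟩

theorem near_surj_Bc : ∀ c ∈ Zc Z, ∃ a ∈ Near i, c - pull i a ∈ Bc Z := fun c hc => by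
  obtain ⟨b, h1, -, h3⟩ := exists_near' hi hc isOpen_univ (subset_univ _)
  exact ⟨b, h1, mem_Bc_of_null fun u => by rw [← neg_sub]; exact (Van u).neg_mem (h3 u)⟩

/-! ### Gysin maps -/

section gys

variable {t : Coch X} (ht : supp (δ t) = ∅) (hs : supp t ⊆ range i)
include ht hs

theorem Hc.exists_gys : ∃ f : Hc Z →ₗ[ℂ] Hc X, ∀ a ∈ Near i,
    f (cls (P291Z.pull i a)) = cls (a * t) := by
  refine Hc.exists_map (Near i) (P291Z.pull i).toLinearMap (LinearMap.mulRight ℂ t)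
    (fun a ha => Near.pull_Zc (IsPr.of_isClosedEmbedding hi) ha) (fun a ha => Near.mul_Zc ha ht hs)
    (near_surj_Bc hi) fun a ha h => ?_
  obtain ⟨c, h1, h2⟩ := exists_prim_near hi ha h
  refine ⟨c * t, isCompact_supp_of_subset h1 ((supp_mul _ _).trans inter_subset_left),
    supp_eq_empty.2 fun x => ?_⟩
  have e : a * t - δ (c * t) = (a - δ c) * t - par c * δ t := by
    rw [δ_mul]; noncomm_ring
  show a * t - δ (c * t) ∈ _
  rw [e]
  refine (Van x).sub_mem ?_ (Van.mul_left (supp_eq_empty.1 ht x) _)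
  by_cases hx : x ∈ range i
  · obtain ⟨z, rfl⟩ := hx
    exact Van.mul_right (h2 z) _
  · exact Van.mul_left (fun h => hx (hs h)) _

/-- **the Gysin map** of a closed embedding and a cocycle supported on its image -/
noncomputable def Hc.gys : Hc Z →ₗ[ℂ] Hc X := (Hc.exists_gys hi ht hs).choose

theorem Hc.gys_cls {a : Coch X} (ha : a ∈ Near i) :
    Hc.gys hi ht hs (cls (P291Z.pull i a)) = cls (a * t) :=
  (Hc.exists_gys hi ht hs).choose_spec a ha

theorem Hc.gys_deg {d : ℤ} (hd : IsDeg d t) {k : ℤ} {c : Hc Z} (hc : c ∈ Hc.deg Z k) :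
    Hc.gys hi ht hs c ∈ Hc.deg X (k + d) := by
  obtain ⟨a, h1, h2, rfl⟩ := cls_surj_near hi hc
  rw [Hc.gys_cls hi ht hs h1]
  exact cls_mem_deg (h2.mul hd)

theorem gys_iff {β : BM X} {β' : BM Z} : Gys i t β β' ↔ β' = (Hc.gys hi ht hs).dualMap β :=
  ⟨fun H => LinearMap.ext fun c => by
    obtain ⟨a, h1, rfl⟩ := cls_surj_near' hi c
    rw [LinearMap.dualMap_apply, Hc.gys_cls hi ht hs h1, ← ev_eq, ← ev_eq,
      H a h1.1 (mem_Near'.1 h1).2],
    fun H a h1 h2 => by
      rw [H, ev_eq, ev_eq, LinearMap.dualMap_apply, Hc.gys_cls hi ht hs (mem_Near'.2 ⟨h1, h2⟩)]⟩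

/-- Gysin map after restriction -/
theorem Hc.gys_pull (c : Hc X) :
    Hc.gys hi ht hs (Hc.pull (IsPr.of_isClosedEmbedding hi) c) = Hc.mulR ht c := by
  obtain ⟨a, ha, rfl⟩ := cls_surj c
  rw [Hc.pull_cls _ ha, Hc.gys_cls hi ht hs (Near.of_Zc ha), Hc.mulR_cls ht ha]

/-- the self-intersection formula -/
theorem Hc.pull_gys (ht' : supp (δ (P291Z.pull i t)) = ∅) (c : Hc Z) :
    Hc.pull (IsPr.of_isClosedEmbedding hi) (Hc.gys hi ht hs c) = Hc.mulR ht' c := by
  obtain ⟨a, ha, rfl⟩ := cls_surj_near' hi c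
  rw [Hc.gys_cls hi ht hs ha, Hc.pull_cls _ (Near.mul_Zc ha ht hs),
    Hc.mulR_cls ht' (Near.pull_Zc (IsPr.of_isClosedEmbedding hi) ha), map_mul]

/-- the Gysin map depends only on the class of the cocycle with supports in the image -/
theorem Hc.gys_congr {t' : Coch X} (ht' : supp (δ t') = ∅) (hs' : supp t' ⊆ range i)
    (h : Cohom (range i) t t') : Hc.gys hi ht hs = Hc.gys hi ht' hs' := by
  obtain ⟨u, h1, h2⟩ := h
  refine LinearMap.ext fun c => ?_
  obtain ⟨a, ha, rfl⟩ := cls_surj_near' hi c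
  rw [Hc.gys_cls hi ht hs ha, Hc.gys_cls hi ht' hs' ha]
  refine cls_eq_of_Bc ⟨par a * u, isCompact_supp_of_subset ha.1 ((supp_mul _ _).trans
    (inter_subset_left.trans (supp_par a))), supp_eq_empty.2 fun x => ?_⟩
  have e : a * t - a * t' - δ (par a * u) = a * (t - t' - δ u) + par (δ a) * u := by
    rw [δ_mul, par_par, δ_par]; noncomm_ring
  rw [e]
  refine (Van x).add_mem (Van.mul_left (supp_eq_empty.1 h2 x) _) ?_
  by_cases hx : x ∈ range i
  · obtain ⟨z, rfl⟩ := hx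
    exact Van.mul_right (Van.par (ha.2 z)) _
  · exact Van.mul_left (fun h => hx (h1 h)) _

end gys

/-! ### the long exact sequence -/

section les

variable {j : U → X} (hj : IsOpenEmbedding j) (hc : range j = (range i)ᶜ)
include hj hc

omit [MetrizableSpace X] [LocallyCompactSpace X] hi hj in
theorem supp_subset_range {a : Coch X} (h : ∀ z, a ∈ Van (i z)) : supp a ⊆ range j := by
  rw [hc]
  rintro _ hx ⟨z, rfl⟩
  exact h z hx

omit [MetrizableSpace X] [LocallyCompactSpace X] hi hj in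
theorem van_of_supp_subset {a : Coch X} (h : supp a ⊆ range j) (z : Z) : a ∈ Van (i z) :=
  fun hx => (hc ▸ h hx : i z ∈ (range i)ᶜ) (mem_range_self z)

omit [MetrizableSpace X] [LocallyCompactSpace X] hi hj hc in
theorem Near.δ_Zc {a : Coch X} (h : a ∈ Near i) : δ a ∈ Zc X := Bc_le_Zc (δ_mem_Bc h.1)

theorem Hc.exists_conn : ∃ f : Hc Z →ₗ[ℂ] Hc U, ∀ a ∈ Near i,
    f (cls (P291Z.pull i a)) = cls (P291Z.pull j (δ a)) := by
  refine Hc.exists_map (Near i) (P291Z.pull i).toLinearMap ((P291Z.pull j).toLinearMap ∘ₗ δ)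
    (fun a ha => Near.pull_Zc (IsPr.of_isClosedEmbedding hi) ha)
    (fun a ha => pull_open_Zc hj (Near.δ_Zc ha) (supp_subset_range hc ha.2))
    (near_surj_Bc hi) fun a ha h => ?_
  obtain ⟨c, h1, h2⟩ := exists_prim_near hi ha h
  have e : P291Z.pull j (δ a) = δ (P291Z.pull j (a - δ c)) := by
    rw [δ_pull, map_sub, δ_δ, sub_zero]
  show P291Z.pull j (δ a) ∈ _
  rw [e]
  exact δ_mem_Bc (isCompact_pull_open hj (isCompact_supp_of_subset
    (ha.1.union (isCompact_supp_of_subset h1 (supp_δ c))) (supp_sub _ _))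
      (supp_subset_range hc h2))

/-- **the connecting map** -/
noncomputable def Hc.conn : Hc Z →ₗ[ℂ] Hc U := (Hc.exists_conn hi hj hc).choose

theorem Hc.conn_cls {a : Coch X} (ha : a ∈ Near i) :
    Hc.conn hi hj hc (cls (P291Z.pull i a)) = cls (P291Z.pull j (δ a)) :=
  (Hc.exists_conn hi hj hc).choose_spec a ha

theorem Hc.conn_deg {k : ℤ} {c : Hc Z} (h : c ∈ Hc.deg Z k) :
    Hc.conn hi hj hc c ∈ Hc.deg U (k + 1) := by
  obtain ⟨a, h1, h2, rfl⟩ := cls_surj_near hi h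
  rw [Hc.conn_cls hi hj hc h1]
  exact cls_mem_deg (h2.δ.pull j)

theorem Hc.exact_push_pull :
    Function.Exact (Hc.push hj) (Hc.pull (IsPr.of_isClosedEmbedding hi)) := by
  intro c
  constructor
  · obtain ⟨b, hb, rfl⟩ := cls_surj c
    rw [Hc.pull_cls _ hb, cls_eq_zero ((IsPr.of_isClosedEmbedding hi).pull_Zc hb)]
    intro h
    obtain ⟨u, h1, h2⟩ := exists_prim_near hi (Near.of_Zc hb) h
    have h3 := δ_mem_Bc h1
    refine ⟨cls (P291Z.pull j (b - δ u)), ?_⟩
    rw [Hc.push_cls hj ((Zc X).sub_mem hb (Bc_le_Zc h3)) (supp_subset_range hc h2)]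
    refine cls_eq_of_Bc ?_
    rw [sub_sub_cancel_left]
    exact (Bc X).neg_mem h3
  · rintro ⟨c, rfl⟩
    obtain ⟨b, h1, h2, rfl⟩ := cls_surj_open' hj c
    rw [Hc.push_cls hj h1 h2, Hc.pull_cls _ h1]
    exact cls_of_mem_Bc (mem_Bc_of_null fun z => Van.pull hi.continuous.continuousAt
      (van_of_supp_subset hc h2 z))

theorem Hc.exact_pull_conn :
    Function.Exact (Hc.pull (IsPr.of_isClosedEmbedding hi)) (Hc.conn hi hj hc) := by
  intro c
  constructor
  · obtain ⟨a, ha, rfl⟩ := cls_surj_near' hi c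
    have hs := supp_subset_range hc ha.2
    rw [Hc.conn_cls hi hj hc ha, cls_eq_zero (pull_open_Zc hj (Near.δ_Zc ha) hs)]
    intro h
    obtain ⟨u, h1, h2, h3⟩ := exists_prim_open hj (Near.δ_Zc ha) hs h
    have h4 : a - u ∈ Zc X := ⟨isCompact_supp_of_subset (ha.1.union h1) (supp_sub _ _),
      supp_eq_empty.2 fun x => by rw [map_sub]; exact h3 x⟩
    refine ⟨cls (a - u), ?_⟩
    rw [Hc.pull_cls _ h4]
    refine cls_eq_of_null fun z => ?_
    rw [map_sub, sub_sub_cancel_left]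
    exact (Van z).neg_mem (Van.pull hi.continuous.continuousAt (van_of_supp_subset hc h2 z))
  · rintro ⟨c, rfl⟩
    obtain ⟨b, hb, rfl⟩ := cls_surj c
    rw [Hc.pull_cls _ hb, Hc.conn_cls hi hj hc (Near.of_Zc hb)]
    exact cls_of_mem_Bc (mem_Bc_of_null fun z => Van.pull hj.continuous.continuousAt
      (supp_eq_empty.1 hb.2 _))

theorem Hc.exact_conn_push : Function.Exact (Hc.conn hi hj hc) (Hc.push hj) := by
  intro c
  constructor
  · obtain ⟨b, h1, h2, rfl⟩ := cls_surj_open' hj c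
    rw [Hc.push_cls hj h1 h2, cls_eq_zero h1]
    rintro ⟨u, h3, h4⟩
    rw [supp_eq_empty] at h4
    have h5 : u ∈ Near i := ⟨h3, fun z => by
      have := (Van _).sub_mem (van_of_supp_subset hc h2 z) (h4 (i z))
      rwa [sub_sub_cancel] at this⟩
    refine ⟨cls (P291Z.pull i u), ?_⟩
    rw [Hc.conn_cls hi hj hc h5]
    refine cls_eq_of_null fun z => ?_
    rw [← map_sub, ← neg_sub, map_neg]
    exact (Van z).neg_mem (Van.pull hj.continuous.continuousAt (h4 _))
  · rintro ⟨c, rfl⟩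
    obtain ⟨a, ha, rfl⟩ := cls_surj_near' hi c
    rw [Hc.conn_cls hi hj hc ha, Hc.push_cls hj (Near.δ_Zc ha) (supp_subset_range hc ha.2)]
    exact cls_of_mem_Bc (δ_mem_Bc ha.1)

theorem Hc.push_bijective_of_subsingleton (h : Subsingleton (Hc Z)) :
    Function.Bijective (Hc.push hj) :=
  ⟨(injective_iff_map_eq_zero _).2 fun c h0 => by
    obtain ⟨d, rfl⟩ := (Hc.exact_conn_push hi hj hc c).1 h0
    rw [Subsingleton.elim d 0, map_zero],
    fun c => (Hc.exact_push_pull hi hj hc c).1 (Subsingleton.elim _ _)⟩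

theorem Hc.pull_bijective_of_subsingleton (h : Subsingleton (Hc U)) :
    Function.Bijective (Hc.pull (IsPr.of_isClosedEmbedding hi)) :=
  ⟨(injective_iff_map_eq_zero _).2 fun c h0 => by
    obtain ⟨d, rfl⟩ := (Hc.exact_push_pull hi hj hc c).1 h0
    rw [Subsingleton.elim d 0, map_zero],
    fun c => (Hc.exact_pull_conn hi hj hc c).1 (Subsingleton.elim _ _)⟩

theorem Hc.conn_bijective_of_subsingleton (h : Subsingleton (Hc X)) :
    Function.Bijective (Hc.conn hi hj hc) :=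
  ⟨(injective_iff_map_eq_zero _).2 fun c h0 => by
    obtain ⟨d, rfl⟩ := (Hc.exact_pull_conn hi hj hc c).1 h0
    rw [Subsingleton.elim d 0, map_zero],
    fun c => (Hc.exact_conn_push hi hj hc c).1 (Subsingleton.elim _ _)⟩

theorem Hc.subsingleton_of_open_closed (h : Subsingleton (Hc U)) (h' : Subsingleton (Hc Z)) :
    Subsingleton (Hc X) := (Hc.push_bijective_of_subsingleton hi hj hc h').2.subsingleton

end les

end closed

/-! ### functoriality and base change -/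

theorem Hc.push_push [T2Space X] [LocallyCompactSpace X] [T2Space Y] [LocallyCompactSpace Y]
    {j : U → X} (hj : IsOpenEmbedding j) {j' : X → Y} (hj' : IsOpenEmbedding j') (c : Hc U) :
    Hc.push hj' (Hc.push hj c) = Hc.push (hj'.comp hj) c := by
  obtain ⟨b, h1, h2, rfl⟩ := cls_surj_open' (hj'.comp hj) c
  have h3 : supp b ⊆ range j' := h2.trans (range_comp_subset_range _ _)
  rw [Hc.push_cls _ h1 h2, ← P291Z.pull_pull, Hc.push_cls hj (pull_open_Zc hj' h1 h3),
    Hc.push_cls hj' h1 h3]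
  intro x hx
  obtain ⟨u, hu⟩ := h2 (supp_pull hj'.continuous b hx)
  exact ⟨u, hj'.injective hu⟩

theorem Hc.push_homeomorph [T2Space X] [LocallyCompactSpace X] (e : U ≃ₜ X) (c : Hc X) :
    Hc.push e.isOpenEmbedding (Hc.pull (IsPr.of_homeomorph e) c) = c := by
  obtain ⟨b, hb, rfl⟩ := cls_surj c
  rw [Hc.pull_cls _ hb, Hc.push_cls _ hb (by rw [e.surjective.range_eq]; exact subset_univ _)]

/-- base change of an open embedding along a proper map -/
theorem Hc.pull_push [T2Space X] [LocallyCompactSpace X] [T2Space X'] [LocallyCompactSpace X']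
    {j : U → X} (hj : IsOpenEmbedding j) {j' : U' → X'} (hj' : IsOpenEmbedding j') {f : X' → X}
    (hf : IsPr f) {g : U' → U} (hg : IsPr g) (hsq : ∀ u, f (j' u) = j (g u))
    (hr : f ⁻¹' range j ⊆ range j') (c : Hc U) :
    Hc.pull hf (Hc.push hj c) = Hc.push hj' (Hc.pull hg c) := by
  obtain ⟨b, h1, h2, rfl⟩ := cls_surj_open' hj c
  rw [Hc.push_cls _ h1 h2, Hc.pull_cls _ h1, Hc.pull_cls _ (pull_open_Zc hj h1 h2),
    P291Z.pull_pull, show j ∘ g = f ∘ j' from funext fun u => (hsq u).symm, ← P291Z.pull_pull,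
    Hc.push_cls hj' (hf.pull_Zc h1) ((supp_pull hf.cont b).trans ((preimage_mono h2).trans hr))]

/-- extension by zero commutes with products -/
theorem Hc.push_mulR [T2Space X] [LocallyCompactSpace X] {j : U → X} (hj : IsOpenEmbedding j)
    {t : Coch X} (ht : supp (δ t) = ∅) (ht' : supp (δ (P291Z.pull j t)) = ∅) (c : Hc U) :
    Hc.push hj (Hc.mulR ht' c) = Hc.mulR ht (Hc.push hj c) := by
  obtain ⟨b, h1, h2, rfl⟩ := cls_surj_open' hj c
  rw [Hc.push_cls _ h1 h2, Hc.mulR_cls _ h1, Hc.mulR_cls _ (pull_open_Zc hj h1 h2), ← map_mul,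
    Hc.push_cls hj (mul_Zc h1 ht) ((supp_mul _ _).trans (inter_subset_left.trans h2))]

theorem Hc.pull_mulR {f : X → Y} (hf : IsPr f) {t : Coch Y} (ht : supp (δ t) = ∅)
    (ht' : supp (δ (P291Z.pull f t)) = ∅) (c : Hc Y) :
    Hc.pull hf (Hc.mulR ht c) = Hc.mulR ht' (Hc.pull hf c) := by
  obtain ⟨b, h1, rfl⟩ := cls_surj c
  rw [Hc.mulR_cls _ h1, Hc.pull_cls _ h1, Hc.pull_cls _ (mul_Zc h1 ht),
    Hc.mulR_cls _ (hf.pull_Zc h1), map_mul]

theorem cocycle_pull {f : X → Y} (hf : Continuous f) {t : Coch Y} (ht : supp (δ t) = ∅) :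
    supp (δ (pull f t)) = ∅ := by
  rw [δ_pull]; exact supp_pull_eq_empty hf ht

theorem Near.pull {i : Z → X} {i' : Z' → X'} {f : X' → X} (hf : IsPr f) {g : Z' → Z}
    (hsq : ∀ z, f (i' z) = i (g z)) {a : Coch X} (ha : a ∈ Near i) : pull f a ∈ Near i' :=
  ⟨hf.isCompact_pull ha.1, fun z => by
    rw [δ_pull]
    exact Van.pull hf.cont.continuousAt (hsq z ▸ ha.2 (g z))⟩

/-- base change of a Gysin map along a proper map -/
theorem Hc.pull_gys_sq [MetrizableSpace X] [LocallyCompactSpace X] [MetrizableSpace X']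
    [LocallyCompactSpace X'] {i : Z → X} (hi : IsClosedEmbedding i) {i' : Z' → X'}
    (hi' : IsClosedEmbedding i') {f : X' → X} (hf : IsPr f) {g : Z' → Z} (hg : IsPr g)
    (hsq : ∀ z, f (i' z) = i (g z)) {t : Coch X} (ht : supp (δ t) = ∅) (hs : supp t ⊆ range i)
    (ht' : supp (δ (P291Z.pull f t)) = ∅) (hs' : supp (P291Z.pull f t) ⊆ range i') (c : Hc Z) :
    Hc.pull hf (Hc.gys hi ht hs c) = Hc.gys hi' ht' hs' (Hc.pull hg c) := by
  obtain ⟨a, ha, rfl⟩ := cls_surj_near' hi c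
  rw [Hc.gys_cls hi ht hs ha, Hc.pull_cls _ (Near.mul_Zc ha ht hs),
    Hc.pull_cls _ (Near.pull_Zc (IsPr.of_isClosedEmbedding hi) ha), P291Z.pull_pull,
    show i ∘ g = f ∘ i' from funext fun u => (hsq u).symm, ← P291Z.pull_pull,
    Hc.gys_cls hi' ht' hs' (Near.pull hf hsq ha), map_mul]

/-- base change of a Gysin map along an open embedding -/
theorem Hc.push_gys_sq [MetrizableSpace X] [LocallyCompactSpace X] [MetrizableSpace X']
    [LocallyCompactSpace X'] [T2Space Z] [LocallyCompactSpace Z] {i : Z → X}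
    (hi : IsClosedEmbedding i) {i' : Z' → X'} (hi' : IsClosedEmbedding i') {f : X' → X}
    (hf : IsOpenEmbedding f) {g : Z' → Z} (hg : IsOpenEmbedding g)
    (hsq : ∀ z, f (i' z) = i (g z)) {t : Coch X} (ht : supp (δ t) = ∅) (hs : supp t ⊆ range i)
    (ht' : supp (δ (P291Z.pull f t)) = ∅) (hs' : supp (P291Z.pull f t) ⊆ range i') (c : Hc Z') :
    Hc.push hf (Hc.gys hi' ht' hs' c) = Hc.gys hi ht hs (Hc.push hg c) := by
  obtain ⟨b, h1, h2, rfl⟩ := cls_surj_open' hg c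
  obtain ⟨a, ha, h3, h4⟩ := exists_near' hi h1 hf.isOpen_range (by
    rintro _ ⟨z, hz, rfl⟩
    obtain ⟨z', rfl⟩ := h2 hz
    exact ⟨i' z', hsq z'⟩)
  have ha' : P291Z.pull f a ∈ Near i' := ⟨isCompact_pull_open hf ha.1 h3, fun z => by
    rw [δ_pull]
    exact Van.pull hf.continuous.continuousAt (hsq z ▸ ha.2 (g z))⟩
  have e : cls (P291Z.pull g b) = cls (P291Z.pull i' (P291Z.pull f a)) := by
    rw [P291Z.pull_pull, show f ∘ i' = i ∘ g from funext hsq, ← P291Z.pull_pull]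
    refine (cls_eq_of_null fun z => ?_).symm
    rw [← map_sub]
    exact Van.pull hg.continuous.continuousAt (h4 _)
  rw [Hc.push_cls hg h1 h2, ← cls_eq_of_null h4, Hc.gys_cls hi ht hs ha, e,
    Hc.gys_cls hi' ht' hs' ha', ← map_mul, Hc.push_cls hf (Near.mul_Zc ha ht hs)
      ((supp_mul _ _).trans (inter_subset_left.trans h3))]

/-- the projection formula -/
theorem Hc.gys_mul [MetrizableSpace X] [LocallyCompactSpace X] {i : Z → X}
    (hi : IsClosedEmbedding i) {t s : Coch X} (ht : supp (δ t) = ∅) (hs : supp t ⊆ range i)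
    (h1 : supp (δ s) = ∅) (h2 : supp (δ (t * s)) = ∅) (h3 : supp (t * s) ⊆ range i) (c : Hc Z) :
    Hc.gys hi h2 h3 c = Hc.mulR h1 (Hc.gys hi ht hs c) := by
  obtain ⟨a, ha, rfl⟩ := cls_surj_near' hi c
  rw [Hc.gys_cls hi ht hs ha, Hc.gys_cls hi h2 h3 ha, Hc.mulR_cls _ (Near.mul_Zc ha ht hs),
    mul_assoc]

/-- the projection formula, on the other side -/
theorem Hc.gys_mul' [MetrizableSpace X] [LocallyCompactSpace X] {i : Z → X}
    (hi : IsClosedEmbedding i) {t s : Coch X} (ht : supp (δ t) = ∅) (hs : supp t ⊆ range i)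
    (h1 : supp (δ s) = ∅) (h1' : supp (δ (P291Z.pull i s)) = ∅) (h2 : supp (δ (s * t)) = ∅)
    (h3 : supp (s * t) ⊆ range i) (c : Hc Z) :
    Hc.gys hi h2 h3 c = Hc.gys hi ht hs (Hc.mulR h1' c) := by
  obtain ⟨a, ha, rfl⟩ := cls_surj_near' hi c
  rw [Hc.gys_cls hi h2 h3 ha, Hc.mulR_cls _ (Near.pull_Zc (IsPr.of_isClosedEmbedding hi) ha),
    ← map_mul, Hc.gys_cls hi ht hs (Near.mul ha fun z => supp_eq_empty.1 h1 _), mul_assoc]

/-- composition of Gysin maps: `s` is a cochain on `Y` which is a cocycle near the image of `X` and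
restricts to the cocycle on `X` -/
theorem Hc.gys_gys [MetrizableSpace X] [LocallyCompactSpace X] [MetrizableSpace Y]
    [LocallyCompactSpace Y] {i : Z → X} (hi : IsClosedEmbedding i) {i' : X → Y}
    (hi' : IsClosedEmbedding i') {s t : Coch Y} (hs : supp (δ (P291Z.pull i' s)) = ∅)
    (hs' : supp (P291Z.pull i' s) ⊆ range i) (ht : supp (δ t) = ∅) (ht' : supp t ⊆ range i')
    (h1 : ∀ x, δ s ∈ Van (i' x)) (h1' : ∀ x, x ∉ range i → s ∈ Van (i' x))
    (h2 : supp (δ (s * t)) = ∅) (h3 : supp (s * t) ⊆ range (i' ∘ i)) (c : Hc Z) :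
    Hc.gys hi' ht ht' (Hc.gys hi hs hs' c) = Hc.gys (hi'.comp hi) h2 h3 c := by
  obtain ⟨a, ha, rfl⟩ := cls_surj_near' (hi'.comp hi) c
  have ha' : P291Z.pull i' a ∈ Near i :=
    Near.pull (i := i' ∘ i) (i' := i) (g := id) (IsPr.of_isClosedEmbedding hi') (fun _ => rfl) ha
  have hb : a * s ∈ Near i' := ⟨isCompact_supp_of_subset ha.1
    ((supp_mul _ _).trans inter_subset_left), fun x => by
      rw [δ_mul]
      refine (Van _).add_mem ?_ (Van.mul_left (h1 x) _)
      by_cases hx : x ∈ range i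
      · obtain ⟨z, rfl⟩ := hx
        exact Van.mul_right (ha.2 z) _
      · exact Van.mul_left (h1' x hx) _⟩
  rw [Hc.gys_cls _ h2 h3 ha, ← P291Z.pull_pull, Hc.gys_cls hi hs hs' ha', ← map_mul,
    Hc.gys_cls hi' ht ht' hb, mul_assoc]

/-- naturality of the connecting map for proper maps -/
theorem Hc.pull_conn [MetrizableSpace X] [LocallyCompactSpace X] [MetrizableSpace X']
    [LocallyCompactSpace X'] {i : Z → X} (hi : IsClosedEmbedding i) {j : U → X}
    (hj : IsOpenEmbedding j) (hc : range j = (range i)ᶜ) {i' : Z' → X'}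
    (hi' : IsClosedEmbedding i') {j' : U' → X'} (hj' : IsOpenEmbedding j')
    (hc' : range j' = (range i')ᶜ) {f : X' → X} (hf : IsPr f) {g : Z' → Z} (hg : IsPr g)
    {k : U' → U} (hk : IsPr k) (hsq : ∀ z, f (i' z) = i (g z)) (hsq' : ∀ u, f (j' u) = j (k u))
    (c : Hc Z) : Hc.pull hk (Hc.conn hi hj hc c) = Hc.conn hi' hj' hc' (Hc.pull hg c) := by
  obtain ⟨a, ha, rfl⟩ := cls_surj_near' hi c
  rw [Hc.conn_cls hi hj hc ha,
    Hc.pull_cls _ (pull_open_Zc hj (Near.δ_Zc ha) (supp_subset_range hc ha.2)),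
    Hc.pull_cls _ (Near.pull_Zc (IsPr.of_isClosedEmbedding hi) ha), P291Z.pull_pull,
    P291Z.pull_pull, show i ∘ g = f ∘ i' from funext fun u => (hsq u).symm, ← P291Z.pull_pull i',
    Hc.conn_cls hi' hj' hc' (Near.pull hf hsq ha), δ_pull, P291Z.pull_pull,
    show f ∘ j' = j ∘ k from funext hsq']

/-- the connecting map commutes with products -/
theorem Hc.conn_mulR [MetrizableSpace X] [LocallyCompactSpace X] {i : Z → X}
    (hi : IsClosedEmbedding i) {j : U → X} (hj : IsOpenEmbedding j) (hc : range j = (range i)ᶜ)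
    {t : Coch X} (ht : supp (δ t) = ∅) (h1 : supp (δ (P291Z.pull i t)) = ∅)
    (h2 : supp (δ (P291Z.pull j t)) = ∅) (c : Hc Z) :
    Hc.conn hi hj hc (Hc.mulR h1 c) = Hc.mulR h2 (Hc.conn hi hj hc c) := by
  obtain ⟨a, ha, rfl⟩ := cls_surj_near' hi c
  rw [Hc.conn_cls hi hj hc ha, Hc.mulR_cls _ (Near.pull_Zc (IsPr.of_isClosedEmbedding hi) ha),
    Hc.mulR_cls _ (pull_open_Zc hj (Near.δ_Zc ha) (supp_subset_range hc ha.2)), ← map_mul,
    ← map_mul, Hc.conn_cls hi hj hc (Near.mul ha fun z => supp_eq_empty.1 ht _)]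
  refine cls_eq_of_null fun u => ?_
  rw [← map_sub, δ_mul, add_sub_cancel_left]
  exact Van.pull hj.continuous.continuousAt (Van.mul_left (supp_eq_empty.1 ht _) _)

end Vale.Agent.P291Z
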