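import Vale.Agent.P291Z.T5

set_option linter.all false

/-!
# The Leray-Hirsch theorem with proper supports
-/

namespace Vale.Agent.P291Z

open Topology Set Filter TopologicalSpace

namespace Soft

variable {R : Type*} [CommRing R] {B : Type*} [TopologicalSpace B] {K : Type*} [AddCommGroup K]
  [Module R K] (S : Soft R B K) {ι : Type*} (d : ι → ℤ)

/-- families whose members lie in given submodules -/
def piS (P : ι → Submodule R K) : Submodule R (ι →₀ K) where
  carrier := {a | ∀ j, a j ∈ P j}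
  zero_mem' := fun j => (P j).zero_mem
  add_mem' := fun ha hb j => (P j).add_mem (ha j) (hb j)
  smul_mem' := fun c _ ha j => (P j).smul_mem c (ha j)

/-- the direct sum of shifted copies of a soft complex -/
noncomputable def fs : Soft R B (ι →₀ K) where
  δ := Finsupp.mapRange.linearMap S.δ
  deg n := piS fun j => S.deg (n - d j)
  Van x := piS fun _ => S.Van x
  cut T := Finsupp.mapRange.linearMap (S.cut T)
  δ_deg n a ha j := by
    have := S.δ_deg _ _ (ha j)
    rwa [show n - d j + 1 = n + 1 - d j by ring] at this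
  δδ a x j := S.δδ (a j) x
  δ_van x a ha j := S.δ_van x _ (ha j)
  van_open a := by
    have : {x | a ∈ piS fun _ => S.Van x} = ⋂ j ∈ a.support, {x | a j ∈ S.Van x} := by
      ext x
      simp only [mem_iInter, mem_setOf_eq]
      refine ⟨fun h j _ => h j, fun h j => ?_⟩
      by_cases hj : j ∈ a.support
      · exact h j hj
      · rw [Finsupp.notMem_support_iff.1 hj]
        exact Submodule.zero_mem _
    rw [this]
    exact isOpen_biInter_finset fun j _ => S.van_open _
  cut_deg T n a ha j := S.cut_deg T _ _ (ha j)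
  cut_van T x a ha j := S.cut_van T x _ (ha j)
  cut_in T x a h j := S.cut_in T x (a j) h
  cut_out T x a h j := S.cut_out T x (a j) h

theorem fs_δ (a : ι →₀ K) (j : ι) : (S.fs d).δ a j = S.δ (a j) := rfl

theorem fs_deg {n : ℤ} {a : ι →₀ K} : a ∈ (S.fs d).deg n ↔ ∀ j, a j ∈ S.deg (n - d j) := Iff.rfl

theorem fs_van {x : B} {a : ι →₀ K} : a ∈ (S.fs d).Van x ↔ ∀ j, a j ∈ S.Van x := Iff.rfl

theorem fs_vanOn {A : Set B} {a : ι →₀ K} : a ∈ (S.fs d).VanOn A ↔ ∀ j, a j ∈ S.VanOn A :=
  ⟨fun h j x hx => h x hx j, fun h x hx j => h j x hx⟩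

theorem supp_subset_fs (a : ι →₀ K) (j : ι) : S.supp (a j) ⊆ (S.fs d).supp a :=
  fun _ hx h => hx (h j)

theorem fs_supp (a : ι →₀ K) : (S.fs d).supp a ⊆ ⋃ j ∈ a.support, S.supp (a j) := fun x hx => by
  by_contra h
  simp only [mem_iUnion, not_exists] at h
  refine hx fun j => ?_
  by_cases hj : j ∈ a.support
  · exact not_not.1 (h j hj)
  · rw [Finsupp.notMem_support_iff.1 hj]
    exact Submodule.zero_mem _

theorem fs_glue (hG : S.Glue) (hlow : ∀ m < 0, ∀ a ∈ S.deg m, a = 0)
    (hfin : ∀ n, {j | d j ≤ n}.Finite) : (S.fs d).Glue := by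
  classical
  intro n A a hc hm hn ha hs
  choose b hb e using fun j => hG (n - d j) A (fun k => a k j) hc hm hn (fun k => ha k j)
    fun k => (S.fs_vanOn d).1 (hs k) j
  refine ⟨Finsupp.onFinset (hfin n).toFinset b fun j hj => ?_, hb, fun k => (S.fs_vanOn d).2
    fun j => e j k⟩
  rw [Finite.mem_toFinset, mem_setOf_eq]
  by_contra h
  exact hj (hlow _ (by omega) _ (hb j))

end Soft

variable {E B : Type} [TopologicalSpace E] [TopologicalSpace B] {ι : Type*}

/-- `a ↦ ∑ p^* (a j) * t j` -/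
noncomputable def lhMap (p : E → B) (t : ι → Coch E) : (ι →₀ Coch B) →ₗ[ℂ] Coch E :=
  Finsupp.lsum ℂ fun j => LinearMap.mulRight ℂ (t j) ∘ₗ (pull p).toLinearMap

omit [TopologicalSpace E] [TopologicalSpace B] in
theorem lhMap_apply (p : E → B) (t : ι → Coch E) (a : ι →₀ Coch B) :
    lhMap p t a = ∑ j ∈ a.support, pull p (a j) * t j := rfl

omit [TopologicalSpace E] [TopologicalSpace B] in
theorem lhMap_single (p : E → B) (t : ι → Coch E) (j : ι) (a : Coch B) :
    lhMap p t (Finsupp.single j a) = pull p a * t j := by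
  simp [lhMap]

/-- homogeneous cocycles with supports which are proper over the base -/
structure LHData (p : E → B) (t : ι → Coch E) (d : ι → ℤ) : Prop where
  cont : Continuous p
  cocycle : ∀ j, supp (δ (t j)) = ∅
  prop : ∀ j, (Fam.prop p).mem (supp (t j))
  deg : ∀ j, IsDeg (d j) (t j)
  nonneg : ∀ j, 0 ≤ d j

namespace LHData

variable {p : E → B} {t : ι → Coch E} {d : ι → ℤ} (D : LHData p t d)
include D

omit D in
/-- the source -/
noncomputable abbrev src (_ : LHData p t d) : Soft ℂ B (ι →₀ Coch B) :=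
  (asSoft continuous_id (Fam.all B)).fs d

/-- the target -/
noncomputable abbrev tgt : Soft ℂ B (Coch E) := asSoft D.cont (Fam.prop p)

theorem lh_prop (a : ι →₀ Coch B) : (Fam.prop p).mem (supp (lhMap p t a)) :=
  (Fam.prop p).coch.sum_mem fun j _ =>
    Fam.coch_mono (D.prop j) ((supp_mul _ _).trans inter_subset_right)

theorem lh_deg {n : ℤ} {a : ι →₀ Coch B} (ha : ∀ j, IsDeg (n - d j) (a j)) :
    IsDeg n (lhMap p t a) :=
  IsDeg.sum fun j _ => (((ha j).pull p).mul (D.deg j)).cast (sub_add_cancel _ _)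

theorem lh_comm (a : ι →₀ Coch B) (e : E) :
    δ (lhMap p t a) - lhMap p t (Finsupp.mapRange.linearMap δ a) ∈ Van e := by
  induction a using Finsupp.induction_linear with
  | zero => simp
  | add a b ha hb =>
    rw [map_add, map_add, map_add, map_add, add_sub_add_comm]
    exact (Van e).add_mem ha hb
  | single j a =>
    rw [Finsupp.mapRange.linearMap_apply, Finsupp.mapRange_single, lhMap_single, lhMap_single,
      δ_mul, δ_pull, add_sub_cancel_left]
    exact Van.mul_left (supp_eq_empty.1 (D.cocycle j) e) _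

theorem isMap : D.src.IsMap D.tgt 0 (lhMap p t) where
  deg n a ha := ⟨(D.lh_deg fun j => (ha j).1).cast (add_zero n).symm, D.lh_prop a⟩
  van x a ha := (VanB p x).sum_mem fun j _ =>
    VanB.of_imp (VanB.pull D.cont (vanB_id.1 (ha j))) fun _ h => Van.mul_right h _
  comm a x := VanB.of_null (D.lh_comm a) x

/-- the map in cohomology with compact supports -/
noncomputable def map : (ι →₀ Hc B) →ₗ[ℂ] Hc E :=
  Finsupp.lsum ℂ fun j => Hc.pullMul D.cont (D.cocycle j) (D.prop j)

theorem map_apply (a : ι →₀ Hc B) :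
    D.map a = ∑ j ∈ a.support, Hc.pullMul D.cont (D.cocycle j) (D.prop j) (a j) := rfl

theorem map_single (j : ι) (a : Hc B) :
    D.map (Finsupp.single j a) = Hc.pullMul D.cont (D.cocycle j) (D.prop j) a := by
  simp [map]

theorem lh_Zc {a : ι →₀ Coch B} (ha : ∀ j, a j ∈ Zc B) : lhMap p t a ∈ Zc E :=
  (Zc E).sum_mem fun j _ => pull_mul_Zc D.cont (D.cocycle j) (D.prop j) (ha j)

theorem map_cls {a : ι →₀ Coch B} (ha : ∀ j, a j ∈ Zc B) :
    D.map (a.mapRange cls cls_zero) = cls (lhMap p t a) := by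
  rw [lhMap_apply, cls_sum _ fun j _ => pull_mul_Zc D.cont (D.cocycle j) (D.prop j) (ha j), map,
    Finsupp.lsum_apply, Finsupp.sum_of_support_subset _ Finsupp.support_mapRange _
      fun j _ => map_zero _]
  exact Finset.sum_congr rfl fun j _ => by
    rw [Finsupp.mapRange_apply, Hc.pullMul_cls _ _ _ (ha j)]

theorem map_comp (n : ℤ) (a : ι →₀ Hc B) : Hc.comp n (D.map a) =
    D.map (Finsupp.onFinset a.support (fun j => Hc.comp (n - d j) (a j)) fun j hj => by
      rw [Finsupp.mem_support_iff]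
      intro h
      exact hj (by simp [h])) := by
  rw [map_apply, map_sum, map, Finsupp.lsum_apply,
    Finsupp.sum_of_support_subset _ Finsupp.support_onFinset_subset _ fun j _ => map_zero _]
  refine Finset.sum_congr rfl fun j _ => ?_
  rw [Finsupp.onFinset_apply, ← Hc.comp_map (r := d j)
    (fun k c hc => Hc.pullMul_deg D.cont (D.cocycle j) (D.prop j) (D.deg j) hc), sub_add_cancel]

omit D in
/-- constants -/
noncomputable def const (B : Type) : (ι →₀ ℂ) →ₗ[ℂ] (ι →₀ Coch B) :=
  Finsupp.mapRange.linearMap (LinearMap.toSpanSingleton ℂ (Coch B) 1)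

omit D [TopologicalSpace B] in
theorem const_apply (c : ι →₀ ℂ) (j : ι) : const B c j = c j • (1 : Coch B) := rfl

omit D [TopologicalSpace B] [TopologicalSpace E] in
theorem lh_const (c : ι →₀ ℂ) : lhMap p t (const B c) = Finsupp.linearCombination ℂ t c := by
  induction c using Finsupp.induction_linear with
  | zero => simp
  | add a b ha hb => rw [map_add, map_add, map_add, ha, hb]
  | single j c =>
    rw [const, Finsupp.mapRange.linearMap_apply, Finsupp.mapRange_single, lhMap_single,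
      Finsupp.linearCombination_single, LinearMap.toSpanSingleton_apply, map_smul, map_one,
      smul_mul_assoc, one_mul]

section fib

variable {F : Type} [TopologicalSpace F] {x : B} {i : F → E} (hi : IsFib p x i)
include hi

theorem fib_Zc (j : ι) : pull i (t j) ∈ Zc F :=
  hi.pull_mem_Zc (D.prop j) (VanB.of_null (supp_eq_empty.1 (D.cocycle j)) x)

theorem cls_comb (c : ι →₀ ℂ) : cls (pull i (Finsupp.linearCombination ℂ t c)) =
    Finsupp.linearCombination ℂ (fun j => cls (pull i (t j))) c := by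
  rw [Finsupp.linearCombination_apply, Finsupp.linearCombination_apply, Finsupp.sum, Finsupp.sum,
    map_sum, cls_sum _ fun j _ => by
      rw [map_smul]; exact (Zc F).smul_mem _ (D.fib_Zc hi j)]
  exact Finset.sum_congr rfl fun j _ => by rw [map_smul, cls_smul _ (D.fib_Zc hi j)]

variable [T2Space B] [LocallyCompactSpace B] [MetrizableSpace E] [LocallyCompactSpace E]

theorem stalk_surj {n : ℤ}
    (hs : ∀ c ∈ Hc.deg F n, c ∈ Submodule.span ℂ (range fun j => cls (pull i (t j)))) :
    Soft.SurjOn D.src D.tgt 0 (lhMap p t) {x} n := by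
  classical
  intro b hb hd
  have hd' : δ b ∈ VanB p x := hd x rfl
  obtain ⟨c, hc⟩ := (Finsupp.mem_span_range_iff_exists_finsupp).1
    (hs _ (cls_mem_deg (IsDeg.pull hb.1 i)))
  have hc' : Finsupp.linearCombination ℂ (fun j => cls (pull i (t j)))
      (c.filter fun j => d j = n) = cls (pull i b) := by
    rw [← Hc.comp_of_mem (cls_mem_deg (IsDeg.pull hb.1 i)), ← hc, Finsupp.sum, map_sum,
      Finsupp.linearCombination_apply, Finsupp.sum_of_support_subset (c.filter fun j => d j = n)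
        (s := c.support) (by rw [Finsupp.support_filter]; exact Finset.filter_subset _ _)
        (fun j a => a • cls (pull i (t j))) fun j _ => zero_smul _ _]
    refine Finset.sum_congr rfl fun j _ => ?_
    rw [map_smul, Finsupp.filter_apply]
    split_ifs with h
    · rw [Hc.comp_of_mem (h ▸ cls_mem_deg ((D.deg j).pull i))]
    · rw [Hc.comp_of_ne (cls_mem_deg ((D.deg j).pull i)) (Ne.symm h), smul_zero, zero_smul]
  set c' := c.filter fun j => d j = n
  have hdeg : ∀ j, IsDeg (n - d j) (const B c' j) := fun j => by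
    rw [const_apply, Finsupp.filter_apply]
    split_ifs with h
    · rw [h, sub_self]; exact isDeg_one.smul _
    · rw [zero_smul]; exact isDeg_zero _
  have hco : ∀ j, δ (const B c' j) = 0 := fun j => by
    rw [const_apply, map_smul, δ_one_eq_zero, smul_zero]
  have hφ : δ (lhMap p t (const B c')) ∈ VanB p x := VanB.of_null (fun e => by
    have := D.lh_comm (const B c') e
    rwa [show Finsupp.mapRange.linearMap δ (const B c') = 0 from Finsupp.ext hco, map_zero,
      sub_zero] at this) x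
  obtain ⟨u, h1, h2, h3⟩ := hi.inj D.cont (IsDeg.sub hb.1 (D.lh_deg hdeg))
    ((Fam.prop p).coch.sub_mem hb.2 (D.lh_prop _))
    (by rw [map_sub]; exact (VanB p x).sub_mem hd' hφ) (by
      rw [map_sub, ← cls_eq_iff (hi.pull_mem_Zc hb.2 hd') (hi.pull_mem_Zc (D.lh_prop _) hφ),
        lh_const, D.cls_comb hi, hc'])
  refine ⟨const B c', fun j => ⟨by rw [sub_zero]; exact hdeg j, trivial⟩, ?_, u,
    ⟨h1, Fam.prop_of_isCompact D.cont h2⟩, ?_⟩
  · rintro _ rfl j
    show δ (const B c' j) ∈ _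
    rw [hco]
    exact Submodule.zero_mem _
  · rintro _ rfl
    exact h3

omit [T2Space B] [LocallyCompactSpace B] [MetrizableSpace E] [LocallyCompactSpace E] in
theorem stalk_inj {n : ℤ}
    (hs : LinearIndepOn ℂ (fun j => cls (pull i (t j))) {j | d j = n}) :
    Soft.InjOn' D.src D.tgt 0 (lhMap p t) {x} n := by
  classical
  intro a ha hd u hu e
  have hd' : ∀ j, δ (a j) ∈ Van x := fun j => vanB_id.1 (hd x rfl j)
  have ha' : ∀ j, IsDeg (n - d j) (a j) := fun j => by
    have := (ha j).1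
    rwa [sub_zero] at this
  let c : ι →₀ ℂ := a.mapRange (fun b => b.1 [x]) rfl
  let a' : ι →₀ Coch B := Finsupp.mapRange.linearMap (coneOp x) a
  have h1 : a - const B c - Finsupp.mapRange.linearMap δ a' ∈ D.src.Van x := fun j =>
    vanB_id.2 (local_cocycle (hd' j))
  have h2 : lhMap p t (const B c) - δ (u - lhMap p t a') ∈ VanB p x := by
    have := (VanB p x).add_mem ((VanB p x).sub_mem (e x rfl) (D.isMap.van x _ h1))
      (VanB.of_null (D.lh_comm a') x)
    rw [map_sub, map_sub, asSoft_δ] at this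
    have e' : lhMap p t (const B c) - δ (u - lhMap p t a') = lhMap p t a - δ u -
        (lhMap p t a - lhMap p t (const B c) - lhMap p t (Finsupp.mapRange.linearMap δ a')) +
        (δ (lhMap p t a') - lhMap p t (Finsupp.mapRange.linearMap δ a')) := by
      rw [map_sub]; abel
    rw [e']
    exact this
  have h3 : c = 0 := by
    refine linearIndepOn_iff.1 hs c (fun j hj => ?_) ?_
    · by_contra h
      exact Finsupp.mem_support_iff.1 hj ((ha' j).val_single (sub_ne_zero.2 (Ne.symm h)) x)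
    · rw [← D.cls_comb hi, ← lh_const (p := p)]
      exact cls_of_mem_Bc (hi.pull_mem_Bc ((Fam.prop p).coch.sub_mem hu.2 (D.lh_prop a')) h2)
  rw [h3, map_zero, sub_zero] at h1
  refine ⟨a', fun j => ⟨(coneOp_deg x (ha' j)).cast (by ring), trivial⟩, ?_⟩
  rintro _ rfl
  exact h1

end fib

section main

variable [T2Space B] [LocallyCompactSpace B] [MetrizableSpace E] [LocallyCompactSpace E]
  {F : B → Type} [∀ x, TopologicalSpace (F x)] {i : ∀ x, F x → E} (hi : ∀ x, IsFib p x (i x))
  {k : ℤ}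
  (hs : ∀ x, ∀ n ≤ k, ∀ c ∈ Hc.deg (F x) n,
    c ∈ Submodule.span ℂ (range fun j => cls (pull (i x) (t j))))
  (hl : ∀ x, ∀ n ≤ k + 1, LinearIndepOn ℂ (fun j => cls (pull (i x) (t j))) {j | d j = n})
include hi hs hl

theorem cone_exact : ∀ n ≤ k, ∀ A, IsCompact A → (Soft.cone D.isMap).ExactOn A n :=
  fun n hn A hA => Soft.cone_exactOn_of_stalk D.isMap (U := univ) (n₀ := -1) (k := k)
    (fun n hn a ha => (Soft.fs_vanOn _ d).2 fun j => asSoft_low _ _ (by
      have := D.nonneg j
      omega) (ha j) _)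
    (fun n hn b hb => asSoft_low _ _ (by omega) hb _)
    (fun x _ n _ hn => D.stalk_surj (hi x) (hs x n hn))
    (fun x _ n _ hn => D.stalk_inj (hi x) (hl x _ (by omega))) n hn A (subset_univ _) hA

/-- **Leray-Hirsch, compact supports, surjectivity**, on cochains -/
theorem surj_c {n : ℤ} (hn : n ≤ k) {b : Coch E} (hb : b ∈ Zc E) (hd : IsDeg n b) :
    ∃ a : ι →₀ Coch B, (∀ j, a j ∈ Zc B ∧ IsDeg (n - d j) (a j)) ∧ b - lhMap p t a ∈ Bc E := by
  obtain ⟨a, h1, h2, -, h3, c, h4, h5, -, h6⟩ := Soft.surj_compact D.isMap isOpen_univ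
    (fun A _ => D.cone_exact hi hs hl n hn A) (fun A _ => D.cone_exact hi hs hl _ (by omega) A)
    (b := b) ⟨hd, Fam.prop_of_isCompact D.cont hb.1⟩ (isCompact_asSoft_supp _ _ hb.1)
    (subset_univ _) ((asSoft_vanOn_univ _ _).2 (supp_eq_empty.1 hb.2))
  refine ⟨a, fun j => ⟨⟨isCompact_supp_of_subset h2 ((supp_subset_asSoft continuous_id _ _).trans
    (Soft.supp_subset_fs _ d a j)), supp_eq_empty.2 ((asSoft_vanOn_univ _ _).1
      ((Soft.fs_vanOn _ d).1 h3 j))⟩, by have := (h1 j).1; rwa [sub_zero] at this⟩, c,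
    isCompact_supp_of_prop _ _ h4.2 h5, supp_eq_empty.2 ((asSoft_vanOn_univ _ _).1 h6)⟩

/-- **Leray-Hirsch, compact supports, injectivity**, on cochains -/
theorem inj_c {n : ℤ} (hn : n ≤ k + 1) {a : ι →₀ Coch B} (ha : ∀ j, a j ∈ Zc B)
    (hd : ∀ j, IsDeg (n - d j) (a j)) (h : lhMap p t a ∈ Bc E) (j : ι) : a j ∈ Bc B := by
  obtain ⟨c, h1, h2, h3⟩ := Bc.exists_deg h (D.lh_deg hd)
  obtain ⟨a', -, h4, -, h5⟩ := Soft.inj_compact D.isMap isOpen_univ (n := n)
    (fun A _ => D.cone_exact hi hs hl _ (by omega) A)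
    (fun A _ => D.cone_exact hi hs hl _ (by omega) A) (a := a)
    (fun j => ⟨by rw [sub_zero]; exact hd j, trivial⟩)
    ((a.support.isCompact_biUnion fun j _ => isCompact_asSoft_supp continuous_id _
      (ha j).1).of_isClosed_subset (Soft.isClosed_supp _ _) (Soft.fs_supp _ d a))
    (subset_univ _) ((Soft.fs_vanOn _ d).2 fun j => (asSoft_vanOn_univ _ _).2
      (supp_eq_empty.1 (ha j).2)) (c := c) ⟨h1, Fam.prop_of_isCompact D.cont h2⟩
    (isCompact_asSoft_supp _ _ h2) (subset_univ _) ((asSoft_vanOn_univ _ _).2 h3)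
  exact ⟨a' j, isCompact_supp_of_subset h4 ((supp_subset_asSoft continuous_id _ _).trans
    (Soft.supp_subset_fs _ d a' j)), supp_eq_empty.2 ((asSoft_vanOn_univ _ _).1
      ((Soft.fs_vanOn _ d).1 h5 j))⟩

theorem map_surj {n : ℤ} (hn : n ≤ k) {c : Hc E} (hc : c ∈ Hc.deg E n) :
    ∃ a : ι →₀ Hc B, (∀ j, a j ∈ Hc.deg B (n - d j)) ∧ D.map a = c := by
  obtain ⟨b, hb, hd, rfl⟩ := hc
  obtain ⟨a, h1, h2⟩ := D.surj_c hi hs hl hn hb hd
  exact ⟨a.mapRange cls cls_zero, fun j => cls_mem_deg (h1 j).2, by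
    rw [D.map_cls fun j => (h1 j).1]; exact (cls_eq_of_Bc h2).symm⟩

theorem map_inj {n : ℤ} (hn : n ≤ k + 1) {a : ι →₀ Hc B} (ha : ∀ j, a j ∈ Hc.deg B (n - d j))
    (h : D.map a = 0) : a = 0 := by
  classical
  have ex : ∀ j, ∃ b ∈ Zc B, IsDeg (n - d j) b ∧ cls b = a j ∧ (a j = 0 → b = 0) := fun j => by
    by_cases hj : a j = 0
    · exact ⟨0, (Zc B).zero_mem, isDeg_zero _, by rw [hj, cls_zero], fun _ => rfl⟩
    · obtain ⟨b, h1, h2, h3⟩ := ha j
      exact ⟨b, h1, h2, h3, fun h => absurd h hj⟩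
  choose b h1 h2 h3 h4 using ex
  let b' : ι →₀ Coch B := Finsupp.onFinset a.support b fun j hj =>
    Finsupp.mem_support_iff.2 fun h => hj (h4 j h)
  have e : b'.mapRange cls cls_zero = a := Finsupp.ext h3
  rw [← e, D.map_cls h1, cls_eq_zero (D.lh_Zc h1)] at h
  exact Finsupp.ext fun j => by
    rw [← h3 j]
    exact cls_of_mem_Bc (D.inj_c hi hs hl hn h1 h2 h j)

variable [SigmaCompactSpace B] (hfin : ∀ n, {j | d j ≤ n}.Finite)
include hfin

theorem cone_exact_univ {n : ℤ} (hn : n ≤ k) : (Soft.cone D.isMap).ExactOn univ n :=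
  Soft.exact_univ _ (Soft.cone_glue D.isMap (Soft.fs_glue _ d (asSoft_glue _ _ (Fam.local_all _))
    (fun _ hm _ ha => IsDeg.eq_zero ha.1 hm) hfin) (asSoft_glue _ _ (Fam.local_prop D.cont)))
    (D.cone_exact hi hs hl n hn) (D.cone_exact hi hs hl _ (by omega))

/-- **Leray-Hirsch, proper supports, surjectivity** -/
theorem surj_p {n : ℤ} (hn : n ≤ k) {b : Coch E} (hb : supp (δ b) = ∅)
    (hp : (Fam.prop p).mem (supp b)) (hd : IsDeg n b) :
    ∃ a : ι →₀ Coch B, (∀ j, supp (δ (a j)) = ∅ ∧ IsDeg (n - d j) (a j)) ∧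
      ∃ c, IsDeg (n - 1) c ∧ (Fam.prop p).mem (supp c) ∧ supp (b - lhMap p t a - δ c) = ∅ := by
  obtain ⟨a, h1, h2, c, h3, h4⟩ := Soft.surjOn_of_cone D.isMap
    (D.cone_exact_univ hi hs hl hfin hn) b ⟨hd, hp⟩
    ((asSoft_vanOn_univ _ _).2 (supp_eq_empty.1 hb))
  exact ⟨a, fun j => ⟨supp_eq_empty.2 ((asSoft_vanOn_univ _ _).1 ((Soft.fs_vanOn _ d).1 h2 j)),
    by have := (h1 j).1; rwa [sub_zero] at this⟩, c, h3.1, h3.2,
    supp_eq_empty.2 ((asSoft_vanOn_univ _ _).1 h4)⟩

/-- **Leray-Hirsch, proper supports, injectivity** -/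
theorem inj_p {n : ℤ} (hn : n ≤ k + 1) {a : ι →₀ Coch B} (ha : ∀ j, supp (δ (a j)) = ∅)
    (hd : ∀ j, IsDeg (n - d j) (a j)) {c : Coch E} (hc : (Fam.prop p).mem (supp c))
    (h : supp (lhMap p t a - δ c) = ∅) (j : ι) :
    ∃ a', IsDeg (n - d j - 1) a' ∧ supp (a j - δ a') = ∅ := by
  obtain ⟨a', h1, h2⟩ := Soft.injOn_of_cone D.isMap (n := n)
    (D.cone_exact_univ hi hs hl hfin (by omega)) a
    (fun j => ⟨by rw [sub_zero]; exact hd j, trivial⟩)
    ((Soft.fs_vanOn _ d).2 fun j => (asSoft_vanOn_univ _ _).2 (supp_eq_empty.1 (ha j)))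
    (comp (n - 1) c) ⟨isDeg_comp _ c, Fam.coch_mono hc (supp_comp _ c)⟩
    ((asSoft_vanOn_univ _ _).2 fun e => by
      have := Van.comp (supp_eq_empty.1 h e) n
      rwa [map_sub, (D.lh_deg hd).comp_eq, comp_δ'] at this)
  exact ⟨a' j, IsDeg.cast (h1 j).1 (by ring),
    supp_eq_empty.2 ((asSoft_vanOn_univ _ _).1 ((Soft.fs_vanOn _ d).1 h2 j))⟩

end main

/-- **The Leray-Hirsch theorem** for cohomology with compact supports. -/
theorem map_bijective [T2Space B] [LocallyCompactSpace B] [MetrizableSpace E]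
    [LocallyCompactSpace E] {F : B → Type} [∀ x, TopologicalSpace (F x)] {i : ∀ x, F x → E}
    (hi : ∀ x, IsFib p x (i x))
    (hs : ∀ x, ⊤ ≤ Submodule.span ℂ (range fun j => cls (pull (i x) (t j))))
    (hl : ∀ x, LinearIndependent ℂ fun j => cls (pull (i x) (t j))) :
    Function.Bijective D.map := by
  refine ⟨(injective_iff_map_eq_zero _).2 fun a h => Finsupp.ext fun j => Hc.ext_comp fun n => ?_,
    fun c => ?_⟩
  · have h1 := D.map_comp (n + d j) a
    rw [h, map_zero] at h1
    have h2 := D.map_inj hi (k := n + d j) (fun x _ _ c _ => hs x trivial)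
      (fun x _ _ => (hl x).linearIndepOn _) (n := n + d j) (by omega)
      (fun j' => Hc.comp_mem _ _) h1.symm
    have h3 := DFunLike.congr_fun h2 j
    rw [Finsupp.onFinset_apply, add_sub_cancel_right] at h3
    rw [h3, Finsupp.zero_apply, map_zero]
  · refine Hc.induction_deg (P := fun c => c ∈ LinearMap.range D.map) c (Submodule.zero_mem _)
      (fun _ _ => Submodule.add_mem _) fun n => ?_
    obtain ⟨a, -, h⟩ := D.map_surj hi (k := n) (fun x _ _ c _ => hs x trivial)
      (fun x _ _ => (hl x).linearIndepOn _) le_rfl (Hc.comp_mem n c)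
    exact ⟨a, h⟩

end LHData

end Vale.Agent.P291Z
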