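import Vale.Agent.P291Z.T7

set_option linter.all false

/-!
# Leray-Hirsch for proper maps, Vietoris-Begle, homotopy invariance
-/

namespace Vale.Agent.P291Z

open Topology Set Filter TopologicalSpace

variable {X Y Z : Type} [TopologicalSpace X] [TopologicalSpace Y] [TopologicalSpace Z]

/-! ### Leray-Hirsch for proper maps, Vietoris-Begle -/

section lh

variable {E B : Type} [TopologicalSpace E] [TopologicalSpace B] {ι : Type*}

theorem IsPr.prop {p : E → B} (hp : IsPr p) {A : Set E} (hA : IsClosed A) : (Fam.prop p).mem A :=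
  fun K hK => (hp.pre K hK).inter_left hA

theorem IsFib.compactSpace {F : Type} [TopologicalSpace F] {p : E → B} (hp : IsPr p) {x : B}
    {i : F → E} (hi : IsFib p x i) : CompactSpace F :=
  ⟨by simpa using hi.isCompact_preimage (hp.prop isClosed_univ)⟩

/-- `a ↦ ∑ p^* (a j) * t j` in cohomology -/
noncomputable def H.lh (p : C(E, B)) (t : ι → H E) : (ι →₀ H B) →ₗ[ℂ] H E :=
  Finsupp.lsum ℂ fun j => LinearMap.mulRight ℂ (t j) ∘ₗ (H.mapA p).toLinearMap

theorem H.lh_apply (p : C(E, B)) (t : ι → H E) (a : ι →₀ H B) :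
    H.lh p t a = ∑ j ∈ a.support, H.map p (a j) * t j := rfl

theorem H.lh_single (p : C(E, B)) (t : ι → H E) (j : ι) (a : H B) :
    H.lh p t (Finsupp.single j a) = H.map p a * t j := by
  simp [H.lh, H.mapA_apply]

theorem H.lh_hcls (p : C(E, B)) {t : ι → Coch E} (ht : ∀ j, supp (δ (t j)) = ∅)
    {a : ι →₀ Coch B} (ha : ∀ j, supp (δ (a j)) = ∅) :
    H.lh p (fun j => hcls (t j)) (a.mapRange hcls hcls_zero) = hcls (lhMap p t a) := by
  rw [lhMap_apply, hcls_sum _ fun j _ => cocycle_mul (cocycle_pull p.continuous (ha j)) (ht j), H.lh,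
    Finsupp.lsum_apply, Finsupp.sum_of_support_subset _ Finsupp.support_mapRange _
      fun j _ => map_zero _]
  exact Finset.sum_congr rfl fun j _ => by
    rw [Finsupp.mapRange_apply, hcls_mul (cocycle_pull p.continuous (ha j)) (ht j), ← H.map_hcls p (ha j)]
    rfl

variable [T2Space B] [LocallyCompactSpace B] [MetrizableSpace E] [LocallyCompactSpace E]
  {F : B → Type} [∀ x, TopologicalSpace (F x)] {i : ∀ x, F x → E}

/-- the fibres have no cohomology with compact supports in degrees `≤ k` -/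
theorem Hc.deg_eq_zero_of_fib {p : E → B} (hp : Continuous p) (hi : ∀ x, IsFib p x (i x)) {k : ℤ}
    (h : ∀ x, ∀ n ≤ k, ∀ c ∈ Hc.deg (F x) n, c = 0) {n : ℤ} (hn : n ≤ k) {c : Hc E}
    (hc : c ∈ Hc.deg E n) : c = 0 := by
  have D : LHData p (Empty.elim : Empty → Coch E) Empty.elim :=
    ⟨hp, fun j => j.elim, fun j => j.elim, fun j => j.elim, fun j => j.elim⟩
  obtain ⟨a, -, rfl⟩ := D.map_surj hi (fun x n hn c hc => by
    rw [h x n hn c hc]; exact Submodule.zero_mem _)
    (fun x n _ => linearIndependent_empty_type.linearIndepOn _) hn hc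
  rw [Subsingleton.elim a 0, map_zero]

/-- **If all fibres have no cohomology with compact supports, neither has the total space.** -/
theorem Hc.subsingleton_of_fib {p : E → B} (hp : Continuous p) (hi : ∀ x, IsFib p x (i x))
    (h : ∀ x, Subsingleton (Hc (F x))) : Subsingleton (Hc E) :=
  ⟨fun c c' => Hc.ext_comp fun n => by
    rw [Hc.deg_eq_zero_of_fib hp hi (k := n) (fun x _ _ _ _ => Subsingleton.elim _ _) le_rfl
      (Hc.comp_mem n c), Hc.deg_eq_zero_of_fib hp hi (k := n)
      (fun x _ _ _ _ => Subsingleton.elim _ _) le_rfl (Hc.comp_mem n c')]⟩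

omit [T2Space B] [LocallyCompactSpace B] [MetrizableSpace E] [LocallyCompactSpace E] in
theorem IsPr.lhData {p : E → B} (hp : IsPr p) {t : ι → Coch E} {d : ι → ℤ}
    (ht : ∀ j, supp (δ (t j)) = ∅) (hd : ∀ j, IsDeg (d j) (t j)) (h0 : ∀ j, 0 ≤ d j) :
    LHData p t d := ⟨hp.cont, ht, fun _ => hp.prop (isClosed_supp _), hd, h0⟩

/-- a map with one class per fibre -/
theorem Hc.pullMul_bijective {p : E → B} (hp : Continuous p) (hi : ∀ x, IsFib p x (i x))
    {t : Coch E} (ht : supp (δ t) = ∅) (htp : (Fam.prop p).mem (supp t)) {d : ℤ} (hd : IsDeg d t)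
    (h0 : 0 ≤ d)
    (hs : ∀ x c, c ∈ Submodule.span ℂ (range fun _ : Unit => cls (P291Z.pull (i x) t)))
    (hl : ∀ x, cls (P291Z.pull (i x) t) ≠ 0) : Function.Bijective (Hc.pullMul hp ht htp) := by
  have D : LHData p (fun _ : Unit => t) fun _ => d :=
    ⟨hp, fun _ => ht, fun _ => htp, fun _ => hd, fun _ => h0⟩
  have := (D.map_bijective hi (fun x c _ => hs x c) fun x =>
    linearIndependent_unique_iff.2 (hl x)).comp
    (Finsupp.LinearEquiv.finsuppUnique ℂ (Hc B) Unit).symm.bijective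
  have e : D.map ∘ (Finsupp.LinearEquiv.finsuppUnique ℂ (Hc B) Unit).symm =
      Hc.pullMul hp ht htp := funext fun c => by
    rw [Function.comp_apply, Finsupp.LinearEquiv.finsuppUnique_symm_apply, D.map_single]
  rwa [e] at this

/-- **Vietoris-Begle**, compact supports -/
theorem Hc.pull_bijective_of_acyc {p : E → B} (hp : IsPr p) (hi : ∀ x, IsFib p x (i x))
    (hne : ∀ x, Nonempty (F x)) (h : ∀ x, Acyc (F x)) : Function.Bijective (Hc.pull hp) := by
  have := Hc.pullMul_bijective hp.cont hi cocycle_one (hp.prop (isClosed_supp _)) isDeg_one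
    le_rfl (fun x c => by
      haveI := (hi x).compactSpace hp
      rw [map_one]
      exact (h x).span_cls c) fun x => by
      haveI := (hi x).compactSpace hp
      rw [map_one]
      exact cls_one_ne_zero
  have e : Hc.pullMul hp.cont cocycle_one (hp.prop (isClosed_supp _)) = Hc.pull hp :=
    Hc.hom_ext fun a ha => by rw [Hc.pullMul_cls _ _ _ ha, Hc.pull_cls _ ha, mul_one]
  rwa [e] at this

variable [SigmaCompactSpace B]

section range

variable {p : C(E, B)} (hp : IsPr p) (hi : ∀ x, IsFib p x (i x)) {t : ι → Coch E} {d : ι → ℤ}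
  (ht : ∀ j, supp (δ (t j)) = ∅) (hd : ∀ j, P291Z.IsDeg (d j) (t j)) (h0 : ∀ j, 0 ≤ d j) {k : ℤ}
  (hs : ∀ x, ∀ n ≤ k, ∀ c ∈ Hc.deg (F x) n,
    c ∈ Submodule.span ℂ (range fun j => cls (pull (i x) (t j))))
  (hl : ∀ x, ∀ n ≤ k + 1, LinearIndepOn ℂ (fun j => cls (pull (i x) (t j))) {j | d j = n})
  (hfin : ∀ n, {j | d j ≤ n}.Finite)
include hp hi ht hd h0 hs hl hfin

theorem H.lh_surj {n : ℤ} (hn : n ≤ k) {c : H E} (hc : H.IsDeg n c) :
    ∃ a : ι →₀ H B, (∀ j, H.IsDeg (n - d j) (a j)) ∧ H.lh p (fun j => hcls (t j)) a = c := by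
  obtain ⟨b, hb, hd', rfl⟩ := H.isDeg_iff.1 hc
  obtain ⟨a, h1, c, -, -, h2⟩ := (hp.lhData ht hd h0).surj_p hi hs hl hfin hn hb
    (hp.prop (isClosed_supp _)) hd'
  refine ⟨a.mapRange hcls hcls_zero, fun j => hcls_isDeg (h1 j).2, ?_⟩
  rw [H.lh_hcls p ht fun j => (h1 j).1]
  exact (hcls_eq_of_cohom (cocycle_sum fun j _ =>
    cocycle_mul (cocycle_pull p.continuous (h1 j).1) (ht j)) h2).symm

theorem H.lh_inj {n : ℤ} (hn : n ≤ k + 1) {a : ι →₀ H B} (ha : ∀ j, H.IsDeg (n - d j) (a j))
    (h : H.lh p (fun j => hcls (t j)) a = 0) : a = 0 := by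
  classical
  have ex : ∀ j, ∃ b, supp (δ b) = ∅ ∧ P291Z.IsDeg (n - d j) b ∧ hcls b = a j ∧
      (a j = 0 → b = 0) := fun j => by
    by_cases hj : a j = 0
    · exact ⟨0, cocycle_zero, isDeg_zero _, by rw [hj, hcls_zero], fun _ => rfl⟩
    · obtain ⟨b, h1, h2, h3⟩ := H.isDeg_iff.1 (ha j)
      exact ⟨b, h1, h2, h3, fun h => absurd h hj⟩
  choose b h1 h2 h3 h4 using ex
  let b' : ι →₀ Coch B := Finsupp.onFinset a.support b fun j hj =>
    Finsupp.mem_support_iff.2 fun h => hj (h4 j h)
  have e : b'.mapRange hcls hcls_zero = a := Finsupp.ext h3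
  rw [← e, H.lh_hcls p ht h1] at h
  obtain ⟨c, hc⟩ := (hcls_eq_zero (cocycle_sum fun j _ =>
    cocycle_mul (cocycle_pull p.continuous (h1 j)) (ht j))).1 h
  refine Finsupp.ext fun j => ?_
  obtain ⟨a', -, h5⟩ := (hp.lhData ht hd h0).inj_p hi hs hl hfin hn (a := b') h1 h2
    (hp.prop (isClosed_supp c)) hc j
  rw [← h3 j]
  exact (hcls_eq_zero (h1 j)).2 ⟨a', h5⟩

end range

/-- **The Leray-Hirsch theorem** for a proper map -/
theorem H.lh_bijective {p : C(E, B)} (hp : IsPr p) (hi : ∀ x, IsFib p x (i x)) {t : ι → Coch E}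
    {d : ι → ℤ} (ht : ∀ j, supp (δ (t j)) = ∅) (hd : ∀ j, P291Z.IsDeg (d j) (t j))
    (h0 : ∀ j, 0 ≤ d j)
    (hs : ∀ x, ⊤ ≤ Submodule.span ℂ (range fun j => cls (pull (i x) (t j))))
    (hl : ∀ x, LinearIndependent ℂ fun j => cls (pull (i x) (t j)))
    (hfin : ∀ n, {j | d j ≤ n}.Finite) : Function.Bijective (H.lh p fun j => hcls (t j)) := by
  refine ⟨(injective_iff_map_eq_zero _).2 fun a h => Finsupp.ext fun j => H.ext_comp fun n => ?_,
    fun c => ?_⟩
  · have h1 : H.lh p (fun j => hcls (t j)) (Finsupp.onFinset a.support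
        (fun j' => H.comp (n + d j - d j') (a j')) fun j hj => by
          rw [Finsupp.mem_support_iff]
          intro h
          exact hj (by simp [h])) = 0 := by
      refine Eq.trans ?_ ((congrArg (H.comp (n + d j)) h).trans (map_zero _))
      rw [H.lh_apply p _ a, map_sum, H.lh, Finsupp.lsum_apply,
        Finsupp.sum_of_support_subset _ Finsupp.support_onFinset_subset _ fun j _ => map_zero _]
      refine Finset.sum_congr rfl fun j' _ => ?_
      rw [Finsupp.onFinset_apply, ← sub_add_cancel (n + d j) (d j'),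
        H.comp_mul_right (hcls_isDeg (hd j')), H.comp_map, add_sub_cancel_right]
      rfl
    have h2 := H.lh_inj hp hi ht hd h0 (k := n + d j) (fun x _ _ c _ => hs x trivial)
      (fun x _ _ => (hl x).linearIndepOn _) hfin (n := n + d j) (by omega)
      (fun j' => H.isDeg_comp _ _) h1
    have h3 := DFunLike.congr_fun h2 j
    rw [Finsupp.onFinset_apply, add_sub_cancel_right] at h3
    rw [h3, Finsupp.zero_apply, map_zero]
  · refine H.induction_deg (P := fun c => c ∈ LinearMap.range (H.lh p fun j => hcls (t j))) c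
      (Submodule.zero_mem _) (fun _ _ => Submodule.add_mem _) fun n => ?_
    obtain ⟨a, -, h⟩ := H.lh_surj hp hi ht hd h0 (k := n) (fun x _ _ c _ => hs x trivial)
      (fun x _ _ => (hl x).linearIndepOn _) hfin le_rfl (H.isDeg_comp n c)
    exact ⟨a, h⟩

/-- **Vietoris-Begle** -/
theorem H.map_bijective_of_acyc {p : C(E, B)} (hp : IsPr p) (hi : ∀ x, IsFib p x (i x))
    (hne : ∀ x, Nonempty (F x)) (h : ∀ x, Acyc (F x)) : Function.Bijective (H.map p) := by
  have := (H.lh_bijective hp hi (t := fun _ : Unit => 1) (d := fun _ => 0)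
    (fun _ => cocycle_one) (fun _ => P291Z.isDeg_one) (fun _ => le_rfl) (fun x c _ => by
      haveI := (hi x).compactSpace hp
      rw [map_one]
      exact (h x).span_cls c) (fun x => linearIndependent_unique_iff.2 (by
      haveI := (hi x).compactSpace hp
      rw [map_one]
      exact cls_one_ne_zero)) fun _ => toFinite _).comp
    (Finsupp.LinearEquiv.finsuppUnique ℂ (H B) Unit).symm.bijective
  have e : (H.lh p fun _ : Unit => hcls (1 : Coch E)) ∘
      (Finsupp.LinearEquiv.finsuppUnique ℂ (H B) Unit).symm = H.map p := funext fun c => by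
    rw [Function.comp_apply, Finsupp.LinearEquiv.finsuppUnique_symm_apply, H.lh_single, hcls_one,
      mul_one]
  rwa [e] at this

end lh

/-! ### homotopy invariance -/

theorem isFib_fst [T1Space X] (x : X) : IsFib (Prod.fst : X × Y → X) x (Prod.mk x) :=
  ⟨⟨isEmbedding_prodMkRight x, by
    rw [show range (Prod.mk x : Y → X × Y) = Prod.fst ⁻¹' {x} from by ext ⟨a, b⟩; simp [eq_comm]]
    exact isClosed_singleton.preimage continuous_fst⟩, by ext ⟨a, b⟩; simp [eq_comm]⟩

theorem isFib_snd [T1Space Y] (y : Y) : IsFib (Prod.snd : X × Y → Y) y fun x => (x, y) :=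
  ⟨⟨isEmbedding_prodMkLeft y, by
    rw [show range (fun x : X => (x, y)) = Prod.snd ⁻¹' {y} from by ext ⟨a, b⟩; simp [eq_comm]]
    exact isClosed_singleton.preimage continuous_snd⟩, by ext ⟨a, b⟩; simp [eq_comm]⟩

theorem isPr_snd [CompactSpace X] : IsPr (Prod.snd : X × Y → Y) :=
  IsPr.of_isProperMap isProperMap_snd_of_compactSpace

theorem isPr_fst [CompactSpace Y] : IsPr (Prod.fst : X × Y → X) :=
  IsPr.of_isProperMap isProperMap_fst_of_compactSpace

theorem isPr_mk [T1Space X] (x : X) : IsPr (Prod.mk x : Y → X × Y) :=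
  IsPr.of_isClosedEmbedding (isFib_fst x).emb

open unitInterval in
/-- **homotopy invariance** of cohomology with compact supports, for proper homotopies -/
theorem Hc.pull_eq_of_homotopy [MetrizableSpace X] [LocallyCompactSpace X] {h : I × X → Y}
    (hh : IsPr h) {f g : X → Y} (hf : IsPr f) (hg : IsPr g) (h0 : ∀ x, h (0, x) = f x)
    (h1 : ∀ x, h (1, x) = g x) : Hc.pull hf = Hc.pull hg := by
  have hb := Hc.pull_bijective_of_acyc (isPr_snd (X := I) (Y := X)) (fun x => isFib_snd x)
    (fun _ => inferInstance) fun _ => acyc_unitInterval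
  refine LinearMap.ext fun c => ?_
  obtain ⟨c', hc'⟩ := hb.2 (Hc.pull hh c)
  rw [Hc.pull_congr hf (hh.comp (isPr_mk 0)) fun x => (h0 x).symm,
    Hc.pull_congr hg (hh.comp (isPr_mk 1)) fun x => (h1 x).symm,
    ← Hc.pull_pull hh (isPr_mk 0), ← Hc.pull_pull hh (isPr_mk 1), ← hc', Hc.pull_pull,
    Hc.pull_pull]

open unitInterval in
/-- **homotopy invariance** of cohomology -/
theorem H.map_eq_of_homotopic [MetrizableSpace X] [LocallyCompactSpace X] [SigmaCompactSpace X]
    {f g : C(X, Y)} (h : f.Homotopic g) : H.map f = H.map g := by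
  obtain ⟨h⟩ := h
  have hb := H.map_bijective_of_acyc (p := (ContinuousMap.snd : C(I × X, X))) isPr_snd
    (fun x => isFib_snd x) (fun _ => inferInstance) fun _ => acyc_unitInterval
  refine RingHom.ext fun c => ?_
  obtain ⟨c', hc'⟩ := hb.2 (H.map h.toContinuousMap c)
  have e : ∀ s : I, H.map (h.toContinuousMap.curry s) c = c' := fun s => by
    have := congrArg (H.map (⟨Prod.mk s, Continuous.prodMk_right s⟩ : C(X, I × X))) hc'
    rw [H.map_map, H.map_map, H.map_id fun _ => rfl] at this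
    exact this.symm
  have e0 := e 0
  have e1 := e 1
  rw [show h.toContinuousMap.curry 0 = f from h.curry_zero] at e0
  rw [show h.toContinuousMap.curry 1 = g from h.curry_one] at e1
  exact e0.trans e1.symm

theorem H.map_bijective_of_homotopyEquiv [MetrizableSpace X] [LocallyCompactSpace X]
    [SigmaCompactSpace X] [MetrizableSpace Y] [LocallyCompactSpace Y] [SigmaCompactSpace Y]
    (e : ContinuousMap.HomotopyEquiv X Y) : Function.Bijective (H.map e.toFun) :=
  Function.bijective_iff_has_inverse.2 ⟨H.map e.invFun,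
    fun h => by rw [H.map_map, H.map_eq_of_homotopic e.right_inv]; exact H.map_id (fun _ => rfl) h,
    fun h => by rw [H.map_map, H.map_eq_of_homotopic e.left_inv]; exact H.map_id (fun _ => rfl) h⟩

theorem acyc_of_contractible [MetrizableSpace X] [LocallyCompactSpace X] [SigmaCompactSpace X]
    [ContractibleSpace X] : Acyc X := fun c => by
  obtain ⟨x, hx⟩ := id_nullhomotopic X
  obtain ⟨z, hz⟩ := H.map_const (X := X) x c
  exact ⟨z, by rw [← hz, ← H.map_eq_of_homotopic hx, H.map_id fun _ => rfl]⟩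

end Vale.Agent.P291Z
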