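import Vale.Agent.P291Z.T8

set_option linter.all false

/-!
# The cross product and the Kuenneth theorem; generators
-/

namespace Vale.Agent.P291Z

open Topology Set Filter TopologicalSpace
open scoped TensorProduct

variable {X Y X₁ X₂ : Type} [TopologicalSpace X] [TopologicalSpace Y] [TopologicalSpace X₁]
  [TopologicalSpace X₂]

theorem Hc.isInternal (X : Type) [TopologicalSpace X] : DirectSum.IsInternal (Hc.deg X) := by
  refine DirectSum.isInternal_submodule_of_iSupIndep_of_iSup_eq_top ?_ ?_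
  · refine iSupIndep_def.2 fun k => Submodule.disjoint_def.2 fun c h1 h2 => ?_
    rw [← Hc.comp_of_mem h1]
    have : (⨆ j, ⨆ _ : j ≠ k, Hc.deg X j) ≤ LinearMap.ker (Hc.comp k) :=
      iSup₂_le fun j hj c hc => Hc.comp_of_ne hc (Ne.symm hj)
    exact this h2
  · exact eq_top_iff.2 fun c _ => Hc.induction_deg (P := fun c => c ∈ iSup (Hc.deg X)) c
      (Submodule.zero_mem _) (fun _ _ => Submodule.add_mem _) fun k =>
        Submodule.mem_iSup_of_mem k (Hc.comp_mem k c)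

/-- a basis of homogeneous classes, with representatives -/
theorem Hc.exists_basis (X : Type) [TopologicalSpace X] :
    ∃ (ι : Type) (b : Module.Basis ι ℂ (Hc X)) (t : ι → Coch X) (d : ι → ℤ),
      ∀ j, t j ∈ Zc X ∧ IsDeg (d j) (t j) ∧ 0 ≤ d j ∧ cls (t j) = b j := by
  let b := (Hc.isInternal X).collectedBasis fun k => Module.Basis.ofVectorSpace ℂ (Hc.deg X k)
  have hb := (Hc.isInternal X).collectedBasis_mem
    fun k => Module.Basis.ofVectorSpace ℂ (Hc.deg X k)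
  choose t h1 h2 h3 using hb
  refine ⟨_, b, t, fun j => j.1, fun j => ⟨h1 j, h2 j, ?_, h3 j⟩⟩
  by_contra h
  exact b.ne_zero j (Hc.eq_zero_of_neg ⟨t j, h1 j, h2 j, h3 j⟩ (not_le.1 h))

section cross

variable {p₁ : X → X₁} {p₂ : X → X₂} (h : IsPr fun x => (p₁ x, p₂ x))
include h

theorem IsPr.cont₁ : Continuous p₁ := continuous_fst.comp h.cont

theorem IsPr.cont₂ : Continuous p₂ := continuous_snd.comp h.cont

theorem IsPr.swap : IsPr fun x => (p₂ x, p₁ x) :=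
  (IsPr.of_homeomorph (Homeomorph.prodComm X₁ X₂)).comp h

theorem IsPr.prop₂ {t : Coch X₂} (ht : IsCompact (supp t)) :
    (Fam.prop p₁).mem (supp (pull p₂ t)) := fun K hK => by
  have := (h.pre _ (hK.prod ht)).inter_left (isClosed_supp (pull p₂ t))
  rwa [show supp (pull p₂ t) ∩ (fun x => (p₁ x, p₂ x)) ⁻¹' K ×ˢ supp t =
    supp (pull p₂ t) ∩ p₁ ⁻¹' K from Subset.antisymm (fun x hx => ⟨hx.1, hx.2.1⟩)
      fun x hx => ⟨hx.1, hx.2, supp_pull h.cont₂ t hx.1⟩] at this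

theorem cross_Zc {a : Coch X₁} {t : Coch X₂} (ha : a ∈ Zc X₁) (ht : t ∈ Zc X₂) :
    pull p₁ a * pull p₂ t ∈ Zc X :=
  pull_mul_Zc h.cont₁ (cocycle_pull h.cont₂ ht.2) (h.prop₂ ht.1) ha

theorem Hc.exists_cross : ∃ f : Hc X₂ →ₗ[ℂ] Hc X₁ →ₗ[ℂ] Hc X, ∀ t : Zc X₂,
    f (cls t.1) = Hc.pullMul h.cont₁ (cocycle_pull h.cont₂ (mem_Zc.1 t.2).2)
      (h.prop₂ (mem_Zc.1 t.2).1) := by
  refine Hc.exists_lift (Zc X₂) LinearMap.id
    ⟨⟨fun t => Hc.pullMul h.cont₁ (cocycle_pull h.cont₂ (mem_Zc.1 t.2).2)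
      (h.prop₂ (mem_Zc.1 t.2).1), fun s t => Hc.hom_ext fun a ha => ?_⟩,
      fun c t => Hc.hom_ext fun a ha => ?_⟩ (fun _ h => h)
    (fun a ha => ⟨a, ha, by simp⟩) fun t ht => Hc.hom_ext fun a ha => ?_
  · rw [LinearMap.add_apply, Hc.pullMul_cls _ _ _ ha, Hc.pullMul_cls _ _ _ ha,
      Hc.pullMul_cls _ _ _ ha, ← cls_add (cross_Zc h ha s.2) (cross_Zc h ha t.2), ← mul_add,
      ← map_add]
    rfl
  · show Hc.pullMul h.cont₁ (cocycle_pull h.cont₂ (mem_Zc.1 (c • t).2).2)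
      (h.prop₂ (mem_Zc.1 (c • t).2).1) (cls a) = c • Hc.pullMul h.cont₁
        (cocycle_pull h.cont₂ (mem_Zc.1 t.2).2) (h.prop₂ (mem_Zc.1 t.2).1) (cls a)
    rw [Hc.pullMul_cls _ _ _ ha, Hc.pullMul_cls _ _ _ ha, ← cls_smul c (cross_Zc h ha t.2),
      ← mul_smul_comm, ← map_smul]
    rfl
  · show Hc.pullMul h.cont₁ (cocycle_pull h.cont₂ (mem_Zc.1 t.2).2)
      (h.prop₂ (mem_Zc.1 t.2).1) (cls a) = 0
    rw [Hc.pullMul_cls _ _ _ ha]
    obtain ⟨c, hc, e⟩ := ht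
    refine cls_of_mem_Bc ⟨P291Z.pull p₁ (par a) * P291Z.pull p₂ c, isCompact_pull_mul h.cont₁
      (h.prop₂ hc) (isCompact_supp_of_subset ha.1 (supp_par a)), ?_⟩
    have := cobound_mul_left (a := P291Z.pull p₂ t.1) (b := 0) (c := P291Z.pull p₂ c) (by
      rw [sub_zero, δ_pull, ← map_sub]; exact supp_pull_eq_empty h.cont₂ e)
      (cocycle_pull h.cont₁ ha.2)
    rwa [mul_zero, sub_zero, show par (P291Z.pull p₁ a) = P291Z.pull p₁ (par a) from
      Coch.ext fun l => by simp [par_val, pull_val]] at this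

/-- **the cross product** -/
noncomputable def Hc.cross : Hc X₁ →ₗ[ℂ] Hc X₂ →ₗ[ℂ] Hc X := (Hc.exists_cross h).choose.flip

theorem Hc.cross_cls {a : Coch X₁} {t : Coch X₂} (ha : a ∈ Zc X₁) (ht : t ∈ Zc X₂) :
    Hc.cross h (cls a) (cls t) = cls (P291Z.pull p₁ a * P291Z.pull p₂ t) := by
  rw [Hc.cross, LinearMap.flip_apply, (Hc.exists_cross h).choose_spec ⟨t, ht⟩,
    Hc.pullMul_cls _ _ _ ha]

theorem Hc.cross_deg {k l : ℤ} {c : Hc X₁} {c' : Hc X₂} (hc : c ∈ Hc.deg X₁ k)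
    (hc' : c' ∈ Hc.deg X₂ l) : Hc.cross h c c' ∈ Hc.deg X (k + l) := by
  obtain ⟨a, ha, h1, rfl⟩ := hc
  obtain ⟨t, ht, h2, rfl⟩ := hc'
  rw [Hc.cross_cls h ha ht]
  exact cls_mem_deg ((h1.pull _).mul (h2.pull _))

theorem cross_iff {β₁ : BM X₁} {β₂ : BM X₂} {β : BM X} :
    Cross p₁ p₂ β₁ β₂ β ↔ ∀ c c', β (Hc.cross h c c') = β₁ c * β₂ c' :=
  ⟨fun H c c' => by
    obtain ⟨a, ha, rfl⟩ := cls_surj c
    obtain ⟨t, ht, rfl⟩ := cls_surj c'
    rw [Hc.cross_cls h ha ht, ← ev_eq, ← ev_eq, ← ev_eq, H a ha t ht],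
    fun H a ha t ht => by rw [ev_eq, ev_eq, ev_eq, ← Hc.cross_cls h ha ht, H]⟩

end cross

theorem IsPr.of_isHomeomorph {f : X → Y} (h : IsHomeomorph f) : IsPr f :=
  IsPr.of_isClosedEmbedding h.isClosedEmbedding

theorem exists_fib_of_isHomeomorph [T1Space X₁] {p₁ : X → X₁} {p₂ : X → X₂}
    (h : IsHomeomorph fun x => (p₁ x, p₂ x)) :
    ∃ i : X₁ → X₂ → X, ∀ x, IsFib p₁ x (i x) ∧ ∀ y, p₂ (i x y) = y := by
  obtain ⟨e, he⟩ := isHomeomorph_iff_exists_homeomorph.1 h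
  have h1 : ∀ z, (p₁ (e.symm z), p₂ (e.symm z)) = z := fun z => by
    have := e.apply_symm_apply z
    rwa [he] at this
  refine ⟨fun x y => e.symm (x, y), fun x => ⟨⟨e.symm.isClosedEmbedding.comp (isFib_fst x).emb,
    ?_⟩, fun y => congrArg Prod.snd (h1 (x, y))⟩⟩
  ext z
  constructor
  · rintro ⟨y, rfl⟩
    exact congrArg Prod.fst (h1 (x, y))
  · rintro rfl
    refine ⟨p₂ z, e.symm_apply_eq.2 ?_⟩
    rw [he]

section kunneth

variable [T2Space X₁] [LocallyCompactSpace X₁] [MetrizableSpace X] [LocallyCompactSpace X]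
  {p₁ : X → X₁} {p₂ : X → X₂} (h : IsHomeomorph fun x => (p₁ x, p₂ x))
include h

/-- **The Kuenneth theorem** -/
theorem Hc.kunneth :
    Function.Bijective (TensorProduct.lift (Hc.cross (IsPr.of_isHomeomorph h))) := by
  classical
  have hp := IsPr.of_isHomeomorph h
  obtain ⟨ι, b, t, d, ht⟩ := Hc.exists_basis X₂
  obtain ⟨i, hi⟩ := exists_fib_of_isHomeomorph h
  have D : LHData p₁ (fun j => P291Z.pull p₂ (t j)) d := ⟨hp.cont₁,
    fun j => cocycle_pull hp.cont₂ (ht j).1.2, fun j => hp.prop₂ (ht j).1.1,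
    fun j => (ht j).2.1.pull _, fun j => (ht j).2.2.1⟩
  have e : ∀ x, (fun j => cls (P291Z.pull (i x) (P291Z.pull p₂ (t j)))) = b := fun x =>
    funext fun j => by
      rw [P291Z.pull_pull, show p₂ ∘ i x = id from funext (hi x).2, P291Z.pull_id, (ht j).2.2.2]
  have hb := D.map_bijective (fun x => (hi x).1) (fun x => by rw [e x, b.span_eq])
    fun x => by rw [e x]; exact b.linearIndependent
  have e' : D.map = TensorProduct.lift (Hc.cross hp) ∘ₗ
      (TensorProduct.equivFinsuppOfBasisRight b).symm.toLinearMap := by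
    rw [TensorProduct.equivFinsuppOfBasisRight_symm]
    refine Finsupp.lhom_ext fun j c => ?_
    obtain ⟨a, ha, rfl⟩ := cls_surj c
    rw [D.map_single, Hc.pullMul_cls _ _ _ ha, LinearMap.comp_apply, Finsupp.lsum_single,
      LinearMap.flip_apply, TensorProduct.mk_apply, TensorProduct.lift.tmul, ← (ht j).2.2.2,
      Hc.cross_cls hp ha (ht j).1]
  rw [e', LinearMap.coe_comp] at hb
  exact (Function.Bijective.of_comp_iff _
    (TensorProduct.equivFinsuppOfBasisRight b).symm.bijective).1 hb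

theorem Hc.cross_induction {P : Hc X → Prop} (h0 : P 0) (hadd : ∀ a b, P a → P b → P (a + b))
    (hc : ∀ c c', P (Hc.cross (IsPr.of_isHomeomorph h) c c')) (c : Hc X) : P c := by
  obtain ⟨z, rfl⟩ := (Hc.kunneth h).2 c
  induction z using TensorProduct.induction_on with
  | zero => rwa [map_zero]
  | tmul a b => exact hc a b
  | add a b ha hb => rw [map_add]; exact hadd _ _ ha hb

/-- existence and uniqueness of the cross product of Borel-Moore classes -/
theorem existsUnique_cross (β₁ : BM X₁) (β₂ : BM X₂) : ∃! β : BM X, Cross p₁ p₂ β₁ β₂ β := by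
  have hp := IsPr.of_isHomeomorph h
  let e := LinearEquiv.ofBijective _ (Hc.kunneth h)
  refine ⟨TensorProduct.lift ((LinearMap.mul ℂ ℂ).compl₁₂ β₁ β₂) ∘ₗ e.symm.toLinearMap,
    (cross_iff hp).2 fun c c' => ?_, fun β hβ => LinearMap.ext fun c => ?_⟩
  · have : e.symm (Hc.cross hp c c') = c ⊗ₜ c' := by
      rw [LinearEquiv.symm_apply_eq]
      rfl
    rw [LinearMap.comp_apply, LinearEquiv.coe_toLinearMap, this]
    rfl
  · refine Hc.cross_induction h (P := fun c => β c = _) (by simp)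
      (fun a b ha hb => by rw [map_add, map_add, ha, hb]) (fun c c' => ?_) c
    have : e.symm (Hc.cross hp c c') = c ⊗ₜ c' := by
      rw [LinearEquiv.symm_apply_eq]
      rfl
    rw [(cross_iff hp).1 hβ, LinearMap.comp_apply, LinearEquiv.coe_toLinearMap, this]
    rfl

theorem Hc.subsingleton_of_prod (hs : Subsingleton (Hc X₁) ∨ Subsingleton (Hc X₂)) :
    Subsingleton (Hc X) := by
  refine subsingleton_of_forall_eq 0 fun c => Hc.cross_induction h (P := fun c => c = 0) rfl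
    (fun a b ha hb => by rw [ha, hb, add_zero]) (fun c c' => ?_) c
  rcases hs with hs | hs
  · rw [Subsingleton.elim c 0, map_zero, LinearMap.zero_apply]
  · rw [Subsingleton.elim c' 0, map_zero]

end kunneth

/-! ### spaces whose cohomology with compact supports is one dimensional -/

/-- the class of `t` is a basis of `Hc X` -/
structure IsGen (d : ℤ) (t : Coch X) : Prop where
  mem : t ∈ Zc X
  deg : IsDeg d t
  ne : cls t ≠ 0
  span : ∀ c : Hc X, ∃ z : ℂ, c = z • cls t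

theorem IsGen.nonneg {d : ℤ} {t : Coch X} (h : IsGen d t) : 0 ≤ d :=
  not_lt.1 fun hd => h.ne (Hc.eq_zero_of_neg (cls_mem_deg h.deg) hd)

theorem IsGen.mem_span {d : ℤ} {t : Coch X} (h : IsGen d t) (c : Hc X) :
    c ∈ Submodule.span ℂ (range fun _ : Unit => cls t) := by
  obtain ⟨z, rfl⟩ := h.span c
  exact Submodule.smul_mem _ _ (Submodule.subset_span ⟨(), rfl⟩)

theorem IsGen.eq_zero {d k : ℤ} {t : Coch X} (h : IsGen d t) (hk : k ≠ d) {c : Hc X}
    (hc : c ∈ Hc.deg X k) : c = 0 := by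
  obtain ⟨z, rfl⟩ := h.span c
  rw [← Hc.comp_of_mem hc, map_smul, Hc.comp_of_ne (cls_mem_deg h.deg) hk, smul_zero]

theorem IsGen.of_ne {d d' : ℤ} {t t' : Coch X} (h : IsGen d t) (h1 : t' ∈ Zc X)
    (h2 : IsDeg d' t') (h3 : cls t' ≠ 0) : IsGen d' t' := by
  refine ⟨h1, h2, h3, fun c => ?_⟩
  obtain ⟨z, rfl⟩ := h.span c
  obtain ⟨w, hw⟩ := h.span (cls t')
  have hw0 : w ≠ 0 := fun h0 => h3 (by rw [hw, h0, zero_smul])
  exact ⟨z / w, by rw [hw, smul_smul, div_mul_cancel₀ _ hw0]⟩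

theorem IsGen.of_bijective {d d' : ℤ} {t : Coch X} {t' : Coch Y} (h : IsGen d t)
    {f : Hc X →ₗ[ℂ] Hc Y} (hf : Function.Bijective f) (h1 : t' ∈ Zc Y) (h2 : IsDeg d' t')
    (e : f (cls t) = cls t') : IsGen d' t' := by
  refine ⟨h1, h2, fun h0 => h.ne (hf.1 (by rw [e, h0, map_zero])), fun c => ?_⟩
  obtain ⟨c, rfl⟩ := hf.2 c
  obtain ⟨z, rfl⟩ := h.span c
  exact ⟨z, by rw [map_smul, e]⟩

theorem IsGen.of_bijective' {d d' : ℤ} {t : Coch X} {t' : Coch Y} (h : IsGen d' t')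
    {f : Hc X →ₗ[ℂ] Hc Y} (hf : Function.Bijective f) (h1 : t ∈ Zc X) (h2 : IsDeg d t)
    (e : f (cls t) = cls t') : IsGen d t :=
  h.of_bijective (f := (LinearEquiv.ofBijective f hf).symm.toLinearMap)
    (LinearEquiv.ofBijective f hf).symm.bijective h1 h2 (by
      rw [LinearEquiv.coe_toLinearMap, LinearEquiv.symm_apply_eq]; exact e.symm)

theorem IsGen.pull {d : ℤ} {t : Coch Y} (h : IsGen d t) {f : X → Y} (hf : IsHomeomorph f) :
    IsGen d (pull f t) := by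
  obtain ⟨e, rfl⟩ := isHomeomorph_iff_exists_homeomorph.1 hf
  exact h.of_bijective (Hc.equiv e).bijective ((IsPr.of_homeomorph e).pull_Zc h.mem)
    (h.deg.pull _) (Hc.pull_cls (IsPr.of_homeomorph e) h.mem)

theorem isGen_one [CompactSpace X] [Nonempty X] (h : Acyc X) : IsGen 0 (1 : Coch X) :=
  ⟨Zc_of_compact cocycle_one, isDeg_one, cls_one_ne_zero, fun c => by
    obtain ⟨z, hz⟩ := (Submodule.mem_span_range_iff_exists_fun ℂ).1 (h.span_cls c)
    exact ⟨z (), by rw [← hz]; simp⟩⟩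

theorem IsGen.cross [T2Space X₁] [LocallyCompactSpace X₁] [MetrizableSpace X]
    [LocallyCompactSpace X] {p₁ : X → X₁} {p₂ : X → X₂} (h : IsHomeomorph fun x => (p₁ x, p₂ x))
    {d₁ d₂ : ℤ} {t₁ : Coch X₁} {t₂ : Coch X₂} (h₁ : IsGen d₁ t₁) (h₂ : IsGen d₂ t₂) :
    IsGen (d₁ + d₂) (P291Z.pull p₁ t₁ * P291Z.pull p₂ t₂) := by
  have hp := IsPr.of_isHomeomorph h
  obtain ⟨i, hi⟩ := exists_fib_of_isHomeomorph h
  have e : ∀ x, P291Z.pull (i x) (P291Z.pull p₂ t₂) = t₂ := fun x => by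
    rw [P291Z.pull_pull, show p₂ ∘ i x = id from funext (hi x).2, P291Z.pull_id]
  exact h₁.of_bijective (Hc.pullMul_bijective hp.cont₁ (fun x => (hi x).1)
    (cocycle_pull hp.cont₂ h₂.mem.2) (hp.prop₂ h₂.mem.1) (h₂.deg.pull _) h₂.nonneg
    (fun x c => by rw [e]; exact h₂.mem_span c) fun x => by rw [e]; exact h₂.ne)
    (cross_Zc hp h₁.mem h₂.mem) ((h₁.deg.pull _).mul (h₂.deg.pull _))
    (Hc.pullMul_cls _ _ _ h₁.mem)

/-- **The Thom isomorphism**, in its general form -/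
theorem Hc.pullMul_bijective_of_isGen {E B : Type} [TopologicalSpace E] [TopologicalSpace B]
    [T2Space B] [LocallyCompactSpace B] [MetrizableSpace E] [LocallyCompactSpace E]
    {F : B → Type} [∀ x, TopologicalSpace (F x)] {i : ∀ x, F x → E} {p : E → B}
    (hp : Continuous p) (hi : ∀ x, IsFib p x (i x)) {t : Coch E} (ht : supp (δ t) = ∅)
    (htp : (Fam.prop p).mem (supp t)) {d : ℤ} (hd : IsDeg d t) (h0 : 0 ≤ d)
    (hg : ∀ x, IsGen d (P291Z.pull (i x) t)) : Function.Bijective (Hc.pullMul hp ht htp) :=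
  Hc.pullMul_bijective hp hi ht htp hd h0 (fun x => (hg x).mem_span) fun x => (hg x).ne

end Vale.Agent.P291Z
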