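import Vale.Agent.P291Z.TSys0

/-!
# The Chern roots on the approximations of Borel constructions for the torus
-/

set_option linter.all false

namespace Vale.Agent.P291Z.TS

open Set Function Topology Matrix MvPolynomial
open Fl (row ip prj ON PV xc kap Good Box top bdT Art IsBasis lhc)

variable {J : Type} [Fintype J] {n : J → ℕ} {M : ℕ}

section torus

variable {Z : Type} [MulAction (Tc n) Z] [TopologicalSpace Z]

/-- the tautological lines -/
noncomputable def ln (c : Bx n) : Bq (Tc n) Z M → Matrix (Fin M) (Fin M) ℂ :=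
  fun x => Quotient.liftOn' x (fun y => prj (row y.2.1 c)) (by
    rintro _ y ⟨t, rfl⟩
    exact (congrArg prj (row_smul t y.2.1 c)).trans (Fl.prj_smul (t c).coe_ne_zero _))

theorem ln_mk (c : Bx n) (y : Z × Sys.P (Tc n) M) :
    ln c (Bor.mk (Tc n) y) = prj (row y.2.1 c) := rfl

theorem ln_mem (c : Bx n) (x : Bq (Tc n) Z M) : ln c x ∈ PV ⊤ := by
  obtain ⟨y, rfl⟩ := Bor.mk_surjective x
  exact ⟨_, trivial, row_ne y.2 c, rfl⟩

theorem continuous_ln (c : Bx n) : Continuous (ln c : Bq (Tc n) Z M → _) :=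
  Continuous.quotient_liftOn' (continuous_iff_continuousAt.2 fun y => Fl.continuousAt_prj
    ((continuous_row c).comp continuous_snd).continuousAt (row_ne y.2 c)) _

variable (Z) in
/-- the Chern roots -/
noncomputable def xT (M : ℕ) (c : Bx n) : H (Bq (Tc n) Z M) := xc (ln c)

theorem xT_deg (c : Bx n) : H.IsDeg 2 (xT Z M c) := Fl.xc_deg _

variable (n Z) in
/-- polynomials in the Chern roots -/
noncomputable def evT (M : ℕ) : SP n →ₐ[ℂ] H (Bq (Tc n) Z M) := Fl.ev (xT Z M) xT_deg

theorem evT_X (c : Bx n) : evT n Z M (X c) = xT Z M c := Fl.ev_X _ c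

theorem evT_deg {p : SP n} {k : ℕ} (hp : p.IsHomogeneous k) : H.IsDeg (2 * k) (evT n Z M p) :=
  Fl.ev_deg _ hp

theorem evT_comm (p : SP n) (y : H (Bq (Tc n) Z M)) : evT n Z M p * y = y * evT n Z M p :=
  Fl.ev_comm _ p y

theorem map_xT {X : Type} [TopologicalSpace X] (f : C(X, Bq (Tc n) Z M)) (c : Bx n) :
    H.map f (xT Z M c) = xc (ln c ∘ f) := Fl.map_xc f (continuous_ln c) (ln_mem c)

theorem map_evT {J' : Type} [Fintype J'] {n' : J' → ℕ} {Z' : Type} [TopologicalSpace Z']
    [MulAction (Tc n') Z'] {M' : ℕ} (f : C(Bq (Tc n) Z M, Bq (Tc n') Z' M')) (σ : Bx n' → Bx n)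
    (r : Z × Sys.P (Tc n) M → Z' × Sys.P (Tc n') M') (hr : ∀ x, f (Bor.mk _ x) = Bor.mk _ (r x))
    (hip : ∀ c x y, ip (row (r x).2.1 c) (row (r y).2.1 c) =
      ip (row x.2.1 (σ c)) (row y.2.1 (σ c))) (p : SP n') :
    H.map f (evT n' Z' M' p) = evT n Z M (rename σ p) := by
  rw [evT, evT, Fl.map_ev, Fl.ev_rename]
  congr 2
  funext c
  rw [map_xT, xT, xc, xc]
  congr 1
  refine Fl.ext_two (Fl.xi_deg _) (Fl.xi_deg _) fun x y z => ?_
  obtain ⟨x, rfl⟩ := Bor.mk_surjective x
  obtain ⟨y, rfl⟩ := Bor.mk_surjective y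
  obtain ⟨z, rfl⟩ := Bor.mk_surjective z
  change Fl.lg (kap (ln c (f _)) (ln c (f _)) (ln c (f _))) = Fl.lg (kap _ _ _)
  rw [hr, hr, hr, ln_mk, ln_mk, ln_mk, ln_mk, ln_mk, ln_mk,
    Fl.kap_prj (row_ne _ _) _ (row_ne _ _), Fl.kap_prj (row_ne _ _) _ (row_ne _ _),
    hip, hip, hip, hip]

/-! ### degrees -/

theorem comp_evT (d : ℕ) (p : SP n) :
    H.comp (2 * d) (evT n Z M p) = evT n Z M (homogeneousComponent d p) := by
  induction p using MvPolynomial.induction_on' with
  | add p q hp hq => rw [map_add, map_add, hp, hq, map_add, map_add]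
  | monomial a c =>
    have h := isHomogeneous_monomial c (rfl : a.degree = _)
    rw [homogeneousComponent_of_mem h]
    split_ifs with e
    · rw [e, (evT_deg h).comp_eq]
    · rw [(evT_deg h).comp_ne (by omega), map_zero]

theorem comp_evT_of_ne {k : ℤ} (hk : ∀ d : ℕ, k ≠ 2 * d) (p : SP n) :
    H.comp k (evT n Z M p) = 0 := by
  induction p using MvPolynomial.induction_on' with
  | add p q hp hq => rw [map_add, map_add, hp, hq, add_zero]
  | monomial a c => exact (evT_deg (isHomogeneous_monomial c (rfl : a.degree = _))).comp_ne (hk _)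

end torus

/-! ### the classifying space -/

/-- the torus as a subgroup -/
noncomputable def subH (n : J → ℕ) : Tc n →* Fl.Tc n := (toG n).codRestrict _ fun t => ⟨t, rfl⟩

theorem good_BT : Good (xT Unit M) (xT_deg (n := n)) (bdT fun _ => M) := by
  let f : C(Bq (Tc n) Unit M, Fl.BT n Unit M) :=
    Bor.mapC (subH n) ⟨fun x => (x.1, stE x.2), continuous_fst.prodMk
      (stE.continuous.comp continuous_snd)⟩ fun _ _ => rfl
  have hf : IsHomeomorph f := Bor.isHomeomorph_map' (φ := subH n) (fun _ _ => rfl) sub_surj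
    (IsHomeomorph.id.prodMap (stE (n := n) (M := M)).isHomeomorph)
  refine Fl.Good.of_bijective Fl.good_BT f (H.map_bijective_of_homeomorph (hf.homeomorph f)) _
    fun c => (Fl.map_xT f c).trans (congrArg xc (funext fun x => ?_))
  obtain ⟨x, rfl⟩ := Bor.mk_surjective x
  rfl

instance : CompactSpace (Bq (Tc n) Unit M) :=
  haveI : CompactSpace (Sys.P (Tc n) M) := inferInstanceAs (CompactSpace (St n M))
  Quotient.compactSpace

theorem evT_surjective : Surjective (evT n Unit M) := fun y => by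
  obtain ⟨a, rfl⟩ := good_BT.basis.2 y
  refine ⟨Finsupp.linearCombination ℂ (fun a : Box (bdT fun _ => M) => monomial a.1 1) a, ?_⟩
  exact Finsupp.apply_linearCombination ℂ (evT n Unit M).toLinearMap _ a

theorem evT_inj {p : SP n} (h : ∀ a ∈ p.support, a ∈ Box (bdT fun _ => M))
    (h0 : evT n Unit M p = 0) : p = 0 := by
  have li := LinearIndependent.of_comp (evT n Unit M).toLinearMap
    (v := fun a : Box (bdT fun _ => M) => monomial a.1 1) good_BT.basis.li
  have hp : p ∈ Submodule.span ℂ (range fun a : Box (bdT (n := n) fun _ => M) =>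
      (monomial a.1 1 : SP n)) := by
    rw [p.as_sum]
    exact Submodule.sum_mem _ fun a ha => by
      rw [← mul_one (coeff a p), ← smul_eq_mul, ← smul_monomial]
      exact Submodule.smul_mem _ _ (Submodule.subset_span ⟨⟨a, h a ha⟩, rfl⟩)
  obtain ⟨l, rfl⟩ := (Finsupp.range_linearCombination ℂ).ge hp
  rw [good_BT.basis.1 (a₁ := l) (a₂ := 0) (((Finsupp.apply_linearCombination ℂ
    (evT n Unit M).toLinearMap _ l).symm.trans h0).trans (map_zero _).symm), map_zero]

theorem le_sum (j : J) : n j ≤ ∑ j, n j :=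
  Finset.single_le_sum (f := n) (fun _ _ => Nat.zero_le _) (Finset.mem_univ j)

theorem evT_inj_large {p : SP n} (h : p.totalDegree + ∑ j, n j ≤ M) (h0 : evT n Unit M p = 0) :
    p = 0 := evT_inj (fun a ha c => by
  have h1 := le_sum (n := n) c.1
  have h2 := c.2.2
  have h3 : a c ≤ p.totalDegree := (Finsupp.le_degree c a).trans (le_totalDegree ha)
  show a c < M - c.2
  omega) h0

/-! ### the flag bundle -/

section flag

variable (n) (Z : Type) [TopologicalSpace Z] [MulAction (GG n) Z] [MulAction (Tc n) Z]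
  [IsScalarTower (Tc n) (GG n) Z]

/-- the flag bundle -/
noncomputable def piC (M : ℕ) : C(Bq (Tc n) Z M, Bo n Z M) :=
  Bor.mapC (toG n) ⟨fun x => (x.1, St.toE n x.2),
    continuous_fst.prodMk (continuous_toE.comp continuous_snd)⟩
    fun t x => Prod.ext (smulT_eq Z t x.1) rfl

/-- comparison with the other description -/
noncomputable def brg (M : ℕ) : C(Bq (Tc n) Z M, Fl.BT n Z M) :=
  Bor.mapC (subH n) ⟨fun x => (x.1, stE x.2), continuous_fst.prodMk
    (stE.continuous.comp continuous_snd)⟩ fun t x => Prod.ext (smulT_eq Z t x.1) rfl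

variable {n Z}

theorem isHomeomorph_brg : IsHomeomorph (brg n Z M) :=
  Bor.isHomeomorph_map' (φ := subH n) (fun t x => Prod.ext (smulT_eq Z t x.1) rfl) sub_surj
  (IsHomeomorph.id.prodMap (stE (n := n) (M := M)).isHomeomorph)

theorem piT_brg : (Fl.piT n Z M).comp (brg n Z M) = piC n Z M := ContinuousMap.ext fun x => by
  obtain ⟨x, rfl⟩ := Bor.mk_surjective x
  rfl

theorem map_brg (p : SP n) : H.map (brg n Z M) (Fl.evT n Z M p) = evT n Z M p := by
  rw [Fl.evT, evT, Fl.map_ev]
  congr 2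
  refine funext fun c => (Fl.map_xT _ c).trans (congrArg xc (funext fun x => ?_))
  obtain ⟨x, rfl⟩ := Bor.mk_surjective x
  rfl

variable (Z) in
/-- the Artin monomials in the Chern roots -/
noncomputable def art (M : ℕ) (a : Art n) : H (Bq (Tc n) Z M) := evT n Z M (monomial a.1 1)

variable [ContinuousSMul (GG n) Z] [Nice Z] [Prin (GG n) (EE n M)] [Nice (EE n M)]

theorem isPr_piC : IsPr (piC n Z M) := by
  rw [← piT_brg]
  exact Fl.isPr_piT.comp (IsPr.of_isHomeomorph isHomeomorph_brg)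

theorem lhc_piC : Bijective (lhc isPr_piC (art (n := n) Z M)) := by
  have hb := IsPr.of_isHomeomorph (isHomeomorph_brg (n := n) (Z := Z) (M := M))
  have : lhc isPr_piC (art (n := n) Z M) =
      Hc.pull hb ∘ₗ lhc Fl.isPr_piT (Fl.artT Z M) := Finsupp.lhom_ext fun a c => by
    rw [LinearMap.comp_apply, Fl.lhc_single, Fl.lhc_single, Hc.pull_act, Hc.pull_pull, Fl.artT,
      map_brg, Hc.pull_congr _ isPr_piC (DFunLike.congr_fun piT_brg)]
    rfl
  rw [this, LinearMap.coe_comp]
  exact (Hc.equiv (isHomeomorph_brg.homeomorph _)).bijective.comp (Fl.lhc_piT Fl.isPr_piT)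

theorem lh_piC : Bijective (H.lh (piC n Z M) (art (n := n) Z M)) := by
  have : H.lh (piC n Z M) (art (n := n) Z M) = (H.mapA (brg n Z M)).toLinearMap ∘ₗ
      H.lh (Fl.piT n Z M) (Fl.artT Z M) := Finsupp.lhom_ext fun a c => by
    rw [LinearMap.comp_apply, H.lh_single, H.lh_single, AlgHom.toLinearMap_apply, H.mapA_apply,
      map_mul, H.map_map, piT_brg, Fl.artT, map_brg]
    rfl
  rw [this, LinearMap.coe_comp]
  exact (H.map_bijective_of_homeomorph (isHomeomorph_brg.homeomorph _)).comp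
    (Fl.lh_piT Fl.isPr_piT)

end flag

end Vale.Agent.P291Z.TS
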