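import Vale.Agent.P291Z.TS1
import Vale.Agent.P291Z.OpsC

/-!
# Euler classes of representations of the torus
-/

set_option linter.all false

namespace Vale.Agent.P291Z.TS

open Set Function Topology Filter MvPolynomial
open Fl (row ip prj PV xi kap Triv lg lg2 lg3)

theorem triv_of_map {X Y : Type} [TopologicalSpace X] [TopologicalSpace Y] {q : Y → X} {y : Y}
    (hq : map q (𝓝 y) = 𝓝 (q y)) {κ : X → X → X → ℂ} {f : X → X → ℂ}
    (h : Triv (fun a b c => κ (q a) (q b) (q c)) (fun a b => f (q a) (q b)) y) : Triv κ f (q y) := by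
  have h2 : 𝓝 (q y, q y) = map (Prod.map q q) (𝓝 (y, y)) := by
    rw [nhds_prod_eq, nhds_prod_eq, ← hq, prod_map_map_eq]
    rfl
  refine ⟨h2 ▸ h.lim, ?_⟩
  rw [nhds_prod_eq, h2, ← hq, prod_map_map_eq, eventually_map, ← nhds_prod_eq]
  exact h.eq

variable {J : Type} [Fintype J] {n : J → ℕ} {M : ℕ}

theorem chr_ne_zero (χ : Bx n → ℤ) (t : Tc n) : chr n χ t ≠ 0 :=
  Finset.prod_ne_zero_iff.2 fun c _ => zpow_ne_zero _ (t c).coe_ne_zero

theorem ip_smul_smul (t t' : Tc n) (u u' : Sys.P (Tc n) M) (c : Bx n) :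
    ip (row (t • u).1 c) (row (t' • u').1 c) = (t' c : ℂ) / t c * ip (row u.1 c) (row u'.1 c) := by
  show ip (row (t • u.1) c) (row (t' • u'.1) c) = _
  rw [row_smul, row_smul, Fl.smul_ip, Fl.ip_smul, Complex.star_def, ← Circle.coe_inv_eq_conj,
    Circle.coe_inv]
  ring

section line

variable {X : Type} [TopologicalSpace X] [MulAction (Tc n) X] {χ : Bx n → ℤ} {s : X → ℂ}
  (hs : ∀ (t : Tc n) x, s (t • x) = chr n χ t * s x)

/-- the comparison of two vectors of a line bundle -/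
noncomputable def gq (x y : Bq (Tc n) X M) : ℂ :=
  Quotient.liftOn₂' x y
    (fun x y => s y.1 / s x.1 * ∏ c, ip (row x.2.1 c) (row y.2.1 c) ^ (-χ c)) (by
    rintro _ _ x y ⟨t, rfl⟩ ⟨t', rfl⟩
    show s (t' • y.1) / s (t • x.1) * ∏ c, ip (row (t • x.2).1 c) (row (t' • y.2).1 c) ^ (-χ c) = _
    simp only [hs, ip_smul_smul, mul_zpow, Finset.prod_mul_distrib, div_zpow,
      Finset.prod_div_distrib, _root_.zpow_neg, Finset.prod_inv_distrib]
    have h1 := chr_ne_zero χ t
    have h2 := chr_ne_zero χ t'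
    change chr n χ t' * _ / (chr n χ t * _) * (chr n χ t' / chr n χ t * _)⁻¹ = _
    field_simp)

variable (X χ) in
/-- the multiplicative cocycle of the line bundle -/
noncomputable def kq (M : ℕ) (x y z : Bq (Tc n) X M) : ℂ :=
  ∏ c, kap (ln c x) (ln c y) (ln c z) ^ (-χ c)

/-- the explicit Euler cocycle -/
noncomputable def th (M : ℕ) : Coch (Bq (Tc n) X M) := δ (lg2 (gq hs)) - lg3 (kq X χ M)

theorem th_deg : IsDeg 2 (th hs M) := (Fl.isDeg_fn2 _).δ.sub (Fl.isDeg_fn3 _)

theorem kq_mk (x y z : X × Sys.P (Tc n) M) : kq X χ M (Bor.mk _ x) (Bor.mk _ y) (Bor.mk _ z) =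
    ∏ c, (ip (row x.2.1 c) (row y.2.1 c) * ip (row y.2.1 c) (row z.2.1 c) /
      ip (row x.2.1 c) (row z.2.1 c)) ^ (-χ c) :=
  Finset.prod_congr rfl fun c _ => by
    rw [ln_mk, ln_mk, ln_mk, Fl.kap_prj (row_ne _ _) _ (row_ne _ _), unit y.2, one_mul]

theorem lg3_kq_van (x : Bq (Tc n) X M) :
    lg3 (kq X χ M) + ∑ c, (χ c : ℂ) • xi (ln c) ∈ Van x := by
  refine Fl.van_two ((Fl.isDeg_fn3 _).add (IsDeg.sum fun c _ => (Fl.xi_deg _).smul _)) ?_
  have h := Fl.lg_prod (l := 𝓝 (x, x, x)) Finset.univ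
    (f := fun c (p : _ × _ × _) => kap (ln c p.1) (ln c p.2.1) (ln c p.2.2)) (fun c => -χ c)
    fun c _ => by
      obtain ⟨y, rfl⟩ := Bor.mk_surjective x
      exact (Fl.triv_gg (continuous_ln c) (ln_mem c) (e := row y.2.1 c) (by
        rw [ln_mk, Fl.prj_self (row_ne _ _)]
        exact row_ne _ _)).κ_lim
  refine h.mono fun p hp => ?_
  rw [Coch.add_val, Pi.add_apply, Coch.sum_val]
  refine (congrArg (· + _) hp).trans ?_
  rw [← Finset.sum_add_distrib]
  refine Finset.sum_eq_zero fun c _ => ?_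
  rw [Int.cast_neg, neg_mul]
  exact neg_add_cancel _

theorem sum_xi_cocycle : supp (δ (∑ c, (χ c : ℂ) • xi (ln c : Bq (Tc n) X M → _))) = ∅ :=
  cocycle_sum fun c _ => cocycle_smul _ (Fl.xi_cocycle (continuous_ln c) (ln_mem c))

theorem th_cohom : supp (th hs M - ∑ c, (χ c : ℂ) • xi (ln c) - δ (lg2 (gq hs))) = ∅ :=
  supp_eq_empty.2 fun x => by
    have := (Van x).neg_mem (lg3_kq_van (χ := χ) x)
    rwa [show th hs M - ∑ c, (χ c : ℂ) • xi (ln c) - δ (lg2 (gq hs)) =
      -(lg3 (kq X χ M) + ∑ c, (χ c : ℂ) • xi (ln c)) by rw [th]; abel]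

theorem th_cocycle : supp (δ (th hs M)) = ∅ := cocycle_of_cohom sum_xi_cocycle (th_cohom hs)

theorem hcls_th : hcls (th hs M) = evT n X M (linf n χ) := by
  rw [hcls_eq_of_cohom sum_xi_cocycle (th_cohom hs), linf, map_sum,
    hcls_sum _ fun c _ => cocycle_smul _ (Fl.xi_cocycle (continuous_ln c) (ln_mem c))]
  exact Finset.sum_congr rfl fun c _ => by
    rw [hcls_smul _ (Fl.xi_cocycle (continuous_ln c) (ln_mem c)), map_smul, evT_X]
    rfl

theorem supp_th [ContinuousSMul (Tc n) X] (hc : Continuous s) :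
    supp (th hs M) ⊆ {x | ∃ y : X × Sys.P (Tc n) M, s y.1 = 0 ∧ x = Bor.mk _ y} := fun x hx => by
  obtain ⟨y, rfl⟩ := Bor.mk_surjective x
  by_contra h
  have h0 : s y.1 ≠ 0 := fun h0 => h ⟨y, h0, rfl⟩
  have c1 : Continuous fun x : X × Sys.P (Tc n) M => s x.1 := hc.comp continuous_fst
  have ht : Triv (kq X χ M) (gq hs) (Bor.mk _ y) := by
    refine triv_of_map (Bor.isOpenQuotientMap_mk.isOpenMap.map_nhds_eq
      Bor.continuous_mk.continuousAt) ⟨?_, ?_⟩
    · have c2 : ContinuousAt (fun p : (X × Sys.P (Tc n) M) × X × Sys.P (Tc n) M =>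
          s p.2.1 / s p.1.1 * ∏ c, ip (row p.1.2.1 c) (row p.2.2.1 c) ^ (-χ c)) (y, y) :=
        ContinuousAt.mul (ContinuousAt.div₀ (by fun_prop) (by fun_prop) h0)
          (tendsto_finset_prod _ fun c _ => ContinuousAt.zpow₀ (Fl.continuous_ip
            ((continuous_row c).comp (continuous_snd.comp continuous_fst))
            ((continuous_row c).comp (continuous_snd.comp continuous_snd))).continuousAt _
            (Or.inl (by
              show ip (row y.2.1 c) (row y.2.1 c) ≠ 0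
              rw [unit y.2]
              exact one_ne_zero)))
      have := c2.tendsto
      simp only [div_self h0, unit y.2, _root_.one_zpow, Finset.prod_const_one, mul_one] at this
      exact this
    · have e := c1.continuousAt.eventually_ne h0
      refine (e.prod_nhds (e.prod_nhds e)).mono fun p hp => ?_
      obtain ⟨a, b, c⟩ := p
      have h1 : s a.1 ≠ 0 := hp.1
      have h2 : s b.1 ≠ 0 := hp.2.1
      have h3 : s c.1 ≠ 0 := hp.2.2
      refine (kq_mk a b c).trans ?_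
      simp only [mul_zpow, div_zpow, Finset.prod_mul_distrib, Finset.prod_div_distrib]
      change _ = s b.1 / s a.1 * _ * (s c.1 / s b.1 * _) / (s c.1 / s a.1 * _)
      field_simp
  exact mem_Van.1 (by simpa [th] using (Van _).neg_mem ht.van) hx

theorem pull_th {Y : Type} (f : Y → X) (u : Sys.P (Tc n) M) :
    pull (fun v => Bor.mk (Tc n) (f v, u)) (th hs M) = pull (s ∘ f) (δ wind) := by
  rw [th, map_sub, ← δ_pull, ← δ_pull, lg2, lg3, Fl.pull_fn2, Fl.pull_fn3, Fl.wind_eq,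
    Fl.pull_fn2]
  have h1 : (Fl.fn3 fun x y z => lg (kq X χ M (Bor.mk (Tc n) (f x, u)) (Bor.mk (Tc n) (f y, u))
      (Bor.mk (Tc n) (f z, u)))) = 0 := Fl.ext_two (Fl.isDeg_fn3 _) (isDeg_zero _) fun x y z => by
    show lg (kq X χ M _ _ _) = 0
    simp only [kq_mk, unit u, mul_one, div_one, _root_.one_zpow, Finset.prod_const_one, Fl.lg_one]
  rw [h1, sub_zero]
  congr 2
  funext x y
  show lg (s (f y) / s (f x) * ∏ c, ip (row u.1 c) (row u.1 c) ^ (-χ c)) = _
  simp only [unit u, _root_.one_zpow, Finset.prod_const_one, mul_one]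
  rfl

end line

theorem IsRep.continuous_linear {G W : Type} [Group G] [TopologicalSpace G] [AddCommGroup W]
    [Module ℂ W] [TopologicalSpace W] [DistribMulAction G W] {r : ℕ} (hW : IsRep G W r)
    (ℓ : W →ₗ[ℂ] ℂ) : Continuous ℓ := by
  obtain ⟨e⟩ := hW.lin
  exact ((ℓ ∘ₗ e.symm.toLinearEquiv.toLinearMap).continuous_of_finiteDimensional.comp
    e.continuous).congr fun w => congrArg ℓ (e.symm_apply_apply w)

/-- **The Euler class of a sum of characters** -/
theorem hcls_euler_weights {Z W ι : Type} [TopologicalSpace Z] [MulAction (Tc n) Z] [Nice Z]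
    [ContinuousSMul (Tc n) Z] [AddCommGroup W] [Module ℂ W] [TopologicalSpace W]
    [DistribMulAction (Tc n) W] [Fintype ι] {r : ℕ} (hW : IsRep (Tc n) W r)
    (b : Module.Basis ι ℂ W) (χ : ι → Bx n → ℤ)
    (hb : ∀ (t : Tc n) p, t • b p = chr n (χ p) t • b p)
    {π : Bq (Tc n) (⊤ : SubMulAction (Tc n) (Z × W)) M → Bq (Tc n) Z M}
    (hπ : ∀ y, π (Bor.mk _ y) = Bor.mk _ (y.1.1.1, y.2))
    (hvb : IsVB r π {x | ∃ y : (⊤ : SubMulAction (Tc n) (Z × W)) × Sys.P (Tc n) M,
      y.1.1.2 = 0 ∧ x = Bor.mk _ y} (fib ⊤ (Sys.P (Tc n) M)))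
    {σ : Z × Sys.P (Tc n) M → W} (hσ : ∀ (t : Tc n) x, σ (t • x) = t • σ x) (hc : Continuous σ) :
    hcls (euler σ hσ) = evT n Z M (∏ p, linf n (χ p)) := by
  haveI := hW.cont
  haveI := hW.comm
  haveI := hW.nice
  haveI : Nice (⊤ : SubMulAction (Tc n) (Z × W)) :=
    Nice.of_isLocallyClosed (S := univ) isOpen_univ.isLocallyClosed
  obtain ⟨L⟩ := hW.lin
  let e : Fin r ≃ ι := Fintype.equivOfCardEq (by
    rw [← Module.finrank_eq_card_basis b, L.toLinearEquiv.finrank_eq, Module.finrank_pi])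
  let s : ι → (⊤ : SubMulAction (Tc n) (Z × W)) → ℂ := fun p x => b.coord p x.1.2
  have hs : ∀ p (t : Tc n) x, s p (t • x) = chr n (χ p) t * s p x := fun p t x => by
    have : b.coord p ∘ₗ DistribSMul.toLinearMap ℂ W t = chr n (χ p) t • b.coord p :=
      b.ext fun q => by
        simp only [LinearMap.comp_apply, DistribSMul.toLinearMap_apply, hb, map_smul,
          LinearMap.smul_apply, Module.Basis.coord_apply, Module.Basis.repr_self]
        by_cases h : q = p
        · rw [h]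
        · rw [Finsupp.single_eq_of_ne' h, smul_zero, smul_zero]
    exact DFunLike.congr_fun this x.1.2
  have hcs : ∀ p, Continuous (s p) := fun p =>
    (IsRep.continuous_linear hW _).comp (continuous_snd.comp continuous_subtype_val)
  have h1 := Fl.cocycle_ofFn_prod fun i => th_cocycle (M := M) (hs (e i))
  have h2 : IsThom _ _ (List.ofFn fun i => th (hs (e i)) M).prod := hvb.isThom_of h1
    (fun x hx => by
      obtain ⟨y, rfl⟩ := Bor.mk_surjective x
      refine ⟨y, b.ext_elem fun p => ?_, rfl⟩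
      obtain ⟨i, rfl⟩ := e.surjective p
      obtain ⟨y', h3, h4⟩ := mem_iInter.1 (Fl.supp_ofFn_prod
        (fun i => supp_th (hs (e i)) (hcs _)) hx) i
      obtain ⟨t, rfl⟩ := Bor.mk_eq_iff.1 h4
      rw [map_zero, Finsupp.zero_apply]
      exact (hs _ t y'.1).trans (mul_eq_zero_of_right _ h3))
    ((IsDeg.prod fun a ha => by
      obtain ⟨i, rfl⟩ := (List.mem_ofFn' _ _).1 ha
      exact th_deg _).cast (by rw [List.length_ofFn, mul_comm])) fun x => by
      obtain ⟨⟨z, u⟩, rfl⟩ := Bor.mk_surjective x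
      let ℓ := (b.reindex e.symm).equivFun.symm
      refine ⟨fun v => Bor.mk _ (⟨(z, ℓ v), trivial⟩, u), ⟨z, u, ℓ.toLinearMap, ℓ.injective,
        fun w => ⟨fun _ => ℓ.surjective w, fun _ => trivial⟩, fun a => ⟨trivial, rfl⟩⟩, hπ _, ?_⟩
      rw [map_list_prod, List.map_ofFn, tau]
      congr 3
      funext i
      refine (pull_th (hs (e i)) _ u).trans ?_
      congr 2
      funext v
      have := congrFun ((b.reindex e.symm).equivFun.apply_symm_apply v) i
      rwa [Module.Basis.equivFun_apply, Module.Basis.repr_reindex_apply] at this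
  let f : C(Bq (Tc n) Z M, Bq (Tc n) (⊤ : SubMulAction (Tc n) (Z × W)) M) :=
    Bor.mapC (MonoidHom.id _) ⟨fun x => (⟨(x.1, σ x), trivial⟩, x.2),
      ((continuous_fst.prodMk hc).subtype_mk _).prodMk continuous_snd⟩
      fun h x => Prod.ext (Subtype.ext (Prod.ext rfl (hσ h x))) rfl
  refine (H.map_hcls f hvb.epsilon_spec.1).symm.trans ?_
  rw [(hvb.thom_unique hvb.epsilon_spec h2).hcls_eq h1,
    Fl.hcls_ofFn_prod fun i => th_cocycle (M := M) (hs (e i))]
  simp only [hcls_th]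
  rw [← e.prod_comp, ← List.prod_ofFn, map_list_prod (evT n Z M), map_list_prod, List.map_ofFn,
    List.map_ofFn]
  congr 2
  funext i
  exact (map_evT f id _ (fun _ => rfl) (fun _ _ _ => rfl) _).trans (by rw [rename_id_apply]; rfl)

end Vale.Agent.P291Z.TS
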